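import Vale.Agent.P370.MathlibUsed

set_option linter.all false

section

/-!
Functions `(P + ‖x‖ Q) exp (-κ ‖x‖)` on `ℝ³` with polynomials `P`, `Q`, and the operator
`‖x‖ (-Δ/2 + κ²/2)` on them.
-/

namespace Vale.Agent.P370.Hyd

open MeasureTheory Filter Topology MvPolynomial

abbrev R3 : Type := EuclideanSpace ℝ (Fin 3)

/-- polynomials in three variables -/
abbrev Pl : Type := MvPolynomial (Fin 3) ℝ

/-- evaluation -/
noncomputable def ev (P : Pl) (x : R3) : ℝ := MvPolynomial.eval (fun i => x i) P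

/-- the coordinate vector -/
noncomputable def ei (i : Fin 3) : R3 := EuclideanSpace.single i 1

theorem ei_apply (i j : Fin 3) : ei i j = if j = i then 1 else 0 := by
  simp only [ei, PiLp.single_apply]

theorem ev_add (P Q : Pl) (x : R3) : ev (P + Q) x = ev P x + ev Q x := by simp only [ev, map_add]

theorem ev_mul (P Q : Pl) (x : R3) : ev (P * Q) x = ev P x * ev Q x := by simp [ev]

theorem ev_C (a : ℝ) (x : R3) : ev (C a) x = a := by simp only [ev, eval_C]

theorem ev_X (i : Fin 3) (x : R3) : ev (X i) x = x i := by simp [ev]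

theorem continuous_ev (P : Pl) : Continuous (ev P) := by
  unfold ev
  exact (MvPolynomial.continuous_eval P).comp (by fun_prop)

theorem hasDerivAt_ev (P : Pl) (i : Fin 3) (x : R3) :
    HasDerivAt (fun t : ℝ => ev P (x + t • ei i)) (ev (pderiv i P) x) 0 := by
  induction P using MvPolynomial.induction_on with
  | C a =>
    simp only [ev_C, pderiv_C]
    simpa [ev] using hasDerivAt_const (0 : ℝ) a
  | add P Q hP hQ =>
    simp only [ev_add, map_add]
    exact hP.add hQ
  | mul_X P j hP =>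
    have h2 : ∀ t : ℝ, ev (P * X j) (x + t • ei i)
        = ev P (x + t • ei i) * (x j + t * (if j = i then 1 else 0)) := by
      intro t
      rw [ev_mul, ev_X, PiLp.add_apply, PiLp.smul_apply, ei_apply, smul_eq_mul]
    have h1 : HasDerivAt (fun t : ℝ => x j + t * (if j = i then (1 : ℝ) else 0))
        (if j = i then (1 : ℝ) else 0) 0 := by
      have h3 := ((hasDerivAt_id (0 : ℝ)).mul_const (if j = i then (1 : ℝ) else 0)).const_add (x j)
      exact h3.congr_deriv (one_mul _)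
    have h4 := hP.mul h1
    have h5 : HasDerivAt (fun t : ℝ => ev (P * X j) (x + t • ei i))
        (ev (pderiv i P) x * (x j + 0 * (if j = i then (1 : ℝ) else 0))
          + ev P (x + (0 : ℝ) • ei i) * (if j = i then (1 : ℝ) else 0)) 0 :=
      h4.congr_of_eventuallyEq (Eventually.of_forall h2)
    refine h5.congr_deriv ?_
    rw [zero_smul, add_zero, zero_mul, add_zero, Derivation.leibniz, pderiv_X, Pi.single_apply,
      ev_add, smul_eq_mul, smul_eq_mul, ev_mul, ev_mul, ev_X]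
    by_cases h : j = i
    · subst h
      simp only [ev, ↓reduceIte, mul_one, map_one]
      ring
    · rw [if_neg h, if_neg h]
      simp only [ev, mul_zero, add_zero, map_zero, zero_add]
      ring

theorem norm_add_smul_sq (i : Fin 3) (x : R3) (t : ℝ) :
    ‖x + t • ei i‖ ^ 2 = ‖x‖ ^ 2 + 2 * t * x i + t ^ 2 := by
  have h := norm_add_sq_real x (t • ei i)
  rw [h, real_inner_smul_right, norm_smul]
  have h1 : inner ℝ x (ei i) = x i := by
    simp only [ei, PiLp.inner_apply, PiLp.single_apply, RCLike.inner_apply, Real.ringHom_apply, ite_mul, one_mul, zero_mul, Finset.sum_ite_eq', Finset.mem_univ, ↓reduceIte]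
  have h2 : ‖ei i‖ = 1 := by simp [ei]
  rw [h1, h2, mul_one, Real.norm_eq_abs, sq_abs]
  ring

theorem hasDerivAt_norm (i : Fin 3) (x : R3) (hx : x ≠ 0) :
    HasDerivAt (fun t : ℝ => ‖x + t • ei i‖) (x i / ‖x‖) 0 := by
  have hx0 : 0 < ‖x‖ := norm_pos_iff.2 hx
  have e : (fun t : ℝ => ‖x + t • ei i‖)
      = fun t : ℝ => Real.sqrt (‖x‖ ^ 2 + 2 * t * x i + t ^ 2) := by
    funext t
    rw [← norm_add_smul_sq, Real.sqrt_sq (norm_nonneg _)]
  rw [e]
  have h1 : HasDerivAt (fun t : ℝ => ‖x‖ ^ 2 + 2 * t * x i + t ^ 2) (2 * x i) 0 := by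
    have h2 := (((hasDerivAt_id (0 : ℝ)).const_mul 2).mul_const (x i)).const_add (‖x‖ ^ 2)
    have h3 := (hasDerivAt_pow 2 (0 : ℝ))
    exact (h2.add h3).congr_deriv (by simp only [mul_one, Nat.cast_ofNat, Nat.add_one_sub_one, pow_one, mul_zero, add_zero])
  have h5 := h1.sqrt (by simp; exact hx)
  refine h5.congr_deriv ?_
  have e2 : Real.sqrt (‖x‖ ^ 2 + 2 * 0 * x i + 0 ^ 2) = ‖x‖ := by
    rw [mul_zero, zero_mul, add_zero, zero_pow two_ne_zero, add_zero, Real.sqrt_sq hx0.le]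
  rw [e2]
  (clear * - hx; field_simp)

/-- the function `(P + ‖x‖ Q) exp (-κ ‖x‖)` -/
noncomputable def xp (κ : ℝ) (P Q : Pl) (x : R3) : ℝ :=
  (ev P x + ‖x‖ * ev Q x) * Real.exp (-κ * ‖x‖)

/-- its partial derivatives (away from the origin) -/
noncomputable def xpd (κ : ℝ) (P Q : Pl) (i : Fin 3) (x : R3) : ℝ :=
  (ev (pderiv i P) x + (x i / ‖x‖) * ev Q x + ‖x‖ * ev (pderiv i Q) x
    - κ * (x i / ‖x‖) * (ev P x + ‖x‖ * ev Q x)) * Real.exp (-κ * ‖x‖)

/-- its second partial derivatives (away from the origin) -/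
noncomputable def xpdd (κ : ℝ) (P Q : Pl) (i : Fin 3) (x : R3) : ℝ :=
  (ev (pderiv i (pderiv i P)) x + ((1 - (x i / ‖x‖) ^ 2) / ‖x‖) * ev Q x
    + 2 * (x i / ‖x‖) * ev (pderiv i Q) x + ‖x‖ * ev (pderiv i (pderiv i Q)) x
    - κ * ((1 - (x i / ‖x‖) ^ 2) / ‖x‖) * (ev P x + ‖x‖ * ev Q x)
    - 2 * κ * (x i / ‖x‖) * (ev (pderiv i P) x + (x i / ‖x‖) * ev Q x + ‖x‖ * ev (pderiv i Q) x)
    + κ ^ 2 * (x i / ‖x‖) ^ 2 * (ev P x + ‖x‖ * ev Q x)) * Real.exp (-κ * ‖x‖)

theorem hasDerivAt_xp (κ : ℝ) (P Q : Pl) (i : Fin 3) (x : R3) (hx : x ≠ 0) :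
    HasDerivAt (fun t : ℝ => xp κ P Q (x + t • ei i)) (xpd κ P Q i x) 0 := by
  have hr := hasDerivAt_norm i x hx
  have hP := hasDerivAt_ev P i x
  have hQ := hasDerivAt_ev Q i x
  have hE := (hr.const_mul (-κ)).exp
  have h := (hP.add (hr.mul hQ)).mul hE
  refine h.congr_deriv ?_
  simp only [Pi.add_apply, Pi.mul_apply, zero_smul, add_zero]
  have hx0 : ‖x‖ ≠ 0 := norm_ne_zero_iff.2 hx
  unfold xpd
  ring

theorem hasDerivAt_xpd (κ : ℝ) (P Q : Pl) (i : Fin 3) (x : R3) (hx : x ≠ 0) :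
    HasDerivAt (fun t : ℝ => xpd κ P Q i (x + t • ei i)) (xpdd κ P Q i x) 0 := by
  have hx0 : ‖x‖ ≠ 0 := norm_ne_zero_iff.2 hx
  have hr := hasDerivAt_norm i x hx
  have hP := hasDerivAt_ev P i x
  have hQ := hasDerivAt_ev Q i x
  have hP' := hasDerivAt_ev (pderiv i P) i x
  have hQ' := hasDerivAt_ev (pderiv i Q) i x
  have hE := (hr.const_mul (-κ)).exp
  have hc : HasDerivAt (fun t : ℝ => (x + t • ei i) i) 1 0 := by
    have h1 := hasDerivAt_ev (X i) i x
    simp only [ev_X, pderiv_X_self] at h1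
    simpa only [PiLp.add_apply, PiLp.smul_apply, smul_eq_mul, hasDerivAt_const_add_iff, ev, map_one] using h1
  have hs : HasDerivAt (fun t : ℝ => (x + t • ei i) i / ‖x + t • ei i‖)
      ((1 - (x i / ‖x‖) ^ 2) / ‖x‖) 0 := by
    have h1 := hc.div hr (by simpa using hx)
    simp only [zero_smul, add_zero] at h1
    refine h1.congr_deriv ?_
    field_simp
  have h := (((hP'.add (hs.mul hQ)).add (hr.mul hQ')).sub
    ((hs.const_mul κ).mul (hP.add (hr.mul hQ)))).mul hE
  refine h.congr_deriv ?_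
  simp only [Pi.add_apply, Pi.mul_apply, Pi.sub_apply, zero_smul, add_zero]
  unfold xpdd
  ring

/-- Laplacian of a polynomial -/
noncomputable def lapP (P : Pl) : Pl := ∑ i, pderiv i (pderiv i P)

/-- Euler operator -/
noncomputable def eul (P : Pl) : Pl := ∑ i, X i * pderiv i P

/-- `|x|²` -/
noncomputable def nsq : Pl := ∑ i : Fin 3, X i ^ 2

theorem ev_nsq (x : R3) : ev nsq x = ‖x‖ ^ 2 := by
  unfold nsq ev
  rw [EuclideanSpace.norm_sq_eq, map_sum]
  simp

/-- the polynomial part of `‖x‖ (-Δ/2 + κ²/2)` -/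
noncomputable def TP (κ : ℝ) (P Q : Pl) : Pl :=
  C κ * (eul P + P) - (eul Q + Q) - C (1 / 2) * (nsq * lapP Q)

/-- the `‖x‖`-part of `‖x‖ (-Δ/2 + κ²/2)` -/
noncomputable def TQ (κ : ℝ) (P Q : Pl) : Pl :=
  C κ * (eul Q + C 2 * Q) - C (1 / 2) * lapP P

theorem lap_xp (κ : ℝ) (P Q : Pl) (x : R3) (hx : x ≠ 0) :
    ‖x‖ * (-(1 / 2) * ∑ i, xpdd κ P Q i x + κ ^ 2 / 2 * xp κ P Q x)
      = xp κ (TP κ P Q) (TQ κ P Q) x := by
  have hr : ‖x‖ ≠ 0 := norm_ne_zero_iff.2 hx
  have hsum : x 0 ^ 2 + x 1 ^ 2 + x 2 ^ 2 = ‖x‖ ^ 2 := by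
    rw [EuclideanSpace.norm_sq_eq, Fin.sum_univ_three]
    simp
  have h3 : (x 0 / ‖x‖) ^ 2 + (x 1 / ‖x‖) ^ 2 + (x 2 / ‖x‖) ^ 2 = 1 := by
    rw [div_pow, div_pow, div_pow, ← add_div, ← add_div, hsum]
    exact div_self (pow_ne_zero 2 hr)
  obtain ⟨a, ha⟩ : ∃ a, a = x 0 / ‖x‖ := ⟨_, rfl⟩
  obtain ⟨b, hb⟩ : ∃ b, b = x 1 / ‖x‖ := ⟨_, rfl⟩
  obtain ⟨c, hc⟩ : ∃ c, c = x 2 / ‖x‖ := ⟨_, rfl⟩
  have hx0 : x 0 = a * ‖x‖ := by rw [ha]; field_simp
  have hx1 : x 1 = b * ‖x‖ := by rw [hb]; (clear * - hr; field_simp)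
  have hx2 : x 2 = c * ‖x‖ := by rw [hc]; field_simp
  have e1 : ev (TP κ P Q) x = κ * (x 0 * ev (pderiv 0 P) x + x 1 * ev (pderiv 1 P) x
      + x 2 * ev (pderiv 2 P) x + ev P x) - (x 0 * ev (pderiv 0 Q) x + x 1 * ev (pderiv 1 Q) x
      + x 2 * ev (pderiv 2 Q) x + ev Q x) - (1 / 2) * (‖x‖ ^ 2 * (ev (pderiv 0 (pderiv 0 Q)) x
      + ev (pderiv 1 (pderiv 1 Q)) x + ev (pderiv 2 (pderiv 2 Q)) x)) := by
    have := ev_nsq x
    unfold TP eul lapP
    simp only [Fin.sum_univ_three]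
    unfold ev at this ⊢
    simp only [map_sub, map_add, map_mul, MvPolynomial.eval_C, MvPolynomial.eval_X, this]
  have e2 : ev (TQ κ P Q) x = κ * (x 0 * ev (pderiv 0 Q) x + x 1 * ev (pderiv 1 Q) x
      + x 2 * ev (pderiv 2 Q) x + 2 * ev Q x) - (1 / 2) * (ev (pderiv 0 (pderiv 0 P)) x
      + ev (pderiv 1 (pderiv 1 P)) x + ev (pderiv 2 (pderiv 2 P)) x) := by
    unfold TQ eul lapP
    simp only [Fin.sum_univ_three]
    unfold ev
    simp only [map_sub, map_mul, eval_C, map_add, eval_X]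
  unfold xp
  rw [e1, e2]
  simp only [Fin.sum_univ_three]
  unfold xpdd
  rw [← ha, ← hb, ← hc, hx0, hx1, hx2]
  have habc : a ^ 2 + b ^ 2 + c ^ 2 = 1 := by
    rw [ha, hb, hc]
    exact h3
  have hc2 : c ^ 2 = 1 - a ^ 2 - b ^ 2 := by linarith only [habc]
  generalize ‖x‖ = r at hr ⊢
  field_simp
  ring_nf
  simp only [hc2]
  ring

end Vale.Agent.P370.Hyd
end

section

/-!
Degree filtration and the operator `‖x‖ (-Δ/2 + κ²/2)` on pairs of polynomials.
-/

namespace Vale.Agent.P370.Hyd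

open MvPolynomial

/-- polynomials of degree `< N` -/
noncomputable def lt (N : ℕ) : Submodule ℝ Pl where
  carrier := {P | ∀ d : Fin 3 →₀ ℕ, N ≤ d.degree → coeff d P = 0}
  add_mem' hP hQ d hd := by rw [coeff_add, hP d hd, hQ d hd, add_zero]
  zero_mem' d _ := coeff_zero d
  smul_mem' c P hP d hd := by rw [coeff_smul, hP d hd, smul_zero]

theorem mem_lt {N : ℕ} {P : Pl} :
    P ∈ lt N ↔ ∀ d : Fin 3 →₀ ℕ, N ≤ d.degree → coeff d P = 0 := Iff.rfl

theorem lt_mono {N M : ℕ} (h : N ≤ M) : lt N ≤ lt M := fun _ hP d hd => hP d (h.trans hd)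

theorem monomial_mem_lt {N : ℕ} {d : Fin 3 →₀ ℕ} (h : d.degree < N) (c : ℝ) :
    (monomial d c : Pl) ∈ lt N := by
  intro e he
  rw [coeff_monomial, if_neg]
  rintro rfl
  omega

theorem isHomogeneous_mem_lt {N k : ℕ} {P : Pl} (hP : P.IsHomogeneous k) (h : k < N) :
    P ∈ lt N := by
  intro d hd
  exact hP.coeff_eq_zero (by omega)

/-- linear conditions on `lt N` may be checked on monomials -/
theorem lt_induction {N : ℕ} {S : Submodule ℝ Pl} (f : Pl →ₗ[ℝ] Pl)
    (h : ∀ (d : Fin 3 →₀ ℕ) (c : ℝ), d.degree < N → f (monomial d c) ∈ S) {P : Pl}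
    (hP : P ∈ lt N) : f P ∈ S := by
  rw [P.as_sum, map_sum]
  refine Submodule.sum_mem _ fun d hd => h d _ ?_
  by_contra hcon
  exact (mem_support_iff.1 hd) (hP d (by omega))

theorem degree_sub_single {d : Fin 3 →₀ ℕ} {i : Fin 3} (h : d i ≠ 0) :
    (d - Finsupp.single i 1).degree + 1 = d.degree := by
  have h1 : Finsupp.single i 1 ≤ d := by
    rw [Finsupp.single_le_iff]
    omega
  conv_rhs => rw [← tsub_add_cancel_of_le h1]
  rw [map_add, Finsupp.degree_single]

theorem pderiv_mem_lt {N : ℕ} (i : Fin 3) {P : Pl} (hP : P ∈ lt (N + 1)) :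
    pderiv i P ∈ lt N := by
  refine lt_induction ((pderiv i : Derivation ℝ Pl Pl) : Pl →ₗ[ℝ] Pl) (fun d c hd => ?_) hP
  show pderiv i (monomial d c) ∈ lt N
  rw [pderiv_monomial]
  by_cases h : d i = 0
  · rw [h, Nat.cast_zero, mul_zero, monomial_zero]
    exact Submodule.zero_mem _
  · refine monomial_mem_lt ?_ _
    have := degree_sub_single h
    omega

theorem lt_zero {P : Pl} (hP : P ∈ lt 0) : P = 0 := by
  ext d
  rw [hP d (Nat.zero_le _), coeff_zero]

theorem pderiv_lt_zero (i : Fin 3) {P : Pl} (hP : P ∈ lt 1) : pderiv i P = 0 :=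
  lt_zero (pderiv_mem_lt i hP)

theorem X_mul_mem_lt {N : ℕ} (i : Fin 3) {P : Pl} (hP : P ∈ lt N) : X i * P ∈ lt (N + 1) := by
  refine lt_induction (LinearMap.mulLeft ℝ (X i : Pl)) (fun d c hd => ?_) hP
  show X i * monomial d c ∈ lt (N + 1)
  rw [X, monomial_mul]
  refine monomial_mem_lt ?_ _
  rw [map_add, Finsupp.degree_single]
  omega

theorem C_mul_mem_lt {N : ℕ} (a : ℝ) {P : Pl} (hP : P ∈ lt N) : C a * P ∈ lt N := by
  rw [← smul_eq_C_mul]
  exact Submodule.smul_mem _ _ hP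

theorem nsq_mul_mem_lt {N : ℕ} {P : Pl} (hP : P ∈ lt N) : nsq * P ∈ lt (N + 2) := by
  unfold nsq
  rw [Finset.sum_mul]
  refine Submodule.sum_mem _ fun i _ => ?_
  rw [pow_two, mul_assoc]
  exact X_mul_mem_lt i (X_mul_mem_lt i hP)

theorem lapP_mem_lt {N : ℕ} {P : Pl} (hP : P ∈ lt (N + 2)) : lapP P ∈ lt N :=
  Submodule.sum_mem _ fun i _ => pderiv_mem_lt i (pderiv_mem_lt i hP)

theorem lapP_lt_one {P : Pl} (hP : P ∈ lt 1) : lapP P = 0 := by
  unfold lapP
  refine Finset.sum_eq_zero fun i _ => ?_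
  rw [pderiv_lt_zero i hP, map_zero]

theorem eul_monomial (d : Fin 3 →₀ ℕ) (c : ℝ) :
    eul (monomial d c) = (d.degree : ℝ) • (monomial d c : Pl) := by
  have h := (isHomogeneous_monomial (σ := Fin 3) c (n := d.degree) rfl).sum_X_mul_pderiv
  unfold eul
  rw [h, Nat.cast_smul_eq_nsmul]

/-- linear version of the Euler operator -/
noncomputable def eulL : Pl →ₗ[ℝ] Pl :=
  ∑ i, (LinearMap.mulLeft ℝ (X i : Pl)).comp ((pderiv i : Derivation ℝ Pl Pl) : Pl →ₗ[ℝ] Pl)

theorem eulL_apply (P : Pl) : eulL P = eul P := by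
  unfold eulL eul
  rw [LinearMap.sum_apply]
  rfl

/-- linear version of the Laplacian -/
noncomputable def lapL : Pl →ₗ[ℝ] Pl :=
  ∑ i, ((pderiv i : Derivation ℝ Pl Pl) : Pl →ₗ[ℝ] Pl).comp
    ((pderiv i : Derivation ℝ Pl Pl) : Pl →ₗ[ℝ] Pl)

theorem lapL_apply (P : Pl) : lapL P = lapP P := by
  unfold lapL lapP
  rw [LinearMap.sum_apply]
  rfl

theorem eul_sub_mem_lt {N : ℕ} {P : Pl} (hP : P ∈ lt (N + 1)) :
    eul P - (N : ℝ) • P ∈ lt N := by
  have h := lt_induction (S := lt N) (eulL - (N : ℝ) • LinearMap.id) (fun d c hd => ?_) hP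
  · rwa [LinearMap.sub_apply, eulL_apply] at h
  · rw [LinearMap.sub_apply, eulL_apply, eul_monomial, LinearMap.smul_apply, LinearMap.id_apply,
      ← sub_smul]
    rcases Nat.lt_succ_iff_lt_or_eq.1 hd with h | h
    · exact Submodule.smul_mem _ _ (monomial_mem_lt h c)
    · rw [h, sub_self, zero_smul]
      exact Submodule.zero_mem _

/-- the operator on pairs -/
noncomputable def TL (κ : ℝ) : Pl × Pl →ₗ[ℝ] Pl × Pl :=
  LinearMap.prod
    (κ • (eulL + LinearMap.id).comp (LinearMap.fst ℝ Pl Pl)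
      - (eulL + LinearMap.id).comp (LinearMap.snd ℝ Pl Pl)
      - (1 / 2 : ℝ) • ((LinearMap.mulLeft ℝ nsq).comp lapL).comp (LinearMap.snd ℝ Pl Pl))
    (κ • (eulL + (2 : ℝ) • LinearMap.id).comp (LinearMap.snd ℝ Pl Pl)
      - (1 / 2 : ℝ) • lapL.comp (LinearMap.fst ℝ Pl Pl))

theorem TL_apply (κ : ℝ) (z : Pl × Pl) : TL κ z = (TP κ z.1 z.2, TQ κ z.1 z.2) := by
  refine Prod.ext ?_ ?_
  · show κ • (eulL z.1 + z.1) - (eulL z.2 + z.2) - (1 / 2 : ℝ) • (nsq * lapL z.2) = _
    rw [eulL_apply, eulL_apply, lapL_apply, smul_eq_C_mul, smul_eq_C_mul]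
    rfl
  · show κ • (eulL z.2 + (2 : ℝ) • z.2) - (1 / 2 : ℝ) • lapL z.1 = _
    rw [eulL_apply, lapL_apply, smul_eq_C_mul, smul_eq_C_mul, smul_eq_C_mul]
    rfl

/-- the filtration -/
noncomputable def E (N : ℕ) : Submodule ℝ (Pl × Pl) := (lt N).prod (lt (N - 1))

theorem E_mono {N M : ℕ} (h : N ≤ M) : E N ≤ E M := by
  intro z hz
  exact ⟨lt_mono h hz.1, lt_mono (by omega) hz.2⟩

theorem TL_sub_mem (κ : ℝ) {N : ℕ} {z : Pl × Pl} (hz : z ∈ E (N + 1)) :
    TL κ z - (κ * (N + 1)) • z ∈ E N := by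
  obtain ⟨h1, h2⟩ := hz
  rw [Nat.add_sub_cancel] at h2
  rw [TL_apply]
  refine ⟨?_, ?_⟩
  · show TP κ z.1 z.2 - (κ * (N + 1)) • z.1 ∈ lt N
    have e : TP κ z.1 z.2 - (κ * (N + 1)) • z.1
        = C κ * (eul z.1 - (N : ℝ) • z.1) - (eul z.2 + z.2) - C (1 / 2) * (nsq * lapP z.2) := by
      unfold TP
      rw [smul_eq_C_mul, smul_eq_C_mul, C_mul, C_add, C_1]
      ring
    rw [e]
    refine Submodule.sub_mem _ (Submodule.sub_mem _ (C_mul_mem_lt _ (eul_sub_mem_lt h1)) ?_) ?_
    · refine Submodule.add_mem _ ?_ h2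
      rcases Nat.eq_zero_or_pos N with hN | hN
      · subst hN
        rw [lt_zero h2]
        unfold eul
        simp
      · obtain ⟨M, rfl⟩ : ∃ M, N = M + 1 := ⟨N - 1, by omega⟩
        have := eul_sub_mem_lt h2
        have h3 := Submodule.add_mem _ (lt_mono (Nat.le_succ M) this)
          (Submodule.smul_mem _ (M : ℝ) h2)
        rwa [sub_add_cancel] at h3
    · refine C_mul_mem_lt _ ?_
      rcases Nat.lt_or_ge N 2 with hN | hN
      · rw [lapP_lt_one (lt_mono (by omega) h2), mul_zero]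
        exact Submodule.zero_mem _
      · obtain ⟨M, rfl⟩ : ∃ M, N = M + 2 := ⟨N - 2, by (clear * - hN; omega)⟩
        exact nsq_mul_mem_lt (lapP_mem_lt h2)
  · show TQ κ z.1 z.2 - (κ * (N + 1)) • z.2 ∈ lt (N - 1)
    rcases Nat.eq_zero_or_pos N with hN | hN
    · subst hN
      rw [lt_zero h2]
      have : lapP z.1 = 0 := lapP_lt_one h1
      unfold TQ eul
      rw [this]
      simp
    · obtain ⟨M, rfl⟩ : ∃ M, N = M + 1 := ⟨N - 1, by omega⟩
      have e : TQ κ z.1 z.2 - (κ * ((M + 1 : ℕ) + 1)) • z.2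
          = C κ * (eul z.2 - (M : ℝ) • z.2) - C (1 / 2) * lapP z.1 := by
        unfold TQ
        rw [smul_eq_C_mul, smul_eq_C_mul, C_mul, C_add, C_1]
        push_cast
        rw [C_add, C_1]
        have h2 : (C 2 : Pl) = 1 + 1 := by
          rw [← C_1, ← C_add]
          norm_num
        rw [h2]
        ring
      rw [e, Nat.add_sub_cancel]
      exact Submodule.sub_mem _ (C_mul_mem_lt _ (eul_sub_mem_lt h2))
        (C_mul_mem_lt _ (lapP_mem_lt h1))

theorem TL_mem (κ : ℝ) {N : ℕ} {z : Pl × Pl} (hz : z ∈ E N) : TL κ z ∈ E N := by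
  rcases Nat.eq_zero_or_pos N with hN | hN
  · subst hN
    have h1 : z = 0 := Prod.ext (lt_zero hz.1) (lt_zero hz.2)
    rw [h1, map_zero]
    exact Submodule.zero_mem _
  · obtain ⟨M, rfl⟩ : ∃ M, N = M + 1 := ⟨N - 1, by omega⟩
    have h1 := TL_sub_mem κ hz
    have h2 := Submodule.add_mem _ (E_mono (Nat.le_succ M) h1)
      (Submodule.smul_mem _ (κ * (M + 1)) hz)
    rwa [sub_add_cancel] at h2

end Vale.Agent.P370.Hyd
end

section

/-!
Green's identity on `ℝ³` for functions with a cusp at the origin.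
-/

namespace Vale.Agent.P370.Hyd

open MeasureTheory Filter Topology MvPolynomial

/-- exponential decay -/
def Dec (f : R3 → ℝ) : Prop := ∃ C c : ℝ, 0 < c ∧ ∀ x, |f x| ≤ C * Real.exp (-c * ‖x‖)

theorem Dec.nonneg {f : R3 → ℝ} (hf : Dec f) :
    ∃ C c : ℝ, 0 ≤ C ∧ 0 < c ∧ ∀ x, |f x| ≤ C * Real.exp (-c * ‖x‖) := by
  obtain ⟨C, c, hc, h⟩ := hf
  refine ⟨|C|, c, abs_nonneg _, hc, fun x => (h x).trans ?_⟩
  exact mul_le_mul_of_nonneg_right (le_abs_self C) (Real.exp_pos _).le

theorem Dec.add {f g : R3 → ℝ} (hf : Dec f) (hg : Dec g) : Dec fun x => f x + g x := by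
  obtain ⟨C, c, hC, hc, h⟩ := hf.nonneg
  obtain ⟨D, d, hD, hd, k⟩ := hg.nonneg
  refine ⟨C + D, min c d, lt_min hc hd, fun x => ?_⟩
  have h1 : Real.exp (-c * ‖x‖) ≤ Real.exp (-(min c d) * ‖x‖) := by
    apply Real.exp_le_exp.2
    have := min_le_left c d
    linarith only [mul_nonneg_of_nonpos_of_nonpos (Mathlib.Tactic.Linarith.sub_nonpos_of_le this) (Mathlib.Tactic.Linarith.sub_nonpos_of_le (norm_nonneg x))]
  have h2 : Real.exp (-d * ‖x‖) ≤ Real.exp (-(min c d) * ‖x‖) := by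
    apply Real.exp_le_exp.2
    have := min_le_right c d
    nlinarith only [this, norm_nonneg x]
  calc |f x + g x| ≤ |f x| + |g x| := abs_add_le _ _
    _ ≤ C * Real.exp (-(min c d) * ‖x‖) + D * Real.exp (-(min c d) * ‖x‖) :=
      add_le_add ((h x).trans (mul_le_mul_of_nonneg_left h1 hC))
        ((k x).trans (mul_le_mul_of_nonneg_left h2 hD))
    _ = _ := by ring

theorem Dec.bdd_mul {f g : R3 → ℝ} (hf : Dec f) {B : ℝ} (hg : ∀ x, |g x| ≤ B) :
    Dec fun x => g x * f x := by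
  obtain ⟨C, c, hC, hc, h⟩ := hf.nonneg
  refine ⟨B * C, c, hc, fun x => ?_⟩
  rw [abs_mul, mul_assoc]
  exact mul_le_mul (hg x) (h x) (abs_nonneg _) ((abs_nonneg _).trans (hg x))

theorem Dec.const_mul {f : R3 → ℝ} (hf : Dec f) (a : ℝ) : Dec fun x => a * f x :=
  hf.bdd_mul (g := fun _ => a) (B := |a|) fun _ => le_rfl

theorem Dec.bound {f : R3 → ℝ} (hf : Dec f) : ∃ B, ∀ x, |f x| ≤ B := by
  obtain ⟨C, c, hC, hc, h⟩ := hf.nonneg
  refine ⟨C, fun x => (h x).trans ?_⟩
  refine mul_le_of_le_one_right hC (Real.exp_le_one_iff.2 ?_)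
  linarith only [mul_nonneg_of_nonpos_of_nonpos (le_of_lt (Mathlib.Tactic.Linarith.sub_neg_of_lt hc)) (Mathlib.Tactic.Linarith.sub_nonpos_of_le (norm_nonneg x))]

theorem Dec.mul {f g : R3 → ℝ} (hf : Dec f) (hg : Dec g) : Dec fun x => f x * g x := by
  obtain ⟨B, hB⟩ := hf.bound
  exact hg.bdd_mul hB

theorem Dec.neg {f : R3 → ℝ} (hf : Dec f) : Dec fun x => -f x := by
  obtain ⟨C, c, hc, h⟩ := hf
  exact ⟨C, c, hc, fun x => by rw [abs_neg]; exact h x⟩

theorem integrable_exp {c : ℝ} (hc : 0 < c) :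
    Integrable (fun x : R3 => Real.exp (-c * ‖x‖)) := by
  have h := (integrable_fun_norm_addHaar (μ := (volume : Measure R3)) (F := ℝ)
    (f := fun r => Real.exp (-c * r))).2 ?_
  · exact h
  · have h1 := integrableOn_rpow_mul_exp_neg_mul_rpow (s := 2) (p := 1) (b := c) (by norm_num)
      one_pos hc
    refine h1.congr_fun (fun r hr => ?_) measurableSet_Ioi
    simp only [Real.rpow_ofNat, Real.rpow_one, neg_mul, finrank_euclideanSpace, Fintype.card_fin, Nat.add_one_sub_one, smul_eq_mul]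

theorem integrable_exp_div {c : ℝ} (hc : 0 < c) :
    Integrable (fun x : R3 => Real.exp (-c * ‖x‖) / ‖x‖) := by
  have h := (integrable_fun_norm_addHaar (μ := (volume : Measure R3)) (F := ℝ)
    (f := fun r => Real.exp (-c * r) / r)).2 ?_
  · exact h
  · have h1 := integrableOn_rpow_mul_exp_neg_mul_rpow (s := 1) (p := 1) (b := c) (by norm_num)
      one_pos hc
    refine h1.congr_fun (fun r hr => ?_) measurableSet_Ioi
    have hr0 : r ≠ 0 := ne_of_gt hr
    simp only [Real.rpow_one, neg_mul, finrank_euclideanSpace, Fintype.card_fin, Nat.add_one_sub_one, smul_eq_mul]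
    field_simp

theorem Dec.integrable {f : R3 → ℝ} (hf : Dec f) (hm : AEStronglyMeasurable f volume) :
    Integrable f := by
  obtain ⟨C, c, hc, h⟩ := hf
  exact ((integrable_exp hc).const_mul C).mono' hm (Eventually.of_forall h)

theorem Dec.integrable_div {f : R3 → ℝ} (hf : Dec f) (hm : AEStronglyMeasurable f volume) :
    Integrable (fun x => f x / ‖x‖) := by
  obtain ⟨C, c, hc, h⟩ := hf
  refine ((integrable_exp_div hc).const_mul C).mono' ?_ (Eventually.of_forall fun x => ?_)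
  · simp only [div_eq_mul_inv]
    exact hm.mul (measurable_norm.inv.aestronglyMeasurable)
  · rw [norm_div, norm_norm, Real.norm_eq_abs, ← mul_div_assoc]
    exact div_le_div_of_nonneg_right (h x) (norm_nonneg _)

/-- one dimensional integration by parts along a coordinate direction -/
theorem integral_dir_deriv (i : Fin 3) (G G' : R3 → ℝ) (hG : Integrable G) (hG' : Integrable G')
    (hd : ∀ x, x ≠ 0 → HasDerivAt (fun t : ℝ => G (x + t • ei i)) (G' x) 0)
    (hc : ContinuousOn G' {0}ᶜ) : ∫ x, G' x = 0 := by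
  have hmeas : Measurable G' := measurable_of_continuousOn_compl_singleton 0 hc
  -- the line through the origin is null
  have hnull : ∀ᵐ x : R3, ∀ s : ℝ, x + s • ei i ≠ 0 := by
    have h1 : volume ((Submodule.span ℝ {ei i} : Submodule ℝ R3) : Set R3) = 0 := by
      apply Measure.addHaar_submodule
      intro h
      have h2 := congrArg (fun S : Submodule ℝ R3 => Module.finrank ℝ S) h
      simp only [finrank_top, finrank_euclideanSpace, Fintype.card_fin] at h2
      have h3 := finrank_span_le_card (R := ℝ) ({ei i} : Set R3)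
      simp only [Set.toFinset_singleton, Finset.card_singleton] at h3
      omega
    rw [ae_iff]
    refine measure_mono_null (fun x hx => ?_) h1
    simp only [ne_eq, not_forall, not_not, Set.mem_ofPred_eq] at hx
    obtain ⟨s, hs⟩ := hx
    rw [SetLike.mem_coe, Submodule.mem_span_singleton]
    exact ⟨-s, by rw [neg_smul]; exact (eq_neg_of_add_eq_zero_left hs).symm⟩
  have hftc : ∀ᵐ x : R3, ∫ s in (0 : ℝ)..1, G' (x + s • ei i) = G (x + ei i) - G x := by
    filter_upwards [hnull] with x hx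
    have h1 : ∀ s ∈ Set.uIcc (0 : ℝ) 1,
        HasDerivAt (fun s : ℝ => G (x + s • ei i)) (G' (x + s • ei i)) s := by
      intro s _
      have h2 := hd (x + s • ei i) (hx s)
      have h3 := HasDerivAt.comp_sub_const (f := fun t : ℝ => G (x + s • ei i + t • ei i))
        s s (by simpa only [sub_self] using h2)
      refine h3.congr_of_eventuallyEq (Eventually.of_forall fun t => ?_)
      simp only
      congr 1
      rw [add_assoc, ← add_smul]
      congr 2
      ring
    have h4 : Continuous fun s : ℝ => G' (x + s • ei i) := by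
      refine continuous_iff_continuousAt.2 fun s => ?_
      have h5 : ContinuousAt G' (x + s • ei i) :=
        hc.continuousAt (isOpen_compl_singleton.mem_nhds (hx s))
      exact ContinuousAt.comp (f := fun s : ℝ => x + s • ei i) h5 (by fun_prop)
    have h6 := intervalIntegral.integral_eq_sub_of_hasDerivAt h1 (h4.intervalIntegrable 0 1)
    rw [h6]
    simp only [one_smul, zero_smul, add_zero]
  -- Fubini
  have hint : Integrable (fun z : R3 × ℝ => G' (z.1 + z.2 • ei i))
      (volume.prod (volume.restrict (Set.Ioc 0 1))) := by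
    rw [integrable_prod_iff']
    · refine ⟨Eventually.of_forall fun s => ?_, ?_⟩
      · exact hG'.comp_add_right (s • ei i)
      · have : ∀ s : ℝ, ∫ x : R3, ‖G' (x + s • ei i)‖ = ∫ x : R3, ‖G' x‖ := fun s =>
          integral_add_right_eq_self (fun x => ‖G' x‖) (s • ei i)
        simp only [this]
        exact integrable_const _
    · refine Measurable.aestronglyMeasurable ?_
      exact hmeas.comp (by fun_prop)
  have e1 : ∫ x : R3, ∫ s in (0 : ℝ)..1, G' (x + s • ei i) = ∫ x, G' x := by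
    simp only [intervalIntegral.integral_of_le zero_le_one]
    rw [integral_integral_swap hint]
    have : ∀ s : ℝ, ∫ x : R3, G' (x + s • ei i) = ∫ x : R3, G' x := fun s =>
      integral_add_right_eq_self G' (s • ei i)
    simp only [this]
    simp only [integral_const, MeasurableSet.univ, measureReal_restrict_apply, Set.univ_inter, Real.volume_real_Ioc, sub_zero, zero_le_one, sup_of_le_left, smul_eq_mul, one_mul]
  rw [← e1, integral_congr_ae hftc, integral_sub (hG.comp_add_right (ei i)) hG,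
    integral_add_right_eq_self G (ei i), sub_self]

/-- admissible functions with their partial derivatives away from the origin -/
structure Adm (w : R3 → ℝ) (dw : Fin 3 → R3 → ℝ) : Prop where
  cont : Continuous w
  deriv : ∀ i x, x ≠ 0 → HasDerivAt (fun t : ℝ => w (x + t • ei i)) (dw i x) 0
  dcont : ∀ i, ContinuousOn (dw i) {0}ᶜ
  dec : Dec w
  ddec : ∀ i, Dec (dw i)

theorem Adm.meas {w : R3 → ℝ} {dw : Fin 3 → R3 → ℝ} (h : Adm w dw) (i : Fin 3) :
    Measurable (dw i) := measurable_of_continuousOn_compl_singleton 0 (h.dcont i)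

theorem Adm.add {v w : R3 → ℝ} {dv dw : Fin 3 → R3 → ℝ} (hv : Adm v dv) (hw : Adm w dw) :
    Adm (fun x => v x + w x) (fun i x => dv i x + dw i x) :=
  ⟨hv.cont.add hw.cont, fun i x hx => (hv.deriv i x hx).add (hw.deriv i x hx),
    fun i => (hv.dcont i).add (hw.dcont i), hv.dec.add hw.dec, fun i => (hv.ddec i).add (hw.ddec i)⟩

theorem Adm.const_mul {v : R3 → ℝ} {dv : Fin 3 → R3 → ℝ} (hv : Adm v dv) (a : ℝ) :
    Adm (fun x => a * v x) (fun i x => a * dv i x) :=
  ⟨continuous_const.mul hv.cont, fun i x hx => (hv.deriv i x hx).const_mul a,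
    fun i => continuousOn_const.mul (hv.dcont i), hv.dec.const_mul a,
    fun i => (hv.ddec i).const_mul a⟩

theorem Adm.zero : Adm (fun _ => 0) (fun _ _ => 0) :=
  ⟨continuous_const, fun _ _ _ => hasDerivAt_const _ _, fun _ => continuousOn_const,
    ⟨0, 1, one_pos, fun _ => by simp only [abs_zero, neg_mul, one_mul, zero_mul, Std.le_refl]⟩, fun _ => ⟨0, 1, one_pos, fun _ => by simp⟩⟩

theorem Adm.sum {ι : Type*} (s : Finset ι) {v : ι → R3 → ℝ} {dv : ι → Fin 3 → R3 → ℝ}
    (h : ∀ j ∈ s, Adm (v j) (dv j)) :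
    Adm (fun x => ∑ j ∈ s, v j x) (fun i x => ∑ j ∈ s, dv j i x) := by
  classical
  induction s using Finset.induction_on with
  | empty =>
    simp only [Finset.sum_empty]
    exact Adm.zero
  | insert j s hj ih =>
    simp only [Finset.sum_insert hj]
    exact (h j (Finset.mem_insert_self j s)).add
      (ih fun k hk => h k (Finset.mem_insert_of_mem hk))

/-! ### Growth of polynomials -/

theorem le_exp_div {η : ℝ} (hη : 0 < η) {r : ℝ} (_hr : 0 ≤ r) : r ≤ η⁻¹ * Real.exp (η * r) := by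
  have h := Real.add_one_le_exp (η * r)
  rw [← div_eq_inv_mul, le_div_iff₀ hη]
  linarith

theorem ev_growth (P : Pl) : ∀ η : ℝ, 0 < η → ∃ C : ℝ, 0 ≤ C ∧
    ∀ x, |ev P x| ≤ C * Real.exp (η * ‖x‖) := by
  induction P using MvPolynomial.induction_on with
  | C a =>
    intro η hη
    refine ⟨|a|, abs_nonneg _, fun x => ?_⟩
    rw [ev_C]
    exact le_mul_of_one_le_right (abs_nonneg _) (Real.one_le_exp (by (clear * - hη; positivity)))
  | add P Q hP hQ =>
    intro η hη
    obtain ⟨C, hC, h⟩ := hP η hη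
    obtain ⟨D, hD, k⟩ := hQ η hη
    refine ⟨C + D, add_nonneg hC hD, fun x => ?_⟩
    rw [ev_add, add_mul]
    exact (abs_add_le _ _).trans (add_le_add (h x) (k x))
  | mul_X P j hP =>
    intro η hη
    obtain ⟨C, hC, h⟩ := hP (η / 2) (by (clear * - hη; positivity))
    refine ⟨C * (η / 2)⁻¹, by positivity, fun x => ?_⟩
    rw [ev_mul, ev_X, abs_mul]
    have h1 : |x j| ≤ ‖x‖ := by
      rw [← Real.norm_eq_abs]
      exact PiLp.norm_apply_le x j
    have h2 := h1.trans (le_exp_div (half_pos hη) (norm_nonneg x))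
    calc |ev P x| * |x j| ≤ (C * Real.exp (η / 2 * ‖x‖)) *
          ((η / 2)⁻¹ * Real.exp (η / 2 * ‖x‖)) :=
          mul_le_mul (h x) h2 (abs_nonneg _) (by positivity)
      _ = C * (η / 2)⁻¹ * (Real.exp (η / 2 * ‖x‖) * Real.exp (η / 2 * ‖x‖)) := by ring
      _ = _ := by
        rw [← Real.exp_add]
        congr 2
        ring

theorem dec_ev {κ : ℝ} (hκ : 0 < κ) (P : Pl) : Dec fun x => ev P x * Real.exp (-κ * ‖x‖) := by
  obtain ⟨C, hC, h⟩ := ev_growth P (κ / 2) (half_pos hκ)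
  refine ⟨C, κ / 2, half_pos hκ, fun x => ?_⟩
  rw [abs_mul, abs_of_pos (Real.exp_pos _)]
  calc |ev P x| * Real.exp (-κ * ‖x‖) ≤ (C * Real.exp (κ / 2 * ‖x‖)) * Real.exp (-κ * ‖x‖) := by
        gcongr
        exact h x
    _ = C * (Real.exp (κ / 2 * ‖x‖) * Real.exp (-κ * ‖x‖)) := by ring
    _ = _ := by
      rw [← Real.exp_add]
      congr 2
      ring

theorem dec_norm_ev {κ : ℝ} (hκ : 0 < κ) (P : Pl) :
    Dec fun x => ‖x‖ * ev P x * Real.exp (-κ * ‖x‖) := by
  obtain ⟨C, hC, h⟩ := ev_growth P (κ / 4) (by positivity)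
  refine ⟨C * (κ / 4)⁻¹, κ / 2, half_pos hκ, fun x => ?_⟩
  rw [abs_mul, abs_of_pos (Real.exp_pos _), abs_mul, abs_norm]
  calc ‖x‖ * |ev P x| * Real.exp (-κ * ‖x‖)
      ≤ ((κ / 4)⁻¹ * Real.exp (κ / 4 * ‖x‖)) * (C * Real.exp (κ / 4 * ‖x‖))
        * Real.exp (-κ * ‖x‖) := by
        gcongr
        · exact le_exp_div (by positivity) (norm_nonneg x)
        · exact h x
    _ = C * (κ / 4)⁻¹ * (Real.exp (κ / 4 * ‖x‖) * Real.exp (κ / 4 * ‖x‖)
        * Real.exp (-κ * ‖x‖)) := by ring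
    _ = _ := by
      rw [← Real.exp_add, ← Real.exp_add]
      congr 2
      ring

theorem abs_unit_le (i : Fin 3) (x : R3) : |x i / ‖x‖| ≤ 1 := by
  rw [abs_div, abs_norm]
  refine div_le_one_of_le₀ ?_ (norm_nonneg _)
  rw [← Real.norm_eq_abs]
  exact PiLp.norm_apply_le x i

theorem dec_xp {κ : ℝ} (hκ : 0 < κ) (P Q : Pl) : Dec (xp κ P Q) := by
  have h := (dec_ev hκ P).add (dec_norm_ev hκ Q)
  obtain ⟨C, c, hc, h⟩ := h
  refine ⟨C, c, hc, fun x => ?_⟩
  have := h x
  unfold xp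
  rwa [add_mul]

theorem continuous_xp (κ : ℝ) (P Q : Pl) : Continuous (xp κ P Q) := by
  unfold xp
  have h1 := continuous_ev P
  have h2 := continuous_ev Q
  (clear * - h1 h2; fun_prop)

theorem continuousOn_unit (i : Fin 3) : ContinuousOn (fun x : R3 => x i / ‖x‖) {0}ᶜ := by
  refine ContinuousOn.div (Continuous.continuousOn (by fun_prop)) continuous_norm.continuousOn
    fun x hx => ?_
  exact norm_ne_zero_iff.2 hx

theorem continuousOn_xpd (κ : ℝ) (P Q : Pl) (i : Fin 3) : ContinuousOn (xpd κ P Q i) {0}ᶜ := by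
  unfold xpd
  have h0 := continuousOn_unit i
  have h1 := (continuous_ev P).continuousOn (s := {0}ᶜ)
  have h2 := (continuous_ev Q).continuousOn (s := {0}ᶜ)
  have h3 := (continuous_ev (pderiv i P)).continuousOn (s := {0}ᶜ)
  have h4 := (continuous_ev (pderiv i Q)).continuousOn (s := {0}ᶜ)
  have h5 := (continuous_norm (E := R3)).continuousOn (s := {0}ᶜ)
  have h6 : ContinuousOn (fun x : R3 => Real.exp (-κ * ‖x‖)) {0}ᶜ :=
    Continuous.continuousOn (by fun_prop)
  exact (((h3.add (h0.mul h2)).add (h5.mul h4)).sub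
    ((continuousOn_const.mul h0).mul (h1.add (h5.mul h2)))).mul h6

theorem continuousOn_xpdd (κ : ℝ) (P Q : Pl) (i : Fin 3) : ContinuousOn (xpdd κ P Q i) {0}ᶜ := by
  unfold xpdd
  have h0 := continuousOn_unit i
  have h1 := (continuous_ev P).continuousOn (s := {0}ᶜ)
  have h2 := (continuous_ev Q).continuousOn (s := {0}ᶜ)
  have h3 := (continuous_ev (pderiv i P)).continuousOn (s := {0}ᶜ)
  have h4 := (continuous_ev (pderiv i Q)).continuousOn (s := {0}ᶜ)
  have h3' := (continuous_ev (pderiv i (pderiv i P))).continuousOn (s := {0}ᶜ)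
  have h4' := (continuous_ev (pderiv i (pderiv i Q))).continuousOn (s := {0}ᶜ)
  have h5 := (continuous_norm (E := R3)).continuousOn (s := {0}ᶜ)
  have h6 : ContinuousOn (fun x : R3 => Real.exp (-κ * ‖x‖)) {0}ᶜ :=
    Continuous.continuousOn (by fun_prop)
  have h7 : ContinuousOn (fun x : R3 => (1 - (x i / ‖x‖) ^ 2) / ‖x‖) {0}ᶜ :=
    (continuousOn_const.sub (h0.pow 2)).div h5 fun x hx => norm_ne_zero_iff.2 hx
  exact (((((h3'.add (h7.mul h2)).add ((continuousOn_const.mul h0).mul h4)).add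
    (h5.mul h4')).sub ((continuousOn_const.mul h7).mul (h1.add (h5.mul h2)))).sub
    ((continuousOn_const.mul h0).mul ((h3.add (h0.mul h2)).add (h5.mul h4)))).add
    ((continuousOn_const.mul (h0.pow 2)).mul (h1.add (h5.mul h2))) |>.mul h6

theorem dec_xpd {κ : ℝ} (hκ : 0 < κ) (P Q : Pl) (i : Fin 3) : Dec (xpd κ P Q i) := by
  have h := (((dec_ev hκ (pderiv i P)).add ((dec_ev hκ Q).bdd_mul (abs_unit_le i))).add
    (dec_norm_ev hκ (pderiv i Q))).add
    (((dec_xp hκ P Q).bdd_mul (abs_unit_le i)).const_mul (-κ))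
  obtain ⟨C, c, hc, h⟩ := h
  refine ⟨C, c, hc, fun x => ?_⟩
  have := h x
  unfold xpd
  unfold xp at this
  refine le_trans (le_of_eq ?_) this
  congr 1
  ring

theorem adm_xp {κ : ℝ} (hκ : 0 < κ) (P Q : Pl) : Adm (xp κ P Q) (xpd κ P Q) :=
  ⟨continuous_xp κ P Q, fun i x hx => hasDerivAt_xp κ P Q i x hx,
    fun i => continuousOn_xpd κ P Q i, dec_xp hκ P Q, fun i => dec_xpd hκ P Q i⟩

/-- the second derivatives are `Dec + Dec / ‖x‖` -/
theorem xpdd_split {κ : ℝ} (hκ : 0 < κ) (P Q : Pl) (i : Fin 3) :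
    ∃ A B : R3 → ℝ, Dec A ∧ Dec B ∧ ∀ x, x ≠ 0 → |xpdd κ P Q i x| ≤ |A x| + |B x / ‖x‖| := by
  refine ⟨fun x => ev (pderiv i (pderiv i P)) x * Real.exp (-κ * ‖x‖)
      + 2 * ((x i / ‖x‖) * (ev (pderiv i Q) x * Real.exp (-κ * ‖x‖)))
      + ‖x‖ * ev (pderiv i (pderiv i Q)) x * Real.exp (-κ * ‖x‖)
      + (-(2 * κ)) * ((x i / ‖x‖) * (ev (pderiv i P) x * Real.exp (-κ * ‖x‖)
        + (x i / ‖x‖) * (ev Q x * Real.exp (-κ * ‖x‖))
        + ‖x‖ * ev (pderiv i Q) x * Real.exp (-κ * ‖x‖)))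
      + κ ^ 2 * ((x i / ‖x‖) * ((x i / ‖x‖) * xp κ P Q x)),
    fun x => (1 - (x i / ‖x‖) ^ 2) * (ev Q x * Real.exp (-κ * ‖x‖) + (-κ) * xp κ P Q x),
    ?_, ?_, ?_⟩
  · exact (((((dec_ev hκ _).add (((dec_ev hκ _).bdd_mul (abs_unit_le i)).const_mul 2)).add
      (dec_norm_ev hκ _)).add
      (((((dec_ev hκ _).add ((dec_ev hκ _).bdd_mul (abs_unit_le i))).add
        (dec_norm_ev hκ _)).bdd_mul (abs_unit_le i)).const_mul (-(2 * κ)))).add
      ((((dec_xp hκ P Q).bdd_mul (abs_unit_le i)).bdd_mul (abs_unit_le i)).const_mul (κ ^ 2)))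
  · refine ((dec_ev hκ Q).add ((dec_xp hκ P Q).const_mul (-κ))).bdd_mul (B := 1) fun x => ?_
    have h1 : (x i / ‖x‖) ^ 2 ≤ 1 := by
      rw [← sq_abs]
      have := abs_unit_le i x
      linarith only [mul_nonneg_of_nonpos_of_nonpos (Mathlib.Tactic.Linarith.sub_nonpos_of_le this) (Mathlib.Tactic.Linarith.sub_nonpos_of_le (abs_nonneg (x.ofLp i / ‖x‖))), this]
    rw [abs_of_nonneg (by linarith only [h1])]
    linarith only [sq_nonneg (x i / ‖x‖)]
  · intro x hx
    refine le_trans (le_of_eq ?_) (abs_add_le _ _)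
    congr 1
    unfold xpdd xp
    have hr : ‖x‖ ≠ 0 := norm_ne_zero_iff.2 hx
    field_simp
    ring

/-- kinetic form -/
noncomputable def kin (dv dw : Fin 3 → R3 → ℝ) : ℝ := (1 / 2) * ∑ i, ∫ x, dv i x * dw i x

/-- L² inner product -/
noncomputable def ip (v w : R3 → ℝ) : ℝ := ∫ x, v x * w x

/-- weighted inner product -/
noncomputable def ipr (v w : R3 → ℝ) : ℝ := ∫ x, v x * w x / ‖x‖

/-- Green's identity -/
theorem green {κ : ℝ} (hκ : 0 < κ) (P Q : Pl) {w : R3 → ℝ} {dw : Fin 3 → R3 → ℝ} (hw : Adm w dw) :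
    kin (xpd κ P Q) dw + κ ^ 2 / 2 * ip (xp κ P Q) w
      = ipr (xp κ (TP κ P Q) (TQ κ P Q)) w := by
  have hm1 : ∀ i, Measurable (xpd κ P Q i) := fun i =>
    measurable_of_continuousOn_compl_singleton 0 (continuousOn_xpd κ P Q i)
  have hm2 : ∀ i, Measurable (xpdd κ P Q i) := fun i =>
    measurable_of_continuousOn_compl_singleton 0 (continuousOn_xpdd κ P Q i)
  have hmw : Measurable w := hw.cont.measurable
  have hne : ∀ᵐ x : R3, x ≠ 0 := by
    rw [ae_iff]
    simp
  have i1 : ∀ i, Integrable fun x => xpd κ P Q i x * dw i x := fun i =>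
    ((dec_xpd hκ P Q i).mul (hw.ddec i)).integrable ((hm1 i).mul (hw.meas i)).aestronglyMeasurable
  have i2 : ∀ i, Integrable fun x => xpdd κ P Q i x * w x := by
    intro i
    obtain ⟨A, B, hA, hB, hAB⟩ := xpdd_split hκ P Q i
    obtain ⟨C, c, hc, h⟩ := hA.mul hw.dec
    obtain ⟨D, d, hd, k⟩ := hB.mul hw.dec
    refine (((integrable_exp hc).const_mul C).add ((integrable_exp_div hd).const_mul D)).mono'
      ((hm2 i).mul hmw).aestronglyMeasurable ?_
    filter_upwards [hne] with x hx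
    rw [Real.norm_eq_abs, abs_mul]
    calc |xpdd κ P Q i x| * |w x| ≤ (|A x| + |B x / ‖x‖|) * |w x| := by
          gcongr
          exact hAB x hx
      _ = |A x * w x| + |B x * w x| / ‖x‖ := by
          rw [abs_mul, abs_mul, abs_div, abs_norm]
          ring
      _ ≤ _ := by
          refine add_le_add (h x) ?_
          show |B x * w x| / ‖x‖ ≤ D * (Real.exp (-d * ‖x‖) / ‖x‖)
          rw [← mul_div_assoc]
          exact div_le_div_of_nonneg_right (k x) (norm_nonneg _)
  have key : ∀ i, ∫ x, (xpdd κ P Q i x * w x + xpd κ P Q i x * dw i x) = 0 := by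
    intro i
    refine integral_dir_deriv i (fun x => xpd κ P Q i x * w x) _ ?_ ((i2 i).add (i1 i)) ?_ ?_
    · exact ((dec_xpd hκ P Q i).mul hw.dec).integrable ((hm1 i).mul hmw).aestronglyMeasurable
    · intro x hx
      have h := (hasDerivAt_xpd κ P Q i x hx).mul (hw.deriv i x hx)
      refine h.congr_deriv ?_
      simp only [zero_smul, add_zero]
    · exact ((continuousOn_xpdd κ P Q i).mul hw.cont.continuousOn).add
        ((continuousOn_xpd κ P Q i).mul (hw.dcont i))
  have key2 : ∀ i, ∫ x, xpd κ P Q i x * dw i x = -∫ x, xpdd κ P Q i x * w x := by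
    intro i
    have := key i
    rw [integral_add (i2 i) (i1 i)] at this
    linarith only [this]
  have i3 : Integrable fun x => xp κ P Q x * w x :=
    ((dec_xp hκ P Q).mul hw.dec).integrable
      ((continuous_xp κ P Q).mul hw.cont).aestronglyMeasurable
  unfold kin ip ipr
  simp only [key2]
  rw [Finset.sum_neg_distrib, ← integral_finsetSum _ fun i _ => i2 i]
  have e : (1 / 2 : ℝ) * -∫ x, ∑ i, xpdd κ P Q i x * w x
      = ∫ x, (-(1 / 2)) * ∑ i, xpdd κ P Q i x * w x := by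
    rw [integral_const_mul]
    ring
  rw [e, ← integral_const_mul, ← integral_add
    ((integrable_finsetSum _ fun i _ => i2 i).const_mul _) (i3.const_mul _)]
  refine integral_congr_ae ?_
  filter_upwards [hne] with x hx
  rw [← lap_xp κ P Q x hx, ← Finset.sum_mul]
  have hr : ‖x‖ ≠ 0 := norm_ne_zero_iff.2 hx
  (clear * - hr; field_simp)

end Vale.Agent.P370.Hyd
end

section

/-!
Density of polynomials times exponentials: an integrable function with an exponential moment all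
of whose polynomial moments vanish is zero.
-/

namespace Vale.Agent.P370

open MeasureTheory Filter Topology
open scoped RealInnerProductSpace

section

variable {E : Type*} [NormedAddCommGroup E] [InnerProductSpace ℝ E] [MeasurableSpace E]
  [BorelSpace E] [CompleteSpace E] [SecondCountableTopology E] {μ : Measure E}

/-- directional moments of `f x * exp (i y ⟪t, x⟫)` -/
noncomputable def dmom (μ : Measure E) (f : E → ℝ) (t : E) (y : ℝ) (m : ℕ) : ℂ :=
  ∫ x, (f x : ℂ) * (((⟪t, x⟫ : ℝ) : ℂ) ^ m * Complex.exp ((y * ⟪t, x⟫ : ℝ) * Complex.I)) ∂μ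

theorem pow_le_factorial_mul_exp {a : ℝ} (ha : 0 ≤ a) (m : ℕ) :
    a ^ m ≤ m.factorial * Real.exp a := by
  have h := Real.pow_div_factorial_le_exp a ha m
  rwa [div_le_iff₀ (by positivity), mul_comm] at h

omit [CompleteSpace E] [SecondCountableTopology E] in
theorem integrable_dmom {f : E → ℝ} (hfm : AEStronglyMeasurable f μ) {c : ℝ}
    (hf : Integrable (fun x => f x * Real.exp (c * ‖x‖)) μ) (t : E) {h : ℝ} (hh : 0 ≤ h)
    (hth : h * ‖t‖ < c) (m : ℕ) :
    Integrable (fun x => |f x| * (|⟪t, x⟫| ^ m * Real.exp (h * |⟪t, x⟫|))) μ := by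
  obtain ⟨d, hd⟩ : ∃ d : ℝ, d = c - h * ‖t‖ := ⟨_, rfl⟩
  have hd0 : 0 < d := by linarith only [hth, hd]
  -- |⟪t,x⟫|^m ≤ (‖t‖/d)^m * m! * exp (d ‖x‖)
  have key : ∀ x : E, |⟪t, x⟫| ^ m * Real.exp (h * |⟪t, x⟫|)
      ≤ ((‖t‖ / d) ^ m * m.factorial) * Real.exp (c * ‖x‖) := by
    intro x
    have h1 : |⟪t, x⟫| ≤ ‖t‖ * ‖x‖ := abs_real_inner_le_norm t x
    have h2 : |⟪t, x⟫| ^ m ≤ (‖t‖ / d) ^ m * (m.factorial * Real.exp (d * ‖x‖)) := by
      calc |⟪t, x⟫| ^ m ≤ (‖t‖ * ‖x‖) ^ m := pow_le_pow_left₀ (abs_nonneg _) h1 m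
        _ = (‖t‖ / d) ^ m * (d * ‖x‖) ^ m := by
          rw [← mul_pow]
          congr 1
          (clear * - hd0; field_simp)
        _ ≤ _ := by
          gcongr
          exact pow_le_factorial_mul_exp (by (clear * - hd0; positivity)) m
    have h3 : Real.exp (h * |⟪t, x⟫|) ≤ Real.exp (h * ‖t‖ * ‖x‖) := by
      apply Real.exp_le_exp.2
      calc h * |⟪t, x⟫| ≤ h * (‖t‖ * ‖x‖) := by (clear * - h1 hh; gcongr)
        _ = _ := by ring
    calc |⟪t, x⟫| ^ m * Real.exp (h * |⟪t, x⟫|)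
        ≤ ((‖t‖ / d) ^ m * (m.factorial * Real.exp (d * ‖x‖))) * Real.exp (h * ‖t‖ * ‖x‖) := by
          gcongr
      _ = ((‖t‖ / d) ^ m * m.factorial) * (Real.exp (d * ‖x‖) * Real.exp (h * ‖t‖ * ‖x‖)) := by
          ring
      _ = _ := by
          rw [← Real.exp_add, hd]
          congr 2
          ring
  refine ((hf.abs.const_mul ((‖t‖ / d) ^ m * m.factorial)).mono' ?_ ?_)
  · refine (hfm.norm.congr ?_).mul ?_
    · exact Eventually.of_forall fun x => Real.norm_eq_abs _
    · refine Continuous.aestronglyMeasurable ?_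
      fun_prop
  · refine Eventually.of_forall fun x => ?_
    rw [Real.norm_of_nonneg (by (clear * -; positivity)), abs_mul, abs_of_pos (Real.exp_pos _)]
    calc |f x| * (|⟪t, x⟫| ^ m * Real.exp (h * |⟪t, x⟫|))
        ≤ |f x| * (((‖t‖ / d) ^ m * m.factorial) * Real.exp (c * ‖x‖)) :=
          mul_le_mul_of_nonneg_left (key x) (abs_nonneg _)
      _ = _ := by ring

theorem dmom_step {f : E → ℝ} (hfm : AEStronglyMeasurable f μ) {c : ℝ} (hc : 0 < c)
    (hf : Integrable (fun x => f x * Real.exp (c * ‖x‖)) μ) (t : E) {y h : ℝ}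
    (hth : |h| * ‖t‖ < c) (hy : ∀ m, dmom μ f t y m = 0) (m : ℕ) :
    dmom μ f t (y + h) m = 0 := by
  let F : ℕ → E → ℂ := fun j x => ((h : ℂ) * Complex.I) ^ j / (j.factorial : ℂ) *
    ((f x : ℂ) * (((⟪t, x⟫ : ℝ) : ℂ) ^ (m + j) * Complex.exp ((y * ⟪t, x⟫ : ℝ) * Complex.I)))
  have hF : ∀ j, ∫ x, F j x ∂μ = 0 := by
    intro j
    have := hy (m + j)
    unfold dmom at this
    show ∫ x, ((h : ℂ) * Complex.I) ^ j / (j.factorial : ℂ) *
      ((f x : ℂ) * (((⟪t, x⟫ : ℝ) : ℂ) ^ (m + j) *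
        Complex.exp ((y * ⟪t, x⟫ : ℝ) * Complex.I))) ∂μ = 0
    rw [integral_const_mul, this, mul_zero]
  have hsum := hasSum_integral_of_dominated_convergence (F := F) (μ := μ)
    (f := fun x => (f x : ℂ) * (((⟪t, x⟫ : ℝ) : ℂ) ^ m *
      Complex.exp (((y + h) * ⟪t, x⟫ : ℝ) * Complex.I)))
    (fun j x => |f x| * (|⟪t, x⟫| ^ m * ((|h| * |⟪t, x⟫|) ^ j / j.factorial)))
    ?_ ?_ ?_ ?_ ?_
  · simp only [hF] at hsum
    exact (hsum.unique hasSum_zero)
  · intro j
    refine AEStronglyMeasurable.const_mul ?_ _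
    refine (Complex.continuous_ofReal.comp_aestronglyMeasurable hfm).mul ?_
    refine Continuous.aestronglyMeasurable ?_
    (clear * -; fun_prop)
  · intro j
    refine Eventually.of_forall fun x => le_of_eq ?_
    show ‖((h : ℂ) * Complex.I) ^ j / (j.factorial : ℂ) *
      ((f x : ℂ) * (((⟪t, x⟫ : ℝ) : ℂ) ^ (m + j) *
        Complex.exp ((y * ⟪t, x⟫ : ℝ) * Complex.I)))‖ = _
    rw [norm_mul, norm_mul, norm_mul, Complex.norm_exp_ofReal_mul_I, norm_div, norm_pow, norm_mul,
      norm_pow, Complex.norm_real, Complex.norm_real, Complex.norm_real, Complex.norm_I,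
      Complex.norm_natCast, Real.norm_eq_abs, Real.norm_eq_abs, Real.norm_eq_abs]
    ring
  · refine Eventually.of_forall fun x => ?_
    refine Summable.mul_left _ (Summable.mul_left _ ?_)
    exact Real.summable_pow_div_factorial _
  · have e : ∀ x, ∑' j : ℕ, |f x| * (|⟪t, x⟫| ^ m * ((|h| * |⟪t, x⟫|) ^ j / j.factorial))
        = |f x| * (|⟪t, x⟫| ^ m * Real.exp (|h| * |⟪t, x⟫|)) := by
      intro x
      rw [tsum_mul_left, tsum_mul_left, Real.exp_eq_exp_ℝ, NormedSpace.exp_eq_tsum_div]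
    simp only [e]
    exact integrable_dmom hfm hf t (abs_nonneg h) hth m
  · refine Eventually.of_forall fun x => ?_
    have h1 := NormedSpace.expSeries_div_hasSum_exp (𝔸 := ℂ) (((h * ⟪t, x⟫ : ℝ) : ℂ) * Complex.I)
    rw [← Complex.exp_eq_exp_ℂ] at h1
    have h2 := h1.mul_left ((f x : ℂ) * (((⟪t, x⟫ : ℝ) : ℂ) ^ m *
      Complex.exp ((y * ⟪t, x⟫ : ℝ) * Complex.I)))
    have e1 : ∀ j, F j x = (f x : ℂ) * (((⟪t, x⟫ : ℝ) : ℂ) ^ m *
        Complex.exp ((y * ⟪t, x⟫ : ℝ) * Complex.I)) *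
        ((((h * ⟪t, x⟫ : ℝ) : ℂ) * Complex.I) ^ j / j.factorial) := by
      intro j
      show ((h : ℂ) * Complex.I) ^ j / (j.factorial : ℂ) *
        ((f x : ℂ) * (((⟪t, x⟫ : ℝ) : ℂ) ^ (m + j) *
          Complex.exp ((y * ⟪t, x⟫ : ℝ) * Complex.I))) = _
      push_cast
      ring
    have e2 : (f x : ℂ) * (((⟪t, x⟫ : ℝ) : ℂ) ^ m *
        Complex.exp (((y + h) * ⟪t, x⟫ : ℝ) * Complex.I))
        = (f x : ℂ) * (((⟪t, x⟫ : ℝ) : ℂ) ^ m * Complex.exp ((y * ⟪t, x⟫ : ℝ) * Complex.I)) *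
          Complex.exp (((h * ⟪t, x⟫ : ℝ) : ℂ) * Complex.I) := by
      rw [mul_assoc, mul_assoc, ← Complex.exp_add]
      congr 3
      push_cast
      ring
    have e3 : (fun j => F j x) = fun j => (f x : ℂ) * (((⟪t, x⟫ : ℝ) : ℂ) ^ m *
        Complex.exp ((y * ⟪t, x⟫ : ℝ) * Complex.I)) *
        ((((h * ⟪t, x⟫ : ℝ) : ℂ) * Complex.I) ^ j / j.factorial) := funext e1
    rw [e2, e3]
    exact h2

theorem dmom_zero {f : E → ℝ} (hfm : AEStronglyMeasurable f μ) {c : ℝ} (hc : 0 < c)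
    (hf : Integrable (fun x => f x * Real.exp (c * ‖x‖)) μ) (t : E)
    (h0 : ∀ m : ℕ, ∫ x, f x * ⟪t, x⟫ ^ m ∂μ = 0) (y : ℝ) (m : ℕ) : dmom μ f t y m = 0 := by
  -- a step size
  obtain ⟨n, hn⟩ := exists_nat_gt (|y| * ‖t‖ / c)
  have hn0 : 0 < (n : ℝ) := lt_of_le_of_lt (by positivity) hn
  have hstep : ∀ k : ℕ, ∀ m, dmom μ f t (k * (y / n)) m = 0 := by
    intro k
    induction k with
    | zero =>
      intro m
      unfold dmom
      simp only [Nat.cast_zero, zero_mul, Complex.ofReal_zero, Complex.exp_zero, mul_one]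
      have := h0 m
      have h2 : ∫ x, (((f x * ⟪t, x⟫ ^ m : ℝ)) : ℂ) ∂μ = 0 := by
        rw [integral_complex_ofReal, this, Complex.ofReal_zero]
      rw [← h2]
      refine integral_congr_ae (Eventually.of_forall fun x => ?_)
      push_cast
      rfl
    | succ k ih =>
      intro m
      have e : ((k + 1 : ℕ) : ℝ) * (y / n) = k * (y / n) + y / n := by
        push_cast
        ring
      rw [e]
      refine dmom_step hfm hc hf t ?_ ih m
      rw [abs_div, abs_of_pos hn0, div_mul_eq_mul_div, div_lt_iff₀ hn0]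
      rw [div_lt_iff₀ hc] at hn
      linarith only [hn]
  have := hstep n m
  rwa [mul_div_cancel₀ _ hn0.ne'] at this

/-- An integrable function with an exponential moment and vanishing directional moments is
zero. -/
theorem ae_zero_of_moments [FiniteDimensional ℝ E] {f : E → ℝ}
    (hfm : AEStronglyMeasurable f μ) {c : ℝ} (hc : 0 < c)
    (hf : Integrable (fun x => f x * Real.exp (c * ‖x‖)) μ)
    (h0 : ∀ (t : E) (m : ℕ), ∫ x, f x * ⟪t, x⟫ ^ m ∂μ = 0) : f =ᵐ[μ] 0 := by
  have hfi : Integrable f μ := by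
    refine hf.mono hfm (Eventually.of_forall fun x => ?_)
    rw [norm_mul, Real.norm_of_nonneg (Real.exp_pos _).le]
    exact le_mul_of_one_le_right (norm_nonneg _) (Real.one_le_exp (by (clear * - hc; positivity)))
  let μp : Measure E := μ.withDensity fun x => ENNReal.ofReal (f x)
  let μm : Measure E := μ.withDensity fun x => ENNReal.ofReal (-f x)
  have hpf : IsFiniteMeasure μp := isFiniteMeasure_withDensity_ofReal hfi.2
  have hmf : IsFiniteMeasure μm := isFiniteMeasure_withDensity_ofReal hfi.neg.2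
  have hchar : ∀ t, charFun μp t = charFun μm t := by
    intro t
    have h1 := dmom_zero hfm hc hf t (h0 t) 1 0
    unfold dmom at h1
    simp only [pow_zero, one_mul] at h1
    rw [charFun_apply, charFun_apply]
    have e : ∀ g : E → ℝ, Integrable g μ →
        ∫ x, Complex.exp (⟪x, t⟫ * Complex.I) ∂(μ.withDensity fun x => ENNReal.ofReal (g x))
        = ∫ x, ((max (g x) 0 : ℝ) : ℂ) * Complex.exp (⟪x, t⟫ * Complex.I) ∂μ := by
      intro g hg
      rw [integral_withDensity_eq_integral_toReal_smul₀]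
      · refine integral_congr_ae (Eventually.of_forall fun x => ?_)
        simp only [ENNReal.toReal_ofReal', Complex.real_smul]
      · exact hg.1.aemeasurable.ennreal_ofReal
      · exact Eventually.of_forall fun x => ENNReal.ofReal_lt_top
    have e' : ∀ g : E → ℝ, Integrable g μ →
        Integrable (fun x => ((max (g x) 0 : ℝ) : ℂ) * Complex.exp (⟪x, t⟫ * Complex.I)) μ := by
      intro g hg
      refine hg.abs.mono' ?_ ?_
      · refine (Complex.continuous_ofReal.comp_aestronglyMeasurable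
          (hg.pos_part.1)).mul ?_
        exact Continuous.aestronglyMeasurable (by fun_prop)
      · refine Eventually.of_forall fun x => ?_
        rw [norm_mul, Complex.norm_exp_ofReal_mul_I, mul_one, Complex.norm_real,
          Real.norm_of_nonneg (le_max_right _ _)]
        exact max_le (le_abs_self _) (abs_nonneg _)
    rw [e f hfi, e (fun x => -f x) hfi.neg, ← sub_eq_zero, ← integral_sub (e' f hfi)
      (e' (fun x => -f x) hfi.neg)]
    rw [← h1]
    refine integral_congr_ae (Eventually.of_forall fun x => ?_)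
    simp only
    rw [← sub_mul, ← Complex.ofReal_sub, real_inner_comm]
    congr 2
    have := max_zero_sub_eq_self (f x)
    exact this
  have hμ : μp = μm := Measure.ext_of_charFun (funext hchar)
  refine hfi.ae_eq_zero_of_forall_setIntegral_eq_zero fun s hs _ => ?_
  rw [integral_eq_lintegral_pos_part_sub_lintegral_neg_part hfi.integrableOn]
  have h1 : ∫⁻ a in s, ENNReal.ofReal (f a) ∂μ = μp s := by
    rw [withDensity_apply _ hs]
  have h2 : ∫⁻ a in s, ENNReal.ofReal (-f a) ∂μ = μm s := by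
    rw [withDensity_apply _ hs]
  rw [h1, h2, hμ, sub_self]

end

end Vale.Agent.P370
end

section

/-!
The Sturmian lower bound: for `u` orthogonal (with the weight `1 / ‖x‖`) to `E n`,
`κ (n + 1) ∫ u² / ‖x‖ ≤ ½ ∫ |∇ u|² + κ²/2 ∫ u²`.
-/

namespace Vale.Agent.P370.Hyd

open MeasureTheory Filter Topology MvPolynomial
open scoped NNReal ENNReal RealInnerProductSpace

instance finite_index (N : ℕ) : Finite {d : Fin 3 →₀ ℕ // d.degree < N} := by
  have h : Set.Finite {d : Fin 3 →₀ ℕ | d.degree < N} := by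
    refine (Set.finite_Iic (Finsupp.equivFunOnFinite.symm fun _ => N)).subset fun d hd => ?_
    rw [Set.mem_Iic, Finsupp.le_def]
    intro i
    have h1 : d i ≤ d.degree := Finsupp.le_degree i d
    have h2 : d.degree < N := hd
    simp only [Finsupp.equivFunOnFinite_symm_apply_apply]
    omega
  exact h.to_subtype

/-- the coefficients as coordinates -/
noncomputable def ltCoord (N : ℕ) : lt N →ₗ[ℝ] ({d : Fin 3 →₀ ℕ // d.degree < N} → ℝ) where
  toFun P d := coeff d.1 P.1
  map_add' P Q := by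
    funext d
    exact coeff_add _ _ _
  map_smul' c P := by
    funext d
    exact coeff_smul _ _ _

theorem ltCoord_injective (N : ℕ) : Function.Injective (ltCoord N) := by
  intro P Q h
  refine Subtype.ext (MvPolynomial.ext _ _ fun d => ?_)
  rcases Nat.lt_or_ge d.degree N with hd | hd
  · exact congrFun h ⟨d, hd⟩
  · rw [P.2 d hd, Q.2 d hd]

instance (N : ℕ) : FiniteDimensional ℝ (lt N) :=
  FiniteDimensional.of_injective (ltCoord N) (ltCoord_injective N)

/-- `E N` as a product -/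
noncomputable def eEquiv (N : ℕ) : E N ≃ₗ[ℝ] (lt N × lt (N - 1)) where
  toFun z := (⟨z.1.1, z.2.1⟩, ⟨z.1.2, z.2.2⟩)
  invFun z := ⟨(z.1.1, z.2.1), z.1.2, z.2.2⟩
  left_inv _ := rfl
  right_inv _ := rfl
  map_add' _ _ := rfl
  map_smul' _ _ := rfl

instance (N : ℕ) : FiniteDimensional ℝ (E N) :=
  LinearEquiv.finiteDimensional (eEquiv N).symm

/-- the measure `dx / ‖x‖` -/
noncomputable def μr : Measure R3 := volume.withDensity fun x => ((‖x‖₊⁻¹ : ℝ≥0) : ℝ≥0∞)

theorem measurable_nninv : Measurable fun x : R3 => (‖x‖₊⁻¹ : ℝ≥0) := measurable_nnnorm.inv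

theorem integral_μr (f : R3 → ℝ) : ∫ x, f x ∂μr = ∫ x, f x / ‖x‖ := by
  unfold μr
  rw [integral_withDensity_eq_integral_smul measurable_nninv]
  refine integral_congr_ae (Eventually.of_forall fun x => ?_)
  simp only [NNReal.smul_def, NNReal.coe_inv, coe_nnnorm, smul_eq_mul]
  rw [div_eq_inv_mul]

theorem integrable_μr {f : R3 → ℝ} : Integrable f μr ↔ Integrable fun x => f x / ‖x‖ := by
  unfold μr
  rw [integrable_withDensity_iff_integrable_smul measurable_nninv]
  refine integrable_congr (Eventually.of_forall fun x => ?_)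
  simp only [NNReal.smul_def, NNReal.coe_inv, coe_nnnorm, smul_eq_mul]
  rw [div_eq_inv_mul]

theorem μr_ac : μr ≪ volume := withDensity_absolutelyContinuous _ _

theorem memLp_of_dec {w : R3 → ℝ} (hc : Continuous w) (hd : Dec w) : MemLp w 2 μr := by
  rw [memLp_two_iff_integrable_sq hc.aestronglyMeasurable, integrable_μr]
  have h := (hd.mul hd).integrable_div (hc.mul hc).aestronglyMeasurable
  refine h.congr (Eventually.of_forall fun x => ?_)
  simp only
  rw [sq]

/-- the weighted Hilbert space -/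
abbrev Hs : Type := Lp ℝ 2 μr

/-- class of an admissible function -/
noncomputable def toH (w : R3 → ℝ) (hc : Continuous w) (hd : Dec w) : Hs :=
  (memLp_of_dec hc hd).toLp w

theorem inner_toH {v w : R3 → ℝ} (hv : Continuous v) (hv' : Dec v) (hw : Continuous w)
    (hw' : Dec w) : ⟪toH v hv hv', toH w hw hw'⟫ = ipr v w := by
  rw [L2.inner_def]
  unfold ipr
  rw [← integral_μr]
  refine integral_congr_ae ?_
  filter_upwards [(memLp_of_dec hv hv').coeFn_toLp, (memLp_of_dec hw hw').coeFn_toLp] with x h1 h2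
  show ⟪(toH v hv hv') x, (toH w hw hw') x⟫ = v x * w x
  unfold toH
  rw [h1, h2]
  simp only [RCLike.inner_apply, Real.ringHom_apply, mul_comm]

/-- the map from pairs of polynomials to the Hilbert space -/
noncomputable def Ξ {κ : ℝ} (hκ : 0 < κ) : Pl × Pl →ₗ[ℝ] Hs where
  toFun z := toH (xp κ z.1 z.2) (continuous_xp κ z.1 z.2) (dec_xp hκ z.1 z.2)
  map_add' z z' := by
    unfold toH
    rw [← MemLp.toLp_add]
    refine (MemLp.toLp_eq_toLp_iff _ _).2 (Eventually.of_forall fun x => ?_)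
    simp only [xp, Prod.fst_add, Prod.snd_add, ev_add, Pi.add_apply]
    ring
  map_smul' c z := by
    unfold toH
    rw [RingHom.id_apply, ← MemLp.toLp_const_smul]
    refine (MemLp.toLp_eq_toLp_iff _ _).2 (Eventually.of_forall fun x => ?_)
    simp only [xp, Prod.smul_fst, Prod.smul_snd, Pi.smul_apply, smul_eq_mul, ev, smul_eval]
    ring

theorem inner_Ξ_left {κ : ℝ} (hκ : 0 < κ) (z : Pl × Pl) {w : R3 → ℝ} (hw : Continuous w)
    (hw' : Dec w) : ⟪Ξ hκ z, toH w hw hw'⟫ = ipr (xp κ z.1 z.2) w :=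
  inner_toH (continuous_xp κ z.1 z.2) (dec_xp hκ z.1 z.2) hw hw'

theorem inner_Ξ {κ : ℝ} (hκ : 0 < κ) (z z' : Pl × Pl) :
    ⟪Ξ hκ z, Ξ hκ z'⟫ = ipr (xp κ z.1 z.2) (xp κ z'.1 z'.2) :=
  inner_toH (continuous_xp κ z.1 z.2) (dec_xp hκ z.1 z.2) (continuous_xp κ z'.1 z'.2)
    (dec_xp hκ z'.1 z'.2)

/-- the energy form with parameter `κ` -/
noncomputable def en (κ : ℝ) (v w : R3 → ℝ) (dv dw : Fin 3 → R3 → ℝ) : ℝ :=
  kin dv dw + κ ^ 2 / 2 * ip v w

theorem green' {κ : ℝ} (hκ : 0 < κ) (z : Pl × Pl) {w : R3 → ℝ} {dw : Fin 3 → R3 → ℝ}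
    (hw : Adm w dw) : en κ (xp κ z.1 z.2) w (xpd κ z.1 z.2) dw
      = ⟪Ξ hκ (TL κ z), toH w hw.cont hw.dec⟫ := by
  rw [inner_Ξ_left, TL_apply]
  exact green hκ z.1 z.2 hw

theorem kin_comm (dv dw : Fin 3 → R3 → ℝ) : kin dv dw = kin dw dv := by
  unfold kin
  simp only [mul_comm]

theorem ip_comm (v w : R3 → ℝ) : ip v w = ip w v := by
  unfold ip
  simp only [mul_comm]

theorem ipr_comm (v w : R3 → ℝ) : ipr v w = ipr w v := by
  unfold ipr
  simp only [mul_comm]

theorem en_comm (κ : ℝ) (v w : R3 → ℝ) (dv dw : Fin 3 → R3 → ℝ) :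
    en κ v w dv dw = en κ w v dw dv := by
  unfold en
  rw [kin_comm, ip_comm]

theorem TL_symm {κ : ℝ} (hκ : 0 < κ) (z z' : Pl × Pl) :
    ⟪Ξ hκ (TL κ z), Ξ hκ z'⟫ = ⟪Ξ hκ z, Ξ hκ (TL κ z')⟫ := by
  have h1 := green' hκ z (adm_xp hκ z'.1 z'.2)
  have h2 := green' hκ z' (adm_xp hκ z.1 z.2)
  rw [en_comm] at h2
  calc ⟪Ξ hκ (TL κ z), Ξ hκ z'⟫ = _ := h1.symm
    _ = ⟪Ξ hκ (TL κ z'), Ξ hκ z⟫ := h2
    _ = _ := real_inner_comm _ _

theorem Adm.int_mul {v w : R3 → ℝ} {dv dw : Fin 3 → R3 → ℝ} (hv : Adm v dv) (hw : Adm w dw) :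
    Integrable fun x => v x * w x :=
  (hv.dec.mul hw.dec).integrable (hv.cont.mul hw.cont).aestronglyMeasurable

theorem Adm.int_mul_div {v w : R3 → ℝ} {dv dw : Fin 3 → R3 → ℝ} (hv : Adm v dv)
    (hw : Adm w dw) : Integrable fun x => v x * w x / ‖x‖ :=
  (hv.dec.mul hw.dec).integrable_div (hv.cont.mul hw.cont).aestronglyMeasurable

theorem Adm.int_dmul {v w : R3 → ℝ} {dv dw : Fin 3 → R3 → ℝ} (hv : Adm v dv) (hw : Adm w dw)
    (i : Fin 3) : Integrable fun x => dv i x * dw i x :=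
  ((hv.ddec i).mul (hw.ddec i)).integrable ((hv.meas i).mul (hw.meas i)).aestronglyMeasurable

theorem Adm.neg {v : R3 → ℝ} {dv : Fin 3 → R3 → ℝ} (hv : Adm v dv) :
    Adm (fun x => -v x) (fun i x => -dv i x) :=
  ⟨hv.cont.neg, fun i x hx => (hv.deriv i x hx).neg, fun i => (hv.dcont i).neg, hv.dec.neg,
    fun i => (hv.ddec i).neg⟩

theorem Adm.sub {v w : R3 → ℝ} {dv dw : Fin 3 → R3 → ℝ} (hv : Adm v dv) (hw : Adm w dw) :
    Adm (fun x => v x - w x) (fun i x => dv i x - dw i x) := by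
  simp only [sub_eq_add_neg]
  exact hv.add hw.neg

theorem int3 {f g h : R3 → ℝ} (hf : Integrable f) (hg : Integrable g) (hh : Integrable h) :
    ∫ x, (f x - 2 * g x + h x) = (∫ x, f x) - 2 * (∫ x, g x) + ∫ x, h x := by
  have h1 := integral_add (f := fun x => f x - 2 * g x) (g := h) (hf.sub (hg.const_mul 2)) hh
  have h2 := integral_sub (f := f) (g := fun x => 2 * g x) hf (hg.const_mul 2)
  rw [h1, h2, integral_const_mul]

theorem kin_sub {v w : R3 → ℝ} {dv dw : Fin 3 → R3 → ℝ} (hv : Adm v dv) (hw : Adm w dw) :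
    kin (fun i x => dv i x - dw i x) (fun i x => dv i x - dw i x)
      = kin dv dv - 2 * kin dv dw + kin dw dw := by
  unfold kin
  have : ∀ i, ∫ x, (dv i x - dw i x) * (dv i x - dw i x)
      = (∫ x, dv i x * dv i x) - 2 * (∫ x, dv i x * dw i x) + ∫ x, dw i x * dw i x := by
    intro i
    rw [← int3 (hv.int_dmul hv i) (hv.int_dmul hw i) (hw.int_dmul hw i)]
    refine integral_congr_ae (Eventually.of_forall fun x => ?_)
    simp only
    ring
  simp only [this, Finset.sum_add_distrib, Finset.sum_sub_distrib, ← Finset.mul_sum]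
  ring

theorem ip_sub {v w : R3 → ℝ} {dv dw : Fin 3 → R3 → ℝ} (hv : Adm v dv) (hw : Adm w dw) :
    ip (fun x => v x - w x) (fun x => v x - w x) = ip v v - 2 * ip v w + ip w w := by
  unfold ip
  rw [← int3 (hv.int_mul hv) (hv.int_mul hw) (hw.int_mul hw)]
  refine integral_congr_ae (Eventually.of_forall fun x => ?_)
  simp only
  ring

theorem ipr_sub {v w : R3 → ℝ} {dv dw : Fin 3 → R3 → ℝ} (hv : Adm v dv) (hw : Adm w dw) :
    ipr (fun x => v x - w x) (fun x => v x - w x) = ipr v v - 2 * ipr v w + ipr w w := by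
  unfold ipr
  rw [← int3 (hv.int_mul_div hv) (hv.int_mul_div hw) (hw.int_mul_div hw)]
  refine integral_congr_ae (Eventually.of_forall fun x => ?_)
  simp only
  ring

theorem kin_nonneg (dv : Fin 3 → R3 → ℝ) : 0 ≤ kin dv dv := by
  unfold kin
  refine mul_nonneg (by (clear * -; norm_num)) (Finset.sum_nonneg fun i _ => integral_nonneg fun x => ?_)
  exact mul_self_nonneg _

theorem ip_nonneg (v : R3 → ℝ) : 0 ≤ ip v v := integral_nonneg fun _ => mul_self_nonneg _

theorem en_nonneg (κ : ℝ) (v : R3 → ℝ) (dv : Fin 3 → R3 → ℝ) : 0 ≤ en κ v v dv dv :=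
  add_nonneg (kin_nonneg dv) (mul_nonneg (by positivity) (ip_nonneg v))

theorem en_sub (κ : ℝ) {v w : R3 → ℝ} {dv dw : Fin 3 → R3 → ℝ} (hv : Adm v dv) (hw : Adm w dw) :
    en κ (fun x => v x - w x) (fun x => v x - w x) (fun i x => dv i x - dw i x)
      (fun i x => dv i x - dw i x) = en κ v v dv dv - 2 * en κ v w dv dw + en κ w w dw dw := by
  unfold en
  rw [kin_sub hv hw, ip_sub hv hw]
  ring

/-- density -/
theorem dense_Ξ {κ : ℝ} (hκ : 0 < κ) : (⊤ : Submodule ℝ Hs)
    ≤ (⨆ N : ℕ, (E N).map (Ξ hκ)).topologicalClosure := by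
  rw [top_le_iff, Submodule.topologicalClosure_eq_top_iff, Submodule.eq_bot_iff]
  intro h hh
  have horth : ∀ P : Pl, ∫ x, ev P x * Real.exp (-κ * ‖x‖) * h x ∂μr = 0 := by
    intro P
    obtain ⟨N, hN⟩ : ∃ N, P ∈ lt N := by
      refine ⟨P.totalDegree + 1, fun d hd => ?_⟩
      by_contra hcon
      have h1 := le_totalDegree (mem_support_iff.2 hcon)
      have h2 : (d.sum fun _ e => e) = d.degree := rfl
      omega
    have h1 : Ξ hκ (P, 0) ∈ ⨆ N : ℕ, (E N).map (Ξ hκ) :=
      Submodule.mem_iSup_of_mem N ⟨(P, 0), ⟨hN, Submodule.zero_mem _⟩, rfl⟩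
    have h2 := hh _ h1
    rw [L2.inner_def] at h2
    rw [← h2]
    refine integral_congr_ae ?_
    filter_upwards [(memLp_of_dec (continuous_xp κ P 0) (dec_xp hκ P 0)).coeFn_toLp] with x hx
    show _ = ⟪(toH (xp κ P 0) (continuous_xp κ P 0) (dec_xp hκ P 0)) x, h x⟫
    unfold toH
    rw [hx]
    simp only [ev, xp, map_zero, mul_zero, add_zero]
    simp [mul_comm]
  have hmeas : AEStronglyMeasurable (h : R3 → ℝ) volume :=
    (Lp.stronglyMeasurable h).aestronglyMeasurable
  have hexp : ∀ c : ℝ, 0 < c → MemLp (fun x : R3 => Real.exp (-c * ‖x‖)) 2 μr := fun c hc =>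
    memLp_of_dec (by fun_prop) ⟨1, c, hc, fun x => by rw [abs_of_pos (Real.exp_pos _), one_mul]⟩
  have hz : (fun x => (h x) * Real.exp (-κ * ‖x‖) / ‖x‖) =ᵐ[volume] 0 := by
    refine ae_zero_of_moments (c := κ / 2) ?_ (by positivity) ?_ ?_
    · simp only [div_eq_mul_inv]
      exact (hmeas.mul (by fun_prop : Continuous fun x : R3 =>
        Real.exp (-κ * ‖x‖)).aestronglyMeasurable).mul measurable_norm.inv.aestronglyMeasurable
    · have h1 : Integrable (fun x => h x * Real.exp (-(κ / 2) * ‖x‖)) μr :=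
        (Lp.memLp h).integrable_mul (hexp (κ / 2) (by positivity))
      rw [integrable_μr] at h1
      refine h1.congr (Eventually.of_forall fun x => ?_)
      simp only
      rw [div_mul_eq_mul_div, mul_assoc, ← Real.exp_add]
      congr 3
      ring
    · intro t m
      have h1 := horth ((∑ i, C (t i) * X i) ^ m)
      rw [integral_μr] at h1
      rw [← h1]
      refine integral_congr_ae (Eventually.of_forall fun x => ?_)
      simp only
      have h2 : ev ((∑ i, C (t i) * X i) ^ m) x = ⟪t, x⟫ ^ m := by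
        simp [ev, PiLp.inner_apply, mul_comm]
      rw [h2]
      ring
  have hne : ∀ᵐ x : R3, x ≠ 0 := by
    rw [ae_iff]
    simp
  have h0 : (h : R3 → ℝ) =ᵐ[volume] 0 := by
    filter_upwards [hz, hne] with x hx hx0
    have hr : ‖x‖ ≠ 0 := norm_ne_zero_iff.2 hx0
    simp only [Pi.zero_apply, div_eq_zero_iff, mul_eq_zero, Real.exp_ne_zero, or_false, hr] at hx ⊢
    exact hx
  exact Lp.eq_zero_iff_ae_eq_zero.2 (μr_ac.ae_eq h0)

end Vale.Agent.P370.Hyd
end

section

/-! The Sturmian lower bound. -/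

namespace Vale.Agent.P370.Hyd

open MeasureTheory Filter Topology MvPolynomial
open scoped NNReal ENNReal RealInnerProductSpace

section

variable {κ : ℝ} (hκ : 0 < κ)

/-- the finite dimensional spaces -/
noncomputable def SN (N : ℕ) : Submodule ℝ Hs := (E N).map (Ξ hκ)

instance (N : ℕ) : FiniteDimensional ℝ (SN hκ N) := by
  unfold SN
  infer_instance

theorem SN_mono : Monotone (SN hκ) := fun _ _ h => Submodule.map_mono (E_mono h)

theorem exists_rep_SN {N : ℕ} {y : Hs} (hy : y ∈ SN hκ N) : ∃ z ∈ E N, Ξ hκ z = y := hy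

/-- on `S (N+1) ⊖ S N` the operator is multiplication by `κ (N + 1)` -/
theorem TL_eigen {N : ℕ} {g : Pl × Pl} (hg : g ∈ E (N + 1))
    (hg' : ∀ y ∈ E N, ⟪Ξ hκ y, Ξ hκ g⟫ = 0) : Ξ hκ (TL κ g) = (κ * (N + 1)) • Ξ hκ g := by
  have h1 := TL_sub_mem κ hg
  have h2 : Ξ hκ (TL κ g - (κ * (N + 1)) • g) = 0 := by
    rw [← inner_self_eq_zero (𝕜 := ℝ)]
    have h3 : ∀ y ∈ E N, ⟪Ξ hκ y, Ξ hκ (TL κ g - (κ * (N + 1)) • g)⟫ = 0 := by
      intro y hy
      rw [map_sub, inner_sub_right, map_smul, inner_smul_right, hg' y hy, mul_zero, sub_zero,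
        ← TL_symm]
      exact hg' _ (TL_mem κ hy)
    exact h3 _ h1
  rw [map_sub, map_smul, sub_eq_zero] at h2
  exact h2

include hκ in
theorem sturm (n : ℕ) {u : R3 → ℝ} {du : Fin 3 → R3 → ℝ} (hu : Adm u du)
    (horth : ∀ z ∈ E n, ipr (xp κ z.1 z.2) u = 0) :
    κ * (n + 1) * ipr u u ≤ en κ u u du du := by
  obtain ⟨U, hU⟩ : ∃ U : Hs, U = toH u hu.cont hu.dec := ⟨_, rfl⟩
  have hpm : ∀ N, (SN hκ N).starProjection U ∈ SN hκ N := fun N =>
    Submodule.starProjection_apply_mem _ _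
  choose z hz hzp using fun N => exists_rep_SN hκ (hpm N)
  have hUo : ∀ N, ∀ y ∈ E N, ⟪Ξ hκ y, U⟫ = ⟪Ξ hκ y, Ξ hκ (z N)⟫ := by
    intro N y hy
    have h1 := Submodule.starProjection_inner_eq_zero (K := SN hκ N) U (Ξ hκ y) ⟨y, hy, rfl⟩
    rw [inner_sub_left, sub_eq_zero] at h1
    rw [hzp, real_inner_comm, h1, real_inner_comm]
  have hp0 : Ξ hκ (z n) = 0 := by
    rw [← inner_self_eq_zero (𝕜 := ℝ), ← hUo n _ (hz n), hU, inner_Ξ_left]
    exact horth _ (hz n)
  -- (a)
  have ha : ∀ N, ⟪Ξ hκ (TL κ (z N)), Ξ hκ (z N)⟫ ≤ en κ u u du du := by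
    intro N
    have h1 := en_nonneg κ (fun x => u x - xp κ (z N).1 (z N).2 x)
      (fun i x => du i x - xpd κ (z N).1 (z N).2 i x)
    rw [en_sub κ hu (adm_xp hκ (z N).1 (z N).2)] at h1
    have h2 := green' hκ (z N) hu
    have h3 := green' hκ (z N) (adm_xp hκ (z N).1 (z N).2)
    rw [← hU, hUo N _ (TL_mem κ (hz N))] at h2
    have h4 : toH (xp κ (z N).1 (z N).2) (adm_xp hκ (z N).1 (z N).2).cont
      (adm_xp hκ (z N).1 (z N).2).dec = Ξ hκ (z N) := rfl
    rw [h4] at h3
    rw [en_comm κ u (xp κ (z N).1 (z N).2), h2, h3] at h1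
    linarith only [h1]
  -- (b)
  have hb : ∀ N, n ≤ N →
      κ * (n + 1) * ‖Ξ hκ (z N)‖ ^ 2 ≤ ⟪Ξ hκ (TL κ (z N)), Ξ hκ (z N)⟫ := by
    intro N hN
    induction N, hN using Nat.le_induction with
    | base => rw [hp0, norm_zero, inner_zero_right]; simp
    | succ N hN ih =>
      obtain ⟨g, hg⟩ : ∃ g, g = z (N + 1) - z N := ⟨_, rfl⟩
      have hgE : g ∈ E (N + 1) := by
        rw [hg]
        exact Submodule.sub_mem _ (hz (N + 1)) (E_mono (Nat.le_succ N) (hz N))
      have hgo : ∀ y ∈ E N, ⟪Ξ hκ y, Ξ hκ g⟫ = 0 := by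
        intro y hy
        rw [hg, map_sub, inner_sub_right, ← hUo N y hy,
          ← hUo (N + 1) y (E_mono (Nat.le_succ N) hy), sub_self]
      have hT := TL_eigen hκ hgE hgo
      have hz1 : z (N + 1) = z N + g := by rw [hg]; abel
      have e1 : ⟪Ξ hκ (TL κ (z (N + 1))), Ξ hκ (z (N + 1))⟫
          = ⟪Ξ hκ (TL κ (z N)), Ξ hκ (z N)⟫ + κ * (N + 1) * ‖Ξ hκ g‖ ^ 2 := by
        rw [hz1, map_add, map_add, map_add, inner_add_left, inner_add_right, inner_add_right,
          hT, inner_smul_left, inner_smul_left, hgo _ (TL_mem κ (hz N)),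
          real_inner_comm (Ξ hκ (z N)) (Ξ hκ g), hgo _ (hz N), real_inner_self_eq_norm_sq]
        simp only [add_zero, Real.ringHom_apply, mul_zero, zero_add]
      have e2 : ‖Ξ hκ (z (N + 1))‖ ^ 2 = ‖Ξ hκ (z N)‖ ^ 2 + ‖Ξ hκ g‖ ^ 2 := by
        rw [hz1, map_add, ← real_inner_self_eq_norm_sq, inner_add_left, inner_add_right,
          inner_add_right, real_inner_comm (Ξ hκ (z N)) (Ξ hκ g), hgo _ (hz N),
          real_inner_self_eq_norm_sq, real_inner_self_eq_norm_sq]
        ring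
      rw [e1, e2]
      have h5 : (n : ℝ) ≤ N := by exact_mod_cast hN
      have h6 : κ * (n + 1) * ‖Ξ hκ g‖ ^ 2 ≤ κ * (N + 1) * ‖Ξ hκ g‖ ^ 2 := by (clear * - hκ h5; gcongr)
      linarith only [ih, h6]
  -- (c)
  have hc : Tendsto (fun N => ‖Ξ hκ (z N)‖ ^ 2) atTop (𝓝 (ipr u u)) := by
    have h1 := Submodule.starProjection_tendsto_self (SN hκ) (SN_mono hκ) U (dense_Ξ hκ)
    have h2 : ‖U‖ ^ 2 = ipr u u := by
      rw [← real_inner_self_eq_norm_sq, hU, inner_toH]
    rw [← h2]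
    have h3 := (h1.norm).pow 2
    refine h3.congr fun N => ?_
    rw [hzp]
  refine le_of_tendsto (hc.const_mul (κ * (n + 1))) ?_
  filter_upwards [eventually_ge_atTop n] with N hN
  exact (hb N hN).trans (ha N)

end

end Vale.Agent.P370.Hyd
end

section

/-! The quadratic form inequality for the hydrogen atom. -/

namespace Vale.Agent.P370.Hyd

open MeasureTheory Filter Topology MvPolynomial
open scoped NNReal ENNReal RealInnerProductSpace

/-- admissible functions as a vector space -/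
noncomputable def AdmS : Submodule ℝ ((R3 → ℝ) × (Fin 3 → R3 → ℝ)) where
  carrier := {p | Adm p.1 p.2}
  add_mem' h h' := h.add h'
  zero_mem' := Adm.zero
  smul_mem' c _ h := h.const_mul c

/-- the kinetic form -/
noncomputable def kinB : AdmS →ₗ[ℝ] AdmS →ₗ[ℝ] ℝ :=
  LinearMap.mk₂ ℝ (fun v w => kin v.1.2 w.1.2)
    (fun v v' w => by
      unfold kin
      rw [← mul_add, ← Finset.sum_add_distrib]
      congr 1
      refine Finset.sum_congr rfl fun i _ => ?_
      rw [← integral_add (v.2.int_dmul w.2 i) (v'.2.int_dmul w.2 i)]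
      exact integral_congr_ae (Eventually.of_forall fun x => add_mul _ _ _))
    (fun c v w => by
      have hs : ∀ i, ∫ x, (c • v).1.2 i x * w.1.2 i x = c * ∫ x, v.1.2 i x * w.1.2 i x := by
        intro i
        rw [← integral_const_mul]
        exact integral_congr_ae (Eventually.of_forall fun x => mul_assoc _ _ _)
      unfold kin
      rw [smul_eq_mul, Finset.sum_congr rfl fun i _ => hs i, ← Finset.mul_sum, mul_left_comm])
    (fun v w w' => by
      unfold kin
      rw [← mul_add, ← Finset.sum_add_distrib]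
      congr 1
      refine Finset.sum_congr rfl fun i _ => ?_
      rw [← integral_add (v.2.int_dmul w.2 i) (v.2.int_dmul w'.2 i)]
      exact integral_congr_ae (Eventually.of_forall fun x => mul_add _ _ _))
    (fun c v w => by
      have hs : ∀ i, ∫ x, v.1.2 i x * (c • w).1.2 i x = c * ∫ x, v.1.2 i x * w.1.2 i x := by
        intro i
        rw [← integral_const_mul]
        exact integral_congr_ae (Eventually.of_forall fun x => mul_left_comm _ _ _)
      unfold kin
      rw [smul_eq_mul, Finset.sum_congr rfl fun i _ => hs i, ← Finset.mul_sum, mul_left_comm])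

/-- the L² form -/
noncomputable def ipB : AdmS →ₗ[ℝ] AdmS →ₗ[ℝ] ℝ :=
  LinearMap.mk₂ ℝ (fun v w => ip v.1.1 w.1.1)
    (fun v v' w => by
      unfold ip
      rw [← integral_add (v.2.int_mul w.2) (v'.2.int_mul w.2)]
      exact integral_congr_ae (Eventually.of_forall fun x => add_mul _ _ _))
    (fun c v w => by
      unfold ip
      rw [smul_eq_mul, ← integral_const_mul]
      exact integral_congr_ae (Eventually.of_forall fun x => mul_assoc _ _ _))
    (fun v w w' => by
      unfold ip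
      rw [← integral_add (v.2.int_mul w.2) (v.2.int_mul w'.2)]
      exact integral_congr_ae (Eventually.of_forall fun x => mul_add _ _ _))
    (fun c v w => by
      unfold ip
      rw [smul_eq_mul, ← integral_const_mul]
      exact integral_congr_ae (Eventually.of_forall fun x => mul_left_comm _ _ _))

/-- the Coulomb form -/
noncomputable def iprB : AdmS →ₗ[ℝ] AdmS →ₗ[ℝ] ℝ :=
  LinearMap.mk₂ ℝ (fun v w => ipr v.1.1 w.1.1)
    (fun v v' w => by
      unfold ipr
      rw [← integral_add (v.2.int_mul_div w.2) (v'.2.int_mul_div w.2)]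
      refine integral_congr_ae (Eventually.of_forall fun x => ?_)
      show (v.1.1 x + v'.1.1 x) * w.1.1 x / ‖x‖ = _
      rw [add_mul, add_div])
    (fun c v w => by
      unfold ipr
      rw [smul_eq_mul, ← integral_const_mul]
      refine integral_congr_ae (Eventually.of_forall fun x => ?_)
      show (c * v.1.1 x) * w.1.1 x / ‖x‖ = c * (v.1.1 x * w.1.1 x / ‖x‖)
      ring)
    (fun v w w' => by
      unfold ipr
      rw [← integral_add (v.2.int_mul_div w.2) (v.2.int_mul_div w'.2)]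
      refine integral_congr_ae (Eventually.of_forall fun x => ?_)
      show v.1.1 x * (w.1.1 x + w'.1.1 x) / ‖x‖ = _
      rw [mul_add, add_div])
    (fun c v w => by
      unfold ipr
      rw [smul_eq_mul, ← integral_const_mul]
      refine integral_congr_ae (Eventually.of_forall fun x => ?_)
      show v.1.1 x * (c * w.1.1 x) / ‖x‖ = c * (v.1.1 x * w.1.1 x / ‖x‖)
      ring)

theorem kinB_comm (v w : AdmS) : kinB v w = kinB w v := kin_comm _ _

theorem ipB_comm (v w : AdmS) : ipB v w = ipB w v := ip_comm _ _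

theorem iprB_comm (v w : AdmS) : iprB v w = iprB w v := ipr_comm _ _

/-- the classes in the weighted space -/
noncomputable def toHL : AdmS →ₗ[ℝ] Hs where
  toFun v := toH v.1.1 v.2.cont v.2.dec
  map_add' v w := by
    unfold toH
    rw [← MemLp.toLp_add]
    exact (MemLp.toLp_eq_toLp_iff _ _).2 (Eventually.of_forall fun x => rfl)
  map_smul' c v := by
    unfold toH
    rw [RingHom.id_apply, ← MemLp.toLp_const_smul]
    exact (MemLp.toLp_eq_toLp_iff _ _).2 (Eventually.of_forall fun x => rfl)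

/-- the form `H - e` with `e = -κ² / 2` -/
noncomputable def QB (κ : ℝ) : AdmS →ₗ[ℝ] AdmS →ₗ[ℝ] ℝ := kinB + (κ ^ 2 / 2) • ipB - iprB

theorem QB_apply (κ : ℝ) (v w : AdmS) :
    QB κ v w = kinB v w + κ ^ 2 / 2 * ipB v w - iprB v w := rfl

theorem QB_comm (κ : ℝ) (v w : AdmS) : QB κ v w = QB κ w v := by
  rw [QB_apply, QB_apply, kinB_comm, ipB_comm, iprB_comm]

theorem QB_nonneg (n : ℕ) {u : AdmS}
    (horth : ∀ z ∈ E n, ⟪Ξ (κ := 1 / ((n : ℝ) + 1)) (by positivity) z, toHL u⟫ = 0) :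
    0 ≤ QB (1 / ((n : ℝ) + 1)) u u := by
  have hκ : (0 : ℝ) < 1 / ((n : ℝ) + 1) := by positivity
  have h := sturm hκ n u.2 fun z hz => by
    have := horth z hz
    rwa [show toHL u = toH u.1.1 u.2.cont u.2.dec from rfl, inner_Ξ_left] at this
  have h1 : 1 / ((n : ℝ) + 1) * (n + 1) = 1 := by
    field_simp
  rw [h1, one_mul] at h
  have h2 : QB (1 / ((n : ℝ) + 1)) u u
      = en (1 / ((n : ℝ) + 1)) u.1.1 u.1.1 u.1.2 u.1.2 - ipr u.1.1 u.1.1 := rfl
  rw [h2]
  linarith only [h]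

/-- **Form inequality for the hydrogen atom.** -/
theorem hyd_lower (n : ℕ) {ι : Type*} [Fintype ι] [DecidableEq ι] (φ : ι → AdmS) (e : ι → ℝ)
    (hEig : ∀ a w, kinB (φ a) w - iprB (φ a) w = e a * ipB (φ a) w)
    (horth : ∀ a b, ipB (φ a) (φ b) = if a = b then 1 else 0)
    (he : ∀ a, e a < -(1 / (2 * ((n : ℝ) + 1) ^ 2)))
    (hcard : Module.finrank ℝ (E n) ≤ Fintype.card ι) (u : AdmS) :
    ∑ a, (e a - -(1 / (2 * ((n : ℝ) + 1) ^ 2))) * (ipB (φ a) u) ^ 2
      + -(1 / (2 * ((n : ℝ) + 1) ^ 2)) * ipB u u ≤ kinB u u - iprB u u := by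
  have hκ : (0 : ℝ) < 1 / ((n : ℝ) + 1) := by positivity
  obtain ⟨e', he'⟩ : ∃ e' : ℝ, e' = -(1 / (2 * ((n : ℝ) + 1) ^ 2)) := ⟨_, rfl⟩
  have hee : (1 / ((n : ℝ) + 1)) ^ 2 / 2 = -e' := by
    rw [he']
    field_simp
  rw [← he'] at he ⊢
  set κ : ℝ := 1 / ((n : ℝ) + 1) with hκd
  -- the form on eigenfunctions
  have hQφ : ∀ a w, QB κ (φ a) w = (e a - e') * ipB (φ a) w := by
    intro a w
    rw [QB_apply, hee]
    have := hEig a w
    linarith only [this]
  -- the span of the eigenfunctions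
  let F : (ι → ℝ) →ₗ[ℝ] AdmS :=
    { toFun := fun c => ∑ a, c a • φ a
      map_add' := fun c d => by
        simp only [Pi.add_apply, add_smul, Finset.sum_add_distrib]
      map_smul' := fun c d => by
        simp only [Pi.smul_apply, smul_eq_mul, RingHom.id_apply, Finset.smul_sum, smul_smul] }
  have hF : ∀ c, F c = ∑ a, c a • φ a := fun c => rfl
  have hQF : ∀ c w, QB κ (F c) w = ∑ a, c a * ((e a - e') * ipB (φ a) w) := by
    intro c w
    rw [hF, map_sum, LinearMap.sum_apply]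
    refine Finset.sum_congr rfl fun a _ => ?_
    rw [map_smul, LinearMap.smul_apply, smul_eq_mul, hQφ]
  have hipF : ∀ a c, ipB (φ a) (F c) = c a := by
    intro a c
    rw [hF, map_sum]
    rw [Finset.sum_eq_single a]
    · rw [map_smul, horth, if_pos rfl, smul_eq_mul, mul_one]
    · intro b _ hb
      rw [map_smul, horth, if_neg hb.symm, smul_zero]
    · intro h
      exact absurd (Finset.mem_univ a) h
  have hQFF : ∀ c, QB κ (F c) (F c) = ∑ a, (e a - e') * c a ^ 2 := by
    intro c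
    rw [hQF]
    refine Finset.sum_congr rfl fun a _ => ?_
    rw [hipF]
    ring
  have hQFneg : ∀ c, QB κ (F c) (F c) ≤ 0 := by
    intro c
    rw [hQFF]
    refine Finset.sum_nonpos fun a _ => ?_
    exact mul_nonpos_of_nonpos_of_nonneg (by linarith only [he a]) (sq_nonneg _)
  -- projection
  let L : (ι → ℝ) →ₗ[ℝ] SN hκ n :=
    ((SN hκ n).orthogonalProjectionOnto : Hs →ₗ[ℝ] SN hκ n).comp (toHL.comp F)
  have hproj : ∀ y : Hs, (SN hκ n).orthogonalProjectionOnto y = 0 →
      ∀ z ∈ E n, ⟪Ξ hκ z, y⟫ = 0 := by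
    intro y hy z hz
    have h1 := Submodule.starProjection_inner_eq_zero (K := SN hκ n) y (Ξ hκ z) ⟨z, hz, rfl⟩
    have h2 : (SN hκ n).starProjection y = 0 := by
      rw [Submodule.starProjection_apply, hy, ZeroMemClass.coe_zero]
    rw [h2, sub_zero] at h1
    rw [real_inner_comm]
    exact h1
  have hLinj : Function.Injective L := by
    rw [injective_iff_map_eq_zero]
    intro c hc
    have h1 : 0 ≤ QB κ (F c) (F c) := QB_nonneg n (hproj _ hc)
    have h2 : ∑ a, (e a - e') * c a ^ 2 = 0 := by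
      rw [← hQFF]
      exact le_antisymm (hQFneg c) h1
    have h3 : ∑ a, (e' - e a) * c a ^ 2 = 0 := by
      rw [← neg_eq_zero, ← Finset.sum_neg_distrib, ← h2]
      exact Finset.sum_congr rfl fun a _ => by ring
    rw [Finset.sum_eq_zero_iff_of_nonneg fun a _ =>
      mul_nonneg (by linarith only [he a]) (sq_nonneg _)] at h3
    funext a
    have h4 := h3 a (Finset.mem_univ a)
    have h5 : e' - e a ≠ 0 := by
      have := he a
      intro h
      linarith only [this, h]
    simpa [h5] using h4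
  have hfr : Module.finrank ℝ (ι → ℝ) = Module.finrank ℝ (SN hκ n) := by
    refine le_antisymm (LinearMap.finrank_le_finrank_of_injective hLinj) ?_
    rw [Module.finrank_fintype_fun_eq_card]
    refine le_trans ?_ hcard
    exact Submodule.finrank_map_le (Ξ hκ) (E n)
  have hLsurj : Function.Surjective L :=
    (LinearMap.injective_iff_surjective_of_finrank_eq_finrank hfr).1 hLinj
  -- the decomposition
  obtain ⟨d, hd⟩ : ∃ d : ι → ℝ, ∀ a, d a = ipB (φ a) u := ⟨fun a => ipB (φ a) u, fun _ => rfl⟩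
  obtain ⟨u', hu'⟩ : ∃ u', u' = u - F d := ⟨_, rfl⟩
  have hu'φ : ∀ a, ipB (φ a) u' = 0 := by
    intro a
    rw [hu', map_sub, hipF, hd, sub_self]
  obtain ⟨c, hc⟩ := hLsurj ((SN hκ n).orthogonalProjectionOnto (toHL u'))
  have h0 : (SN hκ n).orthogonalProjectionOnto (toHL (u' - F c)) = 0 := by
    rw [map_sub, map_sub, sub_eq_zero]
    exact hc.symm
  have h1 : 0 ≤ QB κ (u' - F c) (u' - F c) := QB_nonneg n (hproj _ h0)
  have h2 : QB κ (F c) u' = 0 := by
    rw [hQF]
    refine Finset.sum_eq_zero fun a _ => ?_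
    rw [hu'φ, mul_zero, mul_zero]
  have h3 : QB κ (u' - F c) (u' - F c) = QB κ u' u' + QB κ (F c) (F c) := by
    have e1 : QB κ (u' - F c) = QB κ u' - QB κ (F c) := map_sub _ _ _
    rw [e1, LinearMap.sub_apply, map_sub (QB κ u'), map_sub (QB κ (F c)), QB_comm κ u' (F c), h2]
    ring
  have h4 : 0 ≤ QB κ u' u' := by
    have := hQFneg c
    linarith only [h1, h3, this]
  have h5 : QB κ (F d) u' = 0 := by
    rw [hQF]
    refine Finset.sum_eq_zero fun a _ => ?_
    rw [hu'φ, mul_zero, mul_zero]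
  have h6 : u = u' + F d := by
    rw [hu']
    abel
  have h7 : QB κ u u = QB κ u' u' + QB κ (F d) (F d) := by
    have e1 : QB κ (u' + F d) = QB κ u' + QB κ (F d) := map_add _ _ _
    conv_lhs => rw [h6]
    rw [e1, LinearMap.add_apply, map_add (QB κ u'), map_add (QB κ (F d)), QB_comm κ u' (F d), h5]
    ring
  rw [hQFF] at h7
  simp only [hd] at h7
  rw [QB_apply, hee] at h7
  linarith only [h4, h7]

end Vale.Agent.P370.Hyd
end

section

/-! Dimension counts. -/

namespace Vale.Agent.P370.Hyd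

open MeasureTheory Filter Topology MvPolynomial

/-- exponents of degree `< N` -/
noncomputable def expo (N : ℕ) : Finset (Fin 3 →₀ ℕ) :=
  (Finset.range N).biUnion fun k => (Finset.univ : Finset (Fin 3)).finsuppAntidiag k

theorem mem_antidiag {k : ℕ} {d : Fin 3 →₀ ℕ} :
    d ∈ (Finset.univ : Finset (Fin 3)).finsuppAntidiag k ↔ d.degree = k := by
  rw [Finset.mem_finsuppAntidiag, Finsupp.degree_eq_sum]
  simp only [Finset.subset_univ, and_true]

theorem mem_expo {N : ℕ} {d : Fin 3 →₀ ℕ} : d ∈ expo N ↔ d.degree < N := by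
  unfold expo
  simp only [Finset.mem_biUnion, Finset.mem_range, mem_antidiag]
  constructor
  · rintro ⟨k, hk, rfl⟩
    exact hk
  · intro h
    exact ⟨_, h, rfl⟩

theorem card_antidiag (k : ℕ) :
    ((Finset.univ : Finset (Fin 3)).finsuppAntidiag k).card = (k + 2).choose 2 := by
  rw [Finset.card_finsuppAntidiag_nat_eq_choose, Finset.card_univ, Fintype.card_fin]
  have : 3 + k - 1 = k + 2 := by omega
  rw [this, ← Nat.choose_symm_add]

theorem card_expo (N : ℕ) : (expo N).card = ∑ k ∈ Finset.range N, (k + 2).choose 2 := by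
  unfold expo
  rw [Finset.card_biUnion]
  · exact Finset.sum_congr rfl fun k _ => card_antidiag k
  · intro k _ m _ hkm
    show Disjoint _ _
    rw [Finset.disjoint_left]
    intro d hd hd'
    rw [mem_antidiag] at hd hd'
    omega

theorem ltCoord_surjective (N : ℕ) : Function.Surjective (ltCoord N) := by
  intro f
  classical
  have hfin : Finite {d : Fin 3 →₀ ℕ // d.degree < N} := finite_index N
  have := Fintype.ofFinite {d : Fin 3 →₀ ℕ // d.degree < N}
  refine ⟨⟨∑ d : {d : Fin 3 →₀ ℕ // d.degree < N}, monomial d.1 (f d), ?_⟩, ?_⟩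
  · exact Submodule.sum_mem _ fun d _ => monomial_mem_lt d.2 _
  · funext d
    show coeff d.1 (∑ d : {d : Fin 3 →₀ ℕ // d.degree < N}, monomial d.1 (f d)) = f d
    rw [coeff_sum]
    simp only [coeff_monomial]
    rw [Finset.sum_eq_single d]
    · simp
    · intro b _ hb
      rw [if_neg]
      intro h
      exact hb (Subtype.ext h)
    · intro h
      exact absurd (Finset.mem_univ d) h

theorem finrank_lt (N : ℕ) : Module.finrank ℝ (lt N) = ∑ k ∈ Finset.range N, (k + 2).choose 2 := by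
  classical
  have hfin : Finite {d : Fin 3 →₀ ℕ // d.degree < N} := finite_index N
  have := Fintype.ofFinite {d : Fin 3 →₀ ℕ // d.degree < N}
  have e := LinearEquiv.ofBijective (ltCoord N) ⟨ltCoord_injective N, ltCoord_surjective N⟩
  rw [e.finrank_eq, Module.finrank_fintype_fun_eq_card, ← card_expo]
  exact Fintype.card_of_subtype _ fun d => mem_expo

theorem finrank_E (n : ℕ) : Module.finrank ℝ (E n) = ∑ k ∈ Finset.range n, (k + 1) ^ 2 := by
  rw [(eEquiv n).finrank_eq, Module.finrank_prod, finrank_lt, finrank_lt]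
  induction n with
  | zero => simp only [Finset.range_zero, Finset.sum_empty, zero_tsub, add_zero]
  | succ n ih =>
    rw [Finset.sum_range_succ _ n, Finset.sum_range_succ (fun k => (k + 1) ^ 2) n, ← ih,
      Nat.add_sub_cancel]
    rcases Nat.eq_zero_or_pos n with h | h
    · subst h
      simp only [Finset.range_zero, Finset.sum_empty, zero_add, Nat.choose_self, add_zero, zero_tsub, one_pow]
    · obtain ⟨m, rfl⟩ : ∃ m, n = m + 1 := ⟨n - 1, by omega⟩
      rw [Nat.add_sub_cancel, Finset.sum_range_succ _ m]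
      have h1 : (m + 1 + 2).choose 2 + (m + 2).choose 2 = (m + 1 + 1) ^ 2 := by
        rw [Nat.choose_two_right, Nat.choose_two_right]
        have e1 : m + 1 + 2 - 1 = m + 2 := by omega
        have e2 : m + 2 - 1 = m + 1 := by omega
        rw [e1, e2]
        have h3 : 2 ∣ (m + 1 + 2) * (m + 2) := by
          have := Nat.even_mul_succ_self (m + 2)
          rw [mul_comm]
          exact this.two_dvd
        have h4 : 2 ∣ (m + 2) * (m + 1) := by
          have := Nat.even_mul_succ_self (m + 1)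
          rw [mul_comm]
          exact this.two_dvd
        obtain ⟨a, ha⟩ := h3
        obtain ⟨b, hb⟩ := h4
        rw [ha, hb, Nat.mul_div_cancel_left _ two_pos, Nat.mul_div_cancel_left _ two_pos]
        (clear * - ha hb; nlinarith)
      omega

/-- homogeneous polynomials of degree `l` -/
abbrev Hom (l : ℕ) : Submodule ℝ Pl := homogeneousSubmodule (Fin 3) ℝ l

/-- harmonic homogeneous polynomials -/
noncomputable def Harm (l : ℕ) : Submodule ℝ Pl := Hom l ⊓ LinearMap.ker lapL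

theorem mem_Harm {l : ℕ} {P : Pl} : P ∈ Harm l ↔ P.IsHomogeneous l ∧ lapP P = 0 := by
  unfold Harm
  rw [Submodule.mem_inf, mem_homogeneousSubmodule, LinearMap.mem_ker, lapL_apply]

theorem Hom_le_lt (l : ℕ) : Hom l ≤ lt (l + 1) := fun _ hP =>
  isHomogeneous_mem_lt ((mem_homogeneousSubmodule _ _).1 hP) (Nat.lt_succ_self l)

instance (l : ℕ) : FiniteDimensional ℝ (Hom l) :=
  Submodule.finiteDimensional_of_le (Hom_le_lt l)

/-- the coefficients as coordinates -/
noncomputable def homCoord (l : ℕ) :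
    Hom l →ₗ[ℝ] ((Finset.univ : Finset (Fin 3)).finsuppAntidiag l → ℝ) where
  toFun P d := coeff d.1 P.1
  map_add' P Q := by
    funext d
    exact coeff_add _ _ _
  map_smul' c P := by
    funext d
    exact coeff_smul _ _ _

theorem homCoord_injective (l : ℕ) : Function.Injective (homCoord l) := by
  intro P Q h
  refine Subtype.ext (MvPolynomial.ext _ _ fun d => ?_)
  by_cases hd : d.degree = l
  · exact congrFun h ⟨d, mem_antidiag.2 hd⟩
  · have h1 := (mem_homogeneousSubmodule _ _).1 P.2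
    have h2 := (mem_homogeneousSubmodule _ _).1 Q.2
    rw [h1.coeff_eq_zero hd, h2.coeff_eq_zero hd]

theorem homCoord_surjective (l : ℕ) : Function.Surjective (homCoord l) := by
  intro f
  classical
  refine ⟨⟨∑ d : (Finset.univ : Finset (Fin 3)).finsuppAntidiag l, monomial d.1 (f d), ?_⟩, ?_⟩
  · exact Submodule.sum_mem _ fun d _ => (mem_homogeneousSubmodule _ _).2
      (isHomogeneous_monomial _ (mem_antidiag.1 d.2))
  · funext d
    show coeff d.1 (∑ d : (Finset.univ : Finset (Fin 3)).finsuppAntidiag l,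
      monomial d.1 (f d)) = f d
    rw [coeff_sum]
    simp only [coeff_monomial]
    rw [Finset.sum_eq_single d]
    · simp
    · intro b _ hb
      rw [if_neg]
      intro h
      exact hb (Subtype.ext h)
    · intro h
      exact absurd (Finset.mem_univ d) h

theorem finrank_Hom (l : ℕ) : Module.finrank ℝ (Hom l) = (l + 2).choose 2 := by
  have e := LinearEquiv.ofBijective (homCoord l) ⟨homCoord_injective l, homCoord_surjective l⟩
  rw [e.finrank_eq, Module.finrank_fintype_fun_eq_card, Fintype.card_coe, card_antidiag]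

theorem pderiv_isHomogeneous {l : ℕ} {P : Pl} (hP : P.IsHomogeneous (l + 1)) (i : Fin 3) :
    (pderiv i P).IsHomogeneous l := hP.pderiv

theorem lapP_isHomogeneous {l : ℕ} {P : Pl} (hP : P.IsHomogeneous (l + 2)) :
    (lapP P).IsHomogeneous l :=
  IsHomogeneous.sum _ _ _ fun i _ => (hP.pderiv (i := i)).pderiv

instance (l : ℕ) : FiniteDimensional ℝ (Harm l) :=
  Submodule.finiteDimensional_of_le (inf_le_left : Harm l ≤ Hom l)

theorem finrank_Harm_ge (l : ℕ) : 2 * l + 1 ≤ Module.finrank ℝ (Harm l) := by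
  rcases Nat.lt_or_ge l 2 with hl | hl
  · have h1 : Harm l = Hom l := by
      refine inf_eq_left.2 fun P hP => ?_
      rw [LinearMap.mem_ker, lapL_apply]
      rcases Nat.lt_or_ge 0 l with h0 | h0
      · have : l = 1 := by omega
        subst this
        unfold lapP
        refine Finset.sum_eq_zero fun i _ => ?_
        have h2 : pderiv i P ∈ lt 1 := pderiv_mem_lt i (Hom_le_lt 1 hP)
        exact pderiv_lt_zero i h2
      · have : l = 0 := by (clear * - hl h0; omega)
        subst this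
        exact lapP_lt_one (Hom_le_lt 0 hP)
    rw [h1, finrank_Hom]
    interval_cases l <;> decide
  · obtain ⟨m, rfl⟩ : ∃ m, l = m + 2 := ⟨l - 2, by (clear * - hl; omega)⟩
    let f : Hom (m + 2) →ₗ[ℝ] Hom m := (lapL.domRestrict (Hom (m + 2))).codRestrict (Hom m)
      (fun P => by
        rw [LinearMap.domRestrict_apply, lapL_apply]
        exact (mem_homogeneousSubmodule _ _).2
          (lapP_isHomogeneous ((mem_homogeneousSubmodule _ _).1 P.2)))
    have h1 := LinearMap.finrank_range_add_finrank_ker f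
    have h2 : Module.finrank ℝ (LinearMap.range f) ≤ Module.finrank ℝ (Hom m) :=
      Submodule.finrank_le _
    have h3 : Module.finrank ℝ (LinearMap.ker f) = Module.finrank ℝ (Harm (m + 2)) := by
      have e : LinearMap.ker f = (Harm (m + 2)).comap (Hom (m + 2)).subtype := by
        ext P
        rw [LinearMap.mem_ker, Submodule.mem_comap, Submodule.subtype_apply, mem_Harm,
          ← lapL_apply]
        constructor
        · intro h
          exact ⟨(mem_homogeneousSubmodule _ _).1 P.2, congrArg Subtype.val h⟩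
        · intro h
          exact Subtype.ext h.2
      rw [e]
      exact (Submodule.comapSubtypeEquivOfLe (inf_le_left : Harm (m + 2) ≤ Hom (m + 2))).finrank_eq
    rw [finrank_Hom] at h1 h2
    have h4 : (m + 2 + 2).choose 2 = (m + 2).choose 2 + (2 * (m + 2) + 1) := by
      rw [Nat.choose_succ_succ' (m + 3) 1, Nat.choose_succ_succ' (m + 2) 1]
      simp only [Nat.choose_one_right, Nat.reduceAdd]
      ring
    omega

end Vale.Agent.P370.Hyd
end

section

/-! The subshells: `h(x) L(‖x‖) exp(-‖x‖/n)` with `h` harmonic. -/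

namespace Vale.Agent.P370.Hyd

open MeasureTheory Filter Topology MvPolynomial

theorem pderiv_nsq (i : Fin 3) : pderiv i nsq = C 2 * X i := by
  have h2 : (C 2 : Pl) = 1 + 1 := by
    rw [← C_1, ← C_add]
    norm_num
  unfold nsq
  rw [map_sum, Finset.sum_eq_single i]
  · rw [pow_two, Derivation.leibniz, pderiv_X_self, h2, smul_eq_mul]
    ring
  · intro j _ hj
    rw [pow_two, Derivation.leibniz, pderiv_X_of_ne hj]
    simp
  · intro h
    exact absurd (Finset.mem_univ i) h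

theorem lapP_nsq_mul {d : ℕ} {f : Pl} (hf : f.IsHomogeneous d) :
    lapP (nsq * f) = C (4 * (d : ℝ) + 6) * f + nsq * lapP f := by
  have h2 : (C 2 : Pl) = 1 + 1 := by
    rw [← C_1, ← C_add]
    (clear * -; norm_num)
  have he : X 0 * pderiv 0 f + X 1 * pderiv 1 f + X 2 * pderiv 2 f = C (d : ℝ) * f := by
    have h := hf.sum_X_mul_pderiv
    rw [Fin.sum_univ_three] at h
    rw [h, nsmul_eq_mul]
    rw [show (C (d : ℝ) : Pl) = (d : Pl) from map_natCast C d]
  have hk : ∀ i : Fin 3, pderiv i (pderiv i (nsq * f))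
      = C 2 * f + C 4 * (X i * pderiv i f) + nsq * pderiv i (pderiv i f) := by
    intro i
    have h4 : (C 4 : Pl) = C 2 + C 2 := by
      rw [← C_add]
      norm_num
    rw [Derivation.leibniz, pderiv_nsq, smul_eq_mul, smul_eq_mul, map_add, Derivation.leibniz,
      Derivation.leibniz, pderiv_nsq, Derivation.leibniz, pderiv_C, pderiv_X_self, h4]
    simp only [smul_eq_mul]
    ring
  unfold lapP
  rw [Fin.sum_univ_three, Fin.sum_univ_three, hk, hk, hk]
  have h6 : (C (4 * (d : ℝ) + 6) : Pl) = C 4 * C (d : ℝ) + (C 2 + C 2 + C 2) := by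
    rw [← C_mul, ← C_add, ← C_add, ← C_add]
    congr 1
    ring
  rw [h6, add_mul, mul_assoc (C 4), ← he]
  ring

theorem isHomogeneous_nsq : nsq.IsHomogeneous 2 :=
  IsHomogeneous.sum _ _ _ fun i _ => by
    have := (isHomogeneous_X ℝ i).pow 2
    rwa [one_mul] at this

theorem isHomogeneous_nsq_pow_mul {l : ℕ} {h : Pl} (hh : h.IsHomogeneous l) (i : ℕ) :
    (nsq ^ i * h).IsHomogeneous (2 * i + l) :=
  (isHomogeneous_nsq.pow i).mul hh

theorem lapP_nsq_pow {l : ℕ} {h : Pl} (hh : h ∈ Harm l) (i : ℕ) :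
    lapP (nsq ^ i * h) = C (2 * (i : ℝ) * (2 * i + 2 * l + 1)) * (nsq ^ (i - 1) * h) := by
  obtain ⟨h1, h2⟩ := mem_Harm.1 hh
  induction i with
  | zero =>
    rw [pow_zero, one_mul, h2]
    simp
  | succ i ih =>
    rw [pow_succ', mul_assoc, lapP_nsq_mul (isHomogeneous_nsq_pow_mul h1 i), ih,
      Nat.add_sub_cancel]
    rcases Nat.eq_zero_or_pos i with h0 | h0
    · subst h0
      simp only [Nat.cast_zero, mul_zero, zero_mul, C_0, add_zero, Nat.cast_add, Nat.cast_one]
      congr 2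
      push_cast
      ring
    · obtain ⟨j, rfl⟩ : ∃ j, i = j + 1 := ⟨i - 1, by (clear * - h0; omega)⟩
      rw [Nat.add_sub_cancel, mul_left_comm nsq (C _), ← mul_assoc nsq (nsq ^ j) h, ← pow_succ',
        ← add_mul, ← C_add]
      congr 2
      push_cast
      ring

/-- the pair representing `‖x‖ ^ j h` -/
noncomputable def pw (h : Pl) (j : ℕ) : Pl × Pl :=
  if Even j then (nsq ^ (j / 2) * h, 0) else (0, nsq ^ (j / 2) * h)

theorem xp_pw (κ : ℝ) (h : Pl) (j : ℕ) (x : R3) :
    xp κ (pw h j).1 (pw h j).2 x = ‖x‖ ^ j * ev h x * Real.exp (-κ * ‖x‖) := by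
  have hn := ev_nsq x
  unfold ev at hn
  unfold pw xp
  by_cases hj : Even j
  · rw [if_pos hj]
    obtain ⟨i, rfl⟩ := hj
    have : (i + i) / 2 = i := by (clear * -; omega)
    rw [this]
    simp only [ev, map_mul, map_pow, map_zero, mul_zero, add_zero, hn]
    rw [← pow_mul, two_mul]
  · rw [if_neg hj]
    obtain ⟨i, rfl⟩ := Nat.not_even_iff_odd.1 hj
    have : (2 * i + 1) / 2 = i := by (clear * -; omega)
    rw [this]
    simp only [ev, map_zero, map_mul, map_pow, hn, zero_add]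
    rw [← pow_mul]
    ring

theorem eul_of_homog {d : ℕ} {f : Pl} (hf : f.IsHomogeneous d) : eul f = C (d : ℝ) * f := by
  unfold eul
  rw [hf.sum_X_mul_pderiv, nsmul_eq_mul, show (C (d : ℝ) : Pl) = (d : Pl) from map_natCast C d]

theorem TL_pw (κ : ℝ) {l : ℕ} {h : Pl} (hh : h ∈ Harm l) (j : ℕ) :
    TL κ (pw h j) = (κ * (j + l + 1)) • pw h j
      - ((1 / 2) * (j : ℝ) * (j + 2 * l + 1)) • pw h (j - 1) := by
  obtain ⟨h1, h2⟩ := mem_Harm.1 hh
  by_cases hj : Even j
  · obtain ⟨i, rfl⟩ := hj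
    have hp : pw h (i + i) = (nsq ^ i * h, 0) := by
      unfold pw
      rw [if_pos ⟨i, rfl⟩]
      have : (i + i) / 2 = i := by omega
      rw [this]
    rw [TL_apply, hp]
    rcases Nat.eq_zero_or_pos i with h0 | h0
    · subst h0
      have hl := lapP_nsq_pow hh 0
      have he := eul_of_homog (isHomogeneous_nsq_pow_mul h1 0)
      unfold TP TQ
      simp only [hl, he]
      refine Prod.ext ?_ ?_
      · simp only [Prod.fst_sub, Prod.smul_fst, smul_eq_C_mul]
        simp only [eul, lapP, map_zero, mul_zero, Finset.sum_const_zero, add_zero, sub_zero,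
          Nat.cast_zero, zero_mul, C_0, zero_add, pow_zero, one_mul]
        rw [C_mul, C_add, C_1]
        ring
      · simp only [Prod.snd_sub, Prod.smul_snd, smul_eq_C_mul]
        simp only [eul, lapP, map_zero, mul_zero, Finset.sum_const_zero, add_zero, sub_zero,
          Nat.cast_zero, zero_mul, C_0, zero_add, pow_zero, one_mul]
    · obtain ⟨m, rfl⟩ : ∃ m, i = m + 1 := ⟨i - 1, by omega⟩
      have hp1 : pw h (m + 1 + (m + 1) - 1) = (0, nsq ^ m * h) := by
        unfold pw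
        rw [if_neg]
        · have : (m + 1 + (m + 1) - 1) / 2 = m := by omega
          rw [this]
        · rw [Nat.not_even_iff_odd]
          exact ⟨m, by omega⟩
      rw [hp1]
      have hl := lapP_nsq_pow hh (m + 1)
      have he := eul_of_homog (isHomogeneous_nsq_pow_mul h1 (m + 1))
      unfold TP TQ
      simp only [hl, he]
      refine Prod.ext ?_ ?_
      · simp only [Prod.fst_sub, Prod.smul_fst, smul_eq_C_mul]
        simp only [eul, map_zero, mul_zero, Finset.sum_const_zero, add_zero, sub_zero, lapP]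
        have e : C (κ * (((m + 1 + (m + 1) : ℕ) : ℝ) + (l : ℝ) + 1))
            = (C κ * (C ((2 * (m + 1) + l : ℕ) : ℝ) + 1) : Pl) := by
          rw [← C_1, ← C_add, ← C_mul]
          congr 1
          push_cast
          ring
        rw [e]
        ring
      · simp only [Prod.snd_sub, Prod.smul_snd, smul_eq_C_mul]
        simp only [eul, map_zero, mul_zero, Finset.sum_const_zero, add_zero, Nat.add_sub_cancel, zero_sub]
        rw [← mul_assoc, ← C_mul]
        congr 3
        push_cast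
        ring
  · obtain ⟨i, rfl⟩ := Nat.not_even_iff_odd.1 hj
    have hp : pw h (2 * i + 1) = (0, nsq ^ i * h) := by
      unfold pw
      rw [if_neg hj]
      have : (2 * i + 1) / 2 = i := by omega
      rw [this]
    have hp1 : pw h (2 * i + 1 - 1) = (nsq ^ i * h, 0) := by
      unfold pw
      rw [Nat.add_sub_cancel, if_pos ⟨i, by omega⟩]
      have : (2 * i) / 2 = i := by omega
      rw [this]
    rw [TL_apply, hp, hp1]
    have hl := lapP_nsq_pow hh i
    have he := eul_of_homog (isHomogeneous_nsq_pow_mul h1 i)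
    have hnl : nsq * lapP (nsq ^ i * h)
        = C (2 * (i : ℝ) * (2 * i + 2 * l + 1)) * (nsq ^ i * h) := by
      rw [hl]
      rcases Nat.eq_zero_or_pos i with h0 | h0
      · subst h0
        simp only [CharP.cast_eq_zero, mul_zero, zero_add, zero_mul, C_0, zero_tsub, pow_zero, one_mul]
      · obtain ⟨m, rfl⟩ : ∃ m, i = m + 1 := ⟨i - 1, by omega⟩
        rw [Nat.add_sub_cancel, pow_succ']
        ring
    unfold TP TQ
    simp only [hnl, he]
    refine Prod.ext ?_ ?_
    · simp only [Prod.fst_sub, Prod.smul_fst, smul_eq_C_mul]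
      simp only [eul, map_zero, mul_zero, Finset.sum_const_zero, add_zero, zero_sub]
      have e : C (1 / 2 * ((2 * i + 1 : ℕ) : ℝ) * (((2 * i + 1 : ℕ) : ℝ) + 2 * (l : ℝ) + 1))
          = (C ((2 * i + l : ℕ) : ℝ) + 1 + C (1 / 2) * C (2 * (i : ℝ) * (2 * i + 2 * l + 1)) : Pl)
          := by
        rw [← C_1, ← C_add, ← C_mul, ← C_add]
        congr 1
        push_cast
        ring
      rw [e]
      ring
    · simp only [Prod.snd_sub, Prod.smul_snd, smul_eq_C_mul]
      simp only [lapP, map_zero, Finset.sum_const_zero, mul_zero, sub_zero]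
      rw [← add_mul, ← mul_assoc, ← C_add, ← C_mul]
      congr 2
      push_cast
      ring

/-- Laguerre coefficients -/
noncomputable def cf (κ : ℝ) (l : ℕ) : ℕ → ℝ
  | 0 => 1
  | j + 1 => 2 * (κ * (j + l + 1) - 1) / ((j + 1) * (j + 2 * l + 2)) * cf κ l j

/-- the pair representing `h L(‖x‖)` -/
noncomputable def zf (κ : ℝ) (l M : ℕ) (h : Pl) : Pl × Pl :=
  ∑ j ∈ Finset.range M, cf κ l j • pw h j

theorem TL_zf_aux (κ : ℝ) {l : ℕ} {h : Pl} (hh : h ∈ Harm l) (M : ℕ) :
    TL κ (zf κ l (M + 1) h) = zf κ l (M + 1) h + ((κ * (M + l + 1) - 1) * cf κ l M) • pw h M := by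
  induction M with
  | zero =>
    unfold zf
    rw [Finset.sum_range_one, map_smul, TL_pw κ hh]
    simp only [cf, one_smul, Nat.cast_zero, mul_zero, zero_mul, zero_smul, sub_zero, mul_one]
    rw [sub_smul, one_smul]
    abel
  | succ M ih =>
    unfold zf at ih ⊢
    rw [Finset.sum_range_succ, map_add, ih, map_smul, TL_pw κ hh, Nat.add_sub_cancel, smul_sub,
      smul_smul, smul_smul]
    have e1 : (κ * ((M : ℝ) + l + 1) - 1) * cf κ l M
        = cf κ l (M + 1) * (1 / 2 * ((M + 1 : ℕ) : ℝ) * (((M + 1 : ℕ) : ℝ) + 2 * l + 1)) := by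
      have h1 : ((M : ℝ) + 1) ≠ 0 := by positivity
      have h2 : ((M : ℝ) + 2 * l + 2) ≠ 0 := by (clear * -; positivity)
      rw [cf]
      push_cast
      field_simp
      ring
    rw [e1, sub_mul, one_mul, sub_smul, mul_comm (cf κ l (M + 1)) (κ * _)]
    abel

theorem TL_zf {n l : ℕ} (hl : l < n) {h : Pl} (hh : h ∈ Harm l) :
    TL (1 / (n : ℝ)) (zf (1 / (n : ℝ)) l (n - l) h) = zf (1 / (n : ℝ)) l (n - l) h := by
  obtain ⟨M, rfl⟩ : ∃ M, n = M + l + 1 := ⟨n - l - 1, by omega⟩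
  have : M + l + 1 - l = M + 1 := by omega
  rw [this, TL_zf_aux _ hh]
  have h0 : ((M : ℝ) + l + 1) ≠ 0 := by (clear * -; positivity)
  have h1 : 1 / ((M + l + 1 : ℕ) : ℝ) * ((M : ℝ) + l + 1) - 1 = 0 := by
    push_cast
    field_simp
    ring
  rw [h1, zero_mul, zero_smul, add_zero]

/-- the radial polynomial -/
noncomputable def Lr (κ : ℝ) (l M : ℕ) (r : ℝ) : ℝ := ∑ j ∈ Finset.range M, cf κ l j * r ^ j

theorem xp_zf (κ : ℝ) (l M : ℕ) (h : Pl) (x : R3) :
    xp κ (zf κ l M h).1 (zf κ l M h).2 x = ev h x * (Lr κ l M ‖x‖ * Real.exp (-κ * ‖x‖)) := by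
  induction M with
  | zero =>
    simp [zf, Lr, xp, ev]
  | succ M ih =>
    have e : zf κ l (M + 1) h = zf κ l M h + cf κ l M • pw h M := by
      unfold zf
      rw [Finset.sum_range_succ]
    have e2 : Lr κ l (M + 1) ‖x‖ = Lr κ l M ‖x‖ + cf κ l M * ‖x‖ ^ M := by
      unfold Lr
      rw [Finset.sum_range_succ]
    have h2 := xp_pw κ h M x
    rw [e, e2]
    unfold xp at ih h2 ⊢
    simp only [Prod.fst_add, Prod.smul_fst, ev_add, Prod.snd_add, Prod.smul_snd]
    have e3 : ∀ (c : ℝ) (P : Pl), ev (c • P) x = c * ev P x := fun c P => by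
      simp only [ev, smul_eval]
    rw [e3, e3]
    linear_combination ih + cf κ l M * h2

end Vale.Agent.P370.Hyd
end

section

/-!
Polar coordinates for (homogeneous) times (radial) functions.
-/

namespace Vale.Agent.P370.GC

open MeasureTheory Set Metric Module

section

variable {E : Type*} [NormedAddCommGroup E] [NormedSpace ℝ E] [MeasurableSpace E]
  [Nontrivial E] (μ : Measure E) [FiniteDimensional ℝ E] [BorelSpace E] [μ.IsAddHaarMeasure]

theorem integral_homog_mul_radial (h : E → ℂ) (m : ℕ)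
    (hh : ∀ t : ℝ, 0 < t → ∀ x, h (t • x) = (t : ℂ) ^ m * h x) (g : ℝ → ℂ) :
    ∫ x, h x * g ‖x‖ ∂μ =
      (∫ ω : sphere (0 : E) 1, h ω ∂μ.toSphere) *
        ∫ r in Ioi (0 : ℝ), (r : ℂ) ^ (m + (finrank ℝ E - 1)) * g r := by
  calc
    ∫ x, h x * g ‖x‖ ∂μ = ∫ x : ({(0)}ᶜ : Set E), h x.1 * g (‖x.1‖) ∂(μ.comap (↑)) := by
      rw [integral_subtype_comap (measurableSet_singleton _).compl fun x ↦ h x * g (‖x‖),
        restrict_compl_singleton]
    _ = ∫ x : (sphere (0 : E) 1) × (Ioi (0 : ℝ)), h x.1 * (((x.2 : ℝ) : ℂ) ^ m * g x.2)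
          ∂μ.toSphere.prod (.volumeIoiPow (finrank ℝ E - 1)) := by
      have := μ.measurePreserving_homeomorphUnitSphereProd.integral_comp
        (Homeomorph.measurableEmbedding _)
        (fun x : (sphere (0 : E) 1) × (Ioi (0 : ℝ)) => h x.1 * (((x.2 : ℝ) : ℂ) ^ m * g x.2))
      rw [← this]
      refine integral_congr_ae (.of_forall fun x => ?_)
      have hx : (0 : ℝ) < ‖(x : E)‖ := norm_pos_iff.2 x.2
      have h1 := hh ‖(x : E)‖ hx (‖(x : E)‖⁻¹ • (x : E))
      rw [smul_smul, mul_inv_cancel₀ hx.ne', one_smul] at h1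
      simp only [homeomorphUnitSphereProd_apply_fst_coe, homeomorphUnitSphereProd_apply_snd_coe]
      rw [h1]
      ring
    _ = (∫ ω : sphere (0 : E) 1, h ω ∂μ.toSphere) *
          ∫ r : Ioi (0 : ℝ), ((r : ℝ) : ℂ) ^ m * g r ∂(.volumeIoiPow (finrank ℝ E - 1)) :=
      integral_prod_mul (fun ω : sphere (0 : E) 1 => h ω)
        (fun r : Ioi (0 : ℝ) => ((r : ℝ) : ℂ) ^ m * g r)
    _ = _ := by
      congr 1
      simp only [Measure.volumeIoiPow, ENNReal.ofReal]
      rw [integral_withDensity_eq_integral_smul,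
        integral_subtype_comap measurableSet_Ioi
          fun a : ℝ ↦ Real.toNNReal (a ^ (finrank ℝ E - 1)) • ((a : ℂ) ^ m * g a),
        setIntegral_congr_fun measurableSet_Ioi fun x hx ↦ ?_]
      · rw [NNReal.smul_def, Real.coe_toNNReal _ (pow_nonneg hx.out.le _)]
        simp only [Complex.real_smul]
        push_cast
        ring
      · exact (measurable_subtype_coe.pow_const _).real_toNNReal

theorem integral_homog_mul_radial_real (h : E → ℝ) (m : ℕ)
    (hh : ∀ t : ℝ, 0 < t → ∀ x, h (t • x) = t ^ m * h x) (g : ℝ → ℝ) :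
    ∫ x, h x * g ‖x‖ ∂μ =
      (∫ ω : sphere (0 : E) 1, h ω ∂μ.toSphere) *
        ∫ r in Ioi (0 : ℝ), r ^ (m + (finrank ℝ E - 1)) * g r := by
  calc
    ∫ x, h x * g ‖x‖ ∂μ = ∫ x : ({(0)}ᶜ : Set E), h x.1 * g (‖x.1‖) ∂(μ.comap (↑)) := by
      rw [integral_subtype_comap (measurableSet_singleton _).compl fun x ↦ h x * g (‖x‖),
        restrict_compl_singleton]
    _ = ∫ x : (sphere (0 : E) 1) × (Ioi (0 : ℝ)), h x.1 * ((x.2 : ℝ) ^ m * g x.2)
          ∂μ.toSphere.prod (.volumeIoiPow (finrank ℝ E - 1)) := by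
      have := μ.measurePreserving_homeomorphUnitSphereProd.integral_comp
        (Homeomorph.measurableEmbedding _)
        (fun x : (sphere (0 : E) 1) × (Ioi (0 : ℝ)) => h x.1 * ((x.2 : ℝ) ^ m * g x.2))
      rw [← this]
      refine integral_congr_ae (.of_forall fun x => ?_)
      have hx : (0 : ℝ) < ‖(x : E)‖ := norm_pos_iff.2 x.2
      have h1 := hh ‖(x : E)‖ hx (‖(x : E)‖⁻¹ • (x : E))
      rw [smul_smul, mul_inv_cancel₀ hx.ne', one_smul] at h1
      simp only [homeomorphUnitSphereProd_apply_fst_coe, homeomorphUnitSphereProd_apply_snd_coe]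
      rw [h1]
      ring
    _ = (∫ ω : sphere (0 : E) 1, h ω ∂μ.toSphere) *
          ∫ r : Ioi (0 : ℝ), (r : ℝ) ^ m * g r ∂(.volumeIoiPow (finrank ℝ E - 1)) :=
      integral_prod_mul (fun ω : sphere (0 : E) 1 => h ω)
        (fun r : Ioi (0 : ℝ) => (r : ℝ) ^ m * g r)
    _ = _ := by
      congr 1
      simp only [Measure.volumeIoiPow, ENNReal.ofReal]
      rw [integral_withDensity_eq_integral_smul,
        integral_subtype_comap measurableSet_Ioi
          fun a : ℝ ↦ Real.toNNReal (a ^ (finrank ℝ E - 1)) • (a ^ m * g a),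
        setIntegral_congr_fun measurableSet_Ioi fun x hx ↦ ?_]
      · rw [NNReal.smul_def, Real.coe_toNNReal _ (pow_nonneg hx.out.le _)]
        simp only [smul_eq_mul]
        ring
      · exact (measurable_subtype_coe.pow_const _).real_toNNReal

end

end Vale.Agent.P370.GC
end

section

/-! Sphere integrals of products of harmonic polynomials. -/

namespace Vale.Agent.P370.Hyd

open MeasureTheory Filter Topology MvPolynomial

theorem ev_smul_homog {l : ℕ} {P : Pl} (hP : P.IsHomogeneous l) (t : ℝ) (x : R3) :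
    ev P (t • x) = t ^ l * ev P x := by
  unfold ev
  rw [eval_eq', eval_eq', Finset.mul_sum]
  refine Finset.sum_congr rfl fun d hd => ?_
  have h1 : d.degree = l := by
    by_contra hcon
    exact (mem_support_iff.1 hd) (hP.coeff_eq_zero hcon)
  have h2 : ∏ i, (t • x) i ^ d i = t ^ l * ∏ i, x i ^ d i := by
    simp only [PiLp.smul_apply, smul_eq_mul, mul_pow, Finset.prod_mul_distrib]
    rw [Finset.prod_pow_eq_pow_sum, ← h1, Finsupp.degree_eq_sum]
  rw [h2]
  ring

/-- the sphere integral of a product -/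
noncomputable def sph (P Q : Pl) : ℝ :=
  ∫ ω : Metric.sphere (0 : R3) 1, ev P ω * ev Q ω ∂(volume : Measure R3).toSphere

theorem sph_comm (P Q : Pl) : sph P Q = sph Q P := by
  unfold sph
  simp only [mul_comm]

theorem integral_homog {l l' : ℕ} {P Q : Pl} (hP : P.IsHomogeneous l) (hQ : Q.IsHomogeneous l')
    (g : ℝ → ℝ) : ∫ x : R3, ev P x * ev Q x * g ‖x‖
      = sph P Q * ∫ r in Set.Ioi (0 : ℝ), r ^ (l + l' + 2) * g r := by
  have h := Vale.Agent.P370.GC.integral_homog_mul_radial_real (volume : Measure R3)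
    (fun x => ev P x * ev Q x) (l + l') (fun t _ x => by
      rw [ev_smul_homog hP, ev_smul_homog hQ, pow_add]
      ring) g
  rw [h, finrank_euclideanSpace, Fintype.card_fin]
  rfl

instance : IsFiniteMeasure (volume : Measure R3).toSphere := inferInstance

theorem integrable_sph (P Q : Pl) : Integrable
    (fun ω : Metric.sphere (0 : R3) 1 => ev P ω * ev Q ω) (volume : Measure R3).toSphere := by
  have hc : Continuous fun ω : Metric.sphere (0 : R3) 1 => ev P ω * ev Q ω :=
    ((continuous_ev P).comp continuous_subtype_val).mul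
      ((continuous_ev Q).comp continuous_subtype_val)
  exact hc.integrable_of_hasCompactSupport (HasCompactSupport.of_compactSpace _)

/-- bilinear version -/
noncomputable def sphB : Pl →ₗ[ℝ] Pl →ₗ[ℝ] ℝ :=
  LinearMap.mk₂ ℝ sph
    (fun P P' Q => by
      unfold sph
      rw [← integral_add (integrable_sph P Q) (integrable_sph P' Q)]
      refine integral_congr_ae (Eventually.of_forall fun x => ?_)
      simp only [ev_add, add_mul])
    (fun c P Q => by
      unfold sph
      rw [smul_eq_mul, ← integral_const_mul]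
      refine integral_congr_ae (Eventually.of_forall fun x => ?_)
      simp only [ev, smul_eval, mul_assoc])
    (fun P Q Q' => by
      unfold sph
      rw [← integral_add (integrable_sph P Q) (integrable_sph P Q')]
      refine integral_congr_ae (Eventually.of_forall fun x => ?_)
      simp only [ev_add, mul_add])
    (fun c P Q => by
      unfold sph
      rw [smul_eq_mul, ← integral_const_mul]
      refine integral_congr_ae (Eventually.of_forall fun x => ?_)
      simp only [ev, smul_eval]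
      ring)

theorem sphB_apply (P Q : Pl) : sphB P Q = sph P Q := rfl

theorem ev_ne_zero {P : Pl} (hP : P ≠ 0) : ∃ x : R3, ev P x ≠ 0 := by
  by_contra hcon
  push Not at hcon
  apply hP
  refine MvPolynomial.funext fun x => ?_
  have h := hcon (WithLp.toLp 2 x)
  rw [map_zero]
  exact h

theorem integrable_poly_exp {κ : ℝ} (hκ : 0 < κ) (P : Pl) :
    Integrable fun x : R3 => ev P x * Real.exp (-κ * ‖x‖) :=
  (dec_ev hκ P).integrable ((continuous_ev P).mul (by fun_prop)).aestronglyMeasurable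

/-- positivity of integrals of nonnegative continuous functions -/
theorem integral_pos_of_cont {f : R3 → ℝ} (hc : Continuous f) (hi : Integrable f)
    (h0 : ∀ x, 0 ≤ f x) {x₀ : R3} (hx : f x₀ ≠ 0) : 0 < ∫ x, f x :=
  integral_pos_of_integrable_nonneg_nonzero hc hi h0 hx

theorem sph_pos {l : ℕ} {P : Pl} (hP : P.IsHomogeneous l) (h0 : P ≠ 0) : 0 < sph P P := by
  obtain ⟨x₀, hx₀⟩ := ev_ne_zero h0
  have h1 : 0 < ∫ x : R3, ev P x * ev P x * Real.exp (-1 * ‖x‖) := by
    refine integral_pos_of_cont (x₀ := x₀) ?_ ?_ ?_ ?_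
    · exact ((continuous_ev P).mul (continuous_ev P)).mul (by fun_prop)
    · refine (integrable_poly_exp one_pos (P * P)).congr (Eventually.of_forall fun x => ?_)
      simp only [ev_mul]
    · intro x
      exact mul_nonneg (mul_self_nonneg _) (Real.exp_pos _).le
    · exact mul_ne_zero (mul_ne_zero hx₀ hx₀) (Real.exp_ne_zero _)
  have h2 := integral_homog hP hP fun r => Real.exp (-1 * r)
  rw [h2] at h1
  have h3 : 0 ≤ sph P P := by
    unfold sph
    exact integral_nonneg fun ω => mul_self_nonneg _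
  rcases h3.lt_or_eq with h | h
  · exact h
  · rw [← h, zero_mul] at h1
    exact absurd h1 (lt_irrefl _)

theorem sph_nonneg (P : Pl) : 0 ≤ sph P P := by
  unfold sph
  exact integral_nonneg fun ω => mul_self_nonneg _

/-- orthonormal families for positive definite forms -/
theorem exists_orthonormal_family {V : Type*} [AddCommGroup V] [Module ℝ V]
    [FiniteDimensional ℝ V] (B : V →ₗ[ℝ] V →ₗ[ℝ] ℝ) (hs : ∀ v w, B v w = B w v)
    (hp : ∀ v, v ≠ 0 → 0 < B v v) {N : ℕ} (hN : N ≤ Module.finrank ℝ V) :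
    ∃ f : Fin N → V, ∀ i j, B (f i) (f j) = if i = j then 1 else 0 := by
  obtain ⟨b, hb⟩ := LinearMap.BilinForm.exists_orthogonal_basis (K := ℝ) (V := V) (B := B)
    ⟨fun v w => by rw [RingHom.id_apply]; exact hs v w⟩
  refine ⟨fun i => (Real.sqrt (B (b (Fin.castLE hN i)) (b (Fin.castLE hN i))))⁻¹ •
    b (Fin.castLE hN i), fun i j => ?_⟩
  by_cases hij : i = j
  · subst hij
    rw [if_pos rfl, map_smul, map_smul, LinearMap.smul_apply, smul_eq_mul, smul_eq_mul]
    have h1 := hp (b (Fin.castLE hN i)) (b.ne_zero _)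
    have h2 := Real.mul_self_sqrt h1.le
    have h3 : Real.sqrt (B (b (Fin.castLE hN i)) (b (Fin.castLE hN i))) ≠ 0 :=
      (Real.sqrt_pos.2 h1).ne'
    field_simp
    rw [pow_two]
    exact h2.symm
  · rw [if_neg hij, map_smul, map_smul, LinearMap.smul_apply]
    have h1 : B (b (Fin.castLE hN i)) (b (Fin.castLE hN j)) = 0 :=
      hb (fun h => hij (Fin.castLE_injective hN h))
    rw [h1, smul_zero, smul_zero]

/-- an orthonormal family of `2 l + 1` harmonic polynomials -/
theorem exists_harm (l : ℕ) : ∃ p : Fin (2 * l + 1) → Pl, (∀ i, p i ∈ Harm l) ∧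
    ∀ i j, sph (p i) (p j) = if i = j then 1 else 0 := by
  obtain ⟨f, hf⟩ := exists_orthonormal_family
    ((sphB.domRestrict₁₂ (Harm l) (Harm l)) : Harm l →ₗ[ℝ] Harm l →ₗ[ℝ] ℝ)
    (fun v w => sph_comm _ _)
    (fun v hv => sph_pos (mem_Harm.1 v.2).1 (fun h => hv (Subtype.ext h)))
    (finrank_Harm_ge l)
  exact ⟨fun i => (f i).1, fun i => (f i).2, hf⟩

end Vale.Agent.P370.Hyd
end

section

/-! The complete orthonormal family of eigenfunctions of the first `n` hydrogen shells. -/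

namespace Vale.Agent.P370.Hyd

open MeasureTheory Filter Topology MvPolynomial

/-- decay rate of shell number `k + 1` -/
noncomputable def kap (k : ℕ) : ℝ := 1 / ((k : ℝ) + 1)

theorem kap_pos (k : ℕ) : 0 < kap k := by
  unfold kap
  positivity

/-- energy of shell number `k + 1` -/
noncomputable def eng (k : ℕ) : ℝ := -(1 / (2 * ((k : ℝ) + 1) ^ 2))

theorem eng_eq (k : ℕ) : eng k = -(kap k ^ 2 / 2) := by
  unfold eng kap
  field_simp

theorem eng_strictMono {k k' : ℕ} (h : k < k') : eng k < eng k' := by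
  unfold eng
  have h1 : (k : ℝ) < k' := by exact_mod_cast h
  have h2 : 1 / (2 * ((k' : ℝ) + 1) ^ 2) < 1 / (2 * ((k : ℝ) + 1) ^ 2) := by
    apply one_div_lt_one_div_of_lt (by positivity)
    (clear * - h1; nlinarith [(Nat.cast_nonneg k : (0 : ℝ) ≤ k)])
  (clear * - h2; linarith)

theorem eng_injective {k k' : ℕ} (h : eng k = eng k') : k = k' := by
  rcases lt_trichotomy k k' with h1 | h1 | h1
  · exact absurd h (eng_strictMono h1).ne
  · exact h1
  · exact absurd h (eng_strictMono h1).ne'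

theorem TL_zf' {k l : ℕ} (hl : l ≤ k) {h : Pl} (hh : h ∈ Harm l) :
    TL (kap k) (zf (kap k) l (k + 1 - l) h) = zf (kap k) l (k + 1 - l) h := by
  have h1 := TL_zf (n := k + 1) (l := l) (by omega) hh
  have h2 : (1 / ((k + 1 : ℕ) : ℝ)) = kap k := by
    unfold kap
    push_cast
    rfl
  rwa [h2] at h1

/-- the eigenfunction of shell `k + 1` attached to the polynomial `h` of degree `l` -/
noncomputable def gS (k l : ℕ) (h : Pl) : AdmS :=
  ⟨(xp (kap k) (zf (kap k) l (k + 1 - l) h).1 (zf (kap k) l (k + 1 - l) h).2,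
    xpd (kap k) (zf (kap k) l (k + 1 - l) h).1 (zf (kap k) l (k + 1 - l) h).2),
    adm_xp (kap_pos k) _ _⟩

/-- the radial factor -/
noncomputable def rad (k l : ℕ) (r : ℝ) : ℝ :=
  Lr (kap k) l (k + 1 - l) r * Real.exp (-kap k * r)

theorem gS_apply (k l : ℕ) (h : Pl) (x : R3) :
    (gS k l h).1.1 x = ev h x * rad k l ‖x‖ := xp_zf _ _ _ _ _

theorem gS_eigen {k l : ℕ} (hl : l ≤ k) {h : Pl} (hh : h ∈ Harm l) (w : AdmS) :
    kinB (gS k l h) w - iprB (gS k l h) w = eng k * ipB (gS k l h) w := by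
  have h1 := green (kap_pos k) (zf (kap k) l (k + 1 - l) h).1 (zf (kap k) l (k + 1 - l) h).2 w.2
  have h2 := TL_zf' hl hh
  rw [TL_apply] at h2
  have h3 : TP (kap k) (zf (kap k) l (k + 1 - l) h).1 (zf (kap k) l (k + 1 - l) h).2
      = (zf (kap k) l (k + 1 - l) h).1 := congrArg Prod.fst h2
  have h4 : TQ (kap k) (zf (kap k) l (k + 1 - l) h).1 (zf (kap k) l (k + 1 - l) h).2
      = (zf (kap k) l (k + 1 - l) h).2 := congrArg Prod.snd h2
  rw [h3, h4] at h1
  rw [eng_eq]
  show kin _ _ - ipr _ _ = -(kap k ^ 2 / 2) * ip _ _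
  have h5 : kin (gS k l h).1.2 w.1.2 + kap k ^ 2 / 2 * ip (gS k l h).1.1 w.1.1
      = ipr (gS k l h).1.1 w.1.1 := h1
  linarith only [h5]

/-- weak eigenfunctions with different eigenvalues are orthogonal -/
theorem orth_of_ne {φ ψ : AdmS} {a b : ℝ}
    (hφ : ∀ w, kinB φ w - iprB φ w = a * ipB φ w) (hψ : ∀ w, kinB ψ w - iprB ψ w = b * ipB ψ w)
    (hab : a ≠ b) : ipB φ ψ = 0 := by
  have h1 := hφ ψ
  have h2 := hψ φ
  rw [kinB_comm, iprB_comm, ipB_comm] at h2
  have h3 : (a - b) * ipB φ ψ = 0 := by linarith only [h1, h2]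
  rcases mul_eq_zero.1 h3 with h | h
  · exact absurd (sub_eq_zero.1 h) hab
  · exact h

theorem ipB_gS {k k' l l' : ℕ} {h h' : Pl} (hh : h.IsHomogeneous l) (hh' : h'.IsHomogeneous l') :
    ipB (gS k l h) (gS k' l' h')
      = sph h h' * ∫ r in Set.Ioi (0 : ℝ), r ^ (l + l' + 2) * (rad k l r * rad k' l' r) := by
  rw [← integral_homog hh hh']
  show ∫ x, _ = _
  refine integral_congr_ae (Eventually.of_forall fun x => ?_)
  show (gS k l h).1.1 x * (gS k' l' h').1.1 x = _
  rw [gS_apply, gS_apply]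
  ring

theorem sph_orth {l l' : ℕ} (hl : l ≠ l') {h h' : Pl} (hh : h ∈ Harm l) (hh' : h' ∈ Harm l') :
    sph h h' = 0 := by
  have h1 : ipB (gS l l h) (gS l' l' h') = 0 :=
    orth_of_ne (gS_eigen le_rfl hh) (gS_eigen le_rfl hh')
      (fun h => hl (eng_injective h))
  rw [ipB_gS (mem_Harm.1 hh).1 (mem_Harm.1 hh').1] at h1
  rcases mul_eq_zero.1 h1 with h2 | h2
  · exact h2
  · exfalso
    have h3 : ∀ r, rad l l r * rad l' l' r = Real.exp (-(kap l + kap l') * r) := by
      intro r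
      have e1 : ∀ m : ℕ, m + 1 - m = 1 := fun m => by (clear * -; omega)
      unfold rad Lr
      rw [e1, e1, Finset.sum_range_one, Finset.sum_range_one]
      simp only [cf, pow_zero, one_mul, mul_one]
      rw [← Real.exp_add]
      congr 1
      ring
    simp only [h3] at h2
    have h4 : 0 < ∫ r in Set.Ioi (0 : ℝ), r ^ (l + l' + 2) * Real.exp (-(kap l + kap l') * r) := by
      have h5 : 0 < kap l + kap l' := add_pos (kap_pos l) (kap_pos l')
      have h6 := Real.integral_rpow_mul_exp_neg_mul_Ioi (a := (l + l' + 2 : ℕ) + 1)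
        (by (clear * -; positivity)) h5
      have h7 : ∫ r in Set.Ioi (0 : ℝ), r ^ (l + l' + 2) * Real.exp (-(kap l + kap l') * r)
          = ∫ r in Set.Ioi (0 : ℝ), r ^ (((l + l' + 2 : ℕ) : ℝ) + 1 - 1)
            * Real.exp (-((kap l + kap l') * r)) := by
        refine setIntegral_congr_fun measurableSet_Ioi fun r _ => ?_
        rw [add_sub_cancel_right, Real.rpow_natCast, neg_mul]
      rw [h7, h6]
      exact mul_pos (Real.rpow_pos_of_pos (by (clear * - h5; positivity)) _) (Real.Gamma_pos_of_pos (by (clear * -; positivity)))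
    exact h4.ne' h2

theorem Lr_zero (κ : ℝ) (l M : ℕ) : Lr κ l (M + 1) 0 = 1 := by
  unfold Lr
  rw [Finset.sum_range_succ', Finset.sum_eq_zero]
  · simp [cf]
  · intro j _
    simp only [ne_eq, Nat.add_eq_zero_iff, one_ne_zero, and_false, not_false_eq_true, zero_pow, mul_zero]

theorem continuous_Lr (κ : ℝ) (l M : ℕ) : Continuous (Lr κ l M) := by
  unfold Lr
  fun_prop

/-- the radial normalisation -/
noncomputable def radN (k l : ℕ) : ℝ := ∫ r in Set.Ioi (0 : ℝ), r ^ (2 * l + 2) * rad k l r ^ 2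

theorem ipB_gS_self {k l : ℕ} {h h' : Pl} (hh : h.IsHomogeneous l) (hh' : h'.IsHomogeneous l) :
    ipB (gS k l h) (gS k l h') = sph h h' * radN k l := by
  rw [ipB_gS hh hh']
  unfold radN
  congr 1
  refine setIntegral_congr_fun measurableSet_Ioi fun r _ => ?_
  rw [pow_two (rad k l r), ← two_mul]

theorem ipB_pos {v : AdmS} {x₀ : R3} (hx : v.1.1 x₀ ≠ 0) : 0 < ipB v v :=
  integral_pos_of_cont (v.2.cont.mul v.2.cont) (v.2.int_mul v.2) (fun _ => mul_self_nonneg _)
    (mul_ne_zero hx hx)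

theorem gS_ne_zero {k l : ℕ} (hl : l ≤ k) {h : Pl} (h0 : h ≠ 0) (hh : h.IsHomogeneous l) :
    ∃ x : R3, (gS k l h).1.1 x ≠ 0 := by
  obtain ⟨x₀, hx₀⟩ := ev_ne_zero h0
  have h1 : Continuous fun t : ℝ => rad k l (t * ‖x₀‖) := by
    unfold rad
    have := continuous_Lr (kap k) l (k + 1 - l)
    (clear * - this; fun_prop)
  have h2 : rad k l (0 * ‖x₀‖) ≠ 0 := by
    have e : k + 1 - l = (k - l) + 1 := by (clear * - hl; omega)
    unfold rad
    rw [zero_mul, e, Lr_zero, one_mul]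
    exact Real.exp_ne_zero _
  have h3 : ∀ᶠ t in 𝓝 (0 : ℝ), rad k l (t * ‖x₀‖) ≠ 0 := h1.continuousAt.eventually_ne h2
  have h4 : ∀ᶠ t in 𝓝[>] (0 : ℝ), rad k l (t * ‖x₀‖) ≠ 0 := h3.filter_mono nhdsWithin_le_nhds
  obtain ⟨t, ht, ht0⟩ := (h4.and self_mem_nhdsWithin).exists
  refine ⟨t • x₀, ?_⟩
  have ht1 : 0 < t := ht0
  rw [gS_apply, ev_smul_homog hh, norm_smul, Real.norm_eq_abs, abs_of_pos ht1]
  exact mul_ne_zero (mul_ne_zero (pow_ne_zero _ ht1.ne') hx₀) ht

theorem radN_pos {k l : ℕ} (hl : l ≤ k) : 0 < radN k l := by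
  obtain ⟨p, hp, hp'⟩ := exists_harm l
  have h1 : sph (p 0) (p 0) = 1 := by
    rw [hp', if_pos rfl]
  have h0 : p 0 ≠ 0 := by
    intro h
    rw [h] at h1
    have h2 : sph (0 : Pl) 0 = 0 := by
      rw [← sphB_apply, map_zero]
    rw [h2] at h1
    exact zero_ne_one h1
  obtain ⟨x, hx⟩ := gS_ne_zero hl h0 (mem_Harm.1 (hp 0)).1
  have h2 := ipB_pos hx
  rwa [ipB_gS_self (mem_Harm.1 (hp 0)).1 (mem_Harm.1 (hp 0)).1, h1, one_mul] at h2

/-- orbital labels: shell `k + 1 ≤ n`, angular momentum `l ≤ k`, and a number `< 2 l + 1` -/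
abbrev Orb (n : ℕ) : Type := (k : Fin n) × (l : Fin (k.1 + 1)) × Fin (2 * l.1 + 1)

theorem card_Orb (n : ℕ) : Fintype.card (Orb n) = ∑ k ∈ Finset.range n, (k + 1) ^ 2 := by
  have h1 : ∀ k : ℕ, ∑ l ∈ Finset.range (k + 1), (2 * l + 1) = (k + 1) ^ 2 := by
    intro k
    induction k with
    | zero => simp
    | succ k ih =>
      rw [Finset.sum_range_succ, ih]
      ring
  rw [Fintype.card_sigma, ← Fin.sum_univ_eq_sum_range]
  refine Finset.sum_congr rfl fun k _ => ?_
  rw [Fintype.card_sigma, ← h1, ← Fin.sum_univ_eq_sum_range]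
  simp only [Fintype.card_fin]

/-- the orbitals built from a choice of harmonic polynomials -/
noncomputable def orb {n : ℕ} (p : (l : ℕ) → Fin (2 * l + 1) → Pl) (a : Orb n) : AdmS :=
  (Real.sqrt (radN a.1 a.2.1))⁻¹ • gS a.1 a.2.1 (p a.2.1 a.2.2)

/-- a choice of orthonormal harmonic polynomials -/
structure HarmFam (p : (l : ℕ) → Fin (2 * l + 1) → Pl) : Prop where
  mem : ∀ l i, p l i ∈ Harm l
  orth : ∀ l i j, sph (p l i) (p l j) = if i = j then 1 else 0

theorem exists_harmFam : ∃ p, HarmFam p := by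
  choose p hp hp' using exists_harm
  exact ⟨p, hp, hp'⟩

variable {p : (l : ℕ) → Fin (2 * l + 1) → Pl}

theorem orb_eigen (hp : HarmFam p) {n : ℕ} (a : Orb n) (w : AdmS) :
    kinB (orb p a) w - iprB (orb p a) w = eng a.1 * ipB (orb p a) w := by
  unfold orb
  have h := gS_eigen (k := a.1) (l := a.2.1) (by omega) (hp.mem a.2.1 a.2.2) w
  rw [map_smul, map_smul, map_smul, LinearMap.smul_apply, LinearMap.smul_apply,
    LinearMap.smul_apply, ← smul_sub, h, smul_eq_mul, smul_eq_mul]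
  ring

theorem orb_orth (hp : HarmFam p) {n : ℕ} (a b : Orb n) :
    ipB (orb p a) (orb p b) = if a = b then 1 else 0 := by
  obtain ⟨k, l, i⟩ := a
  obtain ⟨k', l', i'⟩ := b
  by_cases hk : k = k'
  · subst hk
    unfold orb
    rw [map_smul, map_smul, LinearMap.smul_apply, smul_eq_mul, smul_eq_mul]
    simp only
    by_cases hl : l = l'
    · subst hl
      rw [ipB_gS_self (mem_Harm.1 (hp.mem _ _)).1 (mem_Harm.1 (hp.mem _ _)).1, hp.orth]
      have h1 := radN_pos (k := k) (l := l) (by omega)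
      by_cases hi : i = i'
      · subst hi
        rw [if_pos rfl, if_pos rfl, one_mul]
        have h2 := Real.mul_self_sqrt h1.le
        have h3 : Real.sqrt (radN k l) ≠ 0 := (Real.sqrt_pos.2 h1).ne'
        field_simp
        rw [pow_two]
        exact h2.symm
      · rw [if_neg hi, if_neg, zero_mul, mul_zero, mul_zero]
        intro h
        apply hi
        simpa using h
    · have h1 : sph (p l i) (p l' i') = 0 :=
        sph_orth (fun h => hl (Fin.ext h)) (hp.mem _ _) (hp.mem _ _)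
      rw [ipB_gS (mem_Harm.1 (hp.mem _ _)).1 (mem_Harm.1 (hp.mem _ _)).1, h1, zero_mul, mul_zero,
        mul_zero, if_neg]
      intro h
      apply hl
      have h2 := (Sigma.mk.inj_iff.1 h).2
      rw [heq_eq_eq] at h2
      exact (Sigma.mk.inj_iff.1 h2).1
  · rw [if_neg, orth_of_ne (orb_eigen hp _) (orb_eigen hp _)]
    · intro h
      exact hk (Fin.ext (eng_injective h))
    · intro h
      exact hk (Sigma.mk.inj_iff.1 h).1

/-- **The form inequality for the first `n` shells.** -/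
theorem orb_lower (hp : HarmFam p) (n : ℕ) (u : AdmS) :
    ∑ a : Orb n, (eng a.1 - eng n) * (ipB (orb p a) u) ^ 2 + eng n * ipB u u
      ≤ kinB u u - iprB u u := by
  classical
  refine hyd_lower n (fun a : Orb n => orb p a) (fun a => eng a.1) (fun a w => orb_eigen hp a w)
    (fun a b => orb_orth hp a b) (fun a => eng_strictMono a.1.2) ?_ u
  rw [finrank_E, card_Orb]

end Vale.Agent.P370.Hyd
end

section

/-! Rotation invariant potential `(1/r - 1/ρ)_+` on the shells. -/

namespace Vale.Agent.P370.Hyd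

open MeasureTheory Filter Topology MvPolynomial

/-- the potential `(1/r - 1/ρ)_+` -/
noncomputable def Vr (ρ r : ℝ) : ℝ := max (1 / r - 1 / ρ) 0

theorem Vr_nonneg (ρ r : ℝ) : 0 ≤ Vr ρ r := le_max_right _ _

theorem Vr_le {ρ : ℝ} (hρ : 0 < ρ) {r : ℝ} (hr : 0 ≤ r) : Vr ρ r ≤ 1 / r := by
  unfold Vr
  refine max_le ?_ (by (clear * - hr; positivity))
  have : 0 < 1 / ρ := by positivity
  linarith only [this]

theorem measurable_Vr (ρ : ℝ) : Measurable fun x : R3 => Vr ρ ‖x‖ := by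
  unfold Vr
  exact (((measurable_const).div measurable_norm).sub measurable_const).max measurable_const

theorem integrable_Vr {ρ : ℝ} (hρ : 0 < ρ) (v w : AdmS) :
    Integrable fun x => v.1.1 x * w.1.1 x * Vr ρ ‖x‖ := by
  have h1 := v.2.int_mul_div w.2
  refine Integrable.mono h1 ?_ (Eventually.of_forall fun x => ?_)
  · exact ((v.2.cont.mul w.2.cont).aestronglyMeasurable).mul
      (measurable_Vr ρ).aestronglyMeasurable
  · rw [norm_mul, norm_div, norm_norm, Real.norm_eq_abs (Vr ρ ‖x‖), abs_of_nonneg (Vr_nonneg _ _),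
      div_eq_mul_one_div]
    exact mul_le_mul_of_nonneg_left (Vr_le hρ (norm_nonneg x)) (norm_nonneg _)

/-- the form of the potential -/
noncomputable def VB {ρ : ℝ} (hρ : 0 < ρ) : AdmS →ₗ[ℝ] AdmS →ₗ[ℝ] ℝ :=
  LinearMap.mk₂ ℝ (fun v w => ∫ x, v.1.1 x * w.1.1 x * Vr ρ ‖x‖)
    (fun v v' w => by
      rw [← integral_add (integrable_Vr hρ v w) (integrable_Vr hρ v' w)]
      refine integral_congr_ae (Eventually.of_forall fun x => ?_)
      show (v.1.1 x + v'.1.1 x) * w.1.1 x * Vr ρ ‖x‖ = _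
      ring)
    (fun c v w => by
      rw [smul_eq_mul, ← integral_const_mul]
      refine integral_congr_ae (Eventually.of_forall fun x => ?_)
      show (c * v.1.1 x) * w.1.1 x * Vr ρ ‖x‖ = c * (v.1.1 x * w.1.1 x * Vr ρ ‖x‖)
      ring)
    (fun v w w' => by
      rw [← integral_add (integrable_Vr hρ v w) (integrable_Vr hρ v w')]
      refine integral_congr_ae (Eventually.of_forall fun x => ?_)
      show v.1.1 x * (w.1.1 x + w'.1.1 x) * Vr ρ ‖x‖ = _
      ring)
    (fun c v w => by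
      rw [smul_eq_mul, ← integral_const_mul]
      refine integral_congr_ae (Eventually.of_forall fun x => ?_)
      show v.1.1 x * (c * w.1.1 x) * Vr ρ ‖x‖ = c * (v.1.1 x * w.1.1 x * Vr ρ ‖x‖)
      ring)

theorem VB_apply {ρ : ℝ} (hρ : 0 < ρ) (v w : AdmS) :
    VB hρ v w = ∫ x, v.1.1 x * w.1.1 x * Vr ρ ‖x‖ := rfl

theorem VB_gS {ρ : ℝ} (hρ : 0 < ρ) {k k' l l' : ℕ} {h h' : Pl} (hh : h.IsHomogeneous l)
    (hh' : h'.IsHomogeneous l') :
    VB hρ (gS k l h) (gS k' l' h')
      = sph h h' * ∫ r in Set.Ioi (0 : ℝ), r ^ (l + l' + 2) * (rad k l r * rad k' l' r * Vr ρ r)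
      := by
  rw [← integral_homog hh hh', VB_apply]
  refine integral_congr_ae (Eventually.of_forall fun x => ?_)
  show (gS k l h).1.1 x * (gS k' l' h').1.1 x * Vr ρ ‖x‖ = _
  rw [gS_apply, gS_apply]
  ring

/-- radial matrix element -/
noncomputable def beta (ρ : ℝ) (k l : ℕ) : ℝ :=
  ∫ r in Set.Ioi (0 : ℝ), r ^ (2 * l + 2) * (rad k l r ^ 2 * Vr ρ r)

theorem VB_gS_self {ρ : ℝ} (hρ : 0 < ρ) {k l : ℕ} {h h' : Pl} (hh : h.IsHomogeneous l)
    (hh' : h'.IsHomogeneous l) :
    VB hρ (gS k l h) (gS k l h') = sph h h' * beta ρ k l := by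
  rw [VB_gS hρ hh hh']
  unfold beta
  congr 1
  refine setIntegral_congr_fun measurableSet_Ioi fun r _ => ?_
  rw [pow_two (rad k l r), ← two_mul]

/-! ### bounds for the radial functions -/

theorem abs_cf_le {k l : ℕ} (hl : l ≤ k) {j : ℕ} (hj : j + l ≤ k) : |cf (kap k) l j| ≤ 1 := by
  induction j with
  | zero => simp [cf]
  | succ j ih =>
    have ih' := ih (by (clear * - hj; omega))
    rw [cf, abs_mul]
    refine mul_le_one₀ ?_ (abs_nonneg _) ih'
    rw [abs_div, abs_mul, abs_two]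
    have hk1 : (0 : ℝ) < (k : ℝ) + 1 := by positivity
    have h1 : |kap k * ((j : ℝ) + l + 1) - 1| ≤ 1 := by
      have h2 : kap k * ((j : ℝ) + l + 1) ≤ 1 := by
        unfold kap
        rw [one_div, inv_mul_le_iff₀ hk1]
        have : (j : ℝ) + 1 + l ≤ k := by exact_mod_cast hj
        linarith only [this]
      have h3 : 0 ≤ kap k * ((j : ℝ) + l + 1) := by
        have := kap_pos k
        (clear * - this; positivity)
      rw [abs_le]
      constructor <;> linarith
    have h4 : 0 < ((j : ℝ) + 1) * (j + 2 * l + 2) := by (clear * -; positivity)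
    rw [abs_of_pos h4, div_le_one h4]
    have h5 : (2 : ℝ) ≤ ((j : ℝ) + 1) * (j + 2 * l + 2) := by
      have hj0 : (0 : ℝ) ≤ j := Nat.cast_nonneg j
      have hl0 : (0 : ℝ) ≤ l := Nat.cast_nonneg l
      linarith only [mul_nonneg hj0 hj0, mul_nonneg hj0 hl0]
    linarith only [h1, h5]

theorem Lr_lower {k l : ℕ} (hl : l ≤ k) {r : ℝ} (hr : 0 ≤ r) (hr1 : r ≤ 1 / 2) :
    1 - 2 * r ≤ Lr (kap k) l (k + 1 - l) r := by
  have e : k + 1 - l = (k - l) + 1 := by (clear * - hl; omega)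
  rw [e]
  unfold Lr
  rw [Finset.sum_range_succ']
  have h0 : cf (kap k) l 0 * r ^ 0 = 1 := by simp [cf]
  rw [h0]
  have h1 : -(∑ j ∈ Finset.range (k - l), r ^ (j + 1))
      ≤ ∑ j ∈ Finset.range (k - l), cf (kap k) l (j + 1) * r ^ (j + 1) := by
    rw [← Finset.sum_neg_distrib]
    refine Finset.sum_le_sum fun j hj => ?_
    have hj' := Finset.mem_range.1 hj
    have h2 := abs_cf_le hl (j := j + 1) (by omega)
    have h3 := neg_le_of_abs_le h2
    have h4 : 0 ≤ r ^ (j + 1) := by (clear * - hr; positivity)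
    nlinarith only [h3, h4]
  have h2 : ∑ j ∈ Finset.range (k - l), r ^ (j + 1) ≤ 2 * r := by
    have h3 : ∑ j ∈ Finset.range (k - l), r ^ (j + 1)
        = r * ∑ j ∈ Finset.range (k - l), r ^ j := by
      rw [Finset.mul_sum]
      exact Finset.sum_congr rfl fun j _ => pow_succ' r j
    have h4 : ∑ j ∈ Finset.range (k - l), r ^ j ≤ 2 := by
      have h5 := geom_sum_eq (x := r) (by linarith only [hr1]) (k - l)
      rw [h5]
      have h6 : (r ^ (k - l) - 1) / (r - 1) = (1 - r ^ (k - l)) / (1 - r) := by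
        rw [← neg_div_neg_eq]
        congr 1 <;> ring
      rw [h6, div_le_iff₀ (by linarith only [hr1])]
      have h7 : 0 ≤ r ^ (k - l) := by (clear * - hr; positivity)
      linarith only [hr1, h7]
    rw [h3]
    nlinarith only [hr, h4]
  linarith only [h1, h2]

theorem rad_sq_lower {k l : ℕ} (hl : l ≤ k) {r : ℝ} (hr : 0 ≤ r) (hr1 : r ≤ 1 / 8) :
    1 / 4 ≤ rad k l r ^ 2 := by
  have h1 := Lr_lower hl hr (by linarith only [hr1])
  have h2 : 1 - r ≤ Real.exp (-kap k * r) := by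
    have h3 := Real.add_one_le_exp (-kap k * r)
    have h4 : kap k ≤ 1 := by
      unfold kap
      rw [div_le_one (by (clear * -; positivity))]
      have : (0 : ℝ) ≤ k := Nat.cast_nonneg k
      linarith only []
    nlinarith only [h3, hr, h4]
  have h5 : 1 / 2 ≤ rad k l r := by
    unfold rad
    calc (1 : ℝ) / 2 ≤ (1 - 2 * r) * (1 - r) := by nlinarith only [hr1]
      _ ≤ Lr (kap k) l (k + 1 - l) r * Real.exp (-kap k * r) :=
        mul_le_mul h1 h2 (by linarith only [hr1]) (by linarith only [hr1, h1])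
  nlinarith only [h5]

theorem integral_Vr_lower {k l : ℕ} (hl : l ≤ k) {ρ : ℝ} (hρ : 0 < ρ) (hρ1 : ρ ≤ 1 / 8) :
    1 / 4 * (ρ ^ (2 * l + 2) / ((2 * l + 2) * (2 * l + 3))) ≤ beta ρ k l := by
  have hF : ∀ r ∈ Set.Ioi (0 : ℝ), r ^ (2 * l + 2) * (rad k l r ^ 2 * Vr ρ r)
      = r ^ (2 * l + 1) * (rad k l r ^ 2 * max (1 - r / ρ) 0) := by
    intro r hr
    have hr' : (0 : ℝ) < r := hr
    have h1 : r * Vr ρ r = max (1 - r / ρ) 0 := by
      unfold Vr
      rw [mul_max_of_nonneg _ _ hr'.le, mul_zero]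
      congr 1
      (clear * - hρ hr'; field_simp)
    rw [← h1]
    ring
  have hcont : Continuous fun r : ℝ => r ^ (2 * l + 1) * (rad k l r ^ 2 * max (1 - r / ρ) 0) := by
    have := continuous_Lr (kap k) l (k + 1 - l)
    unfold rad
    (clear * - this; fun_prop)
  have hint : IntegrableOn (fun r : ℝ => r ^ (2 * l + 1) * (rad k l r ^ 2 * max (1 - r / ρ) 0))
      (Set.Ioi 0) := by
    have h1 : IntegrableOn (fun r : ℝ => r ^ (2 * l + 1) * (rad k l r ^ 2 * max (1 - r / ρ) 0))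
        (Set.Ioc 0 ρ) :=
      (hcont.continuousOn.integrableOn_Icc (a := 0) (b := ρ)).mono_set Set.Ioc_subset_Icc_self
    have h2 : IntegrableOn (fun r : ℝ => r ^ (2 * l + 1) * (rad k l r ^ 2 * max (1 - r / ρ) 0))
        (Set.Ioi ρ) := by
      refine (integrableOn_zero (s := Set.Ioi ρ)).congr_fun (fun r hr => ?_) measurableSet_Ioi
      have hr' : ρ < r := hr
      rw [max_eq_right, mul_zero, mul_zero]
      rw [sub_nonpos, le_div_iff₀ hρ]
      linarith only [hr']
    have h3 : Set.Ioi (0 : ℝ) = Set.Ioc 0 ρ ∪ Set.Ioi ρ := (Set.Ioc_union_Ioi_eq_Ioi hρ.le).symm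
    rw [h3]
    exact h1.union h2
  unfold beta
  rw [setIntegral_congr_fun measurableSet_Ioi hF]
  have h1 : ∫ r in Set.Ioc (0 : ℝ) ρ, r ^ (2 * l + 1) * (1 / 4 * (1 - r / ρ))
      ≤ ∫ r in Set.Ioi (0 : ℝ), r ^ (2 * l + 1) * (rad k l r ^ 2 * max (1 - r / ρ) 0) := by
    refine le_trans ?_ (setIntegral_mono_set hint ?_
      (show Set.Ioc (0 : ℝ) ρ ⊆ Set.Ioi 0 from Set.Ioc_subset_Ioi_self).eventuallyLE)
    · refine setIntegral_mono_on ?_ (hint.mono_set Set.Ioc_subset_Ioi_self) measurableSet_Ioc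
        fun r hr => ?_
      · have hc : Continuous fun r : ℝ => r ^ (2 * l + 1) * (1 / 4 * (1 - r / ρ)) := by fun_prop
        exact (hc.continuousOn.integrableOn_Icc (a := 0) (b := ρ)).mono_set
          Set.Ioc_subset_Icc_self
      · have h2 : r / ρ ≤ 1 := by
          rw [div_le_one hρ]
          exact hr.2
        refine mul_le_mul_of_nonneg_left ?_ (pow_nonneg hr.1.le _)
        refine mul_le_mul (rad_sq_lower hl hr.1.le (hr.2.trans hρ1)) (le_max_left _ _)
          (by linarith only [h2]) (sq_nonneg _)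
    · rw [Filter.EventuallyLE]
      filter_upwards [ae_restrict_mem measurableSet_Ioi] with r hr
      have hr' : (0 : ℝ) < r := hr
      show (0 : ℝ) ≤ _
      (clear * - hr'; positivity)
  refine le_trans (le_of_eq ?_) h1
  rw [← intervalIntegral.integral_of_le hρ.le]
  have h2 : ∀ r : ℝ, r ^ (2 * l + 1) * (1 / 4 * (1 - r / ρ))
      = 1 / 4 * r ^ (2 * l + 1) - 1 / (4 * ρ) * r ^ (2 * l + 2) := by
    intro r
    field_simp
    ring
  simp only [h2]
  rw [intervalIntegral.integral_sub (Continuous.intervalIntegrable (by fun_prop) _ _)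
    (Continuous.intervalIntegrable (by fun_prop) _ _),
    intervalIntegral.integral_const_mul, intervalIntegral.integral_const_mul, integral_pow,
    integral_pow]
  simp only [zero_pow (Nat.succ_ne_zero _), sub_zero]
  push_cast
  field_simp
  ring


/-! ### normalisation -/

theorem integral_pow_exp (m : ℕ) {b : ℝ} (hb : 0 < b) :
    ∫ r in Set.Ioi (0 : ℝ), r ^ m * Real.exp (-b * r) = (m.factorial : ℝ) / b ^ (m + 1) := by
  have h6 := Real.integral_rpow_mul_exp_neg_mul_Ioi (a := (m : ℝ) + 1) (by positivity) hb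
  have h7 : ∫ r in Set.Ioi (0 : ℝ), r ^ m * Real.exp (-b * r)
      = ∫ r in Set.Ioi (0 : ℝ), r ^ ((m : ℝ) + 1 - 1) * Real.exp (-(b * r)) := by
    refine setIntegral_congr_fun measurableSet_Ioi fun r _ => ?_
    rw [add_sub_cancel_right, Real.rpow_natCast, neg_mul]
  rw [h7, h6, Real.Gamma_nat_eq_factorial, ← Nat.cast_succ, Real.rpow_natCast, one_div, inv_pow,
    div_eq_inv_mul]

theorem integrableOn_pow_exp (m : ℕ) {b : ℝ} (hb : 0 < b) :
    IntegrableOn (fun r : ℝ => r ^ m * Real.exp (-b * r)) (Set.Ioi 0) := by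
  by_contra hcon
  have h := integral_pow_exp m hb
  rw [integral_undef hcon] at h
  have : (0 : ℝ) < (m.factorial : ℝ) / b ^ (m + 1) := by positivity
  linarith

theorem kap_le_one (k : ℕ) : kap k ≤ 1 := by
  unfold kap
  rw [div_le_one (by positivity)]
  have : (0 : ℝ) ≤ k := Nat.cast_nonneg k
  linarith

theorem radN_le {k l : ℕ} (hl : l ≤ k) :
    radN k l ≤ ((k : ℝ) + 1) ^ 2 * ((2 * k + 2).factorial * ((k : ℝ) + 1) ^ (2 * k + 3)) := by
  have hk := kap_pos k
  have hk2 : 0 < 2 * kap k := by positivity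
  have hpt : ∀ r ∈ Set.Ioi (0 : ℝ), r ^ (2 * l + 2) * rad k l r ^ 2
      ≤ ∑ j ∈ Finset.range (k + 1 - l), ((k : ℝ) + 1) *
        (r ^ (2 * l + 2 + 2 * j) * Real.exp (-(2 * kap k) * r)) := by
    intro r hr
    have hr' : (0 : ℝ) < r := hr
    have h1 : Lr (kap k) l (k + 1 - l) r ^ 2
        ≤ ((k : ℝ) + 1) * ∑ j ∈ Finset.range (k + 1 - l), (r ^ j) ^ 2 := by
      have h2 : |Lr (kap k) l (k + 1 - l) r| ≤ ∑ j ∈ Finset.range (k + 1 - l), r ^ j := by
        unfold Lr
        refine (Finset.abs_sum_le_sum_abs _ _).trans (Finset.sum_le_sum fun j hj => ?_)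
        have hj' := Finset.mem_range.1 hj
        rw [abs_mul, abs_of_nonneg (pow_nonneg hr'.le j)]
        exact mul_le_of_le_one_left (pow_nonneg hr'.le j) (abs_cf_le hl (by omega))
      have h3 : (∑ j ∈ Finset.range (k + 1 - l), r ^ j) ^ 2
          ≤ ((Finset.range (k + 1 - l)).card : ℝ) * ∑ j ∈ Finset.range (k + 1 - l), (r ^ j) ^ 2 :=
        sq_sum_le_card_mul_sum_sq
      have h4 : ((Finset.range (k + 1 - l)).card : ℝ) ≤ (k : ℝ) + 1 := by
        rw [Finset.card_range]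
        have : k + 1 - l ≤ k + 1 := Nat.sub_le _ _
        exact_mod_cast this
      calc Lr (kap k) l (k + 1 - l) r ^ 2 = |Lr (kap k) l (k + 1 - l) r| ^ 2 := (sq_abs _).symm
        _ ≤ (∑ j ∈ Finset.range (k + 1 - l), r ^ j) ^ 2 :=
          pow_le_pow_left₀ (abs_nonneg _) h2 2
        _ ≤ _ := h3
        _ ≤ _ := mul_le_mul_of_nonneg_right h4 (Finset.sum_nonneg fun _ _ => sq_nonneg _)
    unfold rad
    rw [mul_pow, ← Real.exp_nat_mul]
    have h5 : Real.exp (((2 : ℕ) : ℝ) * (-kap k * r)) = Real.exp (-(2 * kap k) * r) := by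
      congr 1
      push_cast
      ring
    rw [h5]
    calc r ^ (2 * l + 2) * (Lr (kap k) l (k + 1 - l) r ^ 2 * Real.exp (-(2 * kap k) * r))
        ≤ r ^ (2 * l + 2) * ((((k : ℝ) + 1) * ∑ j ∈ Finset.range (k + 1 - l), (r ^ j) ^ 2)
          * Real.exp (-(2 * kap k) * r)) := by
          refine mul_le_mul_of_nonneg_left ?_ (pow_nonneg hr'.le _)
          exact mul_le_mul_of_nonneg_right h1 (Real.exp_pos _).le
      _ = _ := by
          rw [Finset.mul_sum, Finset.sum_mul, Finset.mul_sum]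
          refine Finset.sum_congr rfl fun j _ => ?_
          rw [← pow_mul, pow_add]
          ring
  have hint : ∀ j ∈ Finset.range (k + 1 - l), IntegrableOn (fun r : ℝ => ((k : ℝ) + 1) *
        (r ^ (2 * l + 2 + 2 * j) * Real.exp (-(2 * kap k) * r))) (Set.Ioi 0) := fun j _ =>
    (integrableOn_pow_exp (2 * l + 2 + 2 * j) hk2).const_mul _
  have hle : radN k l ≤ ∑ j ∈ Finset.range (k + 1 - l), ((k : ℝ) + 1) *
      (((2 * l + 2 + 2 * j).factorial : ℝ) / (2 * kap k) ^ (2 * l + 2 + 2 * j + 1)) := by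
    have h1 : ∫ r in Set.Ioi (0 : ℝ), ∑ j ∈ Finset.range (k + 1 - l), ((k : ℝ) + 1) *
        (r ^ (2 * l + 2 + 2 * j) * Real.exp (-(2 * kap k) * r))
        = ∑ j ∈ Finset.range (k + 1 - l), ((k : ℝ) + 1) *
      (((2 * l + 2 + 2 * j).factorial : ℝ) / (2 * kap k) ^ (2 * l + 2 + 2 * j + 1)) := by
      rw [integral_finsetSum _ hint]
      refine Finset.sum_congr rfl fun j _ => ?_
      rw [integral_const_mul, integral_pow_exp _ hk2]
    rw [← h1]
    unfold radN
    by_cases hi : IntegrableOn (fun r => r ^ (2 * l + 2) * rad k l r ^ 2) (Set.Ioi 0)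
    · exact setIntegral_mono_on hi (integrable_finsetSum _ hint) measurableSet_Ioi hpt
    · rw [integral_undef hi]
      refine setIntegral_nonneg measurableSet_Ioi fun r hr => ?_
      have hr' : (0 : ℝ) < r := hr
      (clear * - hr'; positivity)
  refine hle.trans ?_
  have hterm : ∀ j ∈ Finset.range (k + 1 - l), ((k : ℝ) + 1) *
      (((2 * l + 2 + 2 * j).factorial : ℝ) / (2 * kap k) ^ (2 * l + 2 + 2 * j + 1))
      ≤ ((k : ℝ) + 1) * ((2 * k + 2).factorial * ((k : ℝ) + 1) ^ (2 * k + 3)) := by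
    intro j hj
    have hj' := Finset.mem_range.1 hj
    refine mul_le_mul_of_nonneg_left ?_ (by positivity)
    rw [div_eq_mul_inv]
    have h1 : ((2 * l + 2 + 2 * j).factorial : ℝ) ≤ ((2 * k + 2).factorial : ℝ) := by
      exact_mod_cast Nat.factorial_le (by omega)
    have h2 : ((2 * kap k) ^ (2 * l + 2 + 2 * j + 1))⁻¹ ≤ ((k : ℝ) + 1) ^ (2 * k + 3) := by
      rw [← inv_pow]
      have h3 : (2 * kap k)⁻¹ ≤ (k : ℝ) + 1 := by
        unfold kap
        rw [mul_one_div, inv_div]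
        have : (0 : ℝ) ≤ k := Nat.cast_nonneg k
        linarith only []
      have h4 : 0 ≤ (2 * kap k)⁻¹ := by (clear * - hk; positivity)
      have h5 : (1 : ℝ) ≤ (k : ℝ) + 1 := by
        have : (0 : ℝ) ≤ k := Nat.cast_nonneg k
        linarith only []
      exact (pow_le_pow_left₀ h4 h3 _).trans (pow_le_pow_right₀ h5 (by omega))
    exact mul_le_mul h1 h2 (by positivity) (by positivity)
  refine (Finset.sum_le_sum hterm).trans ?_
  rw [Finset.sum_const, Finset.card_range, nsmul_eq_mul, pow_two, mul_assoc]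
  refine mul_le_mul_of_nonneg_right ?_ (by (clear * -; positivity))
  have : k + 1 - l ≤ k + 1 := Nat.sub_le _ _
  exact_mod_cast this

theorem nat_bound (n : ℕ) (hn : 1 ≤ n) :
    32 * n ^ 4 * ((2 * n) ^ (2 * n) * n ^ (2 * n + 1)) ≤ 2 ^ (16 * n ^ 2) := by
  have h1 : n ≤ 2 ^ n := Nat.lt_two_pow_self.le
  calc 32 * n ^ 4 * ((2 * n) ^ (2 * n) * n ^ (2 * n + 1))
      ≤ 2 ^ 5 * (2 ^ n) ^ 4 * ((2 * 2 ^ n) ^ (2 * n) * (2 ^ n) ^ (2 * n + 1)) := by
        gcongr
        norm_num
    _ = 2 ^ (5 + n * 4 + ((n + 1) * (2 * n) + n * (2 * n + 1))) := by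
        have e1 : (2 * 2 ^ n) ^ (2 * n) = 2 ^ ((n + 1) * (2 * n)) := by
          rw [← pow_succ', ← pow_mul]
        have e2 : (2 ^ n) ^ (2 * n + 1) = 2 ^ (n * (2 * n + 1)) := by
          rw [← pow_mul]
        have e3 : (2 ^ n) ^ 4 = 2 ^ (n * 4) := by
          rw [← pow_mul]
        rw [e1, e2, e3, ← pow_add, ← pow_add, ← pow_add]
    _ ≤ 2 ^ (16 * n ^ 2) := by
        apply Nat.pow_le_pow_right (by norm_num)
        nlinarith

theorem beta_div_radN {k l : ℕ} (hl : l < k) {ρ : ℝ} (hρ : 0 < ρ)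
    (hρ2 : ρ ≤ 1 / 2 ^ (8 * (k + 1) ^ 2)) :
    2 * (ρ ^ (2 * k) / 2 ^ (16 * (k + 1) ^ 2)) ≤ beta ρ k l / radN k l := by
  obtain ⟨n, hn⟩ : ∃ n, n = k + 1 := ⟨_, rfl⟩
  have hρ8 : ρ ≤ 1 / 8 := by
    refine hρ2.trans ?_
    apply one_div_le_one_div_of_le (by norm_num)
    calc (8 : ℝ) = 2 ^ 3 := by norm_num
      _ ≤ 2 ^ (8 * (k + 1) ^ 2) := pow_le_pow_right₀ (by norm_num) (by (clear * - hl; nlinarith))
  have h1 := integral_Vr_lower hl.le hρ hρ8
  have h2 := radN_le hl.le
  have h3 := radN_pos hl.le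
  rw [le_div_iff₀ h3]
  refine le_trans ?_ h1
  have hnb := nat_bound n (by (clear * - hn; omega))
  have hfac : ((2 * k + 2).factorial : ℝ) ≤ (2 * (n : ℝ)) ^ (2 * n) := by
    have h4 := Nat.factorial_le_pow (2 * k + 2)
    have h5 : 2 * k + 2 = 2 * n := by omega
    rw [h5] at h4
    rw [h5]
    exact_mod_cast h4
  have hkn : (k : ℝ) + 1 = n := by
    rw [hn]
    push_cast
    ring
  rw [hkn] at h2
  have h6 : radN k l ≤ (n : ℝ) ^ 2 * ((2 * (n : ℝ)) ^ (2 * n) * (n : ℝ) ^ (2 * n + 1)) := by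
    refine h2.trans ?_
    have h7 : 2 * k + 3 = 2 * n + 1 := by omega
    rw [h7]
    gcongr
  have h8 : ρ ^ (2 * k) ≤ ρ ^ (2 * l + 2) :=
    pow_le_pow_of_le_one hρ.le (by linarith only [hρ8]) (by (clear * - hl hn; omega))
  have h9 : ((2 * (l : ℝ) + 2) * (2 * l + 3)) ≤ 4 * (n : ℝ) ^ 2 := by
    have : (l : ℝ) + 1 + 1 ≤ n := by
      rw [hn]
      exact_mod_cast (by omega : l + 1 + 1 ≤ k + 1)
    have hl0 : (0 : ℝ) ≤ l := Nat.cast_nonneg l
    nlinarith only [this]
  have hn0 : (0 : ℝ) < n := by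
    rw [hn]
    positivity
  calc 2 * (ρ ^ (2 * k) / 2 ^ (16 * (k + 1) ^ 2)) * radN k l
      ≤ 2 * (ρ ^ (2 * k) / 2 ^ (16 * (k + 1) ^ 2)) *
        ((n : ℝ) ^ 2 * ((2 * (n : ℝ)) ^ (2 * n) * (n : ℝ) ^ (2 * n + 1))) := by
        gcongr
    _ ≤ 1 / 4 * (ρ ^ (2 * k) / (4 * (n : ℝ) ^ 2)) := by
        rw [← hn]
        have h10 : (32 : ℝ) * (n : ℝ) ^ 4 * ((2 * (n : ℝ)) ^ (2 * n) * (n : ℝ) ^ (2 * n + 1))
            ≤ 2 ^ (16 * n ^ 2) := by exact_mod_cast hnb
        have h11 : 2 * (ρ ^ (2 * k) / 2 ^ (16 * n ^ 2)) *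
            ((n : ℝ) ^ 2 * ((2 * (n : ℝ)) ^ (2 * n) * (n : ℝ) ^ (2 * n + 1)))
            = (1 / 16 * (ρ ^ (2 * k) / (n : ℝ) ^ 2)) *
              ((32 : ℝ) * (n : ℝ) ^ 4 * ((2 * (n : ℝ)) ^ (2 * n) * (n : ℝ) ^ (2 * n + 1))
                / 2 ^ (16 * n ^ 2)) := by
          field_simp
          ring
        rw [h11]
        have h12 : (32 : ℝ) * (n : ℝ) ^ 4 * ((2 * (n : ℝ)) ^ (2 * n) * (n : ℝ) ^ (2 * n + 1))
                / 2 ^ (16 * n ^ 2) ≤ 1 := by
          rw [div_le_one (by positivity)]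
          exact h10
        calc _ ≤ (1 / 16 * (ρ ^ (2 * k) / (n : ℝ) ^ 2)) * 1 :=
              mul_le_mul_of_nonneg_left h12 (by positivity)
          _ = _ := by
              field_simp
              ring
    _ ≤ 1 / 4 * (ρ ^ (2 * l + 2) / ((2 * l + 2) * (2 * l + 3))) := by
        (clear * - hρ h8 h9; gcongr)

end Vale.Agent.P370.Hyd
end
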