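import Vale.Agent.P370.MathlibUsed
import Vale.Agent.P370.Core
import Vale.Agent.Lib.PolyTime.NatArith2
import Vale.Agent.Lib.PolyTime.Lists2
import Vale.Agent.Lib.PolyTime.Bitwise
import Vale.Agent.P370.QStmt
import Vale.Agent.Lib.PolyTime.Typed

set_option linter.all false

section

/-!
Working versions of the energy functional (with `fderiv`), and the bridge to the statement-level
definitions.
-/

namespace Vale.Agent.P370

open MeasureTheory

noncomputable def normSq {N : ℕ} (ψ : Wave N) : ℝ := ∑ s, ∫ x, ‖ψ x s‖ ^ 2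

noncomputable def kinetic {N : ℕ} (ψ : Wave N) : ℝ :=
  (1 / 2) * ∑ s, ∑ i, ∑ k : Fin 3,
    ∫ x, ‖fderiv ℝ (fun y => ψ y s) x (Pi.single i (EuclideanSpace.single k 1))‖ ^ 2

noncomputable def energy {M N : ℕ} (R : Fin M → R3) (Z : Fin M → ℕ) (ψ : Wave N) : ℝ :=
  kinetic ψ + ∑ s, ∫ x, coulombV R Z x * ‖ψ x s‖ ^ 2

theorem mass_eq {N : ℕ} (ψ : Wave N) : mass ψ = normSq ψ := rfl

theorem update_eq {N : ℕ} (x : Fin N → R3) (i : Fin N) (k : Fin 3) (t : ℝ) :
    Function.update x i (x i + EuclideanSpace.single k t) =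
      x + t • (Pi.single i (EuclideanSpace.single k (1 : ℝ)) : Fin N → R3) := by
  funext j
  by_cases h : j = i
  · subst h
    rw [Function.update_self, Pi.add_apply, Pi.smul_apply, Pi.single_eq_same]
    congr 1
    ext l
    simp only [PiLp.single_apply, PiLp.smul_apply, smul_eq_mul, mul_ite, mul_one, mul_zero]
  · rw [Function.update_of_ne h, Pi.add_apply, Pi.smul_apply, Pi.single_eq_of_ne h, smul_zero,
      add_zero]

theorem partialD_eq {N : ℕ} {ψ : Wave N} (hψ : IsTestState ψ) (i : Fin N) (k : Fin 3)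
    (x : Fin N → R3) (s : Fin N → Fin 2) :
    partialD ψ i k x s =
      fderiv ℝ (fun y => ψ y s) x (Pi.single i (EuclideanSpace.single k 1)) := by
  unfold partialD
  simp only [update_eq]
  have hd : DifferentiableAt ℝ (fun y => ψ y s) x :=
    (hψ.smooth s).differentiable (by simp only [ne_eq, WithTop.coe_eq_zero, ENat.top_ne_zero, not_false_eq_true]) x
  exact hd.lineDeriv_eq_fderiv

theorem energyForm_eq {M N : ℕ} (R : Fin M → R3) (Z : Fin M → ℕ) {ψ : Wave N}
    (hψ : IsTestState ψ) : energyForm R Z ψ = energy R Z ψ := by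
  unfold energyForm energy kinetic mass integ
  simp only [partialD_eq hψ]
  congr 2
  have h1 : ∀ i : Fin N, (∑ k : Fin 3, ∑ s : Fin N → Fin 2,
      ∫ x, ‖fderiv ℝ (fun y => ψ y s) x (Pi.single i (EuclideanSpace.single k 1))‖ ^ 2) =
      ∑ s : Fin N → Fin 2, ∑ k : Fin 3,
      ∫ x, ‖fderiv ℝ (fun y => ψ y s) x (Pi.single i (EuclideanSpace.single k 1))‖ ^ 2 :=
    fun i => Finset.sum_comm
  simp only [h1]
  exact Finset.sum_comm

end Vale.Agent.P370
end

section

/-!
Interface file for part A (the atomic limit).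
-/

namespace Vale.Agent.P370

open MeasureTheory

/-- Coulomb self-energy of a set of unit point charges. -/
noncomputable def pairEnergy {ι : Type*} [DecidableEq ι] (R : ι → R3) (T : Finset ι) : ℝ :=
  (1 / 2) * ∑ α ∈ T, ∑ β ∈ T.erase α, 1 / dist (R α) (R β)

/-- One-electron weight supplied by the cut-off hydrogen inequality. -/
noncomputable def wfun {M : ℕ} (R : Fin M → R3) (ρ : ℝ) (x : R3) : ℝ :=
  ∑ α, (Metric.ball (R α) (2 * ρ)).indicator (fun y => 1 / dist y (R α) - 1 / 2 - 1 / ρ ^ 2) x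

end Vale.Agent.P370
end

section

/-!
The space of block singlets as a space of qubits (H6). Part A (iota_bs, snorm2_iota, iotaA_iota,
sip_iota, dotS_iota) is in Iota_A, part B (casimir_gap) in Iota_B.
-/
end

section

/-!
Integers in the typed polynomial time layer: encoding by sign and absolute value, ring operations,
Euclidean division, comparisons, sums and products of lists.
-/

namespace Vale.Agent.Lib.PolyTime

open Function

variable {A : Set Word} {α β γ δ : Type*} [Enc α] [Enc β] [Enc γ] [Enc δ]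

/-- Integers are encoded by sign and absolute value. -/
instance : Enc ℤ := ⟨fun z => enc (decide (z < 0), z.natAbs)⟩

theorem enc_int (z : ℤ) : enc z = enc (decide (z < 0), z.natAbs) := rfl

theorem esize_int (z : ℤ) : esize z = esize z.natAbs + 3 := by
  have h : esize z = esize (decide (z < 0), z.natAbs) := rfl
  rw [h, esize_pair, esize_bool]
  omega

theorem esize_int_le {z : ℤ} {k : ℕ} (h : z.natAbs < 2 ^ k) : esize z ≤ k + 3 := by
  rw [esize_int]
  have := esize_nat_le h
  omega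

theorem natAbs_lt_two_pow (z : ℤ) : z.natAbs < 2 ^ esize z := by
  refine (lt_two_pow_esize z.natAbs).trans_le (Nat.pow_le_pow_right (by norm_num) ?_)
  rw [esize_int]; omega

/-! ### Constructors and destructors -/

theorem PT.natAbs {f : α → ℤ} (hf : PT A f) : PT A (fun a => (f a).natAbs) := by
  have h : PT A (fun a => (decide (f a < 0), (f a).natAbs)) := by
    obtain ⟨F, hF, hF'⟩ := hf
    exact ⟨F, hF, fun a => by rw [hF', enc_int]⟩
  exact h.snd

theorem PT.intNeg? {f : α → ℤ} (hf : PT A f) : PT A (fun a => decide (f a < 0)) := by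
  have h : PT A (fun a => (decide (f a < 0), (f a).natAbs)) := by
    obtain ⟨F, hF, hF'⟩ := hf
    exact ⟨F, hF, fun a => by rw [hF', enc_int]⟩
  exact h.fst

/-- The difference of two natural numbers as an integer. -/
theorem PT.subNat {f g : α → ℕ} (hf : PT A f) (hg : PT A g) :
    PT A (fun a => (f a : ℤ) - (g a : ℤ)) := by
  have h : PT A (fun a => (decide (f a < g a), (f a - g a) + (g a - f a))) :=
    (PT.lt hf hg).pair ((hf.sub hg).add (hg.sub hf))
  obtain ⟨F, hF, hF'⟩ := h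
  refine ⟨F, hF, fun a => ?_⟩
  have e : (decide (f a < g a), (f a - g a) + (g a - f a)) =
      (decide ((f a : ℤ) - (g a : ℤ) < 0), ((f a : ℤ) - (g a : ℤ)).natAbs) :=
    Prod.ext (decide_eq_decide.2 (by omega)) (by simp only; omega)
  rw [hF', enc_int]
  exact congrArg enc e

theorem PT.natCast {f : α → ℕ} (hf : PT A f) : PT A (fun a => (f a : ℤ)) :=
  (PT.subNat hf (PT.const 0)).congr fun a => by simp

theorem PT.posPart {f : α → ℤ} (hf : PT A f) : PT A (fun a => (f a).toNat) :=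
  (PT.ite (p := fun a => f a < 0) hf.intNeg? (PT.const 0) hf.natAbs).congr fun a => by
    split_ifs with h <;> omega

theorem PT.intNeg {f : α → ℤ} (hf : PT A f) : PT A (fun a => - f a) := by
  have h : PT A (fun a => if f a < 0 then ((f a).natAbs : ℤ) - ((0 : ℕ) : ℤ)
      else ((0 : ℕ) : ℤ) - ((f a).natAbs : ℤ)) :=
    PT.ite (p := fun a => f a < 0) hf.intNeg? (PT.subNat hf.natAbs (PT.const 0))
      (PT.subNat (PT.const 0) hf.natAbs)
  exact h.congr fun a => by split_ifs with h <;> omega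

theorem PT.negPart {f : α → ℤ} (hf : PT A f) : PT A (fun a => (- f a).toNat) := hf.intNeg.posPart

/-! ### Ring operations -/

theorem PT.intAdd {f g : α → ℤ} (hf : PT A f) (hg : PT A g) : PT A (fun a => f a + g a) :=
  (PT.subNat (hf.posPart.add hg.posPart) (hf.negPart.add hg.negPart)).congr fun a => by
    push_cast; omega

theorem PT.intSub {f g : α → ℤ} (hf : PT A f) (hg : PT A g) : PT A (fun a => f a - g a) :=
  (PT.subNat (hf.posPart.add hg.negPart) (hf.negPart.add hg.posPart)).congr fun a => by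
    push_cast; omega

theorem PT.intMul {f g : α → ℤ} (hf : PT A f) (hg : PT A g) : PT A (fun a => f a * g a) := by
  refine (PT.subNat ((hf.posPart.mul hg.posPart).add (hf.negPart.mul hg.negPart))
    ((hf.posPart.mul hg.negPart).add (hf.negPart.mul hg.posPart))).congr fun a => ?_
  have h1 : f a = ((f a).toNat : ℤ) - ((- f a).toNat : ℤ) := by omega
  have h2 : g a = ((g a).toNat : ℤ) - ((- g a).toNat : ℤ) := by omega
  conv_rhs => rw [h1, h2]
  push_cast
  ring

theorem PT.intAbs {f : α → ℤ} (hf : PT A f) : PT A (fun a => |f a|) :=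
  (PT.natCast hf.natAbs).congr fun a => by rw [Int.abs_eq_natAbs]

/-! ### Comparisons -/

theorem PT.intLt {f g : α → ℤ} (hf : PT A f) (hg : PT A g) :
    PT A (fun a => decide (f a < g a)) :=
  (hf.intSub hg).intNeg?.congr fun a => decide_eq_decide.2 (by omega)

theorem PT.intLe {f g : α → ℤ} (hf : PT A f) (hg : PT A g) :
    PT A (fun a => decide (f a ≤ g a)) :=
  (PT.intLt hg hf).not.congr fun a => by
    rw [← _root_.decide_not]
    exact decide_eq_decide.2 not_lt

theorem PT.intEq {f g : α → ℤ} (hf : PT A f) (hg : PT A g) :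
    PT A (fun a => decide (f a = g a)) :=
  ((hf.intLe hg).and (hg.intLe hf)).congr fun a => by
    rw [← Bool.decide_and]
    exact decide_eq_decide.2 le_antisymm_iff.symm

/-! ### Division -/

theorem ediv_eq (x y : ℤ) : x / y =
    if y = 0 then 0 else
      if 0 ≤ x then (if 0 < y then ((x.natAbs / y.natAbs : ℕ) : ℤ)
        else - ((x.natAbs / y.natAbs : ℕ) : ℤ))
      else (if 0 < y then - (((x.natAbs - 1) / y.natAbs + 1 : ℕ) : ℤ)
        else (((x.natAbs - 1) / y.natAbs + 1 : ℕ) : ℤ)) := by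
  by_cases hy : y = 0
  · rw [if_pos hy, hy, Int.ediv_zero]
  rw [if_neg hy]
  have key : ∀ y : ℤ, 0 < y → x / y = if 0 ≤ x then ((x.natAbs / y.natAbs : ℕ) : ℤ)
      else - (((x.natAbs - 1) / y.natAbs + 1 : ℕ) : ℤ) := by
    intro y hy
    obtain ⟨n, rfl⟩ : ∃ n : ℕ, y = n := ⟨y.toNat, by omega⟩
    by_cases hx : 0 ≤ x
    · rw [if_pos hx]
      obtain ⟨k, rfl⟩ : ∃ k : ℕ, x = k := ⟨x.toNat, by (clear * - hx; omega)⟩
      simp only [Int.natAbs_natCast, Int.natCast_ediv]
    · rw [if_neg hx]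
      obtain ⟨k, rfl⟩ : ∃ k : ℕ, x = Int.negSucc k := ⟨(-x - 1).toNat, by omega⟩
      rw [Int.negSucc_ediv _ hy]
      simp only [neg_add_rev, Int.reduceNeg, Int.natAbs_negSucc, Nat.succ_eq_add_one, add_tsub_cancel_right, Int.natAbs_natCast, Nat.cast_add, Int.natCast_ediv, Nat.cast_one, add_right_inj, neg_inj]
      rfl
  rcases lt_trichotomy y 0 with h | h | h
  · have h1 : x / y = - (x / (-y)) := by rw [Int.ediv_neg, neg_neg]
    rw [h1, key (-y) (by omega), Int.natAbs_neg]
    have h2 : ¬ 0 < y := by omega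
    simp only [h2, if_false]
    split_ifs <;> simp
  · exact absurd h hy
  · rw [key y h]
    simp only [h, if_true]

theorem PT.intDiv {f g : α → ℤ} (hf : PT A f) (hg : PT A g) : PT A (fun a => f a / g a) := by
  have h0 : PT A (fun a => decide (0 < g a)) := (PT.intLt (PT.const 0) hg)
  have q1 : PT A (fun a => (((f a).natAbs / (g a).natAbs : ℕ) : ℤ)) :=
    PT.natCast (hf.natAbs.div hg.natAbs)
  have q2 : PT A (fun a => ((((f a).natAbs - 1) / (g a).natAbs + 1 : ℕ) : ℤ)) :=
    PT.natCast (((hf.natAbs.sub (PT.const 1)).div hg.natAbs).add (PT.const 1))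
  refine (PT.ite (p := fun a => g a = 0) (PT.intEq hg (PT.const 0)) (PT.const 0)
    (PT.ite (p := fun a => 0 ≤ f a) (PT.intLe (PT.const 0) hf)
      (PT.ite (p := fun a => 0 < g a) h0 q1 q1.intNeg)
      (PT.ite (p := fun a => 0 < g a) h0 q2.intNeg q2))).congr fun a => ?_
  exact (ediv_eq _ _).symm

/-! ### Sums and products of lists -/

theorem natAbs_sum_lt (l : List ℤ) : l.sum.natAbs < 2 ^ esize l := by
  induction l with
  | nil => simp only [List.sum_nil, Int.natAbs_zero, esize_list_nil, pow_zero, Order.lt_one_iff]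
  | cons a l ih =>
    rw [List.sum_cons, esize_list_cons]
    have h1 := natAbs_lt_two_pow a
    have h2 : 2 ^ esize a ≤ 2 ^ (2 * esize a + esize l) :=
      Nat.pow_le_pow_right (by norm_num) (by (clear * -; omega))
    have h3 : 2 ^ esize l ≤ 2 ^ (2 * esize a + esize l) :=
      Nat.pow_le_pow_right (by norm_num) (by omega)
    rw [pow_succ]
    have := Int.natAbs_add_le a l.sum
    omega

theorem natAbs_prod_le (l : List ℤ) : l.prod.natAbs ≤ 2 ^ esize l := by
  induction l with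
  | nil => simp only [List.prod_nil, isUnit_one, Int.natAbs_of_isUnit, esize_list_nil, pow_zero, Std.le_refl]
  | cons a l ih =>
    rw [List.prod_cons, esize_list_cons, Int.natAbs_mul]
    have h1 := natAbs_lt_two_pow a
    calc a.natAbs * l.prod.natAbs ≤ 2 ^ esize a * 2 ^ esize l := Nat.mul_le_mul h1.le ih
      _ = 2 ^ (esize a + esize l) := (pow_add _ _ _).symm
      _ ≤ 2 ^ (2 * esize a + esize l + 1) := Nat.pow_le_pow_right (by norm_num) (by omega)

theorem esize_intSum_le (l : List ℤ) : esize l.sum ≤ esize l + 3 :=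
  esize_int_le (natAbs_sum_lt l)

theorem esize_intProd_le (l : List ℤ) : esize l.prod ≤ esize l + 4 := by
  have h : l.prod.natAbs < 2 ^ (esize l + 1) := by
    refine (natAbs_prod_le l).trans_lt ?_
    exact Nat.pow_lt_pow_right (by norm_num) (by omega)
  exact esize_int_le h

theorem PT.intSum {l : α → List ℤ} (hl : PT A l) : PT A (fun a => (l a).sum) := by
  refine (PT.foldr (init := fun _ => (0 : ℤ)) (f := fun _ x s => x + s) hl (PT.const 0)
    (PT.intAdd PT.snd'.fst PT.snd'.snd) (b := fun a => PolyTime.esize (l a) + 3)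
    (hl.pbd.add (PBd.const 3)) fun a i => ?_).congr fun a => ?_
  · rw [← List.sum_eq_foldr]
    have h1 := esize_intSum_le ((l a).drop i)
    have h2 := esize_drop_le i (l a)
    omega
  · rw [← List.sum_eq_foldr]

theorem PT.intProd {l : α → List ℤ} (hl : PT A l) : PT A (fun a => (l a).prod) := by
  refine (PT.foldr (init := fun _ => (1 : ℤ)) (f := fun _ x s => x * s) hl (PT.const 1)
    (PT.intMul PT.snd'.fst PT.snd'.snd) (b := fun a => PolyTime.esize (l a) + 4)
    (hl.pbd.add (PBd.const 4)) fun a i => ?_).congr fun a => ?_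
  · rw [← List.prod_eq_foldr]
    have h1 := esize_intProd_le ((l a).drop i)
    have h2 := esize_drop_le i (l a)
    omega
  · rw [← List.prod_eq_foldr]

theorem PT.zipWith {l : α → List β} {l' : α → List γ} {f : α → β → γ → δ} (hl : PT A l)
    (hl' : PT A l') (hf : PT A (fun p : α × β × γ => f p.1 p.2.1 p.2.2)) :
    PT A (fun a => List.zipWith (f a) (l a) (l' a)) :=
  (PT.map (l := fun a => (l a).zip (l' a)) (f := fun a p => f a p.1 p.2) (PT.zip hl hl')
    hf).congr fun a => by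
      rw [List.zip, List.map_zipWith]

/-- Power with a fixed exponent. -/
theorem PT.intPow {f : α → ℤ} (hf : PT A f) (k : ℕ) : PT A (fun a => f a ^ k) := by
  induction k with
  | zero => exact (PT.const 1).congr fun a => (pow_zero _).symm
  | succ k ih => exact (ih.intMul hf).congr fun a => (pow_succ _ _).symm

end Vale.Agent.Lib.PolyTime
end

section

/-!
Polynomial time: maps and sums over ranges, powers of two, Gaussian powers.
-/

namespace Vale.Agent.Lib.PolyTime

open Function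

variable {A : Set Word} {α β γ δ : Type*} [Enc α] [Enc β] [Enc γ] [Enc δ]

theorem rangeUn_rec (n : ℕ) :
    Nat.rec (motive := fun _ => List Un) [] (fun _ l => l ++ [Un.mk l.length]) n =
      (List.range n).map Un.mk := by
  induction n with
  | zero => rfl
  | succ n ih =>
    show (Nat.rec (motive := fun _ => List Un) [] (fun _ l => l ++ [Un.mk l.length]) n) ++
      [Un.mk (Nat.rec (motive := fun _ => List Un) [] (fun _ l => l ++ [Un.mk l.length]) n).length]
        = _
    rw [ih, List.range_succ, List.map_append]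
    simp

theorem esize_rangeUn (n : ℕ) : esize ((List.range n).map Un.mk) ≤ n * (2 * n + 1) := by
  refine (esize_list_le (B := n) ?_).trans ?_
  · intro x hx
    obtain ⟨y, hy, rfl⟩ := List.mem_map.1 hx
    rw [esize_un]
    exact (List.mem_range.1 hy).le
  · simp

theorem PT.rangeUn {k : α → ℕ} (hk : PT A k) (hkb : PBd k) :
    PT A (fun a => (List.range (k a)).map Un.mk) := by
  have hB : PBd (fun a => k a * (2 * k a + 1)) := by fun_prop
  refine (PT.natRec (init := fun _ => ([] : List Un))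
    (step := fun _ _ l => l ++ [Un.mk l.length]) hk hkb (PT.const [])
    (PT.append PT.snd'.snd (PT.cons (PT.mkUn (PT.length PT.snd'.snd)
      (PBd.length (A := A) PT.snd'.snd)) (PT.const []))) hB fun a j hj => ?_).congr fun a => ?_
  · rw [rangeUn_rec]
    exact (esize_rangeUn j).trans (Nat.mul_le_mul hj (by omega))
  · exact rangeUn_rec _

theorem PT.rangeMap {k : α → ℕ} {f : α → ℕ → β} (hk : PT A k) (hkb : PBd k)
    (hf : PT A (fun p : α × Un => f p.1 p.2.v)) :
    PT A (fun a => (List.range (k a)).map (f a)) :=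
  (PT.map (f := fun a (u : Un) => f a u.v) (PT.rangeUn hk hkb) hf).congr fun a => by
    rw [List.map_map]; rfl

theorem PT.rangeSumInt {k : α → ℕ} {f : α → ℕ → ℤ} (hk : PT A k) (hkb : PBd k)
    (hf : PT A (fun p : α × Un => f p.1 p.2.v)) :
    PT A (fun a => ((List.range (k a)).map (f a)).sum) :=
  PT.intSum (PT.rangeMap hk hkb hf)

theorem PT.rangeSumNat {k : α → ℕ} {f : α → ℕ → ℕ} (hk : PT A k) (hkb : PBd k)
    (hf : PT A (fun p : α × Un => f p.1 p.2.v)) :
    PT A (fun a => ((List.range (k a)).map (f a)).sum) :=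
  PT.sum (PT.rangeMap hk hkb hf)

theorem PT.rangeFlatMap {k : α → ℕ} {f : α → ℕ → List β} (hk : PT A k) (hkb : PBd k)
    (hf : PT A (fun p : α × Un => f p.1 p.2.v)) :
    PT A (fun a => (List.range (k a)).flatMap (f a)) :=
  (PT.flatten (PT.rangeMap hk hkb hf)).congr fun a => by
    rw [List.flatMap_def]

theorem PT.twoPow {e : α → ℕ} (he : PT A e) (heb : PBd e) : PT A (fun a => 2 ^ e a) :=
  PT.pow (PT.const 2) he heb

theorem PT.twoPowInt {e : α → ℕ} (he : PT A e) (heb : PBd e) :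
    PT A (fun a => (2 : ℤ) ^ e a) :=
  (PT.natCast (PT.twoPow he heb)).congr fun a => by push_cast; rfl

/-- The number of a unary counter. -/
theorem PBd.unSnd {α : Type*} [Enc α] : PBd (fun p : α × Un => p.2.v) :=
  PBd.unVal (A := ∅) PT.snd'

theorem PBd.compFst {b : α → ℕ} (hb : PBd b) : PBd (fun p : α × β => b p.1) :=
  PBd.comp (A := ∅) hb PT.fst'

end Vale.Agent.Lib.PolyTime
end

section

/-!
The integer square root is computable in polynomial time (bit by bit).
-/

namespace Vale.Agent.Lib.PolyTime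

/-- One step of the bitwise square root. -/
def sqrtSt (x s j r : ℕ) : ℕ :=
  if (r + 2 ^ (s - 1 - j)) ^ 2 ≤ x then r + 2 ^ (s - 1 - j) else r

theorem sqrtSt_rec (x s : ℕ) (hx : x < 2 ^ s) (j : ℕ) (hj : j ≤ s) :
    (Nat.rec (motive := fun _ => ℕ) 0 (sqrtSt x s) j) ^ 2 ≤ x ∧
      x < (Nat.rec (motive := fun _ => ℕ) 0 (sqrtSt x s) j + 2 ^ (s - j)) ^ 2 := by
  induction j with
  | zero =>
    refine ⟨by simp only [Nat.rec_zero, ne_eq, OfNat.ofNat_ne_zero, not_false_eq_true, zero_pow, zero_le], ?_⟩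
    show x < (0 + 2 ^ (s - 0)) ^ 2
    rw [zero_add, Nat.sub_zero]
    calc x < 2 ^ s := hx
      _ = (2 ^ s) ^ 1 := by rw [pow_one]
      _ ≤ (2 ^ s) ^ 2 := Nat.pow_le_pow_right (by (clear * -; positivity)) (by norm_num)
  | succ j ih =>
    obtain ⟨h1, h2⟩ := ih (by omega)
    show sqrtSt x s j (Nat.rec (motive := fun _ => ℕ) 0 (sqrtSt x s) j) ^ 2 ≤ x ∧
      x < (sqrtSt x s j (Nat.rec (motive := fun _ => ℕ) 0 (sqrtSt x s) j) +
        2 ^ (s - (j + 1))) ^ 2
    generalize Nat.rec (motive := fun _ => ℕ) 0 (sqrtSt x s) j = r at h1 h2 ⊢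
    have e1 : s - 1 - j = s - (j + 1) := by omega
    have e2 : 2 ^ (s - j) = 2 ^ (s - (j + 1)) + 2 ^ (s - (j + 1)) := by
      have : s - j = (s - (j + 1)) + 1 := by omega
      rw [this, pow_succ]
      ring
    unfold sqrtSt
    rw [e1]
    split_ifs with h
    · refine ⟨h, ?_⟩
      rw [add_assoc, ← e2]
      exact h2
    · exact ⟨h1, not_le.1 h⟩

theorem PT.natSqrt {A : Set Word} {α : Type*} [Enc α] {f : α → ℕ} (hf : PT A f) :
    PT A (fun a => Nat.sqrt (f a)) := by
  have hs : PT A (fun a => PolyTime.esize (f a)) := PT.size hf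
  have hsb : PBd (fun a => PolyTime.esize (f a)) := hf.pbd
  refine (PT.natRec (init := fun _ => 0)
    (step := fun a => sqrtSt (f a) (PolyTime.esize (f a))) hs hsb (PT.const 0) ?_
    (b := fun a => PolyTime.esize (f a)) hsb fun a j hj => ?_).congr fun a => ?_
  · unfold sqrtSt
    have h1 : PT A (fun p : α × ℕ × ℕ => PolyTime.esize (f p.1)) := hs.comp PT.fst'
    have h2 : PBd (fun p : α × ℕ × ℕ => PolyTime.esize (f p.1)) :=
      PBd.comp (A := A) (b := fun a => PolyTime.esize (f a)) hsb PT.fst'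
    have h3 : PT A (fun p : α × ℕ × ℕ => p.2.2 +
        2 ^ (PolyTime.esize (f p.1) - 1 - p.2.1)) :=
      PT.snd'.snd.add (PT.pow (PT.const 2) ((h1.sub (PT.const 1)).sub PT.snd'.fst)
        (h2.mono fun p => (Nat.sub_le _ _).trans (Nat.sub_le _ _)))
    exact PT.ite (PT.le (h3.powConst 2) (hf.comp PT.fst')) h3 PT.snd'.snd
  · refine esize_nat_mono ?_
    have h1 := (sqrtSt_rec (f a) _ (lt_two_pow_esize (f a)) j hj).1
    exact (Nat.le_self_pow (by norm_num) _).trans h1
  · obtain ⟨h1, h2⟩ := sqrtSt_rec (f a) _ (lt_two_pow_esize (f a)) _ le_rfl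
    rw [Nat.sub_self, pow_zero] at h2
    rw [pow_two] at h1 h2
    exact Nat.eq_sqrt.2 ⟨h1, h2⟩

end Vale.Agent.Lib.PolyTime
end

section

/-!
The instance builder: integer arithmetic only. `k` is the logarithm of the number of sites.
Angles are measured in units of `π / (2 D)`.
-/

namespace Vale.Agent.P370.Q.Alg

/-- number of sites -/
def aK (k : ℕ) : ℕ := 2 ^ k

/-- open shell -/
def an (k : ℕ) : ℕ := 2 ^ (2048 * k)

/-- size of the grid -/
def aD (k : ℕ) : ℕ := 16 * an k

/-- working precision (bits) -/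
def aQ (k : ℕ) : ℕ := 512 * an k ^ 3

/-- `ch P m` approximates `2^P cos (π / 2^(m+1))` -/
def ch (P : ℕ) : ℕ → ℕ
  | 0 => 0
  | m + 1 => Nat.sqrt ((2 ^ P + ch P m) * 2 ^ (P - 1))

theorem ch_zero (P : ℕ) : ch P 0 = 0 := rfl

theorem ch_succ (P m : ℕ) : ch P (m + 1) = Nat.sqrt ((2 ^ P + ch P m) * 2 ^ (P - 1)) := rfl

/-- `sh P m` approximates `2^P sin (π / 2^(m+1))` -/
def sh (P m : ℕ) : ℕ := Nat.sqrt (2 ^ (2 * P) - ch P m ^ 2)

/-- powers of the Gaussian integer `c + s i` -/
def gp (c s : ℤ) : ℕ → ℤ × ℤ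
  | 0 => (1, 0)
  | j + 1 => ((gp c s j).1 * c - (gp c s j).2 * s, (gp c s j).1 * s + (gp c s j).2 * c)

theorem gp_zero (c s : ℤ) : gp c s 0 = (1, 0) := rfl

theorem gp_succ (c s : ℤ) (j : ℕ) : gp c s (j + 1) =
    ((gp c s j).1 * c - (gp c s j).2 * s, (gp c s j).1 * s + (gp c s j).2 * c) := rfl

/-- `zet k j` is the `j`-th power of the approximation of `2^P exp (i π / (2 D))`, `P = 2 Q` -/
def zet (k j : ℕ) : ℤ × ℤ :=
  gp (ch (2 * aQ k) (2048 * k + 4)) (sh (2 * aQ k) (2048 * k + 4)) j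

/-- `2^Q cos (π j / (2 D))` -/
def cs (k j : ℕ) : ℤ := (zet k j).1 * 2 ^ aQ k / 2 ^ (2 * aQ k * j)

/-- `2^Q sin (π j / (2 D))` -/
def sn (k j : ℕ) : ℤ := (zet k j).2 * 2 ^ aQ k / 2 ^ (2 * aQ k * j)

/-- multipole order at distance `d` -/
def aq (k d : ℕ) : ℕ :=
  min (an k - 1)
    ((cs k (d * 2 ^ (2047 * k + 4)) * ((an k : ℤ) - 1) + 2 ^ (aQ k - 1)) / 2 ^ aQ k).toNat

/-- unit of strength of a device -/
def aXu (k N : ℕ) : ℕ :=
  2 ^ (16 * an k ^ 2 * N) * (2 * N + 1) * ((2 * an k).factorial / (2 * an k - 1 - N).factorial) *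
    (an k / 2) ^ (N + 1)

/-- `Re` of the `N`-th power of `cos θ_a + i sin θ_a cos (φ_b - g)`, scaled by `2^(Q N)`; `g` in
units of `π / (2 D)` -/
def gre (k a b g N : ℕ) : ℤ :=
  (gp (cs k (2 * a + 1)) (sn k (2 * a + 1) * cs k (4 * b + 4 * aD k - g) / 2 ^ aQ k) N).1

/-- device term with amplitude `amp` -/
def dterm (k a b g N amp : ℕ) : ℤ := (amp : ℤ) * gre k a b g N / 2 ^ (aQ k * N)

/-- sum of the top devices -/
def topSum (k a b : ℕ) : ℤ :=
  ((List.range (aK k)).map fun i =>
    dterm k a b (i * 2 ^ (2047 * k + 5)) (2 * (an k - 1))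
      (2 ^ (an k / (4 * aK k ^ 2)) * aXu k (2 * (an k - 1)))).sum

/-- coupling parameter of the pair `i, j`; `s` is the list of the parameters -/
def sget (k : ℕ) (s : List ℕ) (i j : ℕ) : ℕ := s.getD (i * aK k + j) 0

/-- sum of the hopping devices -/
def hopSum (k : ℕ) (s : List ℕ) (a b : ℕ) : ℤ :=
  ((List.range (aK k)).map fun j => ((List.range j).map fun i =>
    dterm k a b ((i + j) * 2 ^ (2047 * k + 4)) (2 * aq k (j - i))
      (sget k s i j * (aXu k (2 * aq k (j - i)) / 2 ^ an k))).sum).sum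

/-- Fejér weight, scaled by `2^Q D²` -/
def fejA (k a : ℕ) : ℤ :=
  2 ^ aQ k - 2 * ((List.range (aD k / 2)).map fun j =>
    cs k (2 * (j + 1) * (2 * a + 1)) / (4 * ((j : ℤ) + 1) ^ 2 - 1)).sum

/-- charge of the node `(a, b)` -/
def chg (k : ℕ) (s : List ℕ) (a b : ℕ) : ℕ :=
  (fejA k a * (2 ^ (128 * an k ^ 3) + topSum k a b + hopSum k s a b) /
    (2 ^ aQ k * (aD k : ℤ) ^ 2)).toNat

/-- coordinates of the node, scaled by `2^Q` -/
def crd (k a b c : ℕ) : ℤ :=
  if c = 0 then sn k (2 * a + 1) * cs k (4 * b) / 2 ^ aQ k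
  else if c = 1 then sn k (2 * a + 1) * sn k (4 * b) / 2 ^ aQ k
  else cs k (2 * a + 1)

/-- numerator of the coordinate of the nucleus; the number of the node is stored in the low order
bits -/
def numer (k a b c : ℕ) : ℤ := 2 * (crd k a b c * (aD k : ℤ) ^ 2 + (a * aD k + b)) + 1

/-- exponent of the denominator of the coordinates -/
def bexp (k : ℕ) : ℕ := 1 + 2 * (2048 * k + 4) + aQ k + 16 * an k ^ 2 + 2000 * an k ^ 3

/-- total nuclear charge -/
def aT (k : ℕ) : ℕ := 2 ^ (2000 * an k ^ 3)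

/-- sum of the charges of the light nuclei -/
def chgSum (k : ℕ) (s : List ℕ) : ℕ :=
  ((List.range (aD k * aD k)).map fun β => chg k s (β / aD k) (β % aD k)).sum

/-- number of electrons -/
def aN (k : ℕ) : ℕ := 2 * ((List.range (an k)).map fun j => j ^ 2).sum + aK k

/-- code of the rational number `m / 2^e` with odd `m` -/
def encDy (m : ℤ) (e : ℕ) : List Bool :=
  decide (m < 0) :: (encNat m.natAbs ++ encNat (2 ^ e))

/-- code of an integer as a rational number -/
def encZ (m : ℤ) : List Bool := decide (m < 0) :: (encNat m.natAbs ++ encNat 1)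

/-- The word encoding the instance with threshold `th`, `th + 1`. -/
def build (k : ℕ) (s : List ℕ) (th : ℤ) : List Bool :=
  (true :: (encZ 0 ++ encZ 0 ++ encZ 0 ++ encNat (aT k - chgSum k s))) ++
  ((List.range (aD k * aD k)).flatMap fun β =>
    true :: (encDy (numer k (β / aD k) (β % aD k) 0) (bexp k) ++
      encDy (numer k (β / aD k) (β % aD k) 1) (bexp k) ++
      encDy (numer k (β / aD k) (β % aD k) 2) (bexp k) ++
      encNat (chg k s (β / aD k) (β % aD k)))) ++
  [false] ++ List.replicate (aN k) true ++ [false] ++ encZ th ++ encZ (th + 1)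

/-- the instance encoded by `build` -/
noncomputable def inst (k : ℕ) (s : List ℕ) (th : ℤ) : Instance where
  M := aD k * aD k + 1
  pos := Fin.cons 0 (fun β c => (numer k (β / aD k) (β % aD k) c : ℚ) / 2 ^ bexp k)
  charge := Fin.cons (aT k - chgSum k s) (fun β => chg k s (β / aD k) (β % aD k))
  N := aN k
  a := th
  b := th + 1

end Vale.Agent.P370.Q.Alg
end

section

/-!
The instance builder runs in polynomial time.
-/

namespace Vale.Agent.P370.Q.Alg

open Vale.Agent.Lib.PolyTime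

variable {A : Set Word} {α : Type*} [Enc α] {k : α → ℕ}

theorem pbd_k (hK : PBd (fun a => 2 ^ k a)) : PBd k :=
  hK.mono fun _ => Nat.lt_two_pow_self.le

theorem pbd_aK (hK : PBd (fun a => 2 ^ k a)) : PBd (fun a => aK (k a)) := hK

theorem pbd_an (hK : PBd (fun a => 2 ^ k a)) : PBd (fun a => an (k a)) :=
  (hK.pow 2048).mono fun a => by rw [an, ← pow_mul, mul_comm]

theorem pbd_aD (hK : PBd (fun a => 2 ^ k a)) : PBd (fun a => aD (k a)) :=
  (PBd.const 16).mul (pbd_an hK)

theorem pbd_aQ (hK : PBd (fun a => 2 ^ k a)) : PBd (fun a => aQ (k a)) :=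
  (PBd.const 512).mul ((pbd_an hK).pow 3)

theorem pt_aK (hk : PT A k) (hK : PBd (fun a => 2 ^ k a)) : PT A (fun a => aK (k a)) :=
  PT.twoPow hk (pbd_k hK)

theorem pt_an (hk : PT A k) (hK : PBd (fun a => 2 ^ k a)) : PT A (fun a => an (k a)) :=
  PT.twoPow ((PT.const 2048).mul hk) ((PBd.const 2048).mul (pbd_k hK))

theorem pt_aD (hk : PT A k) (hK : PBd (fun a => 2 ^ k a)) : PT A (fun a => aD (k a)) :=
  (PT.const 16).mul (pt_an hk hK)

theorem pt_aQ (hk : PT A k) (hK : PBd (fun a => 2 ^ k a)) : PT A (fun a => aQ (k a)) :=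
  (PT.const 512).mul ((pt_an hk hK).powConst 3)

/-! ### trigonometric table -/

theorem ch_eq_rec (P m : ℕ) :
    ch P m = Nat.rec (motive := fun _ => ℕ) 0
      (fun _ x => Nat.sqrt ((2 ^ P + x) * 2 ^ (P - 1))) m := by
  induction m with
  | zero => rfl
  | succ m ih => rw [ch_succ, ih]

theorem ch_lt (P m : ℕ) : ch P m < 2 ^ (P + 1) := by
  induction m with
  | zero => exact pow_pos two_pos _
  | succ m ih =>
    rw [ch_succ, Nat.sqrt_lt']
    have h1 : 2 ^ P + ch P m < 2 ^ (P + 2) := by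
      have : (2 : ℕ) ^ (P + 2) = 2 ^ P + 2 ^ P + 2 ^ (P + 1) := by ring
      have h2 : 0 < 2 ^ P := pow_pos two_pos _
      omega
    have h3 : 2 ^ (P - 1) ≤ 2 ^ P := Nat.pow_le_pow_right two_pos (Nat.sub_le _ _)
    calc (2 ^ P + ch P m) * 2 ^ (P - 1) ≤ (2 ^ P + ch P m) * 2 ^ P := Nat.mul_le_mul_left _ h3
      _ < 2 ^ (P + 2) * 2 ^ P := Nat.mul_lt_mul_of_pos_right h1 (pow_pos two_pos _)
      _ = (2 ^ (P + 1)) ^ 2 := by rw [← pow_mul, ← pow_add]; ring_nf

theorem pt_ch {P m : α → ℕ} (hP : PT A P) (hPb : PBd P) (hm : PT A m) (hmb : PBd m) :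
    PT A (fun a => ch (P a) (m a)) := by
  refine (PT.natRec (init := fun _ => 0)
    (step := fun a _ x => Nat.sqrt ((2 ^ P a + x) * 2 ^ (P a - 1))) hm hmb (PT.const 0) ?_
    (b := fun a => P a + 1) (hPb.add (PBd.const 1)) fun a j _ => ?_).congr fun a => ?_
  · have h1 : PT A (fun p : α × ℕ × ℕ => P p.1) := hP.comp PT.fst'
    have h2 : PBd (fun p : α × ℕ × ℕ => P p.1) := hPb.compFst
    exact PT.natSqrt (((PT.twoPow h1 h2).add PT.snd'.snd).mul
      (PT.twoPow (h1.sub (PT.const 1)) (h2.mono fun _ => Nat.sub_le _ _)))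
  · rw [← ch_eq_rec]
    exact esize_nat_le (ch_lt _ _)
  · exact (ch_eq_rec _ _).symm

theorem pt_sh {P m : α → ℕ} (hP : PT A P) (hPb : PBd P) (hm : PT A m) (hmb : PBd m) :
    PT A (fun a => sh (P a) (m a)) :=
  PT.natSqrt ((PT.twoPow ((PT.const 2).mul hP) ((PBd.const 2).mul hPb)).sub
    ((pt_ch hP hPb hm hmb).powConst 2))

theorem gp_eq_rec (c s : ℤ) (j : ℕ) :
    gp c s j = Nat.rec (motive := fun _ => ℤ × ℤ) (1, 0)
      (fun _ p => (p.1 * c - p.2 * s, p.1 * s + p.2 * c)) j := by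
  induction j with
  | zero => rfl
  | succ j ih => rw [gp_succ, ih]

theorem gp_bound (c s : ℤ) (j : ℕ) :
    (gp c s j).1.natAbs + (gp c s j).2.natAbs ≤ (c.natAbs + s.natAbs) ^ j := by
  induction j with
  | zero => simp only [gp_zero, isUnit_one, Int.natAbs_of_isUnit, Int.natAbs_zero, add_zero, pow_zero, Std.le_refl]
  | succ j ih =>
    rw [gp_succ, pow_succ]
    have h1 : ((gp c s j).1 * c - (gp c s j).2 * s).natAbs ≤
        (gp c s j).1.natAbs * c.natAbs + (gp c s j).2.natAbs * s.natAbs := by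
      refine (Int.natAbs_sub_le _ _).trans ?_
      rw [Int.natAbs_mul, Int.natAbs_mul]
    have h2 : ((gp c s j).1 * s + (gp c s j).2 * c).natAbs ≤
        (gp c s j).1.natAbs * s.natAbs + (gp c s j).2.natAbs * c.natAbs := by
      refine (Int.natAbs_add_le _ _).trans ?_
      rw [Int.natAbs_mul, Int.natAbs_mul]
    calc _ ≤ ((gp c s j).1.natAbs + (gp c s j).2.natAbs) * (c.natAbs + s.natAbs) := by
          simp only
          linarith
      _ ≤ _ := Nat.mul_le_mul_right _ ih

theorem gp_size (c s : ℤ) (j B : ℕ) (hc : c.natAbs < 2 ^ B) (hs : s.natAbs < 2 ^ B) :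
    (gp c s j).1.natAbs < 2 ^ ((B + 1) * j + 1) ∧ (gp c s j).2.natAbs < 2 ^ ((B + 1) * j + 1) := by
  have h1 := gp_bound c s j
  have h2 : (c.natAbs + s.natAbs) ^ j ≤ (2 ^ (B + 1)) ^ j := by
    refine Nat.pow_le_pow_left ?_ j
    have : (2 : ℕ) ^ (B + 1) = 2 ^ B + 2 ^ B := by ring
    omega
  rw [← pow_mul] at h2
  have h3 : (2 : ℕ) ^ ((B + 1) * j) < 2 ^ ((B + 1) * j + 1) :=
    Nat.pow_lt_pow_right (by (clear * -; norm_num)) (by omega)
  omega

theorem pt_gp {c s : α → ℤ} {j : α → ℕ} (hc : PT A c) (hs : PT A s) (hj : PT A j) (hjb : PBd j) :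
    PT A (fun a => gp (c a) (s a) (j a)) := by
  have hcb := hc.pbd
  have hsb := hs.pbd
  refine (PT.natRec (init := fun _ => ((1 : ℤ), (0 : ℤ)))
    (step := fun a _ p => (p.1 * c a - p.2 * s a, p.1 * s a + p.2 * c a)) hj hjb (PT.const _) ?_
    (b := fun a => 3 * ((esize (c a) + esize (s a) + 1) * j a + 4) + 1)
    (by fun_prop) fun a i hi => ?_).congr fun a => ?_
  · have h1 : PT A (fun p : α × ℕ × (ℤ × ℤ) => c p.1) := hc.comp PT.fst'
    have h2 : PT A (fun p : α × ℕ × (ℤ × ℤ) => s p.1) := hs.comp PT.fst'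
    have h3 : PT A (fun p : α × ℕ × (ℤ × ℤ) => p.2.2.1) := PT.snd'.snd.fst
    have h4 : PT A (fun p : α × ℕ × (ℤ × ℤ) => p.2.2.2) := PT.snd'.snd.snd
    exact ((h3.intMul h1).intSub (h4.intMul h2)).pair ((h3.intMul h2).intAdd (h4.intMul h1))
  · rw [← gp_eq_rec, ← Prod.mk.eta (p := gp (c a) (s a) i), esize_pair]
    have h1 : (c a).natAbs < 2 ^ (esize (c a) + esize (s a)) :=
      (natAbs_lt_two_pow _).trans_le (Nat.pow_le_pow_right two_pos (Nat.le_add_right _ _))
    have h2 : (s a).natAbs < 2 ^ (esize (c a) + esize (s a)) :=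
      (natAbs_lt_two_pow _).trans_le (Nat.pow_le_pow_right two_pos (Nat.le_add_left _ _))
    obtain ⟨h3, h4⟩ := gp_size (c a) (s a) i _ h1 h2
    have h5 := esize_int_le h3
    have h6 := esize_int_le h4
    have h7 : (esize (c a) + esize (s a) + 1) * i ≤ (esize (c a) + esize (s a) + 1) * j a :=
      Nat.mul_le_mul_left _ hi
    omega
  · exact (gp_eq_rec _ _ _).symm

theorem pt_zet {j : α → ℕ} (hk : PT A k) (hK : PBd (fun a => 2 ^ k a)) (hj : PT A j)
    (hjb : PBd j) : PT A (fun a => zet (k a) (j a)) := by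
  have hQ := pt_aQ hk hK
  have hQb := pbd_aQ hK
  have hkb := pbd_k hK
  have h1 : PT A (fun a => 2 * aQ (k a)) := (PT.const 2).mul hQ
  have h1b : PBd (fun a => 2 * aQ (k a)) := by fun_prop
  have h2 : PT A (fun a => 2048 * k a + 4) := ((PT.const 2048).mul hk).add (PT.const 4)
  have h2b : PBd (fun a => 2048 * k a + 4) := by fun_prop
  exact pt_gp (PT.natCast (pt_ch h1 h1b h2 h2b)) (PT.natCast (pt_sh h1 h1b h2 h2b)) hj hjb

theorem pt_cs {j : α → ℕ} (hk : PT A k) (hK : PBd (fun a => 2 ^ k a)) (hj : PT A j)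
    (hjb : PBd j) : PT A (fun a => cs (k a) (j a)) := by
  have hQ := pt_aQ hk hK
  have hQb := pbd_aQ hK
  exact ((pt_zet hk hK hj hjb).fst.intMul (PT.twoPowInt hQ hQb)).intDiv
    (PT.twoPowInt (((PT.const 2).mul hQ).mul hj) (by fun_prop))

theorem pt_sn {j : α → ℕ} (hk : PT A k) (hK : PBd (fun a => 2 ^ k a)) (hj : PT A j)
    (hjb : PBd j) : PT A (fun a => sn (k a) (j a)) := by
  have hQ := pt_aQ hk hK
  have hQb := pbd_aQ hK
  exact ((pt_zet hk hK hj hjb).snd.intMul (PT.twoPowInt hQ hQb)).intDiv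
    (PT.twoPowInt (((PT.const 2).mul hQ).mul hj) (by fun_prop))


/-! ### devices -/

theorem pt_aq {d : α → ℕ} (hk : PT A k) (hK : PBd (fun a => 2 ^ k a)) (hd : PT A d)
    (hdb : PBd d) : PT A (fun a => aq (k a) (d a)) := by
  have hkb := pbd_k hK
  have h1 : PT A (fun a => 2 ^ (2047 * k a + 4)) :=
    PT.twoPow (((PT.const 2047).mul hk).add (PT.const 4)) (by fun_prop)
  have h1b : PBd (fun a => 2 ^ (2047 * k a + 4)) :=
    ((hK.pow 2047).mul (PBd.const 16)).mono fun a => by
      rw [← pow_mul, pow_add, mul_comm (k a) 2047]; norm_num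
  have h2 := pt_cs hk hK (hd.mul h1) (hdb.mul h1b)
  exact PT.min ((pt_an hk hK).sub (PT.const 1)) (PT.posPart (((h2.intMul
    ((PT.natCast (pt_an hk hK)).intSub (PT.const 1))).intAdd (PT.twoPowInt
    ((pt_aQ hk hK).sub (PT.const 1)) ((pbd_aQ hK).mono fun _ => Nat.sub_le _ _))).intDiv
    (PT.twoPowInt (pt_aQ hk hK) (pbd_aQ hK))))

theorem pbd_aq {d : α → ℕ} (hK : PBd (fun a => 2 ^ k a)) : PBd (fun a => aq (k a) (d a)) :=
  (pbd_an hK).mono fun a => (min_le_left _ _).trans (Nat.sub_le _ _)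

theorem pt_aXu {N : α → ℕ} (hk : PT A k) (hK : PBd (fun a => 2 ^ k a)) (hN : PT A N)
    (hNb : PBd N) : PT A (fun a => aXu (k a) (N a)) := by
  have hn := pt_an hk hK
  have hnb := pbd_an hK
  refine PT.mul (PT.mul (PT.mul (PT.twoPow (((PT.const 16).mul (hn.powConst 2)).mul hN)
    (by fun_prop)) (((PT.const 2).mul hN).add (PT.const 1))) (PT.div
    (PT.factorial ((PT.const 2).mul hn) (by fun_prop))
    (PT.factorial ((((PT.const 2).mul hn).sub (PT.const 1)).sub hN) ?_))) (PT.pow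
    (hn.div (PT.const 2)) (hN.add (PT.const 1)) (by fun_prop))
  exact ((PBd.const 2).mul hnb).mono fun a => by omega

theorem pt_gre {x y g N : α → ℕ} (hk : PT A k) (hK : PBd (fun a => 2 ^ k a)) (hx : PT A x)
    (hxb : PBd x) (hy : PT A y) (hyb : PBd y) (hg : PT A g) (hN : PT A N)
    (hNb : PBd N) : PT A (fun a => gre (k a) (x a) (y a) (g a) (N a)) := by
  have h1 : PT A (fun a => 2 * x a + 1) := ((PT.const 2).mul hx).add (PT.const 1)
  have h1b : PBd (fun a => 2 * x a + 1) := by fun_prop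
  have h2 : PT A (fun a => 4 * y a + 4 * aD (k a) - g a) :=
    (((PT.const 4).mul hy).add ((PT.const 4).mul (pt_aD hk hK))).sub hg
  have hDb := pbd_aD hK
  have h2b : PBd (fun a => 4 * y a + 4 * aD (k a) - g a) :=
    (((PBd.const 4).mul hyb).add ((PBd.const 4).mul hDb)).mono fun a => Nat.sub_le _ _
  exact (pt_gp (pt_cs hk hK h1 h1b) (((pt_sn hk hK h1 h1b).intMul (pt_cs hk hK h2 h2b)).intDiv
    (PT.twoPowInt (pt_aQ hk hK) (pbd_aQ hK))) hN hNb).fst

theorem pt_dterm {x y g N m : α → ℕ} (hk : PT A k) (hK : PBd (fun a => 2 ^ k a)) (hx : PT A x)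
    (hxb : PBd x) (hy : PT A y) (hyb : PBd y) (hg : PT A g) (hN : PT A N)
    (hNb : PBd N) (hm : PT A m) : PT A (fun a => dterm (k a) (x a) (y a) (g a) (N a) (m a)) := by
  have hQb := pbd_aQ hK
  exact ((PT.natCast hm).intMul (pt_gre hk hK hx hxb hy hyb hg hN hNb)).intDiv
    (PT.twoPowInt ((pt_aQ hk hK).mul hN) (by fun_prop))

/-- a parameter in the extended context -/
theorem hK_fst (hK : PBd (fun a => 2 ^ k a)) {β : Type*} [Enc β] :
    PBd (fun p : α × β => 2 ^ k p.1) := hK.compFst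

theorem pt_topSum {x y : α → ℕ} (hk : PT A k) (hK : PBd (fun a => 2 ^ k a)) (hx : PT A x)
    (hxb : PBd x) (hy : PT A y) (hyb : PBd y) :
    PT A (fun a => topSum (k a) (x a) (y a)) := by
  have hk' : PT A (fun p : α × Un => k p.1) := hk.comp PT.fst'
  have hK' : PBd (fun p : α × Un => 2 ^ k p.1) := hK_fst hK
  have hkb' := pbd_k hK'
  have hn' := pt_an hk' hK'
  have hnb' := pbd_an hK'
  have hi : PT A (fun p : α × Un => p.2.v) := PT.unVal PT.snd'
  have hib : PBd (fun p : α × Un => p.2.v) := PBd.unSnd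
  refine PT.rangeSumInt (pt_aK hk hK) (pbd_aK hK) (pt_dterm hk' hK' (hx.comp PT.fst')
    hxb.compFst (hy.comp PT.fst') hyb.compFst ?_ ?_ ?_ ?_)
  · exact hi.mul (PT.twoPow (((PT.const 2047).mul hk').add (PT.const 5))
      (((PBd.const 2047).mul hkb').add (PBd.const 5)))
  · exact (PT.const 2).mul (hn'.sub (PT.const 1))
  · exact ((PBd.const 2).mul hnb').mono fun a => by omega
  · refine PT.mul (PT.twoPow (hn'.div ((PT.const 4).mul ((pt_aK hk' hK').powConst 2))) ?_)
      (pt_aXu hk' hK' ((PT.const 2).mul (hn'.sub (PT.const 1)))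
        (((PBd.const 2).mul hnb').mono fun a => by (clear * -; omega)))
    exact hnb'.mono fun a => Nat.div_le_self _ _

theorem pt_sget {s : α → List ℕ} {i j : α → ℕ} (hk : PT A k) (hK : PBd (fun a => 2 ^ k a))
    (hs : PT A s) (hi : PT A i) (hj : PT A j) :
    PT A (fun a => sget (k a) (s a) (i a) (j a)) :=
  PT.getD hs ((hi.mul (pt_aK hk hK)).add hj) (PT.const 0)

theorem pt_hopSum {s : α → List ℕ} {x y : α → ℕ} (hk : PT A k) (hK : PBd (fun a => 2 ^ k a))
    (hs : PT A s) (hx : PT A x) (hxb : PBd x) (hy : PT A y) (hyb : PBd y) :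
    PT A (fun a => hopSum (k a) (s a) (x a) (y a)) := by
  refine PT.rangeSumInt (pt_aK hk hK) (pbd_aK hK) (PT.rangeSumInt (PT.unVal PT.snd')
    PBd.unSnd ?_)
  have h1 : PT A (fun p : (α × Un) × Un => p.1.1) := PT.fst'.fst
  have hk' : PT A (fun p : (α × Un) × Un => k p.1.1) := hk.comp h1
  have hK' : PBd (fun p : (α × Un) × Un => 2 ^ k p.1.1) := hK_fst (hK_fst hK)
  have hkb' := pbd_k hK'
  have hn' := pt_an hk' hK'
  have hnb' := pbd_an hK'
  have hi : PT A (fun p : (α × Un) × Un => p.2.v) := PT.unVal PT.snd'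
  have hj : PT A (fun p : (α × Un) × Un => p.1.2.v) := PT.unVal PT.fst'.snd
  have hib : PBd (fun p : (α × Un) × Un => p.2.v) := PBd.unSnd
  have hjb : PBd (fun p : (α × Un) × Un => p.1.2.v) := PBd.unVal (A := ∅) PT.fst'.snd
  have hd : PT A (fun p : (α × Un) × Un => p.1.2.v - p.2.v) := hj.sub hi
  have hdb : PBd (fun p : (α × Un) × Un => p.1.2.v - p.2.v) :=
    hjb.mono fun _ => Nat.sub_le _ _
  have hq := pt_aq hk' hK' hd hdb
  have hqb : PBd (fun p : (α × Un) × Un => aq (k p.1.1) (p.1.2.v - p.2.v)) := pbd_aq hK'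
  have hN := (PT.const (A := A) (α := (α × Un) × Un) 2).mul hq
  have hNb := (PBd.const (α := (α × Un) × Un) 2).mul hqb
  refine pt_dterm hk' hK' (hx.comp h1) hxb.compFst.compFst (hy.comp h1) hyb.compFst.compFst
    ?_ hN hNb ?_
  · exact (hi.add hj).mul (PT.twoPow (((PT.const 2047).mul hk').add (PT.const 4))
      (((PBd.const 2047).mul hkb').add (PBd.const 4)))
  · exact (pt_sget hk' hK' (hs.comp h1) hi hj).mul ((pt_aXu hk' hK' hN hNb).div
      (PT.twoPow hn' hnb'))

theorem pt_fejA {x : α → ℕ} (hk : PT A k) (hK : PBd (fun a => 2 ^ k a)) (hx : PT A x)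
    (hxb : PBd x) : PT A (fun a => fejA (k a) (x a)) := by
  have hk' : PT A (fun p : α × Un => k p.1) := hk.comp PT.fst'
  have hK' : PBd (fun p : α × Un => 2 ^ k p.1) := hK_fst hK
  have hi : PT A (fun p : α × Un => p.2.v) := PT.unVal PT.snd'
  have hib : PBd (fun p : α × Un => p.2.v) := PBd.unSnd
  have hx' : PT A (fun p : α × Un => x p.1) := hx.comp PT.fst'
  have hxb' : PBd (fun p : α × Un => x p.1) := hxb.compFst
  have h1 : PT A (fun p : α × Un => 2 * (p.2.v + 1) * (2 * x p.1 + 1)) :=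
    ((PT.const 2).mul (hi.add (PT.const 1))).mul (((PT.const 2).mul hx').add (PT.const 1))
  have h1b : PBd (fun p : α × Un => 2 * (p.2.v + 1) * (2 * x p.1 + 1)) :=
    ((PBd.const 2).mul (hib.add (PBd.const 1))).mul (((PBd.const 2).mul hxb').add (PBd.const 1))
  refine (PT.twoPowInt (pt_aQ hk hK) (pbd_aQ hK)).intSub ((PT.const 2).intMul
    (PT.rangeSumInt ((pt_aD hk hK).div (PT.const 2)) ?_ ((pt_cs hk' hK' h1 h1b).intDiv
      (((PT.const 4).intMul (((PT.natCast hi).intAdd (PT.const 1)).intPow 2)).intSub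
        (PT.const 1)))))
  exact (pbd_aD hK).mono fun a => Nat.div_le_self _ _

theorem pt_chg {s : α → List ℕ} {x y : α → ℕ} (hk : PT A k) (hK : PBd (fun a => 2 ^ k a))
    (hs : PT A s) (hx : PT A x) (hxb : PBd x) (hy : PT A y) (hyb : PBd y) :
    PT A (fun a => chg (k a) (s a) (x a) (y a)) := by
  have hnb := pbd_an hK
  refine PT.posPart (((pt_fejA hk hK hx hxb).intMul (((PT.twoPowInt
    ((PT.const 128).mul ((pt_an hk hK).powConst 3)) (by fun_prop)).intAdd
    (pt_topSum hk hK hx hxb hy hyb)).intAdd (pt_hopSum hk hK hs hx hxb hy hyb))).intDiv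
    ((PT.twoPowInt (pt_aQ hk hK) (pbd_aQ hK)).intMul ((PT.natCast (pt_aD hk hK)).intPow 2)))

theorem pt_crd {x y c : α → ℕ} (hk : PT A k) (hK : PBd (fun a => 2 ^ k a))
    (hx : PT A x) (hxb : PBd x) (hy : PT A y) (hyb : PBd y) (hc : PT A c) :
    PT A (fun a => crd (k a) (x a) (y a) (c a)) := by
  have h1 : PT A (fun a => 2 * x a + 1) := ((PT.const 2).mul hx).add (PT.const 1)
  have h1b : PBd (fun a => 2 * x a + 1) := by (clear * - hxb; fun_prop)
  have h2 : PT A (fun a => 4 * y a) := (PT.const 4).mul hy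
  have h2b : PBd (fun a => 4 * y a) := by fun_prop
  have h3 := PT.twoPowInt (pt_aQ hk hK) (pbd_aQ hK)
  exact PT.ite (PT.eqNat hc (PT.const 0))
    (((pt_sn hk hK h1 h1b).intMul (pt_cs hk hK h2 h2b)).intDiv h3)
    (PT.ite (PT.eqNat hc (PT.const 1))
      (((pt_sn hk hK h1 h1b).intMul (pt_sn hk hK h2 h2b)).intDiv h3)
      (pt_cs hk hK h1 h1b))

theorem pt_numer {x y c : α → ℕ} (hk : PT A k) (hK : PBd (fun a => 2 ^ k a))
    (hx : PT A x) (hxb : PBd x) (hy : PT A y) (hyb : PBd y) (hc : PT A c) :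
    PT A (fun a => numer (k a) (x a) (y a) (c a)) := by
  have hD := PT.natCast (pt_aD hk hK)
  exact ((PT.const 2).intMul (((pt_crd hk hK hx hxb hy hyb hc).intMul (hD.intPow 2)).intAdd
    (((PT.natCast hx).intMul hD).intAdd (PT.natCast hy)))).intAdd (PT.const 1)

theorem pt_bexp (hk : PT A k) (hK : PBd (fun a => 2 ^ k a)) : PT A (fun a => bexp (k a)) := by
  have hn := pt_an hk hK
  exact ((((PT.const 1).add ((PT.const 2).mul (((PT.const 2048).mul hk).add (PT.const 4)))).add
    (pt_aQ hk hK)).add ((PT.const 16).mul (hn.powConst 2))).add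
    ((PT.const 2000).mul (hn.powConst 3))

theorem pbd_bexp (hK : PBd (fun a => 2 ^ k a)) : PBd (fun a => bexp (k a)) := by
  have hnb := pbd_an hK
  have hQb := pbd_aQ hK
  have hkb := pbd_k hK
  unfold bexp
  fun_prop

theorem pt_aT (hk : PT A k) (hK : PBd (fun a => 2 ^ k a)) : PT A (fun a => aT (k a)) := by
  have hnb := pbd_an hK
  exact PT.twoPow ((PT.const 2000).mul ((pt_an hk hK).powConst 3)) (by fun_prop)

theorem pt_chgSum {s : α → List ℕ} (hk : PT A k) (hK : PBd (fun a => 2 ^ k a))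
    (hs : PT A s) : PT A (fun a => chgSum (k a) (s a)) := by
  have hk' : PT A (fun p : α × Un => k p.1) := hk.comp PT.fst'
  have hK' : PBd (fun p : α × Un => 2 ^ k p.1) := hK_fst hK
  have hi : PT A (fun p : α × Un => p.2.v) := PT.unVal PT.snd'
  have hib : PBd (fun p : α × Un => p.2.v) := PBd.unSnd
  have hD' := pt_aD hk' hK'
  have hDb := pbd_aD hK
  exact PT.rangeSumNat ((pt_aD hk hK).mul (pt_aD hk hK)) (hDb.mul hDb)
    (pt_chg hk' hK' (hs.comp PT.fst') (hi.div hD') (hib.mono fun _ => Nat.div_le_self _ _)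
      (hi.mod hD') (hib.mono fun _ => Nat.mod_le _ _))

theorem sum_range_sq_le (n : ℕ) : ((List.range n).map fun j => j ^ 2).sum ≤ n ^ 3 := by
  induction n with
  | zero => simp
  | succ n ih =>
    rw [List.range_succ, List.map_append, List.sum_append]
    simp only [List.map_cons, List.map_nil, List.sum_cons, List.sum_nil, add_zero]
    calc _ ≤ n ^ 3 + n ^ 2 := Nat.add_le_add_right ih _
      _ ≤ (n + 1) ^ 3 := by ring_nf; omega

theorem pt_aN (hk : PT A k) (hK : PBd (fun a => 2 ^ k a)) : PT A (fun a => aN (k a)) :=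
  ((PT.const 2).mul (PT.rangeSumNat (f := fun _ j => j ^ 2) (pt_an hk hK) (pbd_an hK)
    ((PT.unVal PT.snd').powConst 2))).add (pt_aK hk hK)

theorem pbd_aN (hK : PBd (fun a => 2 ^ k a)) : PBd (fun a => aN (k a)) := by
  have hnb := pbd_an hK
  have hKb := pbd_aK hK
  have h : PBd (fun a => 2 * an (k a) ^ 3 + aK (k a)) := by fun_prop
  exact h.mono fun a => Nat.add_le_add_right (Nat.mul_le_mul_left _ (sum_range_sq_le _)) _

/-! ### encoding -/

theorem pt_encNat {f : α → ℕ} (hf : PT A f) : PT A (fun a => encNat (f a)) := by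
  have h1 : PT A (fun a => (f a).bits.flatMap (fun b => [true, b])) :=
    PT.flatMap (f := fun _ b => [true, b]) (PT.natBits hf)
      (PT.cons (PT.const true) (PT.cons PT.snd' (PT.const [])))
  exact h1.append (PT.const [false])

theorem pt_encZ {f : α → ℤ} (hf : PT A f) : PT A (fun a => encZ (f a)) :=
  PT.cons hf.intNeg? ((pt_encNat hf.natAbs).append (pt_encNat (PT.const 1)))

theorem pt_encDy {f : α → ℤ} {e : α → ℕ} (hf : PT A f) (he : PT A e) (heb : PBd e) :
    PT A (fun a => encDy (f a) (e a)) :=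
  PT.cons hf.intNeg? ((pt_encNat hf.natAbs).append (pt_encNat (PT.twoPow he heb)))

/-- **The instance builder runs in polynomial time.** -/
theorem pt_build {s : α → List ℕ} {th : α → ℤ} (hk : PT A k) (hK : PBd (fun a => 2 ^ k a))
    (hs : PT A s) (hth : PT A th) : PT A (fun a => build (k a) (s a) (th a)) := by
  have hk' : PT A (fun p : α × Un => k p.1) := hk.comp PT.fst'
  have hK' : PBd (fun p : α × Un => 2 ^ k p.1) := hK_fst hK
  have hi : PT A (fun p : α × Un => p.2.v) := PT.unVal PT.snd'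
  have hib : PBd (fun p : α × Un => p.2.v) := PBd.unSnd
  have hD := pt_aD hk hK
  have hDb := pbd_aD hK
  have hD' := pt_aD hk' hK'
  have hdiv : PT A (fun p : α × Un => p.2.v / aD (k p.1)) := hi.div hD'
  have hmod : PT A (fun p : α × Un => p.2.v % aD (k p.1)) := hi.mod hD'
  have hdivb : PBd (fun p : α × Un => p.2.v / aD (k p.1)) :=
    hib.mono fun _ => Nat.div_le_self _ _
  have hmodb : PBd (fun p : α × Un => p.2.v % aD (k p.1)) := hib.mono fun _ => Nat.mod_le _ _
  have hnum : ∀ c : ℕ, PT A (fun p : α × Un =>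
      encDy (numer (k p.1) (p.2.v / aD (k p.1)) (p.2.v % aD (k p.1)) c) (bexp (k p.1))) :=
    fun c => pt_encDy (pt_numer hk' hK' hdiv hdivb hmod hmodb (PT.const c)) (pt_bexp hk' hK')
      (pbd_bexp hK')
  have hlist : PT A (fun a => (List.range (aD (k a) * aD (k a))).flatMap fun β =>
      true :: (encDy (numer (k a) (β / aD (k a)) (β % aD (k a)) 0) (bexp (k a)) ++
      encDy (numer (k a) (β / aD (k a)) (β % aD (k a)) 1) (bexp (k a)) ++
      encDy (numer (k a) (β / aD (k a)) (β % aD (k a)) 2) (bexp (k a)) ++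
      encNat (chg (k a) (s a) (β / aD (k a)) (β % aD (k a))))) := by
    refine PT.rangeFlatMap (hD.mul hD) (hDb.mul hDb) (PT.cons (PT.const true)
      ((((hnum 0).append (hnum 1)).append (hnum 2)).append
        (pt_encNat (pt_chg hk' hK' (hs.comp PT.fst') hdiv hdivb hmod hmodb))))
  have hz : PT A (fun _ : α => encZ 0) := PT.const _
  have hhead : PT A (fun a => true :: (encZ 0 ++ encZ 0 ++ encZ 0 ++
      encNat (aT (k a) - chgSum (k a) (s a)))) :=
    PT.cons (PT.const true) (((hz.append hz).append hz).append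
      (pt_encNat ((pt_aT hk hK).sub (pt_chgSum hk hK hs))))
  exact (((((hhead.append hlist).append (PT.const [false])).append
    (PT.replicate (pt_aN hk hK) (pbd_aN hK) (PT.const true))).append (PT.const [false])).append
    (pt_encZ hth)).append (pt_encZ (hth.intAdd (PT.const 1)))

end Vale.Agent.P370.Q.Alg
end

section

/-!
P370, QMA-hardness: all definitions of the construction (no proofs of substance here).
-/

namespace Vale.Agent.P370.Q

open MeasureTheory Finset ComplexConjugate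

/-! ### finite antisymmetric tensors -/

/-- Tensors with `N` indices in `ι`. -/
abbrev Tens (N : ℕ) (ι : Type) : Type := (Fin N → ι) → ℂ

def IsAnti {N : ℕ} {ι : Type} (c : Tens N ι) : Prop :=
  ∀ (π : Equiv.Perm (Fin N)) (I : Fin N → ι),
    c (fun i => I (π i)) = ((Equiv.Perm.sign π : ℤ) : ℂ) * c I

/-- squared norm -/
noncomputable def nsq {N : ℕ} {ι : Type} [Fintype ι] [DecidableEq ι] (c : Tens N ι) : ℝ :=
  ∑ I, ‖c I‖ ^ 2

/-- one-body energy of the matrix `h` -/
noncomputable def oneE {N : ℕ} {ι : Type} [Fintype ι] [DecidableEq ι] (h : ι → ι → ℝ)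
    (c : Tens N ι) : ℝ :=
  (∑ I : Fin N → ι, ∑ i, ∑ a, (h (I i) a : ℂ) * (conj (c I) * c (Function.update I i a))).re

/-- two-body energy of `v`; `v p a q b` is the integral `(p a | q b)` -/
noncomputable def twoE {N : ℕ} {ι : Type} [Fintype ι] [DecidableEq ι] (v : ι → ι → ι → ι → ℝ)
    (c : Tens N ι) : ℝ :=
  (∑ I : Fin N → ι, ∑ i, ∑ j ∈ Ioi i, ∑ a, ∑ b,
    (v (I i) a (I j) b : ℂ) *
      (conj (c I) * c (Function.update (Function.update I i a) j b))).re

/-- spin-independent one-body matrix on spin-orbitals -/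
def spin1 {A : Type} (h : A → A → ℝ) : A × Fin 2 → A × Fin 2 → ℝ :=
  fun p q => if p.2 = q.2 then h p.1 q.1 else 0

/-- spin-independent two-body matrix on spin-orbitals -/
def spin2 {A : Type} (v : A → A → A → A → ℝ) :
    A × Fin 2 → A × Fin 2 → A × Fin 2 → A × Fin 2 → ℝ :=
  fun p a q b => if p.2 = a.2 ∧ q.2 = b.2 then v p.1 a.1 q.1 b.1 else 0

/-- total energy of a tensor over spin-orbitals `A × Fin 2` -/
noncomputable def enT {N : ℕ} {A : Type} [Fintype A] [DecidableEq A] (h : A → A → ℝ)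
    (v : A → A → A → A → ℝ) (c : Tens N (A × Fin 2)) : ℝ :=
  oneE (spin1 h) c + twoE (spin2 v) c

/-- spin states of `K` spins one half -/
abbrev SpinState (K : ℕ) : Type := (Fin K → Fin 2) → ℂ

noncomputable def spinNsq {K : ℕ} (φ : SpinState K) : ℝ := ∑ s, ‖φ s‖ ^ 2

/-- `⟨φ, ∑_{i<j} J i j (1 - SWAP_{ij}) φ⟩` -/
noncomputable def heisE {K : ℕ} (J : Fin K → Fin K → ℝ) (φ : SpinState K) : ℝ :=
  ∑ i, ∑ j ∈ Ioi i, J i j * (spinNsq φ - (∑ s, conj (φ s) * φ (s ∘ Equiv.swap i j)).re)

/-- largest eigenvalue of `∑_{i<j} J i j (1 - SWAP_{ij})` -/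
noncomputable def heisMax {K : ℕ} (J : Fin K → Fin K → ℝ) : ℝ :=
  sSup {E | ∃ φ : SpinState K, spinNsq φ = 1 ∧ heisE J φ = E}

/-- data of the half filled Hubbard type model -/
structure MottHyp (K : ℕ) (h W t : Fin K → Fin K → ℝ) (v : Fin K → Fin K → Fin K → Fin K → ℝ)
    (ε0 w0 w1 u τ δ : ℝ) : Prop where
  two_le : 2 ≤ K
  W_symm : ∀ i j, W i j = W j i
  W_diag : ∀ i, W i i = w0
  W_row : ∀ i, ∑ j, W i j = w1
  u_pos : 0 < u
  W_pd : ∀ x : Fin K → ℤ, (∀ i, |x i| ≤ 1) → x ≠ 0 →
    2 * u ≤ ∑ i, ∑ j, (x i : ℝ) * (x j : ℝ) * W i j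
  t_symm : ∀ i j, t i j = t j i
  t_diag : ∀ i, t i i = 0
  t_le : ∀ i j, |t i j| ≤ τ
  τ_le : (K : ℝ) ^ 2 * τ ≤ u / 2
  δ_nonneg : 0 ≤ δ
  h_near : ∀ i j, |h i j - (if i = j then ε0 else 0) - t i j| ≤ δ
  v_near : ∀ i j k l, |v i j k l - (if i = j ∧ k = l then W i k else 0)| ≤ δ

/-- energy of the singly occupied configuration -/
noncomputable def mottBase {K : ℕ} (W : Fin K → Fin K → ℝ) (ε0 : ℝ) : ℝ :=
  K * ε0 + ∑ i, ∑ j ∈ Ioi i, W i j

/-- superexchange couplings -/
noncomputable def mottJ {K : ℕ} (W t : Fin K → Fin K → ℝ) (w0 : ℝ) (i j : Fin K) : ℝ :=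
  2 * t i j ^ 2 / (w0 - W i j)

/-- quadratic form of a real matrix on a real vector -/
noncomputable def qf {A : Type} [Fintype A] (h : A → A → ℝ) (x : A → ℝ) : ℝ :=
  ∑ a, ∑ b, h a b * x a * x b

/-- two-body quadratic form on a real pair function -/
noncomputable def qf2 {A : Type} [Fintype A] (v : A → A → A → A → ℝ) (x : A → A → ℝ) : ℝ :=
  ∑ p, ∑ a, ∑ q, ∑ b, v p a q b * x p q * x a b

/-- all spin-orbitals over the closed orbitals are occupied in the support of `c` -/
def Good {N : ℕ} {C O : Type} (c : Tens N ((C ⊕ O) × Fin 2)) : Prop :=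
  ∀ I, c I ≠ 0 → ∀ (a : C) (σ : Fin 2), ∃ i, I i = (Sum.inl a, σ)

/-- energy of the closed shells -/
noncomputable def closedC {C O : Type} [Fintype C] (h : C ⊕ O → C ⊕ O → ℝ)
    (v : C ⊕ O → C ⊕ O → C ⊕ O → C ⊕ O → ℝ) : ℝ :=
  2 * (∑ a : C, h (Sum.inl a) (Sum.inl a)) +
    ∑ a : C, ∑ b : C, (2 * v (Sum.inl a) (Sum.inl a) (Sum.inl b) (Sum.inl b) -
      v (Sum.inl a) (Sum.inl b) (Sum.inl b) (Sum.inl a))

/-- one-body matrix of the open orbitals including the mean field of the closed shells -/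
noncomputable def closedF {C O : Type} [Fintype C] (h : C ⊕ O → C ⊕ O → ℝ)
    (v : C ⊕ O → C ⊕ O → C ⊕ O → C ⊕ O → ℝ) (a b : O) : ℝ :=
  h (Sum.inr a) (Sum.inr b) +
    ∑ c : C, (2 * v (Sum.inr a) (Sum.inr b) (Sum.inl c) (Sum.inl c) -
      v (Sum.inr a) (Sum.inl c) (Sum.inl c) (Sum.inr b))

/-! ### hydrogenic shells -/

abbrev Poly3 : Type := MvPolynomial (Fin 3) ℝ

/-- value of a polynomial at a point of space -/
noncomputable def pe (P : Poly3) (x : R3) : ℝ := MvPolynomial.eval (fun i => x i) P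

noncomputable def expPoly (κ : ℝ) (P Q : Poly3) : R3 → ℝ :=
  fun x => (pe P x + ‖x‖ * pe Q x) * Real.exp (-(κ * ‖x‖))

/-- Laplacian of a polynomial -/
noncomputable def lap (P : Poly3) : Poly3 :=
  ∑ i, MvPolynomial.pderiv i (MvPolynomial.pderiv i P)

/-- Euler operator `∑ x_i ∂_i` -/
noncomputable def eul (P : Poly3) : Poly3 :=
  ∑ i, MvPolynomial.X i * MvPolynomial.pderiv i P

noncomputable def rsq : Poly3 := ∑ i, MvPolynomial.X i ^ 2

/-- `T (P + r Q) = r (-Δ/2 + κ²/2) ((P + r Q) exp (-κ r)) exp (κ r)`: polynomial part -/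
noncomputable def TP (κ : ℝ) (P Q : Poly3) : Poly3 :=
  MvPolynomial.C κ * (eul P + P) - (eul Q + Q) - MvPolynomial.C (1 / 2) * rsq * lap Q

/-- `T (P + r Q)`: coefficient of `r` -/
noncomputable def TQ (κ : ℝ) (P Q : Poly3) : Poly3 :=
  MvPolynomial.C κ * (eul Q + 2 * Q) - MvPolynomial.C (1 / 2) * lap P

/-- degree bounds of the space `E_n` -/
def DegLe (n : ℕ) (P Q : Poly3) : Prop :=
  P.totalDegree + 1 ≤ n ∧ (Q = 0 ∨ Q.totalDegree + 2 ≤ n)

/-- `φ` belongs to the `n`-th hydrogenic shell -/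
def IsShell (n : ℕ) (φ : R3 → ℝ) : Prop :=
  ∃ P Q : Poly3, DegLe n P Q ∧ TP (1 / n) P Q = P ∧ TQ (1 / n) P Q = Q ∧
    φ = expPoly (1 / n) P Q

noncomputable def ov (f g : R3 → ℝ) : ℝ := ∫ x, f x * g x

/-- Coulomb potential of the density `f g` at `y` -/
noncomputable def nuc (y : R3) (f g : R3 → ℝ) : ℝ := ∫ x, f x * g x / dist x y

/-- matrix element of `1/|x| - 1/|x-y|` -/
noncomputable def gm (y : R3) (f g : R3 → ℝ) : ℝ :=
  ∫ x, f x * g x * (1 / ‖x‖ - 1 / dist x y)

/-- Coulomb integral `(f g | f' g')` -/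
noncomputable def coul (f g f' g' : R3 → ℝ) : ℝ :=
  ∫ y, nuc y f g * (f' y * g' y)

/-- orthonormal bases of the shells `1, ..., n` -/
structure ShellBasis (n : ℕ) (A : Type) [Fintype A] [DecidableEq A] where
  χ : A → R3 → ℝ
  lev : A → ℕ
  lev_pos : ∀ a, 1 ≤ lev a
  lev_le : ∀ a, lev a ≤ n
  mem : ∀ a, IsShell (lev a) (χ a)
  ortho : ∀ a b, ov (χ a) (χ b) = if a = b then 1 else 0
  card : ∀ k, 1 ≤ k → k ≤ n → (univ.filter (fun a => lev a = k)).card = k ^ 2

/-- Class of functions in which integration by parts is free: `C¹` off the origin, the value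
and the gradient decay exponentially. -/
structure Nice (f : R3 → ℝ) : Prop where
  cont : Continuous f
  smooth : ContDiffOn ℝ 1 f {0}ᶜ
  bound : ∃ C c : ℝ, 0 < c ∧ ∀ x, x ≠ 0 → |f x| ≤ C * Real.exp (-(c * ‖x‖)) ∧
    ‖fderiv ℝ f x‖ ≤ C * Real.exp (-(c * ‖x‖))

/-- partial derivative -/
noncomputable def pd (k : Fin 3) (f : R3 → ℝ) (x : R3) : ℝ :=
  fderiv ℝ f x (EuclideanSpace.single k 1)

/-- Dirichlet form -/
noncomputable def dir (f g : R3 → ℝ) : ℝ := ∫ x, ∑ k, pd k f x * pd k g x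

/-- form of `1/r` -/
noncomputable def rinv (f g : R3 → ℝ) : ℝ := ∫ x, f x * g x / ‖x‖

/-! ### N-body -/

/-- potential in scaled units: total nuclear charge `1 / lam`; light nuclei of charge `w b` at
`y b` (scaled), the remaining charge `1 / lam - ∑ w b` at the origin -/
noncomputable def scaledV {N m : ℕ} (lam : ℝ) (w : Fin m → ℝ) (y : Fin m → R3)
    (x : Fin N → R3) : ℝ :=
  -(∑ i, 1 / ‖x i‖) + lam * ((∑ i, ∑ j ∈ Ioi i, 1 / dist (x i) (x j)) +
    ∑ i, ∑ b, w b * (1 / ‖x i‖ - 1 / dist (x i) (y b)))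

noncomputable def scaledE {N m : ℕ} (lam : ℝ) (w : Fin m → ℝ) (y : Fin m → R3)
    (ψ : Wave N) : ℝ :=
  kinetic ψ + ∑ s, ∫ x, scaledV lam w y x * ‖ψ x s‖ ^ 2

/-- first order one-body matrix of the light nuclei -/
noncomputable def nucM {m : ℕ} {A : Type} (χ : A → R3 → ℝ) (w : Fin m → ℝ) (y : Fin m → R3)
    (a b : A) : ℝ :=
  ∑ β, w β * gm (y β) (χ a) (χ b)

/-- Coulomb integrals of the orbitals -/
noncomputable def coulM {A : Type} (χ : A → R3 → ℝ) (p a q b : A) : ℝ :=
  coul (χ p) (χ a) (χ q) (χ b)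

/-! ### sphere averages and null vectors -/

abbrev C3 : Type := Fin 3 → ℂ

/-- complex bilinear pairing of a complex vector with a point of space -/
noncomputable def cdot (v : C3) (x : R3) : ℂ := ∑ k, v k * (x k : ℂ)

/-- complex bilinear product -/
noncomputable def cc (v w : C3) : ℂ := ∑ k, v k * w k

/-- point of the unit sphere with spherical coordinates `θ`, `φ` -/
noncomputable def sp (θ φ : ℝ) : R3 :=
  WithLp.toLp 2 ![Real.sin θ * Real.cos φ, Real.sin θ * Real.sin φ, Real.cos θ]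

/-- average over the unit sphere -/
noncomputable def sph {E : Type} [NormedAddCommGroup E] [NormedSpace ℝ E] (f : R3 → E) : E :=
  (1 / (4 * Real.pi)) • ∫ θ in (0 : ℝ)..Real.pi, ∫ φ in (0 : ℝ)..(2 * Real.pi),
    Real.sin θ • f (sp θ φ)

/-- value of a real polynomial at a complex point -/
noncomputable def pc (P : Poly3) (c : C3) : ℂ := MvPolynomial.eval₂ (algebraMap ℝ ℂ) c P

/-- normalisation `2^m (m!)^2 / (2m+1)!` -/
noncomputable def Am (m : ℕ) : ℝ := 2 ^ m * (m.factorial : ℝ) ^ 2 / ((2 * m + 1).factorial : ℝ)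

/-- Fejér weight of the latitude `π (2 k + 1) / (2 D)`, normalised to total mass one
(`D` even) -/
noncomputable def fej (D : ℕ) (k : ℕ) : ℝ :=
  (1 / (D : ℝ)) * (1 - 2 * ∑ j ∈ Icc 1 (D / 2),
    Real.cos (2 * (j : ℝ) * (Real.pi * (2 * k + 1) / (2 * D))) / (4 * (j : ℝ) ^ 2 - 1))

/-- nodes -/
noncomputable def node (D k j : ℕ) : R3 :=
  sp (Real.pi * (2 * k + 1) / (2 * D)) (2 * Real.pi * j / D)

/-- weights of the nodes -/
noncomputable def qw (D k : ℕ) : ℝ := fej D k / D

/-! ### the top subspace and the devices -/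

/-- harmonic homogeneous polynomials of degree `l` -/
def Harm (l : ℕ) (P : Poly3) : Prop := P.IsHomogeneous l ∧ lap P = 0

/-- the function `P e^{-|x|/n}` -/
noncomputable def vfun (n : ℕ) (P : Poly3) : R3 → ℝ :=
  fun x => pe P x * Real.exp (-(‖x‖ / n))

/-- top subspace of shell `n` -/
def InV (n : ℕ) (φ : R3 → ℝ) : Prop := ∃ P, Harm (n - 1) P ∧ φ = vfun n P

/-- form of the radial potential `(1/r - 1/ρ)_+` -/
noncomputable def bform (ρ : ℝ) (f g : R3 → ℝ) : ℝ :=
  ∫ x, f x * g x * max (1 / ‖x‖ - 1 / ρ) 0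

/-- `∫ r^{2n} e^{-2r/n} dr` -/
noncomputable def I0 (n : ℕ) : ℝ :=
  ∫ r in Set.Ioi (0 : ℝ), r ^ (2 * n) * Real.exp (-(2 * r / n))

/-- radial matrix element of the multipole `N` -/
noncomputable def RN (n N : ℕ) (ρ : ℝ) : ℝ :=
  ∫ r in Set.Ioi (0 : ℝ), r ^ (2 * n) * Real.exp (-(2 * r / n)) *
    (1 / (2 * (N : ℝ) + 1) * (min r ρ ^ N / max r ρ ^ (N + 1)))

/-- unit of strength of a device -/
noncomputable def Xu (n N : ℕ) (ρ : ℝ) : ℝ :=
  (1 / ρ) ^ N * (2 * (N : ℝ) + 1) * (((2 * n).factorial : ℝ) / ((2 * n - 1 - N).factorial : ℝ)) *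
    ((n : ℝ) / 2) ^ (N + 1)

/-- relative weight of the top subspace inside the ball of radius `ρ` -/
noncomputable def xr (n : ℕ) (ρ : ℝ) : ℝ :=
  (∫ r in (0 : ℝ)..ρ, r ^ (2 * n) * Real.exp (-(2 * r / n)) * (1 / r - 1 / ρ)) / I0 n

/-- null vector `e_z + i (cos α, sin α, 0)` -/
noncomputable def av (α : ℝ) : C3 := ![Complex.I * Real.cos α, Complex.I * Real.sin α, 1]

/-- standing wave on the great circle of `av α`: real part -/
noncomputable def fsite (n : ℕ) (α : ℝ) : R3 → ℝ :=
  fun x => (cdot (av α) x ^ (n - 1)).re * Real.exp (-(‖x‖ / n))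

/-- imaginary part -/
noncomputable def gsite (n : ℕ) (α : ℝ) : R3 → ℝ :=
  fun x => (cdot (av α) x ^ (n - 1)).im * Real.exp (-(‖x‖ / n))

/-- squared norm of the sites -/
noncomputable def nf (n : ℕ) : ℝ :=
  Real.pi / 2 * (n : ℝ) ^ (2 * n + 2) * ((n - 1).factorial : ℝ) ^ 2

/-- relative strength of the top device -/
noncomputable def gam (n : ℕ) : ℝ := Am (2 * (n - 1)) * 2 ^ (n - 1) / (2 * Am (n - 1))

/-- normalised hopping amplitude of the device at angle `γ` with multipole `2 q` between the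
circles `α` and `β` -/
noncomputable def hopA (n q : ℕ) (γ α β : ℝ) : ℝ :=
  4 * Real.pi * I0 n / nf n * sph (fun u => (cdot (av γ) u ^ (2 * q)).re *
    ((cdot (av α) u ^ (n - 1)).re * (cdot (av β) u ^ (n - 1)).re))

/-- normalised site orbital -/
noncomputable def fh (n : ℕ) (α : ℝ) : R3 → ℝ := fun x => fsite n α x / Real.sqrt (nf n)

/-- azimuthally symmetric density of the circle of angle `α` (a probability density) -/
noncomputable def rho0 (n : ℕ) (α : ℝ) : R3 → ℝ :=
  fun x => ‖cdot (av α) x‖ ^ (2 * (n - 1)) * Real.exp (-(2 * ‖x‖ / n)) / (2 * nf n)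

/-- unit normal of the circle -/
noncomputable def nuv (α : ℝ) : R3 := WithLp.toLp 2 ![-Real.sin α, Real.cos α, 0]

/-- direct Coulomb integral at angular distance `δ` -/
noncomputable def wdir (n : ℕ) (δ : ℝ) : ℝ := coul (fh n δ) (fh n δ) (fh n 0) (fh n 0)

/-- mean field form of the closed shells -/
noncomputable def mfield {n : ℕ} {C O : Type} [Fintype C] [DecidableEq C] [Fintype O]
    [DecidableEq O] (B : ShellBasis n (C ⊕ O)) (f g : R3 → ℝ) : ℝ :=
  ∑ c : C, (2 * coul f g (B.χ (Sum.inl c)) (B.χ (Sum.inl c)) -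
    coul f (B.χ (Sum.inl c)) (B.χ (Sum.inl c)) g)

/-! ### parameters -/

/-- number of sites -/
def pK (k : ℕ) : ℕ := 2 ^ k

/-- open shell -/
def pn (k : ℕ) : ℕ := 2 ^ (2048 * k)

/-- size of the grid -/
def pD (k : ℕ) : ℕ := 16 * pn k

/-- radius of the sphere of light nuclei (scaled units) -/
noncomputable def pρ (k : ℕ) : ℝ := 1 / 2 ^ (16 * pn k ^ 2)

/-- strength of the top devices -/
noncomputable def pL (k : ℕ) : ℝ := 2 ^ (pn k / (4 * pK k ^ 2))

/-- isotropic charge -/
noncomputable def pW (k : ℕ) : ℝ := 2 ^ (128 * pn k ^ 3)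

/-- total nuclear charge -/
def pT (k : ℕ) : ℕ := 2 ^ (2000 * pn k ^ 3)

/-- unit of amplitude -/
noncomputable def pη (k : ℕ) : ℝ := 1 / 2 ^ pn k

/-- scale of the exchange couplings -/
noncomputable def pJ (k : ℕ) : ℝ := 1 / ((pn k : ℝ) ^ 2 * (pK k : ℝ) ^ 256)

/-- number of electrons: closed shells below `n`, and `K` electrons -/
def pN (k : ℕ) : ℕ := 2 * (∑ j ∈ range (pn k), j ^ 2) + pK k

/-- angle of site `i` -/
noncomputable def pα (k i : ℕ) : ℝ := Real.pi * i / pK k

/-- admissible multipole orders -/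
def GoodQ (k : ℕ) (q : ℕ → ℕ) : Prop :=
  ∀ d, 1 ≤ d → d < pK k → |(q d : ℝ) - ((pn k : ℝ) - 1) * Real.cos (Real.pi * d / (2 * pK k))| ≤ 1

/-- exact weight of the node `(a, b)` -/
noncomputable def wex (k : ℕ) (q : ℕ → ℕ) (s : ℕ → ℕ → ℕ) (a b : ℕ) : ℝ :=
  qw (pD k) a * (pW k +
    (∑ i ∈ range (pK k), pL k * Xu (pn k) (2 * (pn k - 1)) (pρ k) *
      (cdot (av (pα k i)) (node (pD k) a b) ^ (2 * (pn k - 1))).re) +
    ∑ j ∈ range (pK k), ∑ i ∈ range j, (s i j : ℝ) * pη k * Xu (pn k) (2 * q (j - i)) (pρ k) *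
      (cdot (av ((pα k i + pα k j) / 2)) (node (pD k) a b) ^ (2 * q (j - i))).re)

/-- charges and scaled positions approximating the exact ones -/
structure Approx (k : ℕ) (q : ℕ → ℕ) (s : ℕ → ℕ → ℕ) (w : Fin (pD k * pD k) → ℕ)
    (y : Fin (pD k * pD k) → R3) : Prop where
  charge : ∀ β, |(w β : ℝ) - wex k q s (β / pD k) (β % pD k)| ≤ 2
  pos : ∀ β, ‖y β - pρ k • node (pD k) (β / pD k) (β % pD k)‖ ≤ 1 / 2 ^ (200 * pn k ^ 3)

/-- couplings -/
noncomputable def coupl (κ : ℕ → ℝ) (s : ℕ → ℕ → ℕ) {K : ℕ} (i j : Fin K) : ℝ :=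
  if i < j then κ (j - i) * (s i j : ℝ) ^ 2 else 0

end Vale.Agent.P370.Q
end

section

/-!
The largest eigenvalue of `∑ J_ij (1 - SWAP_ij)`.
-/

namespace Vale.Agent.P370.Q.Alg

open Finset ComplexConjugate

variable {K : ℕ}

private theorem sum_comp_swap (σ : Equiv.Perm (Fin K)) (f : (Fin K → Fin 2) → ℝ) :
    ∑ s : Fin K → Fin 2, f (s ∘ σ) = ∑ s, f s :=
  Equiv.sum_comp (Equiv.arrowCongr σ.symm (Equiv.refl (Fin 2))) f

private theorem abs_swap_le (i j : Fin K) (φ : SpinState K) :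
    |(∑ s, conj (φ s) * φ (s ∘ Equiv.swap i j)).re| ≤ spinNsq φ := by
  have h1 : |(∑ s, conj (φ s) * φ (s ∘ Equiv.swap i j)).re| ≤
      ∑ s, ‖φ s‖ * ‖φ (s ∘ Equiv.swap i j)‖ := by
    refine (Complex.abs_re_le_norm _).trans ((norm_sum_le _ _).trans (le_of_eq ?_))
    refine Finset.sum_congr rfl fun s _ => ?_
    rw [norm_mul, Complex.norm_conj]
  have h2 : ∑ s, ‖φ s‖ * ‖φ (s ∘ Equiv.swap i j)‖ ≤
      ∑ s, (‖φ s‖ ^ 2 + ‖φ (s ∘ Equiv.swap i j)‖ ^ 2) / 2 := by
    refine Finset.sum_le_sum fun s _ => ?_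
    linarith only [sq_nonneg (‖φ s‖ - ‖φ (s ∘ Equiv.swap i j)‖)]
  have h3 : ∑ s, (‖φ s‖ ^ 2 + ‖φ (s ∘ Equiv.swap i j)‖ ^ 2) / 2 = spinNsq φ := by
    rw [← Finset.sum_div, Finset.sum_add_distrib,
      sum_comp_swap (Equiv.swap i j) (fun s => ‖φ s‖ ^ 2)]
    unfold spinNsq
    ring
  (clear * - h1 h2 h3; linarith)

theorem swap_bounds (i j : Fin K) (φ : SpinState K) :
    0 ≤ spinNsq φ - (∑ s, conj (φ s) * φ (s ∘ Equiv.swap i j)).re ∧
      spinNsq φ - (∑ s, conj (φ s) * φ (s ∘ Equiv.swap i j)).re ≤ 2 * spinNsq φ := by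
  have h := abs_le.1 (abs_swap_le i j φ)
  constructor <;> linarith only [h]

private theorem exists_unit (K : ℕ) : ∃ φ : SpinState K, spinNsq φ = 1 := by
  classical
  refine ⟨Pi.single 0 1, ?_⟩
  unfold spinNsq
  rw [Finset.sum_eq_single 0]
  · simp only [Pi.single_eq_same, norm_one, one_pow]
  · intro b _ hb
    simp only [Pi.single_eq_of_ne hb, norm_zero, ne_eq, OfNat.ofNat_ne_zero, not_false_eq_true, zero_pow]
  · intro h
    exact absurd (Finset.mem_univ _) h

private theorem heisE_le (J : Fin K → Fin K → ℝ) (φ : SpinState K) (h : spinNsq φ = 1) :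
    heisE J φ ≤ ∑ i, ∑ j ∈ Ioi i, |J i j| * 2 := by
  unfold heisE
  refine Finset.sum_le_sum fun i _ => Finset.sum_le_sum fun j _ => ?_
  have h1 := swap_bounds i j φ
  calc _ ≤ |J i j| * (spinNsq φ - (∑ s, conj (φ s) * φ (s ∘ Equiv.swap i j)).re) :=
        mul_le_mul_of_nonneg_right (le_abs_self _) h1.1
    _ ≤ |J i j| * 2 := by
        refine mul_le_mul_of_nonneg_left ?_ (abs_nonneg _)
        linarith only [h, h1]

/-- the set defining `heisMax` is bounded and nonempty -/
theorem heis_bdd (J : Fin K → Fin K → ℝ) :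
    BddAbove {E | ∃ φ : SpinState K, spinNsq φ = 1 ∧ heisE J φ = E} ∧
      {E | ∃ φ : SpinState K, spinNsq φ = 1 ∧ heisE J φ = E}.Nonempty := by
  constructor
  · refine ⟨∑ i, ∑ j ∈ Ioi i, |J i j| * 2, ?_⟩
    rintro E ⟨φ, hφ, rfl⟩
    exact heisE_le J φ hφ
  · obtain ⟨φ, hφ⟩ := exists_unit K
    exact ⟨_, φ, hφ, rfl⟩

theorem le_heisMax (J : Fin K → Fin K → ℝ) (φ : SpinState K) (h : spinNsq φ = 1) :
    heisE J φ ≤ heisMax J :=
  le_csSup (heis_bdd J).1 ⟨φ, h, rfl⟩

theorem heisMax_le (J : Fin K → Fin K → ℝ) (b : ℝ)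
    (h : ∀ φ : SpinState K, spinNsq φ = 1 → heisE J φ ≤ b) : heisMax J ≤ b := by
  refine csSup_le (heis_bdd J).2 ?_
  rintro E ⟨φ, hφ, rfl⟩
  exact h φ hφ

theorem heisMax_zero : heisMax (fun _ _ : Fin K => (0 : ℝ)) = 0 := by
  have h0 : ∀ φ : SpinState K, heisE (fun _ _ : Fin K => (0 : ℝ)) φ = 0 := by
    intro φ
    simp only [heisE, Complex.re_sum, Complex.mul_re, Complex.conj_re, Complex.conj_im, neg_mul, sub_neg_eq_add, zero_mul, sum_const_zero]
  obtain ⟨φ, hφ⟩ := exists_unit K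
  refine le_antisymm (heisMax_le _ _ fun ψ _ => (h0 ψ).le) ?_
  exact (h0 φ).symm.le.trans (le_heisMax _ φ hφ)

theorem heisMax_nonneg (J : Fin K → Fin K → ℝ) (hJ : ∀ i j, 0 ≤ J i j) : 0 ≤ heisMax J := by
  obtain ⟨φ, hφ⟩ := exists_unit K
  refine le_trans ?_ (le_heisMax J φ hφ)
  exact Finset.sum_nonneg fun i _ => Finset.sum_nonneg fun j _ =>
    mul_nonneg (hJ i j) (swap_bounds i j φ).1

private theorem heisE_smul (c : ℝ) (J : Fin K → Fin K → ℝ) (φ : SpinState K) :
    heisE (fun i j => c * J i j) φ = c * heisE J φ := by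
  simp only [heisE, mul_assoc, mul_sum]

theorem heisMax_smul (c : ℝ) (hc : 0 ≤ c) (J : Fin K → Fin K → ℝ) :
    heisMax (fun i j => c * J i j) = c * heisMax J := by
  rcases hc.eq_or_lt with rfl | hc
  · simp only [zero_mul]
    exact heisMax_zero
  · refine le_antisymm (heisMax_le _ _ fun φ hφ => ?_) ?_
    · rw [heisE_smul]
      exact mul_le_mul_of_nonneg_left (le_heisMax J φ hφ) hc.le
    · rw [← le_div_iff₀' hc]
      refine heisMax_le _ _ fun φ hφ => ?_
      rw [le_div_iff₀' hc, ← heisE_smul]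
      exact le_heisMax _ φ hφ

private theorem heisE_lip (J J' : Fin K → Fin K → ℝ) (φ : SpinState K) (h : spinNsq φ = 1) :
    heisE J φ ≤ heisE J' φ + 2 * ∑ i, ∑ j ∈ Ioi i, |J i j - J' i j| := by
  have h1 : heisE J φ - heisE J' φ = heisE (fun i j => J i j - J' i j) φ := by
    simp only [heisE, ← sum_sub_distrib, sub_mul]
  have h2 := heisE_le (fun i j => J i j - J' i j) φ h
  have h3 : ∑ i, ∑ j ∈ Ioi i, |J i j - J' i j| * 2 =
      2 * ∑ i, ∑ j ∈ Ioi i, |J i j - J' i j| := by
    simp only [mul_sum, mul_comm]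
  rw [h3] at h2
  linarith

theorem heisMax_lip (J J' : Fin K → Fin K → ℝ) :
    |heisMax J - heisMax J'| ≤ 2 * ∑ i, ∑ j ∈ Ioi i, |J i j - J' i j| := by
  have key : ∀ J J' : Fin K → Fin K → ℝ,
      heisMax J - heisMax J' ≤ 2 * ∑ i, ∑ j ∈ Ioi i, |J i j - J' i j| := by
    intro J J'
    have := heisMax_le J (heisMax J' + 2 * ∑ i, ∑ j ∈ Ioi i, |J i j - J' i j|) fun φ hφ =>
      (heisE_lip J J' φ hφ).trans (by linarith only [le_heisMax J' φ hφ])
    linarith only [this]
  rw [abs_le]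
  have h1 := key J J'
  have h2 := key J' J
  have h3 : ∑ i, ∑ j ∈ Ioi i, |J' i j - J i j| = ∑ i, ∑ j ∈ Ioi i, |J i j - J' i j| := by
    refine Finset.sum_congr rfl fun i _ => Finset.sum_congr rfl fun j _ => ?_
    rw [abs_sub_comm]
  rw [h3] at h2
  constructor <;> linarith only [h1, h2]

private theorem heisE_single (i₀ j₀ : Fin K) (h : i₀ < j₀) (x : ℝ) (φ : SpinState K) :
    heisE (fun i j : Fin K => if i = i₀ ∧ j = j₀ then x else 0) φ =
      x * (spinNsq φ - (∑ s, conj (φ s) * φ (s ∘ Equiv.swap i₀ j₀)).re) := by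
  unfold heisE
  rw [Finset.sum_eq_single i₀]
  · rw [Finset.sum_eq_single j₀]
    · simp only [and_self, ↓reduceIte, Complex.re_sum, Complex.mul_re, Complex.conj_re, Complex.conj_im, neg_mul, sub_neg_eq_add]
    · intro j _ hj
      simp only [hj, and_false, ↓reduceIte, Complex.re_sum, Complex.mul_re, Complex.conj_re, Complex.conj_im, neg_mul, sub_neg_eq_add, zero_mul]
    · intro h'
      exact absurd (Finset.mem_Ioi.2 h) h'
  · intro i _ hi
    refine Finset.sum_eq_zero fun j _ => ?_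
    simp only [hi, false_and, ↓reduceIte, Complex.re_sum, Complex.mul_re, Complex.conj_re, Complex.conj_im, neg_mul, sub_neg_eq_add, zero_mul]
  · intro h'
    exact absurd (Finset.mem_univ _) h'

/-- a single bond -/
theorem heisMax_single (i₀ j₀ : Fin K) (h : i₀ < j₀) (x : ℝ) (hx : 0 ≤ x) :
    heisMax (fun i j : Fin K => if i = i₀ ∧ j = j₀ then x else 0) = 2 * x := by
  classical
  refine le_antisymm (heisMax_le _ _ fun φ hφ => ?_) ?_
  · rw [heisE_single i₀ j₀ h]
    have h1 := (swap_bounds i₀ j₀ φ).2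
    linarith only [mul_nonneg_of_nonpos_of_nonpos (Mathlib.Tactic.Linarith.sub_nonpos_of_le hx) (Mathlib.Tactic.Linarith.sub_nonpos_of_le h1), Mathlib.Tactic.Linarith.mul_zero_eq (Mathlib.Tactic.Linarith.sub_nonpos_of_le hx) (sub_eq_zero_of_eq hφ)]
  · set a : Fin K → Fin 2 := Pi.single i₀ 1 with ha
    set σ : Equiv.Perm (Fin K) := Equiv.swap i₀ j₀ with hσ
    have hne : a ≠ a ∘ σ := by
      intro heq
      have h1 := congrFun heq i₀
      simp only [ha, hσ, Function.comp_apply, Equiv.swap_apply_left, Pi.single_eq_same,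
        Pi.single_eq_of_ne h.ne'] at h1
      exact absurd h1 (by decide)
    have hσσ : ∀ s : Fin K → Fin 2, (s ∘ σ) ∘ σ = s := by
      intro s
      ext i
      simp only [hσ, Function.comp_apply, Equiv.swap_apply_self]
    set φ : SpinState K := fun s => if s = a then ((Real.sqrt (1 / 2) : ℝ) : ℂ) else
      if s = a ∘ σ then -((Real.sqrt (1 / 2) : ℝ) : ℂ) else 0 with hφdef
    have hanti : ∀ s, φ (s ∘ σ) = -φ s := by
      intro s
      simp only [hφdef]
      by_cases h1 : s = a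
      · subst h1
        rw [if_neg (Ne.symm hne), if_pos rfl, if_pos rfl]
      · by_cases h2 : s = a ∘ σ
        · subst h2
          rw [hσσ, if_pos rfl, if_neg (Ne.symm hne), if_pos rfl, neg_neg]
        · have h3 : s ∘ σ ≠ a := by
            intro h3
            exact h2 (by rw [← h3, hσσ])
          have h4 : s ∘ σ ≠ a ∘ σ := by
            intro h4
            apply h1
            have := congrArg (fun t => t ∘ σ) h4
            simpa [hσσ] using this
          rw [if_neg h3, if_neg h4, if_neg h1, if_neg h2, neg_zero]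
    have hnorm : spinNsq φ = 1 := by
      unfold spinNsq
      rw [← Finset.sum_subset (Finset.subset_univ {a, a ∘ σ}), Finset.sum_pair hne]
      · have e1 : φ a = ((Real.sqrt (1 / 2) : ℝ) : ℂ) := if_pos rfl
        rw [hanti, norm_neg, e1, Complex.norm_real,
          Real.norm_of_nonneg (Real.sqrt_nonneg _), Real.sq_sqrt (by norm_num)]
        norm_num
      · intro s _ hs
        simp only [Finset.mem_insert, Finset.mem_singleton, not_or] at hs
        simp only [hφdef]
        rw [if_neg hs.1, if_neg hs.2]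
        simp
    have hE : (∑ s, conj (φ s) * φ (s ∘ Equiv.swap i₀ j₀)).re = -1 := by
      have h1 : ∑ s, conj (φ s) * φ (s ∘ Equiv.swap i₀ j₀) = -((spinNsq φ : ℝ) : ℂ) := by
        unfold spinNsq
        push_cast
        rw [← Finset.sum_neg_distrib]
        refine Finset.sum_congr rfl fun s _ => ?_
        rw [← hσ, hanti s, mul_neg, ← Complex.normSq_eq_conj_mul_self, Complex.normSq_eq_norm_sq]
        push_cast
        rfl
      rw [h1, hnorm]
      simp
    have h2 := le_heisMax (fun i j : Fin K => if i = i₀ ∧ j = j₀ then x else 0) φ hnorm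
    rw [heisE_single i₀ j₀ h, hE, hnorm] at h2
    linarith only [h2]

/-- the energy is homogeneous -/
private theorem heisE_le_mul (J : Fin K → Fin K → ℝ) (φ : SpinState K) :
    heisE J φ ≤ heisMax J * spinNsq φ := by
  have hscale : ∀ (c : ℝ) (φ : SpinState K), spinNsq (fun s => (c : ℂ) * φ s) =
      c ^ 2 * spinNsq φ := by
    intro c φ
    unfold spinNsq
    rw [Finset.mul_sum]
    refine Finset.sum_congr rfl fun s _ => ?_
    rw [norm_mul, Complex.norm_real, mul_pow, Real.norm_eq_abs, sq_abs]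
  have hscaleE : ∀ (c : ℝ) (φ : SpinState K), heisE J (fun s => (c : ℂ) * φ s) =
      c ^ 2 * heisE J φ := by
    intro c φ
    unfold heisE
    rw [Finset.mul_sum]
    refine Finset.sum_congr rfl fun i _ => ?_
    rw [Finset.mul_sum]
    refine Finset.sum_congr rfl fun j _ => ?_
    rw [hscale]
    have : ∑ s, conj ((c : ℂ) * φ s) * ((c : ℂ) * φ (s ∘ Equiv.swap i j)) =
        ((c ^ 2 : ℝ) : ℂ) * ∑ s, conj (φ s) * φ (s ∘ Equiv.swap i j) := by
      rw [Finset.mul_sum]
      refine Finset.sum_congr rfl fun s _ => ?_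
      rw [map_mul, Complex.conj_ofReal]
      push_cast
      ring
    rw [this, Complex.re_ofReal_mul]
    ring
  have hN : 0 ≤ spinNsq φ := Finset.sum_nonneg fun s _ => sq_nonneg _
  rcases hN.eq_or_lt with h0 | h0
  · have hz : φ = fun _ => 0 := by
      funext s
      have h1 : ∑ s, ‖φ s‖ ^ 2 = 0 := h0.symm
      rw [Finset.sum_eq_zero_iff_of_nonneg fun s _ => sq_nonneg _] at h1
      have h2 := h1 s (Finset.mem_univ _)
      simpa only [ne_eq, OfNat.ofNat_ne_zero, not_false_eq_true, pow_eq_zero_iff, norm_eq_zero] using h2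
    rw [← h0, mul_zero, hz]
    simp only [heisE, spinNsq, norm_zero, ne_eq, OfNat.ofNat_ne_zero, not_false_eq_true, zero_pow, sum_const_zero, map_zero, mul_zero, Complex.zero_re, sub_self, Std.le_refl]
  · have h1 : spinNsq (fun s => ((1 / Real.sqrt (spinNsq φ) : ℝ) : ℂ) * φ s) = 1 := by
      rw [hscale, div_pow, one_pow, Real.sq_sqrt h0.le]
      (clear * - h0; field_simp)
    have h2 := le_heisMax J _ h1
    rw [hscaleE, div_pow, one_pow, Real.sq_sqrt h0.le] at h2
    have h3 := mul_le_mul_of_nonneg_right h2 h0.le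
    calc heisE J φ = 1 / spinNsq φ * heisE J φ * spinNsq φ := by field_simp
      _ ≤ _ := h3

private theorem append_swap {K₀ L : ℕ} (s : Fin K₀ → Fin 2) (r : Fin L → Fin 2) (i j : Fin K₀) :
    (Fin.append s r) ∘ Equiv.swap (Fin.castAdd L i) (Fin.castAdd L j) =
      Fin.append (s ∘ Equiv.swap i j) r := by
  funext k
  refine Fin.addCases (fun k => ?_) (fun k => ?_) k
  · rw [Function.comp_apply, Fin.append_left, Function.comp_apply]
    have : Equiv.swap (Fin.castAdd L i) (Fin.castAdd L j) (Fin.castAdd L k) =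
        Fin.castAdd L (Equiv.swap i j k) := by
      rw [Equiv.swap_apply_def, Equiv.swap_apply_def]
      simp only [Fin.castAdd_inj]
      split_ifs <;> rfl
    rw [this, Fin.append_left]
  · rw [Function.comp_apply, Fin.append_right, Equiv.swap_apply_of_ne_of_ne, Fin.append_right]
    · intro h
      have := congrArg Fin.val h
      simp only [Fin.val_natAdd, Fin.val_castAdd] at this
      omega
    · intro h
      have := congrArg Fin.val h
      simp only [Fin.val_natAdd, Fin.val_castAdd] at this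
      omega

private theorem sum_append {K₀ L : ℕ} {M : Type*} [AddCommMonoid M]
    (f : (Fin (K₀ + L) → Fin 2) → M) :
    ∑ s, f s = ∑ r : Fin L → Fin 2, ∑ s : Fin K₀ → Fin 2, f (Fin.append s r) := by
  rw [Finset.sum_comm, ← Fintype.sum_prod_type', ← Equiv.sum_comp (Fin.appendEquiv K₀ L)]
  rfl

private theorem sum_pairs_embed {K₀ L : ℕ} (J : ℕ → ℕ → ℝ)
    (hJ : ∀ i j, K₀ ≤ i ∨ K₀ ≤ j → J i j = 0) (f : Fin (K₀ + L) → Fin (K₀ + L) → ℝ) :
    ∑ i : Fin (K₀ + L), ∑ j ∈ Ioi i, J i j * f i j =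
      ∑ i : Fin K₀, ∑ j ∈ Ioi i, J i j * f (Fin.castAdd L i) (Fin.castAdd L j) := by
  have h1 : ∀ (K : ℕ) (g : Fin K → Fin K → ℝ), ∑ i : Fin K, ∑ j ∈ Ioi i, g i j =
      ∑ i : Fin K, ∑ j : Fin K, if i < j then g i j else 0 := by
    intro K g
    refine Finset.sum_congr rfl fun i _ => ?_
    rw [← Finset.sum_filter]
    refine Finset.sum_congr ?_ fun _ _ => rfl
    ext j
    simp only [mem_Ioi, mem_filter, mem_univ, true_and]
  rw [h1, h1, Fin.sum_univ_add]
  have h2 : ∑ i : Fin L, ∑ j : Fin (K₀ + L), (if Fin.natAdd K₀ i < j then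
      J (Fin.natAdd K₀ i : Fin (K₀ + L)) j * f (Fin.natAdd K₀ i) j else 0) = 0 := by
    refine Finset.sum_eq_zero fun i _ => Finset.sum_eq_zero fun j _ => ?_
    rw [hJ _ _ (Or.inl (by simp only [Fin.val_natAdd, le_add_iff_nonneg_right, zero_le]))]
    simp
  rw [h2, add_zero]
  refine Finset.sum_congr rfl fun i _ => ?_
  rw [Fin.sum_univ_add]
  have h3 : ∑ j : Fin L, (if Fin.castAdd L i < Fin.natAdd K₀ j then
      J (Fin.castAdd L i : Fin (K₀ + L)) (Fin.natAdd K₀ j : Fin (K₀ + L)) *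
        f (Fin.castAdd L i) (Fin.natAdd K₀ j) else 0) = 0 := by
    refine Finset.sum_eq_zero fun j _ => ?_
    rw [hJ _ _ (Or.inr (by simp))]
    simp
  rw [h3, add_zero]
  refine Finset.sum_congr rfl fun j _ => ?_
  have h4 : (Fin.castAdd L i < Fin.castAdd L j) ↔ i < j := Iff.rfl
  simp only [h4, Fin.val_castAdd]

private theorem heisE_append {K₀ L : ℕ} (J : ℕ → ℕ → ℝ)
    (hJ : ∀ i j, K₀ ≤ i ∨ K₀ ≤ j → J i j = 0) (φ : SpinState (K₀ + L)) :
    heisE (fun i j : Fin (K₀ + L) => J i j) φ =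
      ∑ r : Fin L → Fin 2, heisE (fun i j : Fin K₀ => J i j) (fun s => φ (Fin.append s r)) := by
  unfold heisE
  rw [sum_pairs_embed J hJ (fun i j => spinNsq φ -
    (∑ s, conj (φ s) * φ (s ∘ Equiv.swap i j)).re)]
  rw [Finset.sum_comm]
  refine Finset.sum_congr rfl fun i _ => ?_
  rw [Finset.sum_comm]
  refine Finset.sum_congr rfl fun j _ => ?_
  rw [← Finset.mul_sum, Finset.sum_sub_distrib]
  congr 2
  · unfold spinNsq
    rw [sum_append]
  · rw [sum_append, Complex.re_sum]
    refine Finset.sum_congr rfl fun r _ => ?_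
    refine congrArg Complex.re (Finset.sum_congr rfl fun s _ => ?_)
    rw [append_swap]

/-- adding isolated spins -/
theorem heisMax_embed {K₀ : ℕ} (h : K₀ ≤ K) (J : ℕ → ℕ → ℝ)
    (hJ : ∀ i j, K₀ ≤ i ∨ K₀ ≤ j → J i j = 0) :
    heisMax (fun i j : Fin K => J i j) = heisMax (fun i j : Fin K₀ => J i j) := by
  classical
  obtain ⟨L, rfl⟩ := Nat.exists_eq_add_of_le h
  refine le_antisymm (heisMax_le _ _ fun φ hφ => ?_) (heisMax_le _ _ fun φ hφ => ?_)
  · rw [heisE_append J hJ]
    calc _ ≤ ∑ r : Fin L → Fin 2, heisMax (fun i j : Fin K₀ => J i j) *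
          spinNsq (fun s => φ (Fin.append s r)) :=
          Finset.sum_le_sum fun r _ => heisE_le_mul _ _
      _ = heisMax (fun i j : Fin K₀ => J i j) * spinNsq φ := by
          rw [← Finset.mul_sum]
          congr 1
          unfold spinNsq
          rw [sum_append]
      _ = _ := by rw [hφ, mul_one]
  · set ψ : SpinState (K₀ + L) := fun s =>
      if (fun k : Fin L => s (Fin.natAdd K₀ k)) = 0 then φ (fun k => s (Fin.castAdd L k)) else 0
      with hψ
    have h1 : ∀ r : Fin L → Fin 2, (fun s => ψ (Fin.append s r)) =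
        if r = 0 then φ else fun _ => 0 := by
      intro r
      funext s
      simp only [hψ, Fin.append_right, Fin.append_left]
      split_ifs <;> rfl
    have h2 : spinNsq ψ = 1 := by
      rw [← hφ]
      have : spinNsq ψ = ∑ r : Fin L → Fin 2, spinNsq (fun s => ψ (Fin.append s r)) := by
        unfold spinNsq
        rw [sum_append]
      rw [this, Finset.sum_eq_single 0]
      · rw [h1, if_pos rfl]
      · intro r _ hr
        rw [h1, if_neg hr]
        simp only [spinNsq, norm_zero, ne_eq, OfNat.ofNat_ne_zero, not_false_eq_true, zero_pow, sum_const_zero]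
      · intro h'
        exact absurd (Finset.mem_univ _) h'
    refine le_trans (le_of_eq ?_) (le_heisMax _ ψ h2)
    rw [heisE_append J hJ, Finset.sum_eq_single 0]
    · rw [h1, if_pos rfl]
    · intro r _ hr
      rw [h1, if_neg hr]
      simp only [heisE, spinNsq, norm_zero, ne_eq, OfNat.ofNat_ne_zero, not_false_eq_true, zero_pow, sum_const_zero, map_zero, mul_zero, Complex.zero_re, sub_self]
    · intro h'
      exact absurd (Finset.mem_univ _) h'

/-- relation with the source problem -/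
theorem heisenbergForm_eq (m : ℕ → ℕ → ℕ) (φ : SpinState K) :
    heisenbergForm m φ = (∑ i : Fin K, ∑ j ∈ Ioi i, (m i j : ℝ)) * spinNsq φ -
      2 * heisE (fun i j : Fin K => (m i j : ℝ)) φ := by
  unfold heisenbergForm heisE
  rw [Finset.sum_mul, Finset.mul_sum, ← Finset.sum_sub_distrib]
  refine Finset.sum_congr rfl fun i _ => ?_
  rw [Finset.sum_mul, Finset.mul_sum, ← Finset.sum_sub_distrib]
  refine Finset.sum_congr rfl fun j _ => ?_
  unfold spinNsq
  ring

/-- sum of all weights -/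
def mSum (w : List Bool) : ℕ :=
  ((List.range (hK w)).map fun j => ((List.range j).map fun i => hM w i j).sum).sum

private theorem mSum_eq (w : List Bool) :
    ((mSum w : ℕ) : ℝ) = ∑ i : Fin (hK w), ∑ j ∈ Ioi i, (hM w i j : ℝ) := by
  have h0 : ∀ (n : ℕ) (f : ℕ → ℕ), ((List.range n).map f).sum = ∑ i ∈ range n, f i := by
    intro n f
    rw [← List.sum_toFinset f List.nodup_range, List.toFinset_range]
  have h1 : ∀ (K : ℕ) (g : ℕ → ℕ → ℕ), ∑ i : Fin K, ∑ j ∈ Ioi i, (g i j : ℝ) =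
      ∑ i ∈ range K, ∑ j ∈ range K, if i < j then (g i j : ℝ) else 0 := by
    intro K g
    rw [← Fin.sum_univ_eq_sum_range (fun i => ∑ j ∈ range K, if i < j then (g i j : ℝ) else 0)]
    refine Finset.sum_congr rfl fun i _ => ?_
    rw [← Fin.sum_univ_eq_sum_range (fun j => if (i : ℕ) < j then (g i j : ℝ) else 0),
      ← Finset.sum_filter]
    refine Finset.sum_congr ?_ fun _ _ => rfl
    ext j
    simp only [mem_Ioi, Fin.val_fin_lt, mem_filter, mem_univ, true_and]
  rw [h1, Finset.sum_comm]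
  unfold mSum
  simp only [h0]
  push_cast
  refine Finset.sum_congr rfl fun j hj => ?_
  rw [← Finset.sum_filter]
  refine Finset.sum_congr ?_ fun _ _ => rfl
  ext i
  simp only [Finset.mem_range, Finset.mem_filter] at hj ⊢
  omega

theorem yes_heisMax (w : List Bool) (h : w ∈ heisenbergAF.yes) :
    (((mSum w : ℕ) : ℝ) + hA w) / 2 ≤ heisMax (fun i j : Fin (hK w) => (hM w i j : ℝ)) := by
  obtain ⟨φ, hφ, hE⟩ := h
  have h1 : spinNsq φ = 1 := hφ
  have h2 := le_heisMax (fun i j : Fin (hK w) => (hM w i j : ℝ)) φ h1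
  rw [heisenbergForm_eq, h1, mul_one, ← mSum_eq] at hE
  linarith only [hE, h2]

theorem no_heisMax (w : List Bool) (h : w ∈ heisenbergAF.no) :
    heisMax (fun i j : Fin (hK w) => (hM w i j : ℝ)) ≤ (((mSum w : ℕ) : ℝ) + hA w - 1) / 2 := by
  refine heisMax_le _ _ fun φ hφ => ?_
  have hE := h φ hφ
  rw [heisenbergForm_eq, hφ, mul_one, ← mSum_eq] at hE
  linarith

end Vale.Agent.P370.Q.Alg
end

section

/-!
The queries of the Turing reduction. First the reference energy is found by binary search, then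
for every distance `d` the coupling parameter which produces the coupling `pJ` is found by a scan
over a grid, then the question is asked.
-/

namespace Vale.Agent.P370.Q.Alg

/-- logarithm of the number of sites -/
def kk (w : List Bool) : ℕ := max 10 (Nat.size w.length)

/-- number of steps of the binary search -/
def nB (k : ℕ) : ℕ := 6000 * an k ^ 3 + 3

/-- number of grid points -/
def nG (k : ℕ) : ℕ := 4 * an k * aK k ^ 6 + 1

/-- grid of coupling parameters -/
def grid (k : ℕ) : ℕ → ℕ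
  | 0 => 1
  | j + 1 => grid k j + grid k j / aK k ^ 6 + 1

/-- lower end of the search interval of length `2 ^ (B - |ans|) + 1` -/
def lo (B : ℕ) (ans : List Bool) : ℤ :=
  -2 ^ (B - 1) + ((List.range ans.length).map fun t =>
    bif ans.getD t false then (0 : ℤ) else 2 ^ (B - 1 - t)).sum

/-- `T pJ` -/
def aJ1 (k : ℕ) : ℕ := 2 ^ (2000 * an k ^ 3 - 4352 * k)

/-- grid index of the first positive answer in the block of the distance `d` -/
def firstYes (k : ℕ) (ans : List Bool) (d : ℕ) : ℕ :=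
  ((List.range (nG k)).filter fun j => ans.getD (nB k + (d - 1) * nG k + j) false).headD (nG k)

/-- calibrated parameter at distance `d` -/
def xcal (k : ℕ) (ans : List Bool) (d : ℕ) : ℕ := grid k (firstYes k ans d)

/-- a single coupled pair `(0, d)` -/
def single (d x : ℕ) : List ℕ := List.replicate d 0 ++ [x]

/-- weights of the source problem as a function on the sites -/
def mW (w : List Bool) (i j : ℕ) : ℕ := if i < j ∧ j < hK w then hM w i j else 0

/-- parameters of the final query -/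
def sfin (k : ℕ) (x : ℕ → ℕ) (w : List Bool) : List ℕ :=
  (List.range (aK k * aK k)).map fun t =>
    Nat.sqrt (x (t % aK k - t / aK k) ^ 2 * mW w (t / aK k) (t % aK k) / aK k)

/-- offset of the final threshold -/
def offs (k : ℕ) (w : List Bool) : ℤ :=
  (2 * ((mSum w : ℤ) + hA w) - 1) * 2 ^ (2000 * an k ^ 3 - 4353 * k - 2)

/-- number of all queries before the final one -/
def nQ (k : ℕ) : ℕ := nB k + (aK k - 1) * nG k

/-- the query after the answers `ans` -/
def query (w ans : List Bool) : List Bool :=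
  if ans.length < nB (kk w) then
    build (kk w) [] (lo (nB (kk w)) ans + 2 ^ (nB (kk w) - 1 - ans.length))
  else if ans.length < nQ (kk w) then
    build (kk w) (single ((ans.length - nB (kk w)) / nG (kk w) + 1)
      (grid (kk w) ((ans.length - nB (kk w)) % nG (kk w))))
      (lo (nB (kk w)) (ans.take (nB (kk w))) - 2 * aJ1 (kk w))
  else
    build (kk w) (sfin (kk w) (xcal (kk w) ans) w)
      (lo (nB (kk w)) (ans.take (nB (kk w))) - offs (kk w) w)

/-- the output -/
def output (w ans : List Bool) : List Bool := [ans.getD (nQ (kk w)) false]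

end Vale.Agent.P370.Q.Alg
end

section

/-!
Definitions for the proof of the structure theorem.
-/

namespace Vale.Agent.P370.Q

open MeasureTheory Finset

/-- orthonormalised site orbitals -/
noncomputable def gS (k : ℕ) (Cm : Fin (pK k) → Fin (pK k) → ℝ) (i : Fin (pK k)) : R3 → ℝ :=
  fun x => ∑ j, Cm i j * fh (pn k) (pα k j) x

/-- `pL k = 2 ^ pe0 k` -/
def pe0 (k : ℕ) : ℕ := pn k / (4 * pK k ^ 2)

/-- form of the device `(γ, N)` of strength one -/
noncomputable def devf (k : ℕ) (γ : ℝ) (N : ℕ) (φ ψ : R3 → ℝ) : ℝ :=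
  ∑ a ∈ range (pD k), ∑ b ∈ range (pD k),
    qw (pD k) a * (cdot (av γ) (node (pD k) a b) ^ N).re * gm (pρ k • node (pD k) a b) φ ψ

/-- exact first order form of the light nuclei -/
noncomputable def hex (k : ℕ) (q : ℕ → ℕ) (s : ℕ → ℕ → ℕ) (φ ψ : R3 → ℝ) : ℝ :=
  ∑ a ∈ range (pD k), ∑ b ∈ range (pD k), wex k q s a b * gm (pρ k • node (pD k) a b) φ ψ

/-- radial factor of a unit device -/
noncomputable def zt (k N : ℕ) : ℝ := Xu (pn k) N (pρ k) * RN (pn k) N (pρ k) / I0 (pn k)

/-- angular amplitude at distance `d` -/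
noncomputable def amp (k : ℕ) (q : ℕ → ℕ) (d : ℕ) : ℝ :=
  hopA (pn k) (q d) 0 (0 + Real.pi * d / (2 * pK k)) (0 - Real.pi * d / (2 * pK k))

/-- depth of the sites -/
noncomputable def Lam (k : ℕ) : ℝ := pL k * zt k (2 * (pn k - 1)) * gam (pn k)

/-- hopping amplitude at distance `d` for the parameter `x` -/
noncomputable def thop (k : ℕ) (q : ℕ → ℕ) (d x : ℕ) : ℝ :=
  -((x : ℝ) * pη k * zt k (2 * q d) * amp k q d)

/-- hopping matrix -/
noncomputable def tS (k : ℕ) (q : ℕ → ℕ) (s : ℕ → ℕ → ℕ) (i j : Fin (pK k)) : ℝ :=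
  if i < j then thop k q (j - i) (s i j) else if j < i then thop k q (i - j) (s j i) else 0

/-- direct Coulomb matrix of the sites -/
noncomputable def wS (k : ℕ) (i j : Fin (pK k)) : ℝ := wdir (pn k) (pα k i - pα k j)

/-- exchange coupling per squared parameter -/
noncomputable def kap (k : ℕ) (q : ℕ → ℕ) (d : ℕ) : ℝ :=
  2 * (pη k * zt k (2 * q d) * amp k q d) ^ 2 / (wdir (pn k) 0 - wdir (pn k) (Real.pi * d / pK k))

/-- admissible parameters -/
def GoodS (k : ℕ) (q : ℕ → ℕ) (s : ℕ → ℕ → ℕ) : Prop :=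
  ∀ i j, i < j → j < pK k → kap k q (j - i) * (s i j : ℝ) ^ 2 ≤ 16 * pJ k

/-- shell basis adapted to the sites -/
structure SiteB (k : ℕ) (C R : Type) [Fintype C] [DecidableEq C] [Fintype R] [DecidableEq R] where
  B : ShellBasis (pn k) (C ⊕ (Fin (pK k) ⊕ R))
  Cm : Fin (pK k) → Fin (pK k) → ℝ
  near : ∀ i j, |Cm i j - if i = j then 1 else 0| ≤ 1 / 2 ^ (4 * pe0 k)
  chi : ∀ i, B.χ (Sum.inr (Sum.inl i)) = gS k Cm i
  hC : ∀ c, B.lev (Sum.inl c) < pn k
  hO : ∀ o, B.lev (Sum.inr o) = pn k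

/-- one-body matrix of the open shell -/
noncomputable def hS {k : ℕ} {C R : Type} [Fintype C] [DecidableEq C] [Fintype R]
    [DecidableEq R] (S : SiteB k C R) {m : ℕ} (w : Fin m → ℝ) (y : Fin m → R3) :
    Fin (pK k) ⊕ R → Fin (pK k) ⊕ R → ℝ :=
  closedF (nucM S.B.χ w y) (coulM S.B.χ)

/-- two-body integrals of the open shell -/
noncomputable def vS {k : ℕ} {C R : Type} [Fintype C] [DecidableEq C] [Fintype R]
    [DecidableEq R] (S : SiteB k C R) :
    Fin (pK k) ⊕ R → Fin (pK k) ⊕ R → Fin (pK k) ⊕ R → Fin (pK k) ⊕ R → ℝ :=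
  fun p a q b => coulM S.B.χ (Sum.inr p) (Sum.inr a) (Sum.inr q) (Sum.inr b)

/-- on-site energy -/
noncomputable def eps0 {k : ℕ} {C R : Type} [Fintype C] [DecidableEq C] [Fintype R]
    [DecidableEq R] (S : SiteB k C R) : ℝ :=
  pW k * xr (pn k) (pρ k) + mfield S.B (fh (pn k) 0) (fh (pn k) 0) - Lam k

/-- energy of the closed shells, without rounding errors -/
noncomputable def cc0 {k : ℕ} {C R : Type} [Fintype C] [DecidableEq C] [Fintype R]
    [DecidableEq R] (S : SiteB k C R) : ℝ :=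
  2 * (pW k * ∑ c : C, gm (pρ k • node (pD k) 0 0) (S.B.χ (Sum.inl c)) (S.B.χ (Sum.inl c))) +
    ∑ a : C, ∑ b : C, (2 * coulM S.B.χ (Sum.inl a) (Sum.inl a) (Sum.inl b) (Sum.inl b) -
      coulM S.B.χ (Sum.inl a) (Sum.inl b) (Sum.inl b) (Sum.inl a))

/-- reference energy -/
noncomputable def Erefv {k : ℕ} {C R : Type} [Fintype C] [DecidableEq C] [Fintype R]
    [DecidableEq R] (S : SiteB k C R) : ℝ :=
  (pT k : ℝ) ^ 2 * (-((pn k : ℝ) - 1) - pK k / (2 * (pn k : ℝ) ^ 2)) +
    pT k * (cc0 S + mottBase (wS k) (eps0 S))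

end Vale.Agent.P370.Q
end

section

/-!
Legendre functions for `Sph3`.
-/

namespace Vale.Agent.P370.Q.S3

open MeasureTheory intervalIntegral

/-- Legendre polynomials -/
noncomputable def lp : ℕ → ℝ → ℝ
  | 0 => fun _ => 1
  | 1 => fun t => t
  | (n + 2) => fun t => ((2 * (n : ℝ) + 3) * t * lp (n + 1) t - ((n : ℝ) + 1) * lp n t) / (n + 2)

/-- their derivatives -/
noncomputable def lq : ℕ → ℝ → ℝ
  | 0 => fun _ => 0
  | 1 => fun _ => 1
  | (n + 2) => fun t =>
    ((2 * (n : ℝ) + 3) * (lp (n + 1) t + t * lq (n + 1) t) - ((n : ℝ) + 1) * lq n t) / (n + 2)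

theorem lp_hasDerivAt (n : ℕ) (t : ℝ) : HasDerivAt (lp n) (lq n t) t := by
  induction n using Nat.twoStepInduction with
  | zero => exact hasDerivAt_const t (1 : ℝ)
  | one => exact hasDerivAt_id t
  | more n ih0 ih1 =>
    have h := (((((hasDerivAt_id t).mul ih1).const_mul (2 * (n : ℝ) + 3)).sub
      (ih0.const_mul ((n : ℝ) + 1))).div_const ((n : ℝ) + 2))
    refine HasDerivAt.congr_deriv (f := lp (n + 2)) (h.congr_of_eventuallyEq ?_) ?_
    · refine Filter.Eventually.of_forall fun s => ?_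
      show ((2 * (n : ℝ) + 3) * s * lp (n + 1) s - ((n : ℝ) + 1) * lp n s) / (n + 2) =
        ((2 * (n : ℝ) + 3) * (s * lp (n + 1) s) - ((n : ℝ) + 1) * lp n s) / (n + 2)
      ring
    · show ((2 * (n : ℝ) + 3) * (1 * lp (n + 1) t + t * lq (n + 1) t) - ((n : ℝ) + 1) * lq n t) /
        (n + 2) = ((2 * (n : ℝ) + 3) * (lp (n + 1) t + t * lq (n + 1) t) -
        ((n : ℝ) + 1) * lq n t) / (n + 2)
      ring

theorem lp_continuous (n : ℕ) : Continuous (lp n) :=
  continuous_iff_continuousAt.2 fun t => (lp_hasDerivAt n t).continuousAt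

theorem lq_continuous (n : ℕ) : Continuous (lq n) := by
  induction n using Nat.twoStepInduction with
  | zero => exact continuous_const
  | one => exact continuous_const
  | more n ih0 ih1 =>
    have h1 := lp_continuous (n + 1)
    show Continuous fun t =>
      ((2 * (n : ℝ) + 3) * (lp (n + 1) t + t * lq (n + 1) t) - ((n : ℝ) + 1) * lq n t) / (n + 2)
    fun_prop

theorem lp_succ (n : ℕ) (t : ℝ) :
    ((n : ℝ) + 2) * lp (n + 2) t = (2 * (n : ℝ) + 3) * t * lp (n + 1) t - ((n : ℝ) + 1) * lp n t := by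
  have : ((n : ℝ) + 2) ≠ 0 := by (clear * -; positivity)
  show ((n : ℝ) + 2) * (((2 * (n : ℝ) + 3) * t * lp (n + 1) t - ((n : ℝ) + 1) * lp n t) / (n + 2)) = _
  field_simp

theorem lq_succ (n : ℕ) (t : ℝ) :
    ((n : ℝ) + 2) * lq (n + 2) t =
      (2 * (n : ℝ) + 3) * (lp (n + 1) t + t * lq (n + 1) t) - ((n : ℝ) + 1) * lq n t := by
  have : ((n : ℝ) + 2) ≠ 0 := by positivity
  show ((n : ℝ) + 2) * (((2 * (n : ℝ) + 3) * (lp (n + 1) t + t * lq (n + 1) t) -
    ((n : ℝ) + 1) * lq n t) / (n + 2)) = _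
  (clear * - this; field_simp)

theorem lq_rel (n : ℕ) (t : ℝ) :
    ((n : ℝ) + 1) * lp (n + 1) t = t * lq (n + 1) t - lq n t ∧
      ((n : ℝ) + 1) * lp n t = lq (n + 1) t - t * lq n t := by
  induction n with
  | zero => simp only [CharP.cast_eq_zero, zero_add, lp, one_mul, lq, mul_one, sub_zero, mul_zero, and_self]
  | succ n ih =>
    obtain ⟨h1, h2⟩ := ih
    have h3 := lp_succ n t
    have h4 := lq_succ n t
    have hn : ((n : ℝ) + 2) ≠ 0 := by (clear * -; positivity)
    have e2 : lq (n + 2) t = t * lq (n + 1) t + ((n : ℝ) + 2) * lp (n + 1) t := by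
      apply mul_left_cancel₀ hn
      rw [h4]
      linear_combination (-((n : ℝ) + 1)) * h1
    push_cast
    refine ⟨?_, ?_⟩
    · show ((n : ℝ) + 1 + 1) * lp (n + 2) t = t * lq (n + 2) t - lq (n + 1) t
      rw [e2]
      linear_combination h3 + t * h1 - h2
    · show ((n : ℝ) + 1 + 1) * lp (n + 1) t = lq (n + 2) t - t * lq (n + 1) t
      rw [e2]
      ring

theorem lp_deriv (n : ℕ) (t : ℝ) :
    (2 * ((n : ℝ) + 1) + 1) * lp (n + 1) t = lq (n + 2) t - lq n t := by
  have h1 := (lq_rel n t).1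
  have h2 := (lq_rel (n + 1) t).2
  push_cast at h2
  show _ = lq (n + 1 + 1) t - lq n t
  linear_combination h1 + h2

theorem lp_one (n : ℕ) : lp n 1 = 1 := by
  induction n using Nat.twoStepInduction with
  | zero => rfl
  | one => rfl
  | more n ih0 ih1 =>
    have hn : ((n : ℝ) + 2) ≠ 0 := by (clear * -; positivity)
    apply mul_left_cancel₀ hn
    rw [lp_succ, ih0, ih1]
    ring

theorem lp_neg_one (n : ℕ) : lp n (-1) = (-1) ^ n := by
  induction n using Nat.twoStepInduction with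
  | zero => simp [lp]
  | one => simp [lp]
  | more n ih0 ih1 =>
    have hn : ((n : ℝ) + 2) ≠ 0 := by (clear * -; positivity)
    apply mul_left_cancel₀ hn
    rw [lp_succ, ih0, ih1]
    ring

/-! ### Laplace integral -/

section Laplace

variable (c1 c2 c3 : ℂ) (σ t : ℝ)

noncomputable def Xf (φ : ℝ) : ℂ := c3 * t + σ * (c1 * Real.cos φ + c2 * Real.sin φ)

theorem Xf_continuous : Continuous (Xf c1 c2 c3 σ t) := by
  unfold Xf
  (clear * -; fun_prop)

theorem laplace_rec (hc : c1 ^ 2 + c2 ^ 2 + c3 ^ 2 = 0) (ht : σ ^ 2 + t ^ 2 = 1) (n : ℕ) :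
    ((n : ℂ) + 2) * (∫ φ in (0 : ℝ)..(2 * Real.pi), Xf c1 c2 c3 σ t φ ^ (n + 2)) =
      (2 * (n : ℂ) + 3) * c3 * t * (∫ φ in (0 : ℝ)..(2 * Real.pi), Xf c1 c2 c3 σ t φ ^ (n + 1)) -
      ((n : ℂ) + 1) * c3 ^ 2 * (∫ φ in (0 : ℝ)..(2 * Real.pi), Xf c1 c2 c3 σ t φ ^ n) := by
  have hcos : ∀ φ : ℝ, HasDerivAt (fun x : ℝ => ((Real.cos x : ℝ) : ℂ)) (-(Real.sin φ : ℝ) : ℂ) φ := by
    intro φ
    have := (Real.hasDerivAt_cos φ).ofReal_comp
    simpa only [Complex.ofReal_cos, Complex.ofReal_sin, Complex.ofReal_neg] using this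
  have hsin : ∀ φ : ℝ, HasDerivAt (fun x : ℝ => ((Real.sin x : ℝ) : ℂ)) ((Real.cos φ : ℝ) : ℂ) φ := by
    intro φ
    have := (Real.hasDerivAt_sin φ).ofReal_comp
    simpa only [Complex.ofReal_sin, Complex.ofReal_cos] using this
  have hX : ∀ φ : ℝ, HasDerivAt (Xf c1 c2 c3 σ t)
      (σ * (-c1 * Real.sin φ + c2 * Real.cos φ)) φ := by
    intro φ
    have := ((((hcos φ).const_mul c1).add ((hsin φ).const_mul c2)).const_mul (σ : ℂ)).const_add
      (c3 * t)
    exact this.congr_deriv (by ring)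
  have hg : ∀ φ : ℝ, HasDerivAt (fun x : ℝ => -c1 * Real.sin x + c2 * Real.cos x)
      (-(c1 * Real.cos φ + c2 * Real.sin φ)) φ := by
    intro φ
    have := ((hsin φ).const_mul (-c1)).add ((hcos φ).const_mul c2)
    exact this.congr_deriv (by ring)
  have hH : ∀ φ : ℝ, HasDerivAt
      (fun x : ℝ => -(σ * (Xf c1 c2 c3 σ t x ^ (n + 1) * (-c1 * Real.sin x + c2 * Real.cos x))))
      (((n : ℂ) + 2) * Xf c1 c2 c3 σ t φ ^ (n + 2) -
        (2 * (n : ℂ) + 3) * c3 * t * Xf c1 c2 c3 σ t φ ^ (n + 1) +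
        ((n : ℂ) + 1) * c3 ^ 2 * Xf c1 c2 c3 σ t φ ^ n) φ := by
    intro φ
    have := ((((hX φ).pow (n + 1)).mul (hg φ)).const_mul (σ : ℂ)).neg
    refine this.congr_deriv ?_
    simp only [Pi.pow_apply]
    have hs : (Real.sin φ : ℂ) ^ 2 + (Real.cos φ : ℂ) ^ 2 = 1 := by
      rw [← Complex.ofReal_pow, ← Complex.ofReal_pow, ← Complex.ofReal_add,
        Real.sin_sq_add_cos_sq, Complex.ofReal_one]
    have ht' : (σ : ℂ) ^ 2 + (t : ℂ) ^ 2 = 1 := by
      rw [← Complex.ofReal_pow, ← Complex.ofReal_pow, ← Complex.ofReal_add, ht, Complex.ofReal_one]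
    have key : (σ : ℂ) ^ 2 * (-c1 * Real.sin φ + c2 * Real.cos φ) ^ 2 =
        -c3 ^ 2 - Xf c1 c2 c3 σ t φ ^ 2 + 2 * c3 * t * Xf c1 c2 c3 σ t φ := by
      unfold Xf
      linear_combination ((σ : ℂ) ^ 2 * (c1 ^ 2 + c2 ^ 2)) * hs + (σ : ℂ) ^ 2 * hc -
        c3 ^ 2 * ht'
    have hX1 : (σ : ℂ) * (c1 * Real.cos φ + c2 * Real.sin φ) = Xf c1 c2 c3 σ t φ - c3 * t := by
      unfold Xf; ring
    simp only [Nat.add_sub_cancel]
    push_cast
    generalize hY : Xf c1 c2 c3 σ t φ = Y at *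
    have e1 : -((σ : ℂ) * (((n : ℂ) + 1) * Y ^ n * (σ * (-c1 * Real.sin φ + c2 * Real.cos φ)) *
        (-c1 * Real.sin φ + c2 * Real.cos φ) +
        Y ^ (n + 1) * (-(c1 * Real.cos φ + c2 * Real.sin φ)))) =
        -(((n : ℂ) + 1) * Y ^ n * ((σ : ℂ) ^ 2 * (-c1 * Real.sin φ + c2 * Real.cos φ) ^ 2)) +
        Y ^ (n + 1) * ((σ : ℂ) * (c1 * Real.cos φ + c2 * Real.sin φ)) := by ring
    push_cast at e1 key hX1
    rw [e1, key, hX1]
    ring
  have hint := integral_eq_sub_of_hasDerivAt (a := 0) (b := 2 * Real.pi)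
    (f := fun x : ℝ => -(σ * (Xf c1 c2 c3 σ t x ^ (n + 1) * (-c1 * Real.sin x + c2 * Real.cos x))))
    (fun φ _ => hH φ) (by
      have := Xf_continuous c1 c2 c3 σ t
      apply Continuous.intervalIntegrable
      (clear * - this; fun_prop))
  have hXc := Xf_continuous c1 c2 c3 σ t
  have hz : (-(σ * (Xf c1 c2 c3 σ t (2 * Real.pi) ^ (n + 1) *
      (-c1 * Real.sin (2 * Real.pi) + c2 * Real.cos (2 * Real.pi)))) : ℂ) -
      (-(σ * (Xf c1 c2 c3 σ t 0 ^ (n + 1) * (-c1 * Real.sin 0 + c2 * Real.cos 0)))) = 0 := by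
    simp only [Xf, Real.cos_two_pi, Complex.ofReal_one, mul_one, Real.sin_two_pi, Complex.ofReal_zero, mul_zero, add_zero, zero_add, Real.cos_zero, Real.sin_zero, sub_self]
  rw [hz] at hint
  rw [intervalIntegral.integral_add, intervalIntegral.integral_sub,
    intervalIntegral.integral_const_mul, intervalIntegral.integral_const_mul,
    intervalIntegral.integral_const_mul] at hint
  · linear_combination hint
  all_goals
    apply Continuous.intervalIntegrable
    fun_prop

theorem laplace_eq (hc : c1 ^ 2 + c2 ^ 2 + c3 ^ 2 = 0) (ht : σ ^ 2 + t ^ 2 = 1) (n : ℕ) :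
    (∫ φ in (0 : ℝ)..(2 * Real.pi), Xf c1 c2 c3 σ t φ ^ n) = 2 * Real.pi * c3 ^ n * lp n t := by
  induction n using Nat.twoStepInduction with
  | zero => simp only [pow_zero, intervalIntegral.integral_const, sub_zero, Complex.real_smul, Complex.ofReal_mul, Complex.ofReal_ofNat, mul_one, lp, Complex.ofReal_one]
  | one =>
    simp only [pow_one, Xf, lp]
    have h1 : ∫ φ in (0 : ℝ)..(2 * Real.pi), ((Real.cos φ : ℝ) : ℂ) = 0 := by
      rw [intervalIntegral.integral_ofReal, integral_cos]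
      simp
    have h2 : ∫ φ in (0 : ℝ)..(2 * Real.pi), ((Real.sin φ : ℝ) : ℂ) = 0 := by
      rw [intervalIntegral.integral_ofReal, integral_sin]
      simp
    rw [intervalIntegral.integral_add (by apply Continuous.intervalIntegrable; fun_prop)
      (by apply Continuous.intervalIntegrable; fun_prop),
      intervalIntegral.integral_const_mul (σ : ℂ),
      intervalIntegral.integral_add (by apply Continuous.intervalIntegrable; fun_prop)
      (by apply Continuous.intervalIntegrable; fun_prop), intervalIntegral.integral_const_mul c1,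
      intervalIntegral.integral_const_mul c2, h1, h2]
    simp only [intervalIntegral.integral_const_mul, intervalIntegral.integral_const, sub_zero, Complex.real_smul, Complex.ofReal_mul, Complex.ofReal_ofNat, mul_zero, add_zero]
    ring
  | more n ih0 ih1 =>
    have hn : ((n : ℂ) + 2) ≠ 0 := by
      have : ((n + 2 : ℕ) : ℂ) ≠ 0 := Nat.cast_ne_zero.2 (by omega)
      push_cast at this
      exact this
    apply mul_left_cancel₀ hn
    rw [laplace_rec c1 c2 c3 σ t hc ht n, ih0, ih1]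
    have := lp_succ n t
    have h3 : ((n : ℂ) + 2) * (lp (n + 2) t : ℂ) =
        (2 * (n : ℂ) + 3) * t * (lp (n + 1) t : ℂ) - ((n : ℂ) + 1) * (lp n t : ℂ) := by
      have := congrArg (fun x : ℝ => (x : ℂ)) this
      push_cast at this
      exact this
    linear_combination (-2 * (Real.pi : ℂ) * c3 ^ (n + 2)) * h3

end Laplace

/-! ### the radial integrals -/

section Radial

variable {r ρ : ℝ}

/-- squared distance -/
noncomputable def Dd (r ρ t : ℝ) : ℝ := r ^ 2 + ρ ^ 2 - 2 * r * ρ * t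

theorem Dd_pos (hr : 0 < r) (hρ : 0 < ρ) (hne : r ≠ ρ) {t : ℝ} (ht : t ≤ 1) :
    0 < Dd r ρ t := by
  unfold Dd
  have h1 : 0 < (r - ρ) ^ 2 := by
    have : r - ρ ≠ 0 := sub_ne_zero.2 hne
    (clear * - hne; positivity)
  have h2 : 0 ≤ 2 * r * ρ * (1 - t) := by
    have : 0 ≤ 1 - t := by linarith only [ht]
    positivity
  linarith only [h1, h2]

theorem Dd_continuous (r ρ : ℝ) : Continuous (Dd r ρ) := by
  unfold Dd
  fun_prop

theorem inv_sqrt_hasDerivAt (hr : 0 < r) (hρ : 0 < ρ) (hne : r ≠ ρ) {t : ℝ} (ht : t ≤ 1) :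
    HasDerivAt (fun t => 1 / √(Dd r ρ t)) (r * ρ * (1 / (Dd r ρ t * √(Dd r ρ t)))) t := by
  have hD := Dd_pos hr hρ hne ht
  have h1 : HasDerivAt (Dd r ρ) (-(2 * r * ρ)) t := by
    unfold Dd
    have := ((hasDerivAt_id t).const_mul (2 * r * ρ)).const_sub (r ^ 2 + ρ ^ 2)
    simpa only [id_eq, mul_one] using this
  have h2 := (h1.sqrt hD.ne').inv (Real.sqrt_ne_zero'.2 hD)
  have h3 : (fun t => 1 / √(Dd r ρ t)) = (fun t => (√(Dd r ρ t)))⁻¹ := by
    ext s; simp
  rw [h3]
  refine h2.congr_deriv ?_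
  have hs := Real.sq_sqrt hD.le
  have hs0 : √(Dd r ρ t) ≠ 0 := Real.sqrt_ne_zero'.2 hD
  rw [hs]
  field_simp

theorem Dd_pos' (hr : 0 < r) (hρ : 0 < ρ) (hne : r ≠ ρ) {t : ℝ} (ht : t ∈ Set.uIcc (-1 : ℝ) 1) :
    0 < Dd r ρ t := by
  apply Dd_pos hr hρ hne
  rw [Set.uIcc_of_le (by norm_num)] at ht
  exact ht.2

theorem cA (hr : 0 < r) (hρ : 0 < ρ) (hne : r ≠ ρ) :
    ContinuousOn (fun t => 1 / √(Dd r ρ t)) (Set.uIcc (-1 : ℝ) 1) := by
  apply ContinuousOn.div continuousOn_const
  · exact (Dd_continuous r ρ).sqrt.continuousOn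
  · intro t ht
    exact Real.sqrt_ne_zero'.2 (Dd_pos' hr hρ hne ht)

theorem cB (hr : 0 < r) (hρ : 0 < ρ) (hne : r ≠ ρ) :
    ContinuousOn (fun t => 1 / (Dd r ρ t * √(Dd r ρ t))) (Set.uIcc (-1 : ℝ) 1) := by
  apply ContinuousOn.div continuousOn_const
  · exact ((Dd_continuous r ρ).mul (Dd_continuous r ρ).sqrt).continuousOn
  · intro t ht
    have := Dd_pos' hr hρ hne ht
    have h2 := Real.sqrt_ne_zero'.2 this
    exact mul_ne_zero this.ne' h2

/-- Legendre coefficient of the inverse distance -/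
noncomputable def aI (r ρ : ℝ) (n : ℕ) : ℝ :=
  (1 / 2) * ∫ t in (-1 : ℝ)..1, 1 / √(Dd r ρ t) * lp n t

/-- Legendre coefficient of the inverse cubed distance -/
noncomputable def bI (r ρ : ℝ) (n : ℕ) : ℝ :=
  (1 / 2) * ∫ t in (-1 : ℝ)..1, 1 / (Dd r ρ t * √(Dd r ρ t)) * lp n t

theorem aI_int (hr : 0 < r) (hρ : 0 < ρ) (hne : r ≠ ρ) (n : ℕ) :
    IntervalIntegrable (fun t => 1 / √(Dd r ρ t) * lp n t) volume (-1) 1 :=
  ((cA hr hρ hne).mul (lp_continuous n).continuousOn).intervalIntegrable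

theorem bI_int (hr : 0 < r) (hρ : 0 < ρ) (hne : r ≠ ρ) (n : ℕ) :
    IntervalIntegrable (fun t => 1 / (Dd r ρ t * √(Dd r ρ t)) * lp n t) volume (-1) 1 :=
  ((cB hr hρ hne).mul (lp_continuous n).continuousOn).intervalIntegrable

theorem rel1 (hr : 0 < r) (hρ : 0 < ρ) (hne : r ≠ ρ) (n : ℕ) :
    (2 * (n : ℝ) + 3) * aI r ρ (n + 1) = -(r * ρ * (bI r ρ (n + 2) - bI r ρ n)) := by
  have hd : ∀ t ∈ Set.uIcc (-1 : ℝ) 1,
      HasDerivAt (fun t => (lp (n + 2) t - lp n t) * (1 / √(Dd r ρ t)))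
        ((2 * (n : ℝ) + 3) * (1 / √(Dd r ρ t) * lp (n + 1) t) +
          r * ρ * (1 / (Dd r ρ t * √(Dd r ρ t)) * lp (n + 2) t -
            1 / (Dd r ρ t * √(Dd r ρ t)) * lp n t)) t := by
    intro t ht
    rw [Set.uIcc_of_le (by norm_num)] at ht
    have h1 := ((lp_hasDerivAt (n + 2) t).sub (lp_hasDerivAt n t)).mul
      (inv_sqrt_hasDerivAt hr hρ hne ht.2)
    refine h1.congr_deriv ?_
    have h2 := lp_deriv n t
    rw [← h2]
    simp only [Pi.sub_apply]
    ring
  have hi1 := aI_int hr hρ hne (n + 1)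
  have hi2 := bI_int hr hρ hne (n + 2)
  have hi3 := bI_int hr hρ hne n
  have h := integral_eq_sub_of_hasDerivAt hd
    ((hi1.const_mul _).add ((hi2.sub hi3).const_mul _))
  rw [intervalIntegral.integral_add (hi1.const_mul _) ((hi2.sub hi3).const_mul _),
    intervalIntegral.integral_const_mul, intervalIntegral.integral_const_mul,
    intervalIntegral.integral_sub hi2 hi3] at h
  have e1 : lp (n + 2) 1 - lp n 1 = 0 := by rw [lp_one, lp_one]; ring
  have e2 : lp (n + 2) (-1) - lp n (-1) = 0 := by rw [lp_neg_one, lp_neg_one]; ring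
  rw [e1, e2] at h
  unfold aI bI
  linear_combination (1 / 2) * h

theorem rel2 (hr : 0 < r) (hρ : 0 < ρ) (hne : r ≠ ρ) (n : ℕ) :
    (2 * (n : ℝ) + 3) * aI r ρ (n + 1) = (2 * (n : ℝ) + 3) * (r ^ 2 + ρ ^ 2) * bI r ρ (n + 1) -
      2 * r * ρ * (((n : ℝ) + 2) * bI r ρ (n + 2) + ((n : ℝ) + 1) * bI r ρ n) := by
  have hi2 := bI_int hr hρ hne (n + 2)
  have hi1 := bI_int hr hρ hne (n + 1)
  have hi3 := bI_int hr hρ hne n
  have e : (∫ t in (-1 : ℝ)..1, (2 * (n : ℝ) + 3) * (1 / √(Dd r ρ t) * lp (n + 1) t)) =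
      ∫ t in (-1 : ℝ)..1, ((2 * (n : ℝ) + 3) * (r ^ 2 + ρ ^ 2) *
        (1 / (Dd r ρ t * √(Dd r ρ t)) * lp (n + 1) t) -
        (2 * r * ρ * ((n : ℝ) + 2) * (1 / (Dd r ρ t * √(Dd r ρ t)) * lp (n + 2) t) +
        2 * r * ρ * ((n : ℝ) + 1) * (1 / (Dd r ρ t * √(Dd r ρ t)) * lp n t))) := by
    apply intervalIntegral.integral_congr
    intro t ht
    have hD := Dd_pos' hr hρ hne ht
    have hs : √(Dd r ρ t) ≠ 0 := Real.sqrt_ne_zero'.2 hD
    have hl := lp_succ n t
    simp only
    have e1 : 1 / √(Dd r ρ t) = (r ^ 2 + ρ ^ 2 - 2 * r * ρ * t) * (1 / (Dd r ρ t * √(Dd r ρ t))) := by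
      have : (r ^ 2 + ρ ^ 2 - 2 * r * ρ * t) = Dd r ρ t := rfl
      rw [this]
      (clear * - hD hs; field_simp)
    rw [e1]
    linear_combination (2 * r * ρ * (1 / (Dd r ρ t * √(Dd r ρ t)))) * hl
  rw [intervalIntegral.integral_const_mul, intervalIntegral.integral_sub (hi1.const_mul _)
    ((hi2.const_mul _).add (hi3.const_mul _)), intervalIntegral.integral_add (hi2.const_mul _)
    (hi3.const_mul _), intervalIntegral.integral_const_mul, intervalIntegral.integral_const_mul,
    intervalIntegral.integral_const_mul] at e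
  unfold aI bI
  linear_combination (1 / 2) * e

theorem rel3 (hr : 0 < r) (hρ : 0 < ρ) (hne : r ≠ ρ) (n : ℕ) :
    r * ρ * (bI r ρ (n + 2) + bI r ρ n) = (r ^ 2 + ρ ^ 2) * bI r ρ (n + 1) := by
  have h1 := rel1 hr hρ hne n
  have h2 := rel2 hr hρ hne n
  have hn : (2 * (n : ℝ) + 3) ≠ 0 := by positivity
  apply mul_left_cancel₀ hn
  linear_combination h2 - h1

theorem rel2' (hr : 0 < r) (hρ : 0 < ρ) (hne : r ≠ ρ) :
    aI r ρ 0 = (r ^ 2 + ρ ^ 2) * bI r ρ 0 - 2 * r * ρ * bI r ρ 1 := by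
  have hi1 := bI_int hr hρ hne 0
  have hi2 := bI_int hr hρ hne 1
  have e : (∫ t in (-1 : ℝ)..1, (1 / √(Dd r ρ t) * lp 0 t)) =
      ∫ t in (-1 : ℝ)..1, ((r ^ 2 + ρ ^ 2) *
        (1 / (Dd r ρ t * √(Dd r ρ t)) * lp 0 t) -
        (2 * r * ρ) * (1 / (Dd r ρ t * √(Dd r ρ t)) * lp 1 t)) := by
    apply intervalIntegral.integral_congr
    intro t ht
    have hD := Dd_pos' hr hρ hne ht
    have hs : √(Dd r ρ t) ≠ 0 := Real.sqrt_ne_zero'.2 hD
    simp only
    have e1 : 1 / √(Dd r ρ t) = (r ^ 2 + ρ ^ 2 - 2 * r * ρ * t) * (1 / (Dd r ρ t * √(Dd r ρ t))) := by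
      have : (r ^ 2 + ρ ^ 2 - 2 * r * ρ * t) = Dd r ρ t := rfl
      rw [this]
      (clear * - hD hs; field_simp)
    rw [e1]
    simp only [lp]
    ring
  rw [intervalIntegral.integral_sub (hi1.const_mul _)
    (hi2.const_mul _), intervalIntegral.integral_const_mul, intervalIntegral.integral_const_mul]
    at e
  unfold aI bI
  linear_combination (1 / 2) * e

theorem Dd_one (r ρ : ℝ) : √(Dd r ρ 1) = |r - ρ| := by
  rw [← Real.sqrt_sq_eq_abs]
  congr 1
  unfold Dd
  ring

theorem Dd_neg_one (hr : 0 < r) (hρ : 0 < ρ) : √(Dd r ρ (-1)) = r + ρ := by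
  rw [← abs_of_pos (add_pos hr hρ), ← Real.sqrt_sq_eq_abs]
  congr 1
  unfold Dd
  ring

theorem bI_zero (hr : 0 < r) (hρ : 0 < ρ) (hne : r ≠ ρ) :
    2 * (r * ρ) * bI r ρ 0 = 1 / |r - ρ| - 1 / (r + ρ) := by
  have h := integral_eq_sub_of_hasDerivAt (a := (-1 : ℝ)) (b := 1)
    (f := fun t => 1 / √(Dd r ρ t)) (f' := fun t => r * ρ * (1 / (Dd r ρ t * √(Dd r ρ t))))
    (fun t ht => inv_sqrt_hasDerivAt hr hρ hne (by
      rw [Set.uIcc_of_le (by norm_num)] at ht; exact ht.2))
    (((cB hr hρ hne).intervalIntegrable).const_mul _)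
  rw [intervalIntegral.integral_const_mul, Dd_one, Dd_neg_one hr hρ] at h
  unfold bI
  simp only [lp, mul_one]
  linear_combination h

theorem aI_zero (hr : 0 < r) (hρ : 0 < ρ) (hne : r ≠ ρ) :
    2 * (r * ρ) * aI r ρ 0 = (r + ρ) - |r - ρ| := by
  have hd : ∀ t ∈ Set.uIcc (-1 : ℝ) 1,
      HasDerivAt (fun t => √(Dd r ρ t)) (-(r * ρ) * (1 / √(Dd r ρ t))) t := by
    intro t ht
    have hD := Dd_pos' hr hρ hne ht
    have h1 : HasDerivAt (Dd r ρ) (-(2 * r * ρ)) t := by
      unfold Dd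
      have := ((hasDerivAt_id t).const_mul (2 * r * ρ)).const_sub (r ^ 2 + ρ ^ 2)
      simpa only [id_eq, mul_one] using this
    refine (h1.sqrt hD.ne').congr_deriv ?_
    have hs0 : √(Dd r ρ t) ≠ 0 := Real.sqrt_ne_zero'.2 hD
    field_simp
  have h := integral_eq_sub_of_hasDerivAt hd (((cA hr hρ hne).intervalIntegrable).const_mul _)
  rw [intervalIntegral.integral_const_mul, Dd_one, Dd_neg_one hr hρ] at h
  unfold aI
  simp only [lp, mul_one]
  linear_combination -h

theorem bI_eq (hr : 0 < r) (hρ : 0 < ρ) (hne : r ≠ ρ) (n : ℕ) :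
    bI r ρ n = (min r ρ / max r ρ) ^ n * bI r ρ 0 ∧
    bI r ρ (n + 1) = (min r ρ / max r ρ) ^ (n + 1) * bI r ρ 0 := by
  have hmul : min r ρ * max r ρ = r * ρ := min_mul_max r ρ
  have hsq : min r ρ ^ 2 + max r ρ ^ 2 = r ^ 2 + ρ ^ 2 := by
    rcases le_total r ρ with h | h
    · rw [min_eq_left h, max_eq_right h]
    · rw [min_eq_right h, max_eq_left h]; ring
  have hm : 0 < min r ρ := lt_min hr hρ
  have hM : 0 < max r ρ := lt_max_of_lt_left hr
  have hlt : min r ρ < max r ρ := by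
    rcases lt_or_gt_of_ne hne with h | h
    · rw [min_eq_left h.le, max_eq_right h.le]; exact h
    · rw [min_eq_right h.le, max_eq_left h.le]; exact h
  have habs : |r - ρ| = max r ρ - min r ρ := by
    rcases lt_or_gt_of_ne hne with h | h
    · rw [min_eq_left h.le, max_eq_right h.le, abs_of_neg (by linarith)]; ring
    · rw [min_eq_right h.le, max_eq_left h.le, abs_of_pos (by linarith only [h])]
  have hsum : r + ρ = max r ρ + min r ρ := by
    rcases le_total r ρ with h | h
    · rw [min_eq_left h, max_eq_right h]; ring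
    · rw [min_eq_right h, max_eq_left h]
  have hb0 := bI_zero hr hρ hne
  have ha0 := aI_zero hr hρ hne
  have h2 := rel2' hr hρ hne
  have h3 := rel3 hr hρ hne
  generalize min r ρ = m at *
  generalize max r ρ = M at *
  generalize bI r ρ = b at *
  have hMm : M - m ≠ 0 := sub_ne_zero.2 hlt.ne'
  have hMm' : M + m ≠ 0 := by positivity
  rw [habs, hsum, ← hmul] at hb0 ha0
  have eb0 : b 0 = 1 / (M * (M - m) * (M + m)) := by
    have : 2 * (m * M) ≠ 0 := by (clear * - hm hM; positivity)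
    apply mul_left_cancel₀ this
    rw [hb0]
    field_simp
    ring
  have eb1 : b 1 = (m / M) * b 0 := by
    have : 2 * (m * M) ≠ 0 := by positivity
    apply mul_left_cancel₀ this
    have e1 : 2 * (m * M) * b 1 = (r ^ 2 + ρ ^ 2) * b 0 - aI r ρ 0 := by
      rw [h2, hmul]; ring
    have ea : aI r ρ 0 = 1 / M := by
      apply mul_left_cancel₀ this
      rw [ha0]
      field_simp
      ring
    rw [e1, ea, eb0, ← hsq]
    field_simp
    ring
  induction n with
  | zero => exact ⟨by simp, by simpa only [zero_add, pow_one] using eb1⟩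
  | succ n ih =>
    refine ⟨ih.2, ?_⟩
    have h4 := h3 n
    rw [ih.1, ih.2, ← hsq, ← hmul] at h4
    have : m * M ≠ 0 := by positivity
    apply mul_left_cancel₀ this
    have e5 : m * M * b (n + 1 + 1) = (m ^ 2 + M ^ 2) * ((m / M) ^ (n + 1) * b 0) -
        m * M * ((m / M) ^ n * b 0) := by
      linear_combination h4
    rw [e5]
    have hM0 : M ≠ 0 := hM.ne'
    simp only [div_pow]
    field_simp
    ring

theorem aI_eq (hr : 0 < r) (hρ : 0 < ρ) (hne : r ≠ ρ) (n : ℕ) :
    aI r ρ n = 1 / (2 * (n : ℝ) + 1) * (min r ρ ^ n / max r ρ ^ (n + 1)) := by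
  have hmul : min r ρ * max r ρ = r * ρ := min_mul_max r ρ
  have hm : 0 < min r ρ := lt_min hr hρ
  have hM : 0 < max r ρ := lt_max_of_lt_left hr
  have hlt : min r ρ < max r ρ := by
    rcases lt_or_gt_of_ne hne with h | h
    · rw [min_eq_left h.le, max_eq_right h.le]; exact h
    · rw [min_eq_right h.le, max_eq_left h.le]; exact h
  have habs : |r - ρ| = max r ρ - min r ρ := by
    rcases lt_or_gt_of_ne hne with h | h
    · rw [min_eq_left h.le, max_eq_right h.le, abs_of_neg (by (clear * - h; linarith))]; ring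
    · rw [min_eq_right h.le, max_eq_left h.le, abs_of_pos (by linarith only [h])]
  have hsum : r + ρ = max r ρ + min r ρ := by
    rcases le_total r ρ with h | h
    · rw [min_eq_left h, max_eq_right h]; ring
    · rw [min_eq_right h, max_eq_left h]
  have hb0 := bI_zero hr hρ hne
  have ha0 := aI_zero hr hρ hne
  have hb := bI_eq hr hρ hne
  have h1 := rel1 hr hρ hne
  generalize min r ρ = m at *
  generalize max r ρ = M at *
  have hMm : M - m ≠ 0 := sub_ne_zero.2 hlt.ne'
  have hMm' : M + m ≠ 0 := by (clear * - hM hm; positivity)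
  rw [habs, hsum, ← hmul] at hb0 ha0
  have h2m : 2 * (m * M) ≠ 0 := by positivity
  have eb0 : bI r ρ 0 = 1 / (M * (M - m) * (M + m)) := by
    apply mul_left_cancel₀ h2m
    rw [hb0]
    field_simp
    ring
  cases n with
  | zero =>
    apply mul_left_cancel₀ h2m
    rw [ha0]
    simp only [add_sub_sub_cancel, CharP.cast_eq_zero, mul_zero, zero_add, ne_eq, one_ne_zero, not_false_eq_true, div_self, pow_zero, pow_one, one_div, one_mul]
    field_simp
    ring
  | succ n =>
    have h4 := h1 n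
    rw [(hb (n + 1)).2, (hb n).1, eb0, ← hmul] at h4
    have hn : (2 * (n : ℝ) + 3) ≠ 0 := by (clear * -; positivity)
    apply mul_left_cancel₀ hn
    rw [h4]
    have hM0 : M ≠ 0 := hM.ne'
    push_cast
    have h5 : 2 * ((n : ℝ) + 1) + 1 = 2 * (n : ℝ) + 3 := by ring
    rw [h5]
    simp only [div_pow]
    field_simp
    ring

end Radial

end Vale.Agent.P370.Q.S3
end

section

/-!
Legendre polynomials: differential equation, orthogonality, expansion of polynomials.
-/

namespace Vale.Agent.P370.KC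

open MeasureTheory intervalIntegral Polynomial
open Vale.Agent.P370.Q
open Vale.Agent.P370.Q.S3 (lq lq_rel lp_continuous lp_hasDerivAt lp_succ lp_one lp_neg_one)

/-- differential equation, first step -/
theorem lq_eq (n : ℕ) (t : ℝ) :
    (1 - t ^ 2) * lq (n + 1) t = ((n : ℝ) + 1) * (S3.lp n t - t * S3.lp (n + 1) t) := by
  obtain ⟨h1, h2⟩ := lq_rel n t
  linear_combination -h2 + t * h1

theorem lq_flux_hasDerivAt (n : ℕ) (t : ℝ) :
    HasDerivAt (fun t => (1 - t ^ 2) * lq n t) (-((n : ℝ) * (n + 1) * S3.lp n t)) t := by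
  cases n with
  | zero =>
    have : (fun t : ℝ => (1 - t ^ 2) * lq 0 t) = fun _ => 0 := by
      funext t
      simp [lq]
    rw [this]
    simpa using hasDerivAt_const t (0 : ℝ)
  | succ n =>
    have e : (fun t => (1 - t ^ 2) * lq (n + 1) t) =
        fun t => ((n : ℝ) + 1) * (S3.lp n t - t * S3.lp (n + 1) t) := by
      funext t
      exact lq_eq n t
    rw [e]
    have h := (((lp_hasDerivAt n t).sub ((hasDerivAt_id t).mul (lp_hasDerivAt (n + 1) t))).const_mul
      ((n : ℝ) + 1))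
    refine h.congr_deriv ?_
    obtain ⟨h1, h2⟩ := lq_rel n t
    simp only [id]
    push_cast
    linear_combination ((n : ℝ) + 1) * h1

/-- orthogonality -/
theorem lp_ortho_ne {m n : ℕ} (h : m ≠ n) : ∫ t in (-1 : ℝ)..1, S3.lp m t * S3.lp n t = 0 := by
  have hd : ∀ t ∈ Set.uIcc (-1 : ℝ) 1,
      HasDerivAt (fun t => S3.lp m t * ((1 - t ^ 2) * lq n t) - S3.lp n t * ((1 - t ^ 2) * lq m t))
        (((m : ℝ) * (m + 1) - n * (n + 1)) * (S3.lp m t * S3.lp n t)) t := by
    intro t _
    have h1 := ((lp_hasDerivAt m t).mul (lq_flux_hasDerivAt n t)).sub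
      ((lp_hasDerivAt n t).mul (lq_flux_hasDerivAt m t))
    refine h1.congr_deriv ?_
    ring
  have hi := integral_eq_sub_of_hasDerivAt hd
    ((((lp_continuous m).mul (lp_continuous n)).const_mul _).intervalIntegrable _ _)
  rw [intervalIntegral.integral_const_mul] at hi
  norm_num at hi
  rcases hi with hi | hi
  · exfalso
    have : ((m : ℝ) - n) * ((m : ℝ) + n + 1) = 0 := by linear_combination hi
    rcases mul_eq_zero.1 this with h' | h'
    · exact h (by exact_mod_cast sub_eq_zero.1 h')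
    · have : (0 : ℝ) ≤ (m : ℝ) + n := by (clear * -; positivity)
      linarith only [h']
  · exact hi

theorem lp_norm_sq (n : ℕ) : ∫ t in (-1 : ℝ)..1, S3.lp n t * S3.lp n t = 2 / (2 * (n : ℝ) + 1) := by
  have hstep : ∀ n : ℕ, (2 * (n : ℝ) + 5) * (∫ t in (-1 : ℝ)..1, S3.lp (n + 2) t * S3.lp (n + 2) t) =
      (2 * (n : ℝ) + 3) * ∫ t in (-1 : ℝ)..1, S3.lp (n + 1) t * S3.lp (n + 1) t := by
    intro n
    have hc : ∀ a b : ℕ, IntervalIntegrable (fun t => S3.lp a t * S3.lp b t) volume (-1) 1 := fun a b =>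
      ((lp_continuous a).mul (lp_continuous b)).intervalIntegrable _ _
    have hc2 : ∀ a b : ℕ, IntervalIntegrable (fun t => t * (S3.lp a t * S3.lp b t)) volume (-1) 1 :=
      fun a b => (continuous_id.mul ((lp_continuous a).mul (lp_continuous b))).intervalIntegrable _ _
    have h1 : ((n : ℝ) + 2) * (∫ t in (-1 : ℝ)..1, S3.lp (n + 2) t * S3.lp (n + 2) t) =
        (2 * (n : ℝ) + 3) * (∫ t in (-1 : ℝ)..1, t * (S3.lp (n + 1) t * S3.lp (n + 2) t)) -
          ((n : ℝ) + 1) * ∫ t in (-1 : ℝ)..1, S3.lp n t * S3.lp (n + 2) t := by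
      rw [← intervalIntegral.integral_const_mul, ← intervalIntegral.integral_const_mul,
        ← intervalIntegral.integral_const_mul,
        ← intervalIntegral.integral_sub ((hc2 _ _).const_mul _) ((hc _ _).const_mul _)]
      refine integral_congr fun t _ => ?_
      have := lp_succ n t
      linear_combination S3.lp (n + 2) t * this
    have h2 : ((n : ℝ) + 3) * (∫ t in (-1 : ℝ)..1, S3.lp (n + 3) t * S3.lp (n + 1) t) =
        (2 * (n : ℝ) + 5) * (∫ t in (-1 : ℝ)..1, t * (S3.lp (n + 1) t * S3.lp (n + 2) t)) -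
          ((n : ℝ) + 2) * ∫ t in (-1 : ℝ)..1, S3.lp (n + 1) t * S3.lp (n + 1) t := by
      rw [← intervalIntegral.integral_const_mul, ← intervalIntegral.integral_const_mul,
        ← intervalIntegral.integral_const_mul,
        ← intervalIntegral.integral_sub ((hc2 _ _).const_mul _) ((hc _ _).const_mul _)]
      refine integral_congr fun t _ => ?_
      have := lp_succ (n + 1) t
      push_cast at this
      linear_combination S3.lp (n + 1) t * this
    rw [lp_ortho_ne (m := n) (n := n + 2) (by omega)] at h1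
    rw [lp_ortho_ne (m := n + 3) (n := n + 1) (by omega)] at h2
    have hn : ((n : ℝ) + 2) ≠ 0 := by positivity
    apply mul_left_cancel₀ hn
    linear_combination (2 * (n : ℝ) + 5) * h1 - (2 * (n : ℝ) + 3) * h2
  induction n using Nat.twoStepInduction with
  | zero => simp only [S3.lp, mul_one, intervalIntegral.integral_const, sub_neg_eq_add, smul_eq_mul, CharP.cast_eq_zero, mul_zero, zero_add, div_one]; norm_num
  | one =>
    have : ∫ t in (-1 : ℝ)..1, S3.lp 1 t * S3.lp 1 t = ∫ t in (-1 : ℝ)..1, t ^ 2 := by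
      refine integral_congr fun t _ => ?_
      simp only [S3.lp]
      ring
    rw [this, integral_pow]
    norm_num
  | more n ih0 ih1 =>
    have h := hstep n
    rw [ih1] at h
    have h5 : (2 * (n : ℝ) + 5) ≠ 0 := by (clear * -; positivity)
    apply mul_left_cancel₀ h5
    rw [h]
    push_cast
    field_simp
    ring

/-- Legendre polynomials as polynomials -/
noncomputable def LP : ℕ → ℝ[X]
  | 0 => 1
  | 1 => X
  | (n + 2) => C (1 / ((n : ℝ) + 2)) * (C (2 * (n : ℝ) + 3) * (X * LP (n + 1)) -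
      C ((n : ℝ) + 1) * LP n)

theorem LP_eval (n : ℕ) (t : ℝ) : (LP n).eval t = S3.lp n t := by
  induction n using Nat.twoStepInduction with
  | zero => simp only [LP, eval_one, S3.lp]
  | one => simp [LP, S3.lp]
  | more n ih0 ih1 =>
    simp only [LP, S3.lp, eval_mul, eval_C, eval_sub, eval_X, ih0, ih1]
    have : ((n : ℝ) + 2) ≠ 0 := by (clear * -; positivity)
    field_simp

theorem LP_natDegree_le (n : ℕ) : (LP n).natDegree ≤ n := by
  induction n using Nat.twoStepInduction with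
  | zero => simp only [LP, natDegree_one, Std.le_refl]
  | one => simp [LP]
  | more n ih0 ih1 =>
    simp only [LP]
    refine (natDegree_C_mul_le _ _).trans ((natDegree_sub_le _ _).trans (max_le ?_ ?_))
    · refine (natDegree_C_mul_le _ _).trans (natDegree_mul_le.trans ?_)
      have := natDegree_X_le (R := ℝ)
      omega
    · refine (natDegree_C_mul_le _ _).trans ?_
      omega

/-- leading coefficient -/
theorem LP_coeff_pos (n : ℕ) : 0 < (LP n).coeff n := by
  induction n using Nat.twoStepInduction with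
  | zero => simp only [LP, coeff_one_zero, zero_lt_one]
  | one => simp only [LP, coeff_X_one, zero_lt_one]
  | more n ih0 ih1 =>
    simp only [LP]
    rw [coeff_C_mul, coeff_sub, coeff_C_mul, coeff_C_mul, coeff_X_mul,
      coeff_eq_zero_of_natDegree_lt (p := LP n) (lt_of_le_of_lt (LP_natDegree_le n) (by omega))]
    have : (0 : ℝ) < 1 / ((n : ℝ) + 2) := by positivity
    have h3 : (0 : ℝ) < 2 * (n : ℝ) + 3 := by positivity
    have := mul_pos this (mul_pos h3 ih1)
    simpa only [one_div, mul_zero, sub_zero, gt_iff_lt] using this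

/-- every polynomial of degree less than `N` is a combination of Legendre polynomials -/
theorem exists_LP_expand (N : ℕ) (f : ℝ[X]) (hf : f.degree < N) :
    ∃ c : ℕ → ℝ, f = ∑ L ∈ Finset.range N, C (c L) * LP L := by
  induction N generalizing f with
  | zero =>
    refine ⟨fun _ => 0, ?_⟩
    have : f = 0 := by
      by_contra h
      rw [degree_eq_natDegree h] at hf
      exact absurd hf (by simp only [CharP.cast_eq_zero, Nat.WithBot.lt_zero_iff, WithBot.natCast_ne_bot, not_false_eq_true])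
    simp only [this, Finset.range_zero, map_zero, zero_mul, Finset.sum_const_zero]
  | succ N ih =>
    have hpos := LP_coeff_pos N
    obtain ⟨c, hc⟩ := ih (f - C (f.coeff N / (LP N).coeff N) * LP N) (by
      rw [degree_lt_iff_coeff_zero]
      intro m hm
      rw [coeff_sub, coeff_C_mul]
      rcases hm.eq_or_lt with rfl | hm'
      · field_simp
        simp
      · have h1 : f.coeff m = 0 := by
          rw [degree_lt_iff_coeff_zero] at hf
          exact hf m hm'
        have h2 : (LP N).coeff m = 0 :=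
          coeff_eq_zero_of_natDegree_lt (lt_of_le_of_lt (LP_natDegree_le N) hm')
        rw [h1, h2]
        simp)
    refine ⟨fun L => if L = N then f.coeff N / (LP N).coeff N else c L, ?_⟩
    rw [Finset.sum_range_succ]
    simp only [if_true]
    have : ∑ L ∈ Finset.range N, C (if L = N then f.coeff N / (LP N).coeff N else c L) * LP L =
        ∑ L ∈ Finset.range N, C (c L) * LP L := by
      refine Finset.sum_congr rfl fun L hL => ?_
      rw [if_neg (Finset.mem_range.1 hL).ne]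
    rw [this, ← hc]
    ring

/-- Legendre coefficient of a function -/
noncomputable def lc (f : ℝ → ℝ) (L : ℕ) : ℝ := (1 / 2) * ∫ t in (-1 : ℝ)..1, f t * S3.lp L t

/-- Legendre expansion of a polynomial -/
theorem LP_expand (N : ℕ) (f : ℝ[X]) (hf : f.degree < N) (t : ℝ) :
    f.eval t = ∑ L ∈ Finset.range N, (2 * (L : ℝ) + 1) * lc (fun t => f.eval t) L * S3.lp L t := by
  obtain ⟨c, hc⟩ := exists_LP_expand N f hf
  have hev : ∀ t, f.eval t = ∑ L ∈ Finset.range N, c L * S3.lp L t := by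
    intro t
    conv_lhs => rw [hc]
    rw [eval_finsetSum]
    refine Finset.sum_congr rfl fun L _ => ?_
    rw [eval_mul, eval_C, LP_eval]
  rw [hev t]
  refine Finset.sum_congr rfl fun M hM => ?_
  congr 1
  unfold lc
  have h1 : ∫ t in (-1 : ℝ)..1, f.eval t * S3.lp M t =
      ∑ L ∈ Finset.range N, c L * ∫ t in (-1 : ℝ)..1, S3.lp L t * S3.lp M t := by
    have : ∀ t, f.eval t * S3.lp M t = ∑ L ∈ Finset.range N, c L * (S3.lp L t * S3.lp M t) := by
      intro t
      rw [hev t, Finset.sum_mul]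
      refine Finset.sum_congr rfl fun L _ => ?_
      ring
    simp only [this]
    have hii : ∀ L ∈ Finset.range N, IntervalIntegrable
        (fun t => c L * (S3.lp L t * S3.lp M t)) volume (-1) 1 := fun L _ =>
      (((lp_continuous L).mul (lp_continuous M)).const_mul _).intervalIntegrable _ _
    rw [intervalIntegral.integral_finsetSum hii]
    refine Finset.sum_congr rfl fun L _ => ?_
    rw [intervalIntegral.integral_const_mul]
  rw [h1, Finset.sum_eq_single M]
  · rw [lp_norm_sq]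
    (clear * -; field_simp)
  · intro L _ hL
    rw [lp_ortho_ne hL, mul_zero]
  · intro h
    exact absurd hM h

end Vale.Agent.P370.KC
end

section

/-!
Spherical coordinates: measure theoretic part (helper file of `Sph1`).
-/

namespace Vale.Agent.P370.Q

open MeasureTheory Finset ComplexConjugate
open scoped ENNReal NNReal

/-- Cartesian coordinates `(z, (x, y)) ↦ (x, y, z)` -/
noncomputable def sph1Cart (p : ℝ × (ℝ × ℝ)) : R3 := WithLp.toLp 2 ![p.2.1, p.2.2, p.1]

theorem sph1Cart_mp : MeasurePreserving sph1Cart := by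
  have h1 : MeasurePreserving (fun p : ℝ × (ℝ × ℝ) =>
      (p.1, (MeasurableEquiv.finTwoArrow (α := ℝ)).symm p.2)) :=
    (MeasurePreserving.id volume).prod (volume_preserving_finTwoArrow ℝ).symm
  have h2 := (volume_preserving_piFinSuccAbove (fun _ : Fin 3 => ℝ) 2).symm
  have h3 := PiLp.volume_preserving_toLp (Fin 3)
  have h := h3.comp (h2.comp h1)
  have e : sph1Cart = (WithLp.toLp 2 ∘ (MeasurableEquiv.piFinSuccAbove (fun _ : Fin 3 => ℝ)
      2).symm ∘ fun p : ℝ × (ℝ × ℝ) => (p.1, (MeasurableEquiv.finTwoArrow (α := ℝ)).symm p.2)) := by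
    funext p
    unfold sph1Cart
    simp only [Function.comp]
    congr 1
    funext i
    fin_cases i <;> simp [MeasurableEquiv.piFinSuccAbove, Fin.insertNthEquiv, Fin.insertNth,
      Fin.succAboveCases, MeasurableEquiv.finTwoArrow]
  rw [e]
  exact h

theorem sph1_measurable_sp : Measurable (fun p : ℝ × ℝ => sp p.1 p.2) := by
  apply Continuous.measurable
  unfold sp
  refine (PiLp.continuous_toLp 2 (fun _ : Fin 3 => ℝ)).comp ?_
  refine continuous_pi fun i => ?_
  fin_cases i <;> simp <;> fun_prop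

theorem sph1_continuous_sp : Continuous (fun p : ℝ × ℝ => sp p.1 p.2) := by
  unfold sp
  refine (PiLp.continuous_toLp 2 (fun _ : Fin 3 => ℝ)).comp ?_
  refine continuous_pi fun i => ?_
  fin_cases i <;> simp <;> fun_prop

theorem sph1_measurable_cart : Measurable sph1Cart := sph1Cart_mp.measurable

/-- inner integral over the azimuth in cylindrical coordinates -/
noncomputable def sph1K (f : R3 → ℝ≥0∞) (z ρ : ℝ) : ℝ≥0∞ :=
  ∫⁻ φ in Set.Ioo (-Real.pi) Real.pi,
    ENNReal.ofReal ρ * f (sph1Cart (z, (ρ * Real.cos φ, ρ * Real.sin φ)))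

theorem sph1_step1 (f : R3 → ℝ≥0∞) (hf : Measurable f) :
    ∫⁻ x, f x = ∫⁻ z, ∫⁻ ρ in Set.Ioi (0 : ℝ), sph1K f z ρ := by
  rw [← sph1Cart_mp.lintegral_comp hf, Measure.volume_eq_prod,
    lintegral_prod (fun p => f (sph1Cart p)) ((hf.comp sph1_measurable_cart).aemeasurable)]
  refine lintegral_congr fun z => ?_
  rw [← lintegral_comp_polarCoord_symm]
  have e : (volume : Measure (ℝ × ℝ)).restrict polarCoord.target =
      (volume.restrict (Set.Ioi (0 : ℝ))).prod
        (volume.restrict (Set.Ioo (-Real.pi) Real.pi)) := by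
    rw [Measure.prod_restrict]
    rfl
  rw [e, lintegral_prod]
  · rfl
  · apply Measurable.aemeasurable
    have h1 : Measurable (fun q : ℝ × ℝ => sph1Cart (z, polarCoord.symm q)) :=
      sph1_measurable_cart.comp
        (measurable_const.prodMk continuous_polarCoord_symm.measurable)
    exact (ENNReal.measurable_ofReal.comp measurable_fst).mul (hf.comp h1)

theorem sph1_measurable_K (f : R3 → ℝ≥0∞) (hf : Measurable f) :
    Measurable (fun p : ℝ × ℝ => sph1K f p.1 p.2) := by
  unfold sph1K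
  have h1 : Measurable (fun q : (ℝ × ℝ) × ℝ =>
      ENNReal.ofReal q.1.2 * f (sph1Cart (q.1.1, (q.1.2 * Real.cos q.2, q.1.2 * Real.sin q.2)))) := by
    refine (ENNReal.measurable_ofReal.comp (measurable_snd.comp measurable_fst)).mul
      (hf.comp (sph1_measurable_cart.comp ?_))
    apply Continuous.measurable
    fun_prop
  exact h1.lintegral_prod_right'

theorem sph1_step2 (f : R3 → ℝ≥0∞) (hf : Measurable f) :
    ∫⁻ z, ∫⁻ ρ in Set.Ioi (0 : ℝ), sph1K f z ρ =
      ∫⁻ r in Set.Ioi (0 : ℝ), ∫⁻ θ in Set.Ioo (-Real.pi) Real.pi,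
        ENNReal.ofReal r * (Set.Ioi (0 : ℝ)).indicator (sph1K f (r * Real.cos θ))
          (r * Real.sin θ) := by
  have hm : Measurable (fun p : ℝ × ℝ =>
      (Set.Ioi (0 : ℝ)).indicator (sph1K f p.1) p.2) := by
    have : (fun p : ℝ × ℝ => (Set.Ioi (0 : ℝ)).indicator (sph1K f p.1) p.2) =
        (Prod.snd ⁻¹' Set.Ioi (0 : ℝ)).indicator (fun p : ℝ × ℝ => sph1K f p.1 p.2) := by
      funext p
      by_cases h : p.2 ∈ Set.Ioi (0 : ℝ)
      · rw [Set.indicator_of_mem h, Set.indicator_of_mem (by exact h)]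
      · rw [Set.indicator_of_notMem h, Set.indicator_of_notMem (by exact h)]
    rw [this]
    exact (sph1_measurable_K f hf).indicator (measurable_snd measurableSet_Ioi)
  have h1 : ∫⁻ z, ∫⁻ ρ in Set.Ioi (0 : ℝ), sph1K f z ρ =
      ∫⁻ p : ℝ × ℝ, (Set.Ioi (0 : ℝ)).indicator (sph1K f p.1) p.2 := by
    rw [Measure.volume_eq_prod, lintegral_prod _ hm.aemeasurable]
    refine lintegral_congr fun z => ?_
    rw [← lintegral_indicator measurableSet_Ioi]
  rw [h1, ← lintegral_comp_polarCoord_symm]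
  have e : (volume : Measure (ℝ × ℝ)).restrict polarCoord.target =
      (volume.restrict (Set.Ioi (0 : ℝ))).prod
        (volume.restrict (Set.Ioo (-Real.pi) Real.pi)) := by
    rw [Measure.prod_restrict]
    rfl
  rw [e, lintegral_prod]
  · rfl
  · apply Measurable.aemeasurable
    exact (ENNReal.measurable_ofReal.comp measurable_fst).mul
      (hm.comp continuous_polarCoord_symm.measurable)

theorem sph1_cart_sp (r θ φ : ℝ) :
    sph1Cart (r * Real.cos θ, (r * Real.sin θ * Real.cos φ, r * Real.sin θ * Real.sin φ)) =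
      r • sp θ φ := by
  unfold sph1Cart sp
  rw [← WithLp.toLp_smul]
  congr 1
  funext i
  fin_cases i <;> simp [mul_assoc]

theorem sph1_step3 (f : R3 → ℝ≥0∞) (r : ℝ) (hr : 0 < r) :
    ∫⁻ θ in Set.Ioo (-Real.pi) Real.pi,
        ENNReal.ofReal r * (Set.Ioi (0 : ℝ)).indicator (sph1K f (r * Real.cos θ))
          (r * Real.sin θ) =
      ∫⁻ θ in Set.Ioo 0 Real.pi, ∫⁻ φ in Set.Ioo (-Real.pi) Real.pi,
        ENNReal.ofReal (r ^ 2 * Real.sin θ) * f (r • sp θ φ) := by
  rw [← lintegral_indicator measurableSet_Ioo, ← lintegral_indicator measurableSet_Ioo]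
  refine lintegral_congr fun θ => ?_
  by_cases h0 : θ ∈ Set.Ioo 0 Real.pi
  · have h1 : θ ∈ Set.Ioo (-Real.pi) Real.pi := ⟨by linarith [h0.1, Real.pi_pos], h0.2⟩
    have hs : 0 < Real.sin θ := Real.sin_pos_of_mem_Ioo h0
    have h2 : r * Real.sin θ ∈ Set.Ioi (0 : ℝ) := mul_pos hr hs
    rw [Set.indicator_of_mem h1, Set.indicator_of_mem h0, Set.indicator_of_mem h2, sph1K,
      ← lintegral_const_mul' _ _ ENNReal.ofReal_ne_top]
    refine lintegral_congr fun φ => ?_
    rw [sph1_cart_sp, ← mul_assoc, ← ENNReal.ofReal_mul hr.le]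
    congr 2
    ring
  · rw [Set.indicator_of_notMem h0]
    by_cases h1 : θ ∈ Set.Ioo (-Real.pi) Real.pi
    · rw [Set.indicator_of_mem h1, Set.indicator_of_notMem, mul_zero]
      have hθ : θ ≤ 0 := by
        by_contra hc
        exact h0 ⟨not_le.1 hc, h1.2⟩
      have hs : Real.sin θ ≤ 0 := Real.sin_nonpos_of_nonpos_of_neg_pi_le hθ h1.1.le
      intro hc
      have hc' : 0 < r * Real.sin θ := hc
      nlinarith only [hc', hr, hs]
    · rw [Set.indicator_of_notMem h1]

theorem sph1_lintegral (f : R3 → ℝ≥0∞) (hf : Measurable f) :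
    ∫⁻ x, f x = ∫⁻ r in Set.Ioi (0 : ℝ), ∫⁻ θ in Set.Ioo 0 Real.pi,
      ∫⁻ φ in Set.Ioo (-Real.pi) Real.pi,
        ENNReal.ofReal (r ^ 2 * Real.sin θ) * f (r • sp θ φ) := by
  rw [sph1_step1 f hf, sph1_step2 f hf]
  refine setLIntegral_congr_fun measurableSet_Ioi fun r hr => ?_
  exact sph1_step3 f r hr

/-- product measure on `(0,∞) × ((0,π) × (-π,π))` -/
noncomputable def sph1Box : Measure (ℝ × (ℝ × ℝ)) :=
  (volume.restrict (Set.Ioi 0)).prod ((volume.restrict (Set.Ioo 0 Real.pi)).prod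
    (volume.restrict (Set.Ioo (-Real.pi) Real.pi)))

/-- the volume element -/
noncomputable def sph1Den (p : ℝ × (ℝ × ℝ)) : ℝ≥0 := (p.1 ^ 2 * Real.sin p.2.1).toNNReal

theorem sph1_measurable_Den : Measurable sph1Den := by
  unfold sph1Den
  apply Measurable.real_toNNReal
  fun_prop

/-- spherical coordinates -/
noncomputable def sph1Sp (p : ℝ × (ℝ × ℝ)) : R3 := p.1 • sp p.2.1 p.2.2

theorem sph1_continuous_Sp : Continuous sph1Sp := by
  unfold sph1Sp
  exact continuous_fst.smul (sph1_continuous_sp.comp continuous_snd)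

theorem sph1_map : Measure.map sph1Sp (sph1Box.withDensity (fun p => (sph1Den p : ℝ≥0∞))) =
    (volume : Measure R3) := by
  refine Measure.ext_of_lintegral _ fun f hf => ?_
  have hm : Measurable (fun p => f (sph1Sp p)) := hf.comp sph1_continuous_Sp.measurable
  have hd : Measurable (fun p => (sph1Den p : ℝ≥0∞)) := sph1_measurable_Den.coe_nnreal_ennreal
  rw [lintegral_map hf sph1_continuous_Sp.measurable,
    lintegral_withDensity_eq_lintegral_mul _ hd hm, sph1_lintegral f hf]
  have hg : Measurable ((fun p => (sph1Den p : ℝ≥0∞)) * fun p => f (sph1Sp p)) := hd.mul hm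
  unfold sph1Box
  rw [lintegral_prod _ hg.aemeasurable]
  refine lintegral_congr fun r => ?_
  have hg' : Measurable (fun q : ℝ × ℝ =>
      ((fun p => (sph1Den p : ℝ≥0∞)) * fun p => f (sph1Sp p)) (r, q)) :=
    hg.comp (measurable_const.prodMk measurable_id)
  rw [lintegral_prod _ hg'.aemeasurable]
  rfl

theorem sph1_integral {E : Type} [NormedAddCommGroup E] [NormedSpace ℝ E]
    (F : R3 → E) (hF : Integrable F) :
    ∫ x, F x = ∫ r in Set.Ioi (0 : ℝ), ∫ θ in Set.Ioo 0 Real.pi,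
      ∫ φ in Set.Ioo (-Real.pi) Real.pi, (r ^ 2 * Real.sin θ) • F (r • sp θ φ) := by
  have hmp : MeasurePreserving sph1Sp (sph1Box.withDensity (fun p => (sph1Den p : ℝ≥0∞)))
      (volume : Measure R3) := ⟨sph1_continuous_Sp.measurable, sph1_map⟩
  have hI : Integrable (fun p => F (sph1Sp p))
      (sph1Box.withDensity (fun p => (sph1Den p : ℝ≥0∞))) := hmp.integrable_comp_of_integrable hF
  have h1 : ∫ x, F x = ∫ p, F (sph1Sp p)
      ∂(sph1Box.withDensity (fun p => (sph1Den p : ℝ≥0∞))) := by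
    rw [← sph1_map] at hF ⊢
    exact integral_map sph1_continuous_Sp.measurable.aemeasurable hF.aestronglyMeasurable
  rw [h1, integral_withDensity_eq_integral_smul sph1_measurable_Den]
  rw [integrable_withDensity_iff_integrable_smul sph1_measurable_Den] at hI
  unfold sph1Box at hI ⊢
  rw [integral_prod _ hI]
  have h2 := hI.prod_right_ae
  refine integral_congr_ae ?_
  filter_upwards [h2, ae_restrict_mem measurableSet_Ioi] with r hr hr0
  rw [integral_prod _ hr]
  refine setIntegral_congr_fun measurableSet_Ioo fun θ hθ => ?_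
  refine integral_congr_ae (Filter.Eventually.of_forall fun φ => ?_)
  have hs : 0 < Real.sin θ := Real.sin_pos_of_mem_Ioo hθ
  have hr0' : 0 < r := hr0
  have h3 : 0 ≤ r ^ 2 * Real.sin θ := by (clear * - hr0' hs; positivity)
  change sph1Den (r, (θ, φ)) • F (sph1Sp (r, (θ, φ))) = _
  rw [NNReal.smul_def]
  unfold sph1Den sph1Sp
  rw [Real.coe_toNNReal _ h3]

theorem sph1_norm_sp (θ φ : ℝ) : ‖sp θ φ‖ = 1 := by
  unfold sp
  rw [EuclideanSpace.norm_eq, Real.sqrt_eq_one, Fin.sum_univ_three]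
  simp only [Real.norm_eq_abs, sq_abs, Matrix.cons_val_zero, Matrix.cons_val_one,
    Matrix.cons_val]
  have h1 := Real.sin_sq_add_cos_sq θ
  have h2 := Real.sin_sq_add_cos_sq φ
  nlinarith only [h1, h2]

theorem sph1_sp_mem (θ φ : ℝ) : sp θ φ ∈ Metric.sphere (0 : R3) 1 := by
  rw [mem_sphere_zero_iff_norm]
  exact sph1_norm_sp θ φ

/-- spherical coordinates on the sphere -/
noncomputable def sph1Sp2 (q : ℝ × ℝ) : Metric.sphere (0 : R3) 1 := ⟨sp q.1 q.2, sph1_sp_mem _ _⟩

theorem sph1_continuous_Sp2 : Continuous sph1Sp2 :=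
  Continuous.subtype_mk sph1_continuous_sp _

/-- product measure on `(0,π) × (-π,π)` -/
noncomputable def sph1Box2 : Measure (ℝ × ℝ) :=
  (volume.restrict (Set.Ioo 0 Real.pi)).prod (volume.restrict (Set.Ioo (-Real.pi) Real.pi))

/-- the area element -/
noncomputable def sph1Den2 (q : ℝ × ℝ) : ℝ≥0 := (Real.sin q.1).toNNReal

theorem sph1_measurable_Den2 : Measurable sph1Den2 := by
  unfold sph1Den2
  apply Measurable.real_toNNReal
  fun_prop

/-- the cone over a subset of the sphere -/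
def sph1Cone (s : Set (Metric.sphere (0 : R3) 1)) : Set R3 :=
  {x | x ≠ 0 ∧ ‖x‖ < 1 ∧ ‖x‖⁻¹ • x ∈ ((↑) '' s : Set R3)}

open scoped Pointwise in
theorem sph1Cone_eq (s : Set (Metric.sphere (0 : R3) 1)) :
    (Set.Ioo (0 : ℝ) 1) • ((↑) '' s : Set R3) = sph1Cone s := by
  ext x
  constructor
  · rintro ⟨r, hr, y, ⟨u, hu, rfl⟩, rfl⟩
    have hu1 : ‖(u : R3)‖ = 1 := mem_sphere_zero_iff_norm.1 u.2
    have hn : ‖r • (u : R3)‖ = r := by
      rw [norm_smul, hu1, mul_one, Real.norm_of_nonneg hr.1.le]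
    refine ⟨?_, ?_, ?_⟩
    · intro h0
      have h0' : r • (u : R3) = 0 := h0
      rw [h0', norm_zero] at hn
      exact hr.1.ne hn
    · change ‖r • (u : R3)‖ < 1
      rw [hn]
      exact hr.2
    · change ‖r • (u : R3)‖⁻¹ • (r • (u : R3)) ∈ _
      rw [hn, smul_smul, inv_mul_cancel₀ hr.1.ne', one_smul]
      exact ⟨u, hu, rfl⟩
  · rintro ⟨h0, h1, h2⟩
    refine ⟨‖x‖, ⟨norm_pos_iff.2 h0, h1⟩, ‖x‖⁻¹ • x, h2, ?_⟩
    change ‖x‖ • (‖x‖⁻¹ • x) = x
    rw [smul_smul, mul_inv_cancel₀ (norm_pos_iff.2 h0).ne', one_smul]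

theorem sph1Cone_measurable {s : Set (Metric.sphere (0 : R3) 1)} (hs : MeasurableSet s) :
    MeasurableSet (sph1Cone s) := by
  have h1 : MeasurableSet ((↑) '' s : Set R3) :=
    (MeasurableEmbedding.subtype_coe Metric.isClosed_sphere.measurableSet).measurableSet_image.2 hs
  have h2 : Measurable (fun x : R3 => ‖x‖⁻¹ • x) := by fun_prop
  have h3 : sph1Cone s = {0}ᶜ ∩ ({x : R3 | ‖x‖ < 1} ∩
      (fun x : R3 => ‖x‖⁻¹ • x) ⁻¹' ((↑) '' s : Set R3)) := rfl
  rw [h3]
  exact (measurableSet_singleton _).compl.inter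
    ((measurableSet_lt measurable_norm measurable_const).inter (h2 h1))

theorem sph1_mem_Cone {s : Set (Metric.sphere (0 : R3) 1)} {r : ℝ} (hr : 0 < r) (q : ℝ × ℝ) :
    r • sp q.1 q.2 ∈ sph1Cone s ↔ r < 1 ∧ sph1Sp2 q ∈ s := by
  have hn : ‖r • sp q.1 q.2‖ = r := by
    rw [norm_smul, sph1_norm_sp, mul_one, Real.norm_of_nonneg hr.le]
  have h0 : r • sp q.1 q.2 ≠ 0 := by
    intro h
    rw [h, norm_zero] at hn
    exact hr.ne hn
  unfold sph1Cone
  simp only [Set.mem_ofPred_eq, hn]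
  rw [smul_smul, inv_mul_cancel₀ hr.ne', one_smul]
  constructor
  · rintro ⟨-, h1, u, hu, hu'⟩
    refine ⟨h1, ?_⟩
    have : u = sph1Sp2 q := Subtype.ext hu'
    rwa [← this]
  · rintro ⟨h1, h2⟩
    exact ⟨h0, h1, _, h2, rfl⟩

theorem sph1_map2 :
    Measure.map sph1Sp2 (sph1Box2.withDensity (fun q => (sph1Den2 q : ℝ≥0∞))) =
      (volume : Measure R3).toSphere := by
  refine Measure.ext fun s hs => ?_
  have hC := sph1Cone_measurable hs
  have hd : Measurable (fun q => (sph1Den2 q : ℝ≥0∞)) := sph1_measurable_Den2.coe_nnreal_ennreal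
  have hS : MeasurableSet (sph1Sp2 ⁻¹' s) := sph1_continuous_Sp2.measurable hs
  rw [Measure.map_apply sph1_continuous_Sp2.measurable hs, withDensity_apply _ hS,
    Measure.toSphere_apply' _ hs, sph1Cone_eq, ← lintegral_indicator_one hC,
    sph1_lintegral _ (measurable_one.indicator hC)]
  have h1 : ∀ r ∈ Set.Ioi (0 : ℝ), ∫⁻ θ in Set.Ioo 0 Real.pi,
      ∫⁻ φ in Set.Ioo (-Real.pi) Real.pi, ENNReal.ofReal (r ^ 2 * Real.sin θ) *
        (sph1Cone s).indicator 1 (r • sp θ φ) =
      (Set.Iio (1 : ℝ)).indicator (fun r => ENNReal.ofReal (r ^ 2) *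
        ∫⁻ q in sph1Sp2 ⁻¹' s, (sph1Den2 q : ℝ≥0∞) ∂sph1Box2) r := by
    intro r hr
    have hr' : 0 < r := hr
    by_cases h : r < 1
    · rw [Set.indicator_of_mem (show r ∈ Set.Iio (1 : ℝ) from h), ← lintegral_indicator hS,
        sph1Box2, lintegral_prod _ (hd.indicator hS).aemeasurable,
        ← lintegral_const_mul' _ _ ENNReal.ofReal_ne_top]
      refine lintegral_congr fun θ => ?_
      rw [← lintegral_const_mul' _ _ ENNReal.ofReal_ne_top]
      refine lintegral_congr fun φ => ?_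
      rw [ENNReal.ofReal_mul (by (clear * - hr'; positivity)), mul_assoc]
      congr 1
      by_cases h2 : sph1Sp2 (θ, φ) ∈ s
      · rw [Set.indicator_of_mem ((sph1_mem_Cone hr' (θ, φ)).2 ⟨h, h2⟩),
          Set.indicator_of_mem (by exact h2)]
        simp only [Pi.one_apply, mul_one]
        rfl
      · rw [Set.indicator_of_notMem (fun hc => h2 ((sph1_mem_Cone hr' (θ, φ)).1 hc).2),
          Set.indicator_of_notMem (by exact h2), mul_zero]
    · rw [Set.indicator_of_notMem (show r ∉ Set.Iio (1 : ℝ) from h)]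
      have : ∀ θ φ : ℝ, (sph1Cone s).indicator (1 : R3 → ℝ≥0∞) (r • sp θ φ) = 0 := fun θ φ =>
        Set.indicator_of_notMem (fun hc => h ((sph1_mem_Cone hr' (θ, φ)).1 hc).1) _
      simp only [this, mul_zero, lintegral_zero]
  rw [setLIntegral_congr_fun measurableSet_Ioi h1, lintegral_indicator measurableSet_Iio,
    Measure.restrict_restrict measurableSet_Iio]
  have h2 : (∫⁻ r in Set.Iio (1 : ℝ) ∩ Set.Ioi (0 : ℝ), ENNReal.ofReal (r ^ 2)) =
      ENNReal.ofReal (1 / 3) := by
    have e : Set.Iio (1 : ℝ) ∩ Set.Ioi (0 : ℝ) = Set.Ioo 0 1 := by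
      rw [Set.inter_comm]
      exact Set.Ioi_inter_Iio
    rw [e, ← ofReal_integral_eq_lintegral_ofReal]
    · rw [← integral_Ioc_eq_integral_Ioo, ← intervalIntegral.integral_of_le zero_le_one]
      norm_num
    · have : IntegrableOn (fun r : ℝ => r ^ 2) (Set.Icc 0 1) :=
        (continuous_pow 2).continuousOn.integrableOn_Icc
      exact this.mono_set Set.Ioo_subset_Icc_self
    · exact Filter.Eventually.of_forall fun r => by (clear * -; positivity)
  rw [lintegral_mul_const _ (by fun_prop), h2, ← mul_assoc]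
  have h3 : ((Module.finrank ℝ R3 : ℕ) : ℝ≥0∞) * ENNReal.ofReal (1 / 3) = 1 := by
    rw [finrank_euclideanSpace, Fintype.card_fin, ← ENNReal.ofReal_natCast,
      ← ENNReal.ofReal_mul (by positivity)]
    norm_num
  rw [h3, one_mul]

/-- a linear isometry, on the sphere -/
noncomputable def sph1G (g : R3 ≃ₗᵢ[ℝ] R3) (u : Metric.sphere (0 : R3) 1) :
    Metric.sphere (0 : R3) 1 :=
  ⟨g u, by rw [mem_sphere_zero_iff_norm, g.norm_map]; exact mem_sphere_zero_iff_norm.1 u.2⟩

theorem sph1_continuous_G (g : R3 ≃ₗᵢ[ℝ] R3) : Continuous (sph1G g) :=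
  Continuous.subtype_mk (g.continuous.comp continuous_subtype_val) _

theorem sph1Cone_G (g : R3 ≃ₗᵢ[ℝ] R3) (s : Set (Metric.sphere (0 : R3) 1)) :
    sph1Cone (sph1G g ⁻¹' s) = g ⁻¹' (sph1Cone s) := by
  ext x
  unfold sph1Cone
  simp only [Set.mem_ofPred_eq, Set.mem_preimage, g.norm_map, ne_eq, map_eq_zero_iff g g.injective]
  refine and_congr_right fun _ => and_congr_right fun _ => ?_
  rw [← map_smul]
  constructor
  · rintro ⟨u, hu, hu'⟩
    exact ⟨sph1G g u, hu, by rw [← hu']; rfl⟩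
  · rintro ⟨v, hv, hv'⟩
    have hn : ‖‖x‖⁻¹ • x‖ = 1 := by
      rw [← g.norm_map, ← hv']
      exact mem_sphere_zero_iff_norm.1 v.2
    refine ⟨⟨‖x‖⁻¹ • x, mem_sphere_zero_iff_norm.2 hn⟩, ?_, rfl⟩
    change sph1G g _ ∈ s
    have : sph1G g ⟨‖x‖⁻¹ • x, mem_sphere_zero_iff_norm.2 hn⟩ = v := Subtype.ext hv'.symm
    rw [this]
    exact hv

theorem sph1_map_G (g : R3 ≃ₗᵢ[ℝ] R3) :
    Measure.map (sph1G g) (volume : Measure R3).toSphere = (volume : Measure R3).toSphere := by
  refine Measure.ext fun s hs => ?_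
  have hm : Measurable (sph1G g) := (sph1_continuous_G g).measurable
  rw [Measure.map_apply hm hs, Measure.toSphere_apply' _ hs, Measure.toSphere_apply' _ (hm hs),
    sph1Cone_eq, sph1Cone_eq, sph1Cone_G,
    g.measurePreserving.measure_preimage (sph1Cone_measurable hs).nullMeasurableSet]

/-- the sphere average as an integral over the open rectangle -/
theorem sph1_sph {E : Type} [NormedAddCommGroup E] [NormedSpace ℝ E] (f : R3 → E) :
    sph f = (1 / (4 * Real.pi)) • ∫ θ in Set.Ioo 0 Real.pi,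
      ∫ φ in Set.Ioo (-Real.pi) Real.pi, Real.sin θ • f (sp θ φ) := by
  unfold sph
  congr 1
  rw [intervalIntegral.integral_of_le Real.pi_pos.le, integral_Ioc_eq_integral_Ioo]
  refine integral_congr_ae (Filter.Eventually.of_forall fun θ => ?_)
  change (∫ φ in (0 : ℝ)..(2 * Real.pi), Real.sin θ • f (sp θ φ)) =
    ∫ φ in Set.Ioo (-Real.pi) Real.pi, Real.sin θ • f (sp θ φ)
  have hp : Function.Periodic (fun φ => Real.sin θ • f (sp θ φ)) (2 * Real.pi) := by
    intro φ
    have : sp θ (φ + 2 * Real.pi) = sp θ φ := by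
      unfold sp
      rw [Real.cos_add_two_pi, Real.sin_add_two_pi]
    simp only [this]
  have h := hp.intervalIntegral_add_eq 0 (-Real.pi)
  rw [zero_add, show -Real.pi + 2 * Real.pi = Real.pi by ring] at h
  rw [h, intervalIntegral.integral_of_le (by linarith only [Real.pi_pos]),
    integral_Ioc_eq_integral_Ioo]

/-- the surface integral over the unit sphere in spherical coordinates -/
theorem sph1_toSphere {E : Type} [NormedAddCommGroup E] [NormedSpace ℝ E]
    (f : Metric.sphere (0 : R3) 1 → E) (hf : Integrable f (volume : Measure R3).toSphere) :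
    ∫ ω, f ω ∂(volume : Measure R3).toSphere = ∫ θ in Set.Ioo 0 Real.pi,
      ∫ φ in Set.Ioo (-Real.pi) Real.pi, Real.sin θ • f (sph1Sp2 (θ, φ)) := by
  have hmp : MeasurePreserving sph1Sp2 (sph1Box2.withDensity (fun p => (sph1Den2 p : ℝ≥0∞)))
      (volume : Measure R3).toSphere := ⟨sph1_continuous_Sp2.measurable, sph1_map2⟩
  have hI : Integrable (fun p => f (sph1Sp2 p))
      (sph1Box2.withDensity (fun p => (sph1Den2 p : ℝ≥0∞))) := hmp.integrable_comp_of_integrable hf
  have h1 : ∫ x, f x ∂(volume : Measure R3).toSphere = ∫ p, f (sph1Sp2 p)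
      ∂(sph1Box2.withDensity (fun p => (sph1Den2 p : ℝ≥0∞))) := by
    rw [← sph1_map2] at hf ⊢
    exact integral_map sph1_continuous_Sp2.measurable.aemeasurable hf.aestronglyMeasurable
  rw [h1, integral_withDensity_eq_integral_smul sph1_measurable_Den2]
  rw [integrable_withDensity_iff_integrable_smul sph1_measurable_Den2] at hI
  unfold sph1Box2 at hI ⊢
  rw [integral_prod _ hI]
  refine setIntegral_congr_fun measurableSet_Ioo fun θ hθ => ?_
  refine integral_congr_ae (Filter.Eventually.of_forall fun φ => ?_)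
  have hs : 0 < Real.sin θ := Real.sin_pos_of_mem_Ioo hθ
  change sph1Den2 (θ, φ) • f (sph1Sp2 (θ, φ)) = _
  rw [NNReal.smul_def]
  unfold sph1Den2
  rw [Real.coe_toNNReal _ hs.le]

theorem sph1_integrable {E : Type} [NormedAddCommGroup E] [NormedSpace ℝ E] (f : R3 → E)
    (hf : ContinuousOn f (Metric.sphere 0 1)) :
    Integrable (fun ω : Metric.sphere (0 : R3) 1 => f ω) (volume : Measure R3).toSphere := by
  have hc : Continuous (fun ω : Metric.sphere (0 : R3) 1 => f ω) :=
    continuousOn_iff_continuous_domRestrict.1 hf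
  exact hc.integrable_of_hasCompactSupport (HasCompactSupport.of_compactSpace _)

/-- bridge to Mathlib's surface measure -/
theorem sph_eq_toSphere {E : Type} [NormedAddCommGroup E] [NormedSpace ℝ E] (f : R3 → E)
    (hf : ContinuousOn f (Metric.sphere 0 1)) :
    sph f = (1 / (4 * Real.pi)) • ∫ ω : Metric.sphere (0 : R3) 1, f ω
      ∂(volume : Measure R3).toSphere := by
  rw [sph1_sph, sph1_toSphere _ (sph1_integrable f hf)]
  rfl

end Vale.Agent.P370.Q
end

section

/-!
Sphere averages: polar coordinates, rotation invariance, zonal functions.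
-/

namespace Vale.Agent.P370.Q

open MeasureTheory Finset ComplexConjugate

theorem norm_sp (θ φ : ℝ) : ‖sp θ φ‖ = 1 := by
  exact sph1_norm_sp θ φ

/-- polar coordinates -/
theorem polar_sph {E : Type} [NormedAddCommGroup E] [NormedSpace ℝ E] [CompleteSpace E]
    (F : R3 → E) (hF : Integrable F) :
    ∫ x, F x = ∫ r in Set.Ioi (0 : ℝ), (4 * Real.pi * r ^ 2) • sph (fun u => F (r • u)) := by
  rw [sph1_integral F hF]
  refine integral_congr_ae (Filter.Eventually.of_forall fun r => ?_)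
  change (∫ θ in Set.Ioo 0 Real.pi, ∫ φ in Set.Ioo (-Real.pi) Real.pi,
    (r ^ 2 * Real.sin θ) • F (r • sp θ φ)) =
      (4 * Real.pi * r ^ 2) • sph (fun u => F (r • u))
  have h1 : 4 * Real.pi * r ^ 2 * (1 / (4 * Real.pi)) = r ^ 2 := by
    have := Real.pi_ne_zero
    field_simp
  rw [sph1_sph, smul_smul, h1, ← integral_smul]
  refine integral_congr_ae (Filter.Eventually.of_forall fun θ => ?_)
  change (∫ φ in Set.Ioo (-Real.pi) Real.pi, (r ^ 2 * Real.sin θ) • F (r • sp θ φ)) =
    r ^ 2 • ∫ φ in Set.Ioo (-Real.pi) Real.pi, Real.sin θ • F (r • sp θ φ)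
  rw [← integral_smul]
  refine integral_congr_ae (Filter.Eventually.of_forall fun φ => ?_)
  exact mul_smul _ _ _

/-- rotation invariance of the sphere average -/
theorem sph_rot {E : Type} [NormedAddCommGroup E] [NormedSpace ℝ E] [CompleteSpace E]
    (g : R3 ≃ₗᵢ[ℝ] R3) (f : R3 → E) (hf : ContinuousOn f (Metric.sphere 0 1)) :
    sph (fun u => f (g u)) = sph f := by
  have hg : ContinuousOn (fun u => f (g u)) (Metric.sphere 0 1) := by
    refine hf.comp g.continuous.continuousOn fun u hu => ?_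
    rw [mem_sphere_zero_iff_norm] at hu ⊢
    rw [g.norm_map, hu]
  rw [sph_eq_toSphere f hf, sph_eq_toSphere _ hg]
  congr 1
  have hm : Measurable (sph1G g) := (sph1_continuous_G g).measurable
  have h1 := (sph1_integrable f hf).aestronglyMeasurable
  have h2 := integral_map (μ := (volume : Measure R3).toSphere) hm.aemeasurable
    (f := fun ω : Metric.sphere (0 : R3) 1 => f ω) (by rw [sph1_map_G]; exact h1)
  rw [sph1_map_G] at h2
  exact h2.symm

theorem sph_const {E : Type} [NormedAddCommGroup E] [NormedSpace ℝ E] [CompleteSpace E] (c : E) :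
    sph (fun _ => c) = c := by
  unfold sph
  have h1 : ∀ θ : ℝ, (∫ _ in (0 : ℝ)..(2 * Real.pi), Real.sin θ • c) =
      Real.sin θ • ((2 * Real.pi) • c) := by
    intro θ
    rw [intervalIntegral.integral_const, sub_zero, smul_comm]
  simp only [h1]
  rw [intervalIntegral.integral_smul_const, integral_sin, smul_smul, smul_smul]
  have := Real.pi_ne_zero
  have e : 1 / (4 * Real.pi) * ((Real.cos 0 - Real.cos Real.pi) * (2 * Real.pi)) = 1 := by
    rw [Real.cos_zero, Real.cos_pi]
    field_simp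
    norm_num
  rw [mul_assoc, e, one_smul]

theorem sph_congr {E : Type} [NormedAddCommGroup E] [NormedSpace ℝ E] {f g : R3 → E}
    (h : ∀ u, ‖u‖ = 1 → f u = g u) : sph f = sph g := by
  unfold sph
  have e : ∀ θ φ : ℝ, f (sp θ φ) = g (sp θ φ) := fun θ φ => h _ (norm_sp θ φ)
  simp only [e]

theorem sph_add {E : Type} [NormedAddCommGroup E] [NormedSpace ℝ E] [CompleteSpace E]
    {f g : R3 → E} (hf : ContinuousOn f (Metric.sphere 0 1))
    (hg : ContinuousOn g (Metric.sphere 0 1)) :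
    sph (fun u => f u + g u) = sph f + sph g := by
  rw [sph_eq_toSphere f hf, sph_eq_toSphere g hg,
    sph_eq_toSphere (fun u => f u + g u) (hf.add hg),
    integral_add (sph1_integrable f hf) (sph1_integrable g hg), smul_add]

theorem sph_smul {E : Type} [NormedAddCommGroup E] [NormedSpace ℝ E] (c : ℝ) (f : R3 → E) :
    sph (fun u => c • f u) = c • sph f := by
  rw [sph1_sph, sph1_sph, smul_comm c]
  congr 1
  rw [← integral_smul]
  refine integral_congr_ae (Filter.Eventually.of_forall fun θ => ?_)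
  change (∫ φ in Set.Ioo (-Real.pi) Real.pi, Real.sin θ • c • f (sp θ φ)) =
    c • ∫ φ in Set.Ioo (-Real.pi) Real.pi, Real.sin θ • f (sp θ φ)
  rw [← integral_smul]
  refine integral_congr_ae (Filter.Eventually.of_forall fun φ => ?_)
  exact smul_comm _ _ _

theorem sph_mono {f g : R3 → ℝ} (hf : ContinuousOn f (Metric.sphere 0 1))
    (hg : ContinuousOn g (Metric.sphere 0 1)) (h : ∀ u, ‖u‖ = 1 → f u ≤ g u) :
    sph f ≤ sph g := by
  rw [sph_eq_toSphere f hf, sph_eq_toSphere g hg]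
  refine smul_le_smul_of_nonneg_left ?_ (by positivity)
  exact integral_mono (sph1_integrable f hf) (sph1_integrable g hg)
    fun ω => h _ (mem_sphere_zero_iff_norm.1 ω.2)

/-- zonal functions -/
theorem sph_zonal {E : Type} [NormedAddCommGroup E] [NormedSpace ℝ E] [CompleteSpace E]
    (e : R3) (he : ‖e‖ = 1) (f : ℝ → E) (hf : ContinuousOn f (Set.Icc (-1) 1)) :
    sph (fun u => f (inner ℝ e u)) = (1 / 2 : ℝ) • ∫ t in (-1 : ℝ)..1, f t := by
  have hz : ‖sp 0 0‖ = 1 := norm_sp 0 0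
  have hc : ∀ v : R3, ‖v‖ = 1 →
      ContinuousOn (fun u : R3 => f (inner ℝ v u)) (Metric.sphere 0 1) := by
    intro v hv
    refine hf.comp (by fun_prop) fun u hu => ?_
    rw [mem_sphere_zero_iff_norm] at hu
    have := abs_real_inner_le_norm v u
    rw [hv, hu, mul_one] at this
    exact abs_le.1 this
  -- rotate to the z axis
  set g : R3 ≃ₗᵢ[ℝ] R3 := (ℝ ∙ (e - sp 0 0))ᗮ.reflection with hg
  have hg1 : g e = sp 0 0 := Submodule.reflection_sub (he.trans hz.symm)
  have hgg : ∀ u, g (g u) = u := fun u => Submodule.reflection_reflection _ u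
  have h1 : sph (fun u => f (inner ℝ e u)) = sph (fun u => f (inner ℝ (sp 0 0) u)) := by
    rw [← sph_rot g _ (hc e he)]
    congr 1
    funext u
    rw [← hg1, ← g.inner_map_map e (g u), hgg]
  rw [h1]
  have h2 : ∀ θ φ : ℝ, inner ℝ (sp 0 0) (sp θ φ) = Real.cos θ := by
    intro θ φ
    unfold sp
    rw [PiLp.inner_apply, Fin.sum_univ_three]
    simp only [Real.sin_zero, Real.cos_zero, mul_one, mul_zero, Fin.isValue, Matrix.cons_val_zero, RCLike.inner_apply, Real.ringHom_apply, Matrix.cons_val_one, add_zero, Matrix.cons_val, zero_add]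
  unfold sph
  simp only [h2]
  have h3 : ∀ θ : ℝ, (∫ _ in (0 : ℝ)..(2 * Real.pi), Real.sin θ • f (Real.cos θ)) =
      (2 * Real.pi) • (Real.sin θ • f (Real.cos θ)) := by
    intro θ
    rw [intervalIntegral.integral_const, sub_zero]
  simp only [h3]
  rw [intervalIntegral.integral_smul, smul_smul]
  have h4 : (∫ θ in (0 : ℝ)..Real.pi, (-Real.sin θ) • (f ∘ Real.cos) θ) =
      ∫ t in (Real.cos 0)..(Real.cos Real.pi), f t := by
    refine intervalIntegral.integral_deriv_smul_comp' (fun x _ => Real.hasDerivAt_cos x)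
      (by fun_prop) (hf.mono ?_)
    rintro t ⟨x, -, rfl⟩
    exact ⟨Real.neg_one_le_cos x, Real.cos_le_one x⟩
  rw [Real.cos_zero, Real.cos_pi] at h4
  have h5 : (∫ θ in (0 : ℝ)..Real.pi, Real.sin θ • f (Real.cos θ)) =
      ∫ t in (-1 : ℝ)..1, f t := by
    rw [intervalIntegral.integral_symm (1 : ℝ) (-1), ← h4, ← intervalIntegral.integral_neg]
    refine intervalIntegral.integral_congr fun θ _ => ?_
    simp
  rw [h5]
  congr 1
  have := Real.pi_ne_zero
  field_simp
  norm_num

end Vale.Agent.P370.Q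
end

section

/-!
Half-filled Mott insulator: common part (site maps, hopping operators).
-/

namespace Vale.Agent.P370.Q

open MeasureTheory Finset ComplexConjugate

namespace Mott

variable {K : ℕ}

/-- families of spin states indexed by site maps -/
abbrev Fam (K : ℕ) : Type := (Fin K → Fin K) → SpinState K

def toFam (c : Tens K (Fin K × Fin 2)) : Fam K := fun π s => c (fun e => (π e, s e))

def ofFam (c : Fam K) : Tens K (Fin K × Fin 2) :=
  fun I => c (fun e => (I e).1) (fun e => (I e).2)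

theorem toFam_ofFam (c : Fam K) : toFam (ofFam c) = c := rfl

/-- real inner product of spin states -/
noncomputable def rp (a b : SpinState K) : ℝ := ∑ s, (conj (a s) * b s).re

theorem rp_self (a : SpinState K) : rp a a = spinNsq a := by
  unfold rp spinNsq
  refine sum_congr rfl fun s _ => ?_
  rw [Complex.conj_mul']
  exact_mod_cast Complex.ofReal_re _

theorem rp_symm (a b : SpinState K) : rp a b = rp b a := by
  unfold rp
  refine sum_congr rfl fun s _ => ?_
  simp only [Complex.mul_re, Complex.conj_re, Complex.conj_im]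
  ring

theorem rp_add_left (a b c : SpinState K) : rp (a + b) c = rp a c + rp b c := by
  unfold rp
  rw [← sum_add_distrib]
  refine sum_congr rfl fun s _ => ?_
  simp only [Pi.add_apply, map_add, add_mul, Complex.add_re]

theorem rp_add_right (a b c : SpinState K) : rp a (b + c) = rp a b + rp a c := by
  rw [rp_symm, rp_add_left, rp_symm b, rp_symm c]

theorem rp_smul_right (r : ℝ) (a b : SpinState K) : rp a (fun s => (r : ℂ) * b s) = r * rp a b := by
  unfold rp
  rw [mul_sum]
  refine sum_congr rfl fun s _ => ?_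
  simp only [Complex.mul_re, Complex.conj_re, Complex.conj_im, Complex.ofReal_re,
    Complex.ofReal_im]
  simp only [Complex.mul_im, Complex.ofReal_re, Complex.ofReal_im]
  ring

theorem rp_smul_left (r : ℝ) (a b : SpinState K) : rp (fun s => (r : ℂ) * a s) b = r * rp a b := by
  rw [rp_symm, rp_smul_right, rp_symm]

theorem rp_sum_right {ι : Type} (S : Finset ι) (a : SpinState K) (f : ι → SpinState K) :
    rp a (∑ i ∈ S, f i) = ∑ i ∈ S, rp a (f i) := by
  unfold rp
  rw [sum_comm]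
  refine sum_congr rfl fun s _ => ?_
  simp only [Finset.sum_apply, mul_sum, Complex.re_sum]

theorem spinNsq_nonneg (a : SpinState K) : 0 ≤ spinNsq a := sum_nonneg fun _ _ => by (clear * -; positivity)

theorem spinNsq_zero : spinNsq (0 : SpinState K) = 0 := by
  simp only [spinNsq, Pi.zero_apply, norm_zero, ne_eq, OfNat.ofNat_ne_zero, not_false_eq_true, zero_pow, sum_const_zero]

theorem spinNsq_add (a b : SpinState K) :
    spinNsq (a + b) = spinNsq a + 2 * rp a b + spinNsq b := by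
  rw [← rp_self, rp_add_left, rp_add_right, rp_add_right, rp_self, rp_self, rp_symm b a]
  ring

theorem rp_le (a b : SpinState K) : |rp a b| ≤ (spinNsq a + spinNsq b) / 2 := by
  have h1 : 0 ≤ spinNsq (a + b) := spinNsq_nonneg _
  have h2 : 0 ≤ spinNsq (a + fun s => ((-1 : ℝ) : ℂ) * b s) := spinNsq_nonneg _
  rw [spinNsq_add] at h1 h2
  rw [rp_smul_right] at h2
  have h3 : spinNsq (fun s => ((-1 : ℝ) : ℂ) * b s) = spinNsq b := by
    simp only [spinNsq, Complex.ofReal_neg, Complex.ofReal_one, neg_mul, one_mul, norm_neg]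
  rw [h3] at h2
  rw [abs_le]
  constructor <;> linarith

/-- hopping operator -/
noncomputable def hop (t : Fin K → Fin K → ℝ) (c : Fam K) : Fam K :=
  fun ρ => ∑ e, ∑ b, fun s => (t (ρ e) b : ℂ) * c (Function.update ρ e b) s

theorem hop_apply (t : Fin K → Fin K → ℝ) (c : Fam K) (ρ : Fin K → Fin K) (s : Fin K → Fin 2) :
    hop t c ρ s = ∑ e, ∑ b, (t (ρ e) b : ℂ) * c (Function.update ρ e b) s := by
  simp only [hop, Finset.sum_apply]

theorem hop_add (t : Fin K → Fin K → ℝ) (c d : Fam K) : hop t (c + d) = hop t c + hop t d := by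
  funext ρ s
  rw [Pi.add_apply, Pi.add_apply, hop_apply, hop_apply, hop_apply, ← sum_add_distrib]
  refine sum_congr rfl fun e _ => ?_
  rw [← sum_add_distrib]
  refine sum_congr rfl fun b _ => ?_
  rw [Pi.add_apply, Pi.add_apply]
  ring

theorem rp_hop (t : Fin K → Fin K → ℝ) (a : SpinState K) (c : Fam K) (ρ : Fin K → Fin K) :
    rp a (hop t c ρ) = ∑ e, ∑ b, t (ρ e) b * rp a (c (Function.update ρ e b)) := by
  unfold hop
  rw [rp_sum_right]
  refine sum_congr rfl fun e _ => ?_
  rw [rp_sum_right]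
  refine sum_congr rfl fun b _ => ?_
  rw [rp_smul_right]

theorem sum_split {M : Type} [AddCommMonoid M] {N : ℕ} {A : Type} [Fintype A] [DecidableEq A]
    (F : (Fin N → A × Fin 2) → M) :
    ∑ I, F I = ∑ ρ : Fin N → A, ∑ s : Fin N → Fin 2, F (fun e => (ρ e, s e)) := by
  rw [← (Equiv.arrowProdEquivProdArrow (Fin N) (fun _ => A) (fun _ => Fin 2)).symm.sum_comp,
    Fintype.sum_prod_type]
  rfl

/-- exchange of old and new value -/
def swapEquiv {N : ℕ} {A : Type} (e : Fin N) : ((Fin N → A) × A) ≃ ((Fin N → A) × A) where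
  toFun p := (Function.update p.1 e p.2, p.1 e)
  invFun p := (Function.update p.1 e p.2, p.1 e)
  left_inv p := by simp
  right_inv p := by simp

theorem sum_swap {M : Type} [AddCommMonoid M] {N : ℕ} {A : Type} [Fintype A] [DecidableEq A]
    (e : Fin N) (F : (Fin N → A) → A → M) :
    ∑ ρ, ∑ b, F ρ b = ∑ ρ, ∑ b, F (Function.update ρ e b) (ρ e) := by
  rw [← Fintype.sum_prod_type', ← Fintype.sum_prod_type', ← (swapEquiv e).sum_comp]
  rfl

theorem sum_update {N : ℕ} {A : Type} [Fintype A] [DecidableEq A]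
    (e : Fin N) (G : (Fin N → A) → ℝ) :
    ∑ ρ, ∑ b, G (Function.update ρ e b) = Fintype.card A * ∑ ρ, G ρ := by
  rw [sum_swap e (fun ρ b => G (Function.update ρ e b))]
  simp only [Function.update_idem, Function.update_eq_self, sum_const, card_univ, nsmul_eq_mul, mul_sum]

theorem nsq_split (c : Tens K (Fin K × Fin 2)) : nsq c = ∑ ρ, spinNsq (toFam c ρ) := by
  unfold nsq spinNsq toFam
  rw [sum_split]

theorem oneE_split (h : Fin K → Fin K → ℝ) (c : Tens K (Fin K × Fin 2)) :
    oneE (spin1 h) c = ∑ ρ, rp (toFam c ρ) (hop h (toFam c) ρ) := by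
  unfold oneE
  rw [sum_split, Complex.re_sum]
  refine sum_congr rfl fun ρ _ => ?_
  rw [rp_hop, Complex.re_sum]
  unfold rp
  simp only [mul_sum, Complex.re_sum]
  rw [sum_comm]
  refine sum_congr rfl fun e _ => ?_
  conv_rhs => rw [sum_comm]
  refine sum_congr rfl fun s _ => ?_
  rw [Fintype.sum_prod_type]
  refine sum_congr rfl fun b _ => ?_
  rw [sum_eq_single (s e)]
  · have : (Function.update (fun e => (ρ e, s e)) e (b, s e)) =
        fun e' => (Function.update ρ e b e', s e') := by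
      funext e'
      by_cases h : e' = e
      · subst h; simp
      · simp [h]
    simp only [spin1, if_true, this, toFam]
    simp only [Complex.mul_re, Complex.mul_im, Complex.ofReal_re, Complex.ofReal_im,
      Complex.conj_re, Complex.conj_im]
    ring
  · intro σ _ hσ
    have : spin1 h (ρ e, s e) (b, σ) = 0 := by
      simp [spin1, Ne.symm hσ]
    rw [this]
    simp only [Complex.ofReal_zero, zero_mul, Complex.zero_re]
  · simp only [mem_univ, not_true_eq_false, Complex.mul_re, Complex.ofReal_re, Complex.conj_re, Complex.conj_im, neg_mul, sub_neg_eq_add, Complex.ofReal_im, Complex.mul_im, zero_mul, sub_zero, mul_eq_zero, IsEmpty.forall_iff]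

/-- symmetry of the hopping operator -/
theorem hop_symm {t : Fin K → Fin K → ℝ} (ht : ∀ i j, t i j = t j i) (c d : Fam K) :
    ∑ ρ, rp (c ρ) (hop t d ρ) = ∑ ρ, rp (d ρ) (hop t c ρ) := by
  simp only [rp_hop]
  rw [sum_comm]
  conv_rhs => rw [sum_comm]
  refine sum_congr rfl fun e _ => ?_
  rw [sum_swap e]
  refine sum_congr rfl fun ρ _ => ?_
  refine sum_congr rfl fun b _ => ?_
  rw [Function.update_self, Function.update_idem, Function.update_eq_self, rp_symm, ht]

/-- norm bound of the hopping operator -/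
theorem hop_bound {t : Fin K → Fin K → ℝ} {τ : ℝ} (ht : ∀ i j, |t i j| ≤ τ) (c : Fam K) :
    |∑ ρ, rp (c ρ) (hop t c ρ)| ≤ (K : ℝ) ^ 2 * τ * ∑ ρ, spinNsq (c ρ) := by
  simp only [rp_hop]
  rw [sum_comm]
  have key : ∀ e : Fin K, |∑ ρ, ∑ b, t (ρ e) b * rp (c ρ) (c (Function.update ρ e b))| ≤
      K * τ * ∑ ρ, spinNsq (c ρ) := by
    intro e
    have h1 : |∑ ρ, ∑ b, t (ρ e) b * rp (c ρ) (c (Function.update ρ e b))| ≤
        ∑ ρ, ∑ b, τ * ((spinNsq (c ρ) + spinNsq (c (Function.update ρ e b))) / 2) := by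
      refine (abs_sum_le_sum_abs _ _).trans (sum_le_sum fun ρ _ => ?_)
      refine (abs_sum_le_sum_abs _ _).trans (sum_le_sum fun b _ => ?_)
      rw [abs_mul]
      exact mul_le_mul (ht _ _) (rp_le _ _) (abs_nonneg _) ((abs_nonneg _).trans (ht (ρ e) b))
    refine h1.trans (le_of_eq ?_)
    have h2 := sum_update e (fun ρ => spinNsq (c ρ))
    have h3 : ∀ ρ : Fin K → Fin K, ∑ b : Fin K,
        τ * ((spinNsq (c ρ) + spinNsq (c (Function.update ρ e b))) / 2) =
        τ / 2 * (K * spinNsq (c ρ)) + τ / 2 * ∑ b, spinNsq (c (Function.update ρ e b)) := by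
      intro ρ
      rw [← mul_sum, ← sum_div, sum_add_distrib]
      simp only [sum_const, card_univ, Fintype.card_fin, nsmul_eq_mul]
      ring
    simp only [h3]
    rw [sum_add_distrib, ← mul_sum, ← mul_sum, ← mul_sum, h2]
    simp only [Fintype.card_fin]
    ring
  refine (abs_sum_le_sum_abs _ _).trans ((sum_le_sum fun e _ => key e).trans (le_of_eq ?_))
  simp only [sum_const, card_univ, Fintype.card_fin, nsmul_eq_mul]
  ring

theorem twoE_split {N : ℕ} {A : Type} [Fintype A] [DecidableEq A] (v : A → A → A → A → ℝ)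
    (c : Tens N (A × Fin 2)) :
    twoE (spin2 v) c = ∑ ρ : Fin N → A, ∑ s : Fin N → Fin 2, ∑ e, ∑ f ∈ Ioi e, ∑ a, ∑ b,
      v (ρ e) a (ρ f) b * (conj (c (fun e => (ρ e, s e))) *
        c (fun e' => (Function.update (Function.update ρ e a) f b e', s e'))).re := by
  unfold twoE
  rw [sum_split, Complex.re_sum]
  refine sum_congr rfl fun ρ _ => ?_
  rw [Complex.re_sum]
  refine sum_congr rfl fun s _ => ?_
  rw [Complex.re_sum]
  refine sum_congr rfl fun e _ => ?_
  rw [Complex.re_sum]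
  refine sum_congr rfl fun f hf => ?_
  have hef : e ≠ f := (Finset.mem_Ioi.1 hf).ne
  rw [Complex.re_sum, Fintype.sum_prod_type]
  refine sum_congr rfl fun a _ => ?_
  rw [sum_eq_single (s e)]
  · rw [Complex.re_sum, Fintype.sum_prod_type]
    refine sum_congr rfl fun b _ => ?_
    rw [sum_eq_single (s f)]
    · have : (Function.update (Function.update (fun e => (ρ e, s e)) e (a, s e)) f (b, s f)) =
          fun e' => (Function.update (Function.update ρ e a) f b e', s e') := by
        funext e'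
        by_cases h : e' = f
        · subst h; simp
        · by_cases h' : e' = e
          · subst h'; simp only [ne_eq, h, not_false_eq_true, Function.update_of_ne, Function.update_self]
          · simp only [ne_eq, h, not_false_eq_true, Function.update_of_ne, h']
      rw [this]
      simp only [spin2, and_self, if_true]
      rw [Complex.re_ofReal_mul]
    · intro σ _ hσ
      have : spin2 v (ρ e, s e) (a, s e) (ρ f, s f) (b, σ) = 0 := by
        simp [spin2, Ne.symm hσ]
      rw [this]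
      simp
    · simp only [mem_univ, not_true_eq_false, Complex.mul_re, Complex.ofReal_re, Complex.conj_re, Complex.conj_im, neg_mul, sub_neg_eq_add, Complex.ofReal_im, Complex.mul_im, zero_mul, sub_zero, mul_eq_zero, IsEmpty.forall_iff]
  · intro σ _ hσ
    rw [Complex.re_sum]
    refine sum_eq_zero fun b _ => ?_
    have : spin2 v (ρ e, s e) (a, σ) (ρ f, s f) b = 0 := by
      simp [spin2, Ne.symm hσ]
    rw [this]
    simp only [Complex.ofReal_zero, zero_mul, Complex.zero_re]
  · simp only [mem_univ, not_true_eq_false, Complex.re_sum, Complex.mul_re, Complex.ofReal_re, Complex.conj_re, Complex.conj_im, neg_mul, sub_neg_eq_add, Complex.ofReal_im, Complex.mul_im, zero_mul, sub_zero, IsEmpty.forall_iff]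

/-- diagonal interactions -/
theorem twoE_diag (W : Fin K → Fin K → ℝ) (c : Tens K (Fin K × Fin 2)) :
    twoE (spin2 (fun i j k l => if i = j ∧ k = l then W i k else 0)) c =
      ∑ ρ, (∑ e, ∑ f ∈ Ioi e, W (ρ e) (ρ f)) * spinNsq (toFam c ρ) := by
  rw [twoE_split]
  refine sum_congr rfl fun ρ _ => ?_
  unfold spinNsq
  rw [mul_sum]
  refine sum_congr rfl fun s _ => ?_
  rw [sum_mul]
  refine sum_congr rfl fun e _ => ?_
  rw [sum_mul]
  refine sum_congr rfl fun f hf => ?_
  rw [sum_eq_single (ρ e)]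
  · rw [sum_eq_single (ρ f)]
    · simp only [and_self, if_true]
      congr 1
      have : (fun e' => (Function.update (Function.update ρ e (ρ e)) f (ρ f) e', s e')) =
          fun e => (ρ e, s e) := by
        simp
      rw [this, Complex.conj_mul']
      exact_mod_cast Complex.ofReal_re _
    · intro b _ hb
      rw [if_neg (fun h => hb h.2.symm), zero_mul]
    · simp only [mem_univ, not_true_eq_false, and_self, ↓reduceIte, Function.update_eq_self, Complex.mul_re, Complex.conj_re, Complex.conj_im, neg_mul, sub_neg_eq_add, mul_eq_zero, IsEmpty.forall_iff]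
  · intro a _ ha
    refine sum_eq_zero fun b _ => ?_
    rw [if_neg (fun h => ha h.1.symm), zero_mul]
  · simp only [mem_univ, not_true_eq_false, true_and, Function.update_eq_self, Complex.mul_re, Complex.conj_re, Complex.conj_im, neg_mul, sub_neg_eq_add, ite_mul, zero_mul, sum_ite_eq, ↓reduceIte, mul_eq_zero, IsEmpty.forall_iff]

theorem nsq_nonneg {N : ℕ} {ι : Type} [Fintype ι] [DecidableEq ι] (c : Tens N ι) : 0 ≤ nsq c :=
  sum_nonneg fun _ _ => by (clear * -; positivity)

theorem twoE_bound {N : ℕ} {A : Type} [Fintype A] [DecidableEq A] {v : A → A → A → A → ℝ}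
    {δ : ℝ} (hδ : 0 ≤ δ) (hv : ∀ p a q b, |v p a q b| ≤ δ) (c : Tens N (A × Fin 2)) :
    |twoE (spin2 v) c| ≤ (N : ℝ) ^ 2 * (Fintype.card A : ℝ) ^ 2 * δ * nsq c := by
  rw [twoE_split]
  have hc : nsq c = ∑ ρ : Fin N → A, ∑ s : Fin N → Fin 2, ‖c (fun e => (ρ e, s e))‖ ^ 2 := by
    unfold nsq
    rw [sum_split]
  have h0 : (∑ ρ : Fin N → A, ∑ s : Fin N → Fin 2, ∑ e, ∑ f ∈ Ioi e, ∑ a, ∑ b,
      v (ρ e) a (ρ f) b * (conj (c (fun e => (ρ e, s e))) *
        c (fun e' => (Function.update (Function.update ρ e a) f b e', s e'))).re) =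
      ∑ e, ∑ f ∈ Ioi e, ∑ s : Fin N → Fin 2, ∑ ρ : Fin N → A, ∑ a, ∑ b,
      v (ρ e) a (ρ f) b * (conj (c (fun e => (ρ e, s e))) *
        c (fun e' => (Function.update (Function.update ρ e a) f b e', s e'))).re := by
    rw [sum_comm]
    conv_rhs =>
      enter [2, e]
      rw [sum_comm]
    conv_rhs => rw [sum_comm]
    refine sum_congr rfl fun s _ => ?_
    conv_rhs =>
      enter [2, e]
      rw [sum_comm]
    conv_rhs => rw [sum_comm]
  rw [h0]
  have key : ∀ e f : Fin N, |∑ s : Fin N → Fin 2, ∑ ρ : Fin N → A, ∑ a, ∑ b,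
      v (ρ e) a (ρ f) b * (conj (c (fun e => (ρ e, s e))) *
        c (fun e' => (Function.update (Function.update ρ e a) f b e', s e'))).re| ≤
      (Fintype.card A : ℝ) ^ 2 * δ * nsq c := by
    intro e f
    have h1 : |∑ s : Fin N → Fin 2, ∑ ρ : Fin N → A, ∑ a, ∑ b,
      v (ρ e) a (ρ f) b * (conj (c (fun e => (ρ e, s e))) *
        c (fun e' => (Function.update (Function.update ρ e a) f b e', s e'))).re| ≤
      ∑ s : Fin N → Fin 2, ∑ ρ : Fin N → A, ∑ a, ∑ b, δ / 2 * (‖c (fun e => (ρ e, s e))‖ ^ 2 +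
        ‖c (fun e' => (Function.update (Function.update ρ e a) f b e', s e'))‖ ^ 2) := by
      refine (abs_sum_le_sum_abs _ _).trans (sum_le_sum fun s _ => ?_)
      refine (abs_sum_le_sum_abs _ _).trans (sum_le_sum fun ρ _ => ?_)
      refine (abs_sum_le_sum_abs _ _).trans (sum_le_sum fun a _ => ?_)
      refine (abs_sum_le_sum_abs _ _).trans (sum_le_sum fun b _ => ?_)
      rw [abs_mul]
      have h2 : |(conj (c (fun e => (ρ e, s e))) *
        c (fun e' => (Function.update (Function.update ρ e a) f b e', s e'))).re| ≤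
          (‖c (fun e => (ρ e, s e))‖ ^ 2 +
        ‖c (fun e' => (Function.update (Function.update ρ e a) f b e', s e'))‖ ^ 2) / 2 := by
        refine (Complex.abs_re_le_norm _).trans ?_
        rw [norm_mul, Complex.norm_conj]
        nlinarith only [sq_nonneg (‖c (fun e => (ρ e, s e))‖ -           ‖c (fun e' => (Function.update (Function.update ρ e a) f b e', s e'))‖)]
      calc _ ≤ δ * ((‖c (fun e => (ρ e, s e))‖ ^ 2 +
        ‖c (fun e' => (Function.update (Function.update ρ e a) f b e', s e'))‖ ^ 2) / 2) :=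
            mul_le_mul (hv _ _ _ _) h2 (abs_nonneg _) hδ
        _ = _ := by ring
    refine h1.trans (le_of_eq ?_)
    have h3 : ∀ s : Fin N → Fin 2, ∑ ρ : Fin N → A, ∑ a, ∑ b,
        ‖c (fun e' => (Function.update (Function.update ρ e a) f b e', s e'))‖ ^ 2 =
        (Fintype.card A : ℝ) ^ 2 * ∑ ρ : Fin N → A, ‖c (fun e' => (ρ e', s e'))‖ ^ 2 := by
      intro s
      have h4 := sum_update e (fun ρ : Fin N → A => ∑ b,
        ‖c (fun e' => (Function.update ρ f b e', s e'))‖ ^ 2)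
      have h5 := sum_update f (fun ρ : Fin N → A => ‖c (fun e' => (ρ e', s e'))‖ ^ 2)
      rw [h5] at h4
      rw [h4]
      ring
    simp only [← mul_sum, sum_add_distrib, h3]
    rw [hc, sum_comm (s := (univ : Finset (Fin N → A)))]
    simp only [sum_const, card_univ, nsmul_eq_mul]
    simp only [← mul_sum]
    ring
  refine (abs_sum_le_sum_abs _ _).trans ?_
  have h6 : ∀ e : Fin N, |∑ f ∈ Ioi e, ∑ s : Fin N → Fin 2, ∑ ρ : Fin N → A, ∑ a, ∑ b,
      v (ρ e) a (ρ f) b * (conj (c (fun e => (ρ e, s e))) *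
        c (fun e' => (Function.update (Function.update ρ e a) f b e', s e'))).re| ≤
      N * ((Fintype.card A : ℝ) ^ 2 * δ * nsq c) := by
    intro e
    refine (abs_sum_le_sum_abs _ _).trans ((sum_le_sum fun f _ => key e f).trans ?_)
    rw [sum_const, nsmul_eq_mul]
    refine mul_le_mul_of_nonneg_right ?_ (by have := nsq_nonneg c; (clear * - hδ this; positivity))
    have : #(Ioi e) ≤ Fintype.card (Fin N) := card_le_univ _
    rw [Fintype.card_fin] at this
    exact_mod_cast this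
  refine (sum_le_sum fun e _ => h6 e).trans (le_of_eq ?_)
  simp only [sum_const, card_univ, Fintype.card_fin, nsmul_eq_mul]
  ring

theorem oneE_add {N : ℕ} {ι : Type} [Fintype ι] [DecidableEq ι] (h h' : ι → ι → ℝ)
    (c : Tens N ι) : oneE (fun p q => h p q + h' p q) c = oneE h c + oneE h' c := by
  unfold oneE
  simp only [Complex.ofReal_add, add_mul, sum_add_distrib, Complex.add_re]

theorem twoE_add {N : ℕ} {ι : Type} [Fintype ι] [DecidableEq ι] (v v' : ι → ι → ι → ι → ℝ)
    (c : Tens N ι) :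
    twoE (fun p a q b => v p a q b + v' p a q b) c = twoE v c + twoE v' c := by
  unfold twoE
  simp only [Complex.ofReal_add, add_mul, sum_add_distrib, Complex.add_re]

end Mott

end Vale.Agent.P370.Q
end

section

/-!
Half-filled Mott insulator: classical energies, antisymmetry, second order operator.
-/

namespace Vale.Agent.P370.Q

open MeasureTheory Finset ComplexConjugate

namespace Mott

variable {K : ℕ}

theorem sum_pairs (g : Fin K → Fin K → ℝ) (hg : ∀ i j, g i j = g j i) :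
    ∑ e, ∑ f, g e f = ∑ e, g e e + 2 * ∑ e, ∑ f ∈ Ioi e, g e f := by
  have h := Finset.sum_sum_Ioi_add_eq_sum_sum_off_diag g
  have h1 : ∀ e, ∑ f, g e f = g e e + ∑ f ∈ ({e} : Finset (Fin K))ᶜ, g f e := by
    intro e
    rw [← Finset.sum_singleton (fun f => g e f) e]
    rw [← sum_add_sum_compl {e} (fun f => g e f)]
    congr 1
    exact sum_congr rfl fun f _ => hg _ _
  simp only [h1, sum_add_distrib]
  rw [← h, mul_sum]
  congr 1
  refine sum_congr rfl fun e _ => ?_
  rw [mul_sum]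
  refine sum_congr rfl fun f _ => ?_
  rw [hg f e]
  ring

/-- occupation numbers minus one -/
def xv (ρ : Fin K → Fin K) (i : Fin K) : ℤ := (∑ e, if ρ e = i then 1 else 0) - 1

theorem sum_comp_xv (ρ : Fin K → Fin K) (g : Fin K → ℝ) :
    ∑ e, g (ρ e) = ∑ i, ((xv ρ i : ℝ) + 1) * g i := by
  have h : ∀ i, ((xv ρ i : ℝ) + 1) * g i = ∑ e, if ρ e = i then g i else 0 := by
    intro i
    unfold xv
    push_cast
    rw [sub_add_cancel, sum_mul]
    refine sum_congr rfl fun e _ => ?_
    split_ifs <;> simp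
  simp only [h]
  rw [sum_comm]
  simp only [sum_ite_eq, mem_univ, ↓reduceIte]

theorem xv_sum (ρ : Fin K → Fin K) : ∑ i, (xv ρ i : ℝ) = 0 := by
  have h := sum_comp_xv ρ (fun _ => 1)
  simp only [mul_one, sum_add_distrib, sum_const, card_univ, Fintype.card_fin, nsmul_eq_mul] at h
  linarith

theorem xv_nonneg_of_surj {ρ : Fin K → Fin K} (h : ∀ i, xv ρ i = 0) : Function.Bijective ρ := by
  refine Finite.surjective_iff_bijective.1 fun i => ?_
  by_contra hne
  have h1 : xv ρ i = -1 := by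
    unfold xv
    rw [sum_eq_zero]
    · rfl
    · intro e _
      rw [if_neg]
      exact fun he => hne ⟨e, he⟩
  rw [h i] at h1
  norm_num at h1

theorem xv_bij {ρ : Fin K → Fin K} (h : Function.Bijective ρ) (i : Fin K) : xv ρ i = 0 := by
  obtain ⟨e, he⟩ := h.surjective i
  unfold xv
  rw [sum_eq_single e]
  · simp [he]
  · intro f _ hf
    rw [if_neg]
    exact fun h' => hf (h.injective (h'.trans he.symm))
  · simp only [mem_univ, not_true_eq_false, ite_eq_right_iff, one_ne_zero, imp_false, IsEmpty.forall_iff]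

theorem xv_update (ρ : Fin K → Fin K) (e b i : Fin K) :
    xv (Function.update ρ e b) i =
      xv ρ i - (if ρ e = i then 1 else 0) + (if b = i then 1 else 0) := by
  unfold xv
  have h1 : ∑ f, (if Function.update ρ e b f = i then (1 : ℤ) else 0) =
      ∑ f, (if ρ f = i then (1 : ℤ) else 0) + ∑ f, (if f = e then
        ((if b = i then 1 else 0) - (if ρ e = i then 1 else 0)) else 0) := by
    rw [← sum_add_distrib]
    refine sum_congr rfl fun f _ => ?_
    by_cases h : f = e
    · subst h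
      simp
    · simp [h]
  rw [h1, sum_ite_eq' univ e]
  simp only [sum_boole, mem_univ, ↓reduceIte]
  ring

theorem xv_ge (ρ : Fin K → Fin K) (i : Fin K) : -1 ≤ xv ρ i := by
  unfold xv
  have : (0 : ℤ) ≤ ∑ e, if ρ e = i then 1 else 0 := sum_nonneg fun e _ => by split_ifs <;> simp
  linarith

/-- classical interaction energy -/
noncomputable def ws (W : Fin K → Fin K → ℝ) (ρ : Fin K → Fin K) : ℝ :=
  ∑ e, ∑ f ∈ Ioi e, W (ρ e) (ρ f)

section

variable {W : Fin K → Fin K → ℝ} {w0 w1 : ℝ}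

theorem ws_formula (hs : ∀ i j, W i j = W j i) (hd : ∀ i, W i i = w0)
    (hr : ∀ i, ∑ j, W i j = w1) (ρ : Fin K → Fin K) :
    ws W ρ - ws W id = (∑ i, ∑ j, (xv ρ i : ℝ) * (xv ρ j : ℝ) * W i j) / 2 := by
  have h1 := sum_pairs (fun e f => W (ρ e) (ρ f)) (fun _ _ => hs _ _)
  have h2 := sum_pairs (fun e f => W e f) (fun _ _ => hs _ _)
  simp only [hd] at h1 h2
  have h3 : ∑ e, ∑ f, W (ρ e) (ρ f) =
      ∑ i, ∑ j, ((xv ρ i : ℝ) + 1) * ((xv ρ j : ℝ) + 1) * W i j := by
    have h4 : ∀ e, ∑ f, W (ρ e) (ρ f) = ∑ j, ((xv ρ j : ℝ) + 1) * W (ρ e) j :=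
      fun e => sum_comp_xv ρ (fun j => W (ρ e) j)
    simp only [h4]
    rw [sum_comp_xv ρ (fun i => ∑ j, ((xv ρ j : ℝ) + 1) * W i j)]
    refine sum_congr rfl fun i _ => ?_
    rw [mul_sum]
    exact sum_congr rfl fun j _ => by ring
  have h5 : ∑ i, ∑ j, ((xv ρ i : ℝ) + 1) * ((xv ρ j : ℝ) + 1) * W i j =
      ∑ i, ∑ j, (xv ρ i : ℝ) * (xv ρ j : ℝ) * W i j + ∑ i, ∑ j, W i j := by
    have h6 : ∀ i j, ((xv ρ i : ℝ) + 1) * ((xv ρ j : ℝ) + 1) * W i j =
        (xv ρ i : ℝ) * (xv ρ j : ℝ) * W i j + W i j + (xv ρ i : ℝ) * W i j +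
          (xv ρ j : ℝ) * W j i := by
      intro i j
      rw [hs j i]
      ring
    have h7 : ∑ i, ∑ j, (xv ρ i : ℝ) * W i j = 0 := by
      simp only [← mul_sum, hr]
      rw [← sum_mul, xv_sum, zero_mul]
    have h8 : ∑ i, ∑ j, (xv ρ j : ℝ) * W j i = 0 := by
      rw [sum_comm]
      exact h7
    simp only [h6, sum_add_distrib, h7, h8]
    ring
  unfold ws
  simp only [id]
  linarith

theorem ws_bij (hs : ∀ i j, W i j = W j i) (hd : ∀ i, W i i = w0)
    (hr : ∀ i, ∑ j, W i j = w1) {ρ : Fin K → Fin K} (hρ : Function.Bijective ρ) :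
    ws W ρ = ws W id := by
  have h := ws_formula hs hd hr ρ
  simp only [xv_bij hρ] at h
  simp only [Int.cast_zero, mul_zero, zero_mul, sum_const_zero, zero_div] at h
  linarith only [h]

theorem ws_hop (hs : ∀ i j, W i j = W j i) (hd : ∀ i, W i i = w0)
    (hr : ∀ i, ∑ j, W i j = w1) {ρ : Fin K → Fin K} {e b : Fin K}
    (hρ : Function.Bijective (Function.update ρ e b)) :
    ws W ρ - ws W id = w0 - W (ρ e) b := by
  have h := ws_formula hs hd hr ρ
  have hx : ∀ i, (xv ρ i : ℝ) = (if i = ρ e then 1 else 0) - (if i = b then 1 else 0) := by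
    intro i
    have h1 := xv_update ρ e b i
    rw [xv_bij hρ] at h1
    have h2 : xv ρ i = (if ρ e = i then 1 else 0) - (if b = i then 1 else 0) := by linarith only [h1]
    rw [h2]
    push_cast
    simp only [eq_comm]
  rw [h]
  simp only [hx, sub_mul, mul_sub, sum_sub_distrib, ite_mul, mul_ite, one_mul, zero_mul, mul_one,
    mul_zero, sum_ite_eq', mem_univ, if_true, hd]
  rw [hs b (ρ e)]
  ring

end

/-- antisymmetry of families -/
def FAnti (c : Fam K) : Prop :=
  ∀ (g : Equiv.Perm (Fin K)) (ρ : Fin K → Fin K) (s : Fin K → Fin 2),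
    c (fun e => ρ (g e)) (fun e => s (g e)) = ((Equiv.Perm.sign g : ℤ) : ℂ) * c ρ s

theorem toFam_anti {c : Tens K (Fin K × Fin 2)} (hc : IsAnti c) : FAnti (toFam c) :=
  fun g ρ s => hc g (fun e => (ρ e, s e))

theorem ofFam_anti {c : Fam K} (hc : FAnti c) : IsAnti (ofFam c) :=
  fun g I => hc g (fun e => (I e).1) (fun e => (I e).2)

theorem anti_swap {c : Fam K} (hc : FAnti c) {e f : Fin K} (hef : e ≠ f) (ρ : Fin K → Fin K)
    (s : Fin K → Fin 2) :
    c (fun x => ρ (Equiv.swap e f x)) (fun x => s (Equiv.swap e f x)) = -c ρ s := by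
  rw [hc, Equiv.Perm.sign_swap hef]
  simp only [Units.val_neg, Units.val_one, Int.reduceNeg, Int.cast_neg, Int.cast_one, neg_mul, one_mul]

theorem comp_swap_eq {α : Type} {f : Fin K → α} {x y : Fin K} (h : f x = f y) :
    (fun z => f (Equiv.swap x y z)) = f := by
  funext z
  rw [Equiv.swap_apply_def]
  split_ifs with h1 h2
  · rw [h1, h]
  · rw [h2, h]
  · rfl

theorem zero_of_eq {c : Fam K} (hc : FAnti c) {e f : Fin K} (hef : e ≠ f) {ρ : Fin K → Fin K}
    {s : Fin K → Fin 2} (h1 : ρ e = ρ f) (h2 : s e = s f) : c ρ s = 0 := by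
  have h := anti_swap hc hef ρ s
  rw [comp_swap_eq h1, comp_swap_eq h2] at h
  have h3 : (2 : ℂ) * c ρ s = 0 := by linear_combination h
  simpa only [mul_eq_zero, OfNat.ofNat_ne_zero, false_or] using h3

theorem xv_le {c : Fam K} (hc : FAnti c) {ρ : Fin K → Fin K} (h : c ρ ≠ 0) (i : Fin K) :
    xv ρ i ≤ 1 := by
  by_contra hlt
  push Not at hlt
  apply h
  have h1 : 2 < #(univ.filter (fun e => ρ e = i)) := by
    have h2 : (#(univ.filter (fun e => ρ e = i)) : ℤ) = xv ρ i + 1 := by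
      unfold xv
      rw [card_filter]
      push_cast
      ring
    have : (2 : ℤ) < #(univ.filter (fun e => ρ e = i)) := by rw [h2]; linarith only [hlt]
    exact_mod_cast this
  obtain ⟨x, hx, y, hy, z, hz, hxy, hxz, hyz⟩ := two_lt_card.1 h1
  simp only [mem_filter, mem_univ, true_and] at hx hy hz
  funext s
  rcases (by
    have := (s x).isLt
    have := (s y).isLt
    have := (s z).isLt
    rcases eq_or_ne (s x) (s y) with h | h
    · exact Or.inl h
    · rcases eq_or_ne (s x) (s z) with h' | h'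
      · exact Or.inr (Or.inl h')
      · right; right
        apply Fin.ext
        have a1 : (s x).val ≠ (s y).val := fun hh => h (Fin.ext hh)
        have a2 : (s x).val ≠ (s z).val := fun hh => h' (Fin.ext hh)
        (clear hc i hlt h1 hxy hxz hyz hx hy hz; omega) : s x = s y ∨ s x = s z ∨ s y = s z) with h3 | h3 | h3
  · exact zero_of_eq hc hxy (hx.trans hy.symm) h3
  · exact zero_of_eq hc hxz (hx.trans hz.symm) h3
  · exact zero_of_eq hc hyz (hy.trans hz.symm) h3

theorem ws_gap {h W t : Fin K → Fin K → ℝ} {v : Fin K → Fin K → Fin K → Fin K → ℝ}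
    {ε0 w0 w1 u τ δ : ℝ} (H : MottHyp K h W t v ε0 w0 w1 u τ δ) {c : Fam K} (hc : FAnti c)
    {ρ : Fin K → Fin K} (hρ : ¬ Function.Bijective ρ) (hne : c ρ ≠ 0) :
    u ≤ ws W ρ - ws W id := by
  rw [ws_formula H.W_symm H.W_diag H.W_row]
  have h1 := H.W_pd (xv ρ) (fun i => abs_le.2 ⟨xv_ge ρ i, xv_le hc hne i⟩)
    (fun h0 => hρ (xv_nonneg_of_surj fun i => by rw [h0]; rfl))
  linarith only [h1]

theorem hop_anti (t : Fin K → Fin K → ℝ) {c : Fam K} (hc : FAnti c) : FAnti (hop t c) := by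
  intro g ρ s
  rw [hop_apply, hop_apply, mul_sum]
  conv_rhs => rw [← Equiv.sum_comp g]
  refine sum_congr rfl fun e _ => ?_
  rw [mul_sum]
  refine sum_congr rfl fun b _ => ?_
  have h1 : Function.update (fun e => ρ (g e)) e b = fun x => Function.update ρ (g e) b (g x) := by
    funext x
    by_cases hx : x = e
    · subst hx; simp
    · have : g x ≠ g e := fun h => hx (g.injective h)
      simp [hx, this]
  rw [h1, hc]
  ring

/-- restriction to bijective site maps -/
def bp (c : Fam K) : Fam K := fun ρ => if Function.Bijective ρ then c ρ else 0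

/-- restriction to site maps that are not bijective -/
def bq (c : Fam K) : Fam K := fun ρ => if Function.Bijective ρ then 0 else c ρ

theorem bp_add_bq (c : Fam K) : bp c + bq c = c := by
  funext ρ
  rw [Pi.add_apply]
  unfold bp bq
  split_ifs <;> simp

theorem bp_anti {c : Fam K} (hc : FAnti c) : FAnti (bp c) := by
  intro g ρ s
  unfold bp
  have h1 : Function.Bijective (fun e => ρ (g e)) ↔ Function.Bijective ρ :=
    Function.Bijective.of_comp_iff ρ g.bijective
  by_cases h : Function.Bijective ρ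
  · rw [if_pos h, if_pos (h1.2 h)]
    exact hc g ρ s
  · rw [if_neg h, if_neg (fun h' => h (h1.1 h'))]
    simp

theorem bq_anti {c : Fam K} (hc : FAnti c) : FAnti (bq c) := by
  intro g ρ s
  unfold bq
  have h1 : Function.Bijective (fun e => ρ (g e)) ↔ Function.Bijective ρ :=
    Function.Bijective.of_comp_iff ρ g.bijective
  by_cases h : Function.Bijective ρ
  · rw [if_pos h, if_pos (h1.2 h)]
    simp
  · rw [if_neg h, if_neg (fun h' => h (h1.1 h'))]
    exact hc g ρ s

/-- action of a transposition of sites on a spin state, expectation of `1 - SWAP` -/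
noncomputable def sw (φ : SpinState K) (i j : Fin K) : ℝ :=
  spinNsq φ - (∑ s, conj (φ s) * φ (s ∘ Equiv.swap i j)).re

theorem bij_formula {c : Fam K} (hc : FAnti c) {π : Fin K → Fin K} (hπ : Function.Bijective π)
    (e f : Fin K) :
    spinNsq (c π) - rp (c π) (fun s => c π (fun x => s (Equiv.swap e f x))) =
      sw (c id) (π e) (π f) ∧ spinNsq (c π) = spinNsq (c id) := by
  set g : Equiv.Perm (Fin K) := Equiv.ofBijective π hπ with hg
  have hgπ : ∀ x, g x = π x := fun x => rfl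
  have h0 : ∀ s : Fin K → Fin 2, c π (s ∘ g) = ((Equiv.Perm.sign g : ℤ) : ℂ) * c id s := by
    intro s
    exact hc g id s
  have hsq : ∀ z : ℂ, conj (((Equiv.Perm.sign g : ℤ) : ℂ) * z) = ((Equiv.Perm.sign g : ℤ) : ℂ) *
      conj z := by
    intro z
    rw [map_mul]
    congr 1
    exact Complex.conj_ofReal (Equiv.Perm.sign g : ℤ)
  have hone : ((Equiv.Perm.sign g : ℤ) : ℂ) * ((Equiv.Perm.sign g : ℤ) : ℂ) = 1 := by
    rcases Int.units_eq_one_or (Equiv.Perm.sign g) with h | h <;> rw [h] <;> simp only [Units.val_neg, Units.val_one, Int.reduceNeg, Int.cast_neg, Int.cast_one, mul_neg, mul_one, neg_neg]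
  have hnorm : ‖((Equiv.Perm.sign g : ℤ) : ℂ)‖ = 1 := by
    rcases Int.units_eq_one_or (Equiv.Perm.sign g) with h | h <;> rw [h] <;> simp
  have hre : ∀ F : (Fin K → Fin 2) → ℝ, ∑ s, F s = ∑ s : Fin K → Fin 2, F (s ∘ g) := by
    intro F
    exact ((g.symm.arrowCongr (Equiv.refl (Fin 2))).sum_comp F).symm
  have h2 : spinNsq (c π) = spinNsq (c id) := by
    unfold spinNsq
    rw [hre]
    refine sum_congr rfl fun s _ => ?_
    rw [h0, norm_mul, hnorm, one_mul]
  refine ⟨?_, h2⟩
  unfold sw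
  rw [h2]
  congr 1
  unfold rp
  rw [hre, Complex.re_sum]
  refine sum_congr rfl fun s _ => ?_
  have h3 : (fun x => (s ∘ g) (Equiv.swap e f x)) = (s ∘ Equiv.swap (π e) (π f)) ∘ g := by
    funext x
    simp only [Function.comp]
    congr 1
    rw [← hgπ e, ← hgπ f]
    rw [Equiv.swap_apply_def, Equiv.swap_apply_def]
    simp only [g.injective.eq_iff]
    split_ifs <;> rfl
  beta_reduce
  rw [h3, h0, h0, hsq]
  congr 1
  linear_combination (conj (c id s) * c id (s ∘ Equiv.swap (π e) (π f))) * hone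

end Mott

end Vale.Agent.P370.Q
end

section

/-!
Half-filled Mott insulator: the second order operator.
-/

namespace Vale.Agent.P370.Q

open MeasureTheory Finset ComplexConjugate

namespace Mott

variable {K : ℕ}

theorem not_bij_of_eq {ρ : Fin K → Fin K} {e f : Fin K} (hef : e ≠ f) (h : ρ e = ρ f) :
    ¬ Function.Bijective ρ := fun hb => hef (hb.injective h)

theorem bp_zero {c : Fam K} {ρ : Fin K → Fin K} (h : ¬ Function.Bijective ρ) : bp c ρ = 0 :=
  if_neg h

theorem bp_eq {c : Fam K} {ρ : Fin K → Fin K} (h : Function.Bijective ρ) : bp c ρ = c ρ :=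
  if_pos h

theorem hop_bp_bij (t : Fin K → Fin K → ℝ) (ht : ∀ i, t i i = 0) (c : Fam K)
    {π : Fin K → Fin K} (hπ : Function.Bijective π) : hop t (bp c) π = 0 := by
  funext s
  rw [hop_apply]
  refine sum_eq_zero fun e _ => sum_eq_zero fun b _ => ?_
  by_cases hb : b = π e
  · rw [hb, ht]
    simp
  · obtain ⟨f, hf⟩ := hπ.surjective b
    have hfe : f ≠ e := fun h => hb (by rw [← hf, h])
    rw [bp_zero (not_bij_of_eq hfe (ρ := Function.update π e b) (by simp [hfe, hf]))]
    simp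

theorem hop_bp (t : Fin K → Fin K → ℝ) {c : Fam K} (hc : FAnti c) {π : Fin K → Fin K}
    (hπ : Function.Bijective π) {e f : Fin K} (hef : e ≠ f) :
    hop t (bp c) (Function.update π e (π f)) =
      fun s => (t (π f) (π e) : ℂ) * (c π s - c π (fun x => s (Equiv.swap e f x))) := by
  funext s
  set ρ := Function.update π e (π f) with hρ
  have hρe : ρ e = π f := by simp [hρ]
  have hρf : ρ f = π f := by simp [hρ, hef.symm]
  have hρx : ∀ x, x ≠ e → ρ x = π x := fun x hx => by simp [hρ, hx]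
  rw [hop_apply, sum_eq_add e f hef]
  · have h1 : ∑ b, (t (ρ e) b : ℂ) * bp c (Function.update ρ e b) s =
        (t (π f) (π e) : ℂ) * c π s := by
      rw [sum_eq_single (π e)]
      · have : Function.update ρ e (π e) = π := by simp [hρ]
        rw [this, bp_eq hπ, hρe]
      · intro b _ hb
        obtain ⟨g, hg⟩ := hπ.surjective b
        have hge : g ≠ e := fun h => hb (by rw [← hg, h])
        rw [bp_zero (not_bij_of_eq hge (by simp [hge, hρx, hg]))]
        simp
      · simp only [mem_univ, not_true_eq_false, mul_eq_zero, Complex.ofReal_eq_zero, IsEmpty.forall_iff]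
    have h2 : ∑ b, (t (ρ f) b : ℂ) * bp c (Function.update ρ f b) s =
        -((t (π f) (π e) : ℂ) * c π (fun x => s (Equiv.swap e f x))) := by
      rw [sum_eq_single (π e)]
      · have : Function.update ρ f (π e) = fun x => π (Equiv.swap e f x) := by
          funext x
          by_cases hxf : x = f
          · subst hxf; simp
          · by_cases hxe : x = e
            · subst hxe; simp [hxf, hρe]
            · rw [Equiv.swap_apply_of_ne_of_ne hxe hxf]
              simp [hxf, hρx x hxe]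
        have hb : Function.Bijective (fun x => π (Equiv.swap e f x)) :=
          hπ.comp (Equiv.swap e f).bijective
        rw [this, bp_eq hb, hρf]
        have h3 := anti_swap hc hef π (fun x => s (Equiv.swap e f x))
        simp only [Equiv.swap_apply_self] at h3
        rw [h3]
        ring
      · intro b _ hb
        obtain ⟨g, hg⟩ := hπ.surjective b
        have hge : g ≠ e := fun h => hb (by rw [← hg, h])
        have hnb : ¬ Function.Bijective (Function.update ρ f b) := by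
          by_cases hgf : g = f
          · subst hgf
            exact not_bij_of_eq hef (by simp [hef, hρe, hg])
          · exact not_bij_of_eq hgf (by simp [hgf, hρx g hge, hg])
        rw [bp_zero hnb]
        simp
      · simp only [mem_univ, not_true_eq_false, mul_eq_zero, Complex.ofReal_eq_zero, IsEmpty.forall_iff]
    rw [h1, h2]
    ring
  · intro e' _ he'
    refine sum_eq_zero fun b _ => ?_
    rw [bp_zero (not_bij_of_eq hef (by simp [he'.1.symm, he'.2.symm, hρe, hρf]))]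
    simp
  · simp only [mem_univ, not_true_eq_false, IsEmpty.forall_iff]
  · simp only [mem_univ, not_true_eq_false, IsEmpty.forall_iff]

/-- number of bijective site maps -/
def nB (K : ℕ) : ℕ := #(univ.filter (fun ρ : Fin K → Fin K => Function.Bijective ρ))

theorem nB_pos : 0 < nB K :=
  card_pos.2 ⟨id, mem_filter.2 ⟨mem_univ _, Function.bijective_id⟩⟩

theorem sum_bij (F : (Fin K → Fin K) → ℝ) (a : ℝ)
    (h1 : ∀ ρ, Function.Bijective ρ → F ρ = a) (h2 : ∀ ρ, ¬ Function.Bijective ρ → F ρ = 0) :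
    ∑ ρ, F ρ = nB K * a := by
  rw [← sum_filter_add_sum_filter_not univ (fun ρ : Fin K → Fin K => Function.Bijective ρ)]
  rw [sum_congr rfl (fun ρ hρ => h1 ρ (mem_filter.1 hρ).2),
    sum_congr rfl (fun ρ hρ => h2 ρ (mem_filter.1 hρ).2)]
  simp [nB]

theorem sum_bp_sq {c : Fam K} (hc : FAnti c) :
    ∑ ρ, spinNsq (bp c ρ) = nB K * spinNsq (c id) := by
  refine sum_bij _ _ (fun ρ hρ => ?_) (fun ρ hρ => ?_)
  · rw [bp_eq hρ]
    rcases isEmpty_or_nonempty (Fin K) with hK | ⟨⟨e⟩⟩
    · have : ρ = id := Subsingleton.elim _ _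
      rw [this]
    · exact (bij_formula hc hρ e e).2
  · rw [bp_zero hρ, spinNsq_zero]

/-- second order formula -/
theorem second_order {t₁ t₂ : Fin K → Fin K → ℝ} (h1 : ∀ i j, t₁ i j = t₁ j i)
    (h2 : ∀ i j, t₂ i j = t₂ j i) (h0 : ∀ i, t₁ i i = 0) {c : Fam K}
    (hc : FAnti c) :
    ∑ ρ, rp (hop t₁ (bp c) ρ) (hop t₂ (bp c) ρ) =
      nB K * ∑ i, ∑ j, t₁ i j * t₂ i j * sw (c id) i j := by
  have e1 : ∑ ρ, rp (hop t₁ (bp c) ρ) (hop t₂ (bp c) ρ) =
      ∑ ρ, rp (hop t₂ (bp c) ρ) (hop t₁ (bp c) ρ) := sum_congr rfl fun ρ _ => rp_symm _ _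
  rw [e1, hop_symm h1]
  refine sum_bij _ _ (fun π hπ => ?_) (fun ρ hρ => ?_)
  · rw [rp_hop]
    have key : ∀ e, ∑ b, t₁ (π e) b *
        rp (bp c π) (hop t₂ (bp c) (Function.update π e b)) =
        ∑ j, t₁ (π e) j * t₂ (π e) j * sw (c id) (π e) j := by
      intro e
      refine sum_congr rfl fun b _ => ?_
      by_cases hb : b = π e
      · rw [hb, h0]
        ring
      · obtain ⟨f, hf⟩ := hπ.surjective b
        have hef : e ≠ f := fun h => hb (by rw [← hf, h])
        subst hf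
        rw [hop_bp t₂ hc hπ hef, bp_eq hπ, rp_smul_right]
        have h3 := (bij_formula hc hπ e f).1
        have h4 : rp (c π) (fun s => c π s - c π (fun x => s (Equiv.swap e f x))) =
            sw (c id) (π e) (π f) := by
          rw [← h3, ← rp_self]
          unfold rp
          rw [← sum_sub_distrib]
          refine sum_congr rfl fun s _ => ?_
          rw [mul_sub, Complex.sub_re]
        rw [h4, h2 (π f)]
        ring
    simp only [key]
    exact (Equiv.sum_comp (Equiv.ofBijective π hπ)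
      (fun i => ∑ j, t₁ i j * t₂ i j * sw (c id) i j))
  · rw [bp_zero hρ]
    unfold rp
    simp only [Pi.zero_apply, map_zero, zero_mul, Complex.zero_re, sum_const_zero]

theorem sw_symm (φ : SpinState K) (i j : Fin K) : sw φ i j = sw φ j i := by
  unfold sw
  rw [Equiv.swap_comm]

theorem sw_bounds (φ : SpinState K) (i j : Fin K) : 0 ≤ sw φ i j ∧ sw φ i j ≤ 2 * spinNsq φ := by
  have h1 : (∑ s, conj (φ s) * φ (s ∘ Equiv.swap i j)).re =
      rp φ (fun s => φ (s ∘ Equiv.swap i j)) := by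
    unfold rp
    rw [Complex.re_sum]
  have h2 : spinNsq (fun s => φ (s ∘ Equiv.swap i j)) = spinNsq φ := by
    unfold spinNsq
    exact ((Equiv.swap i j).arrowCongr (Equiv.refl (Fin 2))).sum_comp (fun s => ‖φ s‖ ^ 2)
  have h3 := rp_le φ (fun s => φ (s ∘ Equiv.swap i j))
  rw [h2, abs_le] at h3
  unfold sw
  rw [h1]
  constructor <;> linarith only [h3]

/-! ### largest eigenvalue of the Heisenberg form -/

theorem heisE_eq (J : Fin K → Fin K → ℝ) (φ : SpinState K) :
    heisE J φ = ∑ i, ∑ j ∈ Ioi i, J i j * sw φ i j := rfl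

theorem heisE_le (J : Fin K → Fin K → ℝ) (φ : SpinState K) :
    heisE J φ ≤ (∑ i, ∑ j ∈ Ioi i, 2 * |J i j|) * spinNsq φ := by
  rw [heisE_eq, sum_mul]
  refine sum_le_sum fun i _ => ?_
  rw [sum_mul]
  refine sum_le_sum fun j _ => ?_
  have h := sw_bounds φ i j
  calc J i j * sw φ i j ≤ |J i j| * sw φ i j := mul_le_mul_of_nonneg_right (le_abs_self _) h.1
    _ ≤ |J i j| * (2 * spinNsq φ) := mul_le_mul_of_nonneg_left h.2 (abs_nonneg _)
    _ = _ := by ring

theorem heis_bdd (J : Fin K → Fin K → ℝ) :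
    BddAbove {E | ∃ φ : SpinState K, spinNsq φ = 1 ∧ heisE J φ = E} := by
  refine ⟨∑ i, ∑ j ∈ Ioi i, 2 * |J i j|, ?_⟩
  rintro E ⟨φ, hφ, rfl⟩
  have := heisE_le J φ
  rwa [hφ, mul_one] at this

theorem spinNsq_smul (r : ℝ) (φ : SpinState K) :
    spinNsq (fun s => (r : ℂ) * φ s) = r ^ 2 * spinNsq φ := by
  unfold spinNsq
  rw [mul_sum]
  refine sum_congr rfl fun s _ => ?_
  rw [norm_mul, mul_pow, Complex.norm_real, Real.norm_eq_abs, sq_abs]

theorem sw_smul (r : ℝ) (φ : SpinState K) (i j : Fin K) :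
    sw (fun s => (r : ℂ) * φ s) i j = r ^ 2 * sw φ i j := by
  unfold sw
  rw [spinNsq_smul, mul_sub]
  congr 1
  rw [Complex.re_sum, Complex.re_sum, mul_sum]
  refine sum_congr rfl fun s _ => ?_
  simp only [map_mul, Complex.conj_ofReal, Complex.mul_re, Complex.ofReal_re, Complex.conj_re, Complex.ofReal_im, Complex.conj_im, Complex.mul_im]
  ring

theorem heisE_smul (J : Fin K → Fin K → ℝ) (r : ℝ) (φ : SpinState K) :
    heisE J (fun s => (r : ℂ) * φ s) = r ^ 2 * heisE J φ := by
  rw [heisE_eq, heisE_eq, mul_sum]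
  refine sum_congr rfl fun i _ => ?_
  rw [mul_sum]
  refine sum_congr rfl fun j _ => ?_
  rw [sw_smul]
  ring

theorem spinNsq_eq_zero {φ : SpinState K} (h : spinNsq φ = 0) : φ = 0 := by
  funext s
  have h1 := (sum_eq_zero_iff_of_nonneg (s := univ) (f := fun s => ‖φ s‖ ^ 2)
    (fun _ _ => by (clear * -; positivity))).1 h s (mem_univ s)
  simpa only [Pi.zero_apply, ne_eq, OfNat.ofNat_ne_zero, not_false_eq_true, pow_eq_zero_iff, norm_eq_zero] using     h1

theorem heisE_le_max (J : Fin K → Fin K → ℝ) (φ : SpinState K) :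
    heisE J φ ≤ heisMax J * spinNsq φ := by
  rcases (spinNsq_nonneg φ).lt_or_eq with h | h
  · set r : ℝ := (Real.sqrt (spinNsq φ))⁻¹ with hr
    have hr2 : r ^ 2 * spinNsq φ = 1 := by
      rw [hr, inv_pow, Real.sq_sqrt h.le]
      exact inv_mul_cancel₀ h.ne'
    have h1 : heisE J (fun s => (r : ℂ) * φ s) ≤ heisMax J :=
      le_csSup (heis_bdd J) ⟨_, by rw [spinNsq_smul, hr2], rfl⟩
    rw [heisE_smul] at h1
    calc heisE J φ = (r ^ 2 * heisE J φ) * spinNsq φ := by
          rw [mul_right_comm, hr2, one_mul]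
      _ ≤ _ := mul_le_mul_of_nonneg_right h1 h.le
  · have h0 := spinNsq_eq_zero h.symm
    rw [h0, spinNsq_zero, mul_zero, heisE_eq]
    refine (sum_eq_zero fun i _ => sum_eq_zero fun j _ => ?_).le
    unfold sw
    simp [spinNsq_zero]

/-- unit spin state -/
noncomputable def unitS (K : ℕ) : SpinState K := fun s => if s = 0 then 1 else 0

theorem unitS_nsq : spinNsq (unitS K) = 1 := by
  unfold spinNsq unitS
  rw [sum_eq_single 0]
  · simp only [↓reduceIte, norm_one, one_pow]
  · intro s _ hs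
    simp [hs]
  · simp only [mem_univ, not_true_eq_false, ↓reduceIte, norm_one, one_pow, one_ne_zero, imp_self]

theorem heisMax_nonneg {J : Fin K → Fin K → ℝ} (hJ : ∀ i j, i < j → 0 ≤ J i j) :
    0 ≤ heisMax J := by
  have h := heisE_le_max J (unitS K)
  rw [unitS_nsq, mul_one] at h
  refine le_trans ?_ h
  rw [heisE_eq]
  exact sum_nonneg fun i _ => sum_nonneg fun j hj =>
    mul_nonneg (hJ i j (Finset.mem_Ioi.1 hj)) (sw_bounds _ _ _).1

theorem heisMax_attained (J : Fin K → Fin K → ℝ) :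
    ∃ φ : SpinState K, spinNsq φ = 1 ∧ heisE J φ = heisMax J := by
  have hcont : Continuous (fun φ : SpinState K => spinNsq φ) := by
    unfold spinNsq
    fun_prop
  have hcont2 : Continuous (fun φ : SpinState K => heisE J φ) := by
    unfold heisE spinNsq
    refine continuous_finsetSum _ fun i _ => continuous_finsetSum _ fun j _ => ?_
    refine continuous_const.mul ?_
    refine Continuous.sub (by fun_prop) ?_
    refine Complex.continuous_re.comp ?_
    refine continuous_finsetSum _ fun s _ => ?_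
    exact (Complex.continuous_conj.comp (continuous_apply s)).mul (continuous_apply _)
  have hcomp : IsCompact {φ : SpinState K | spinNsq φ = 1} := by
    refine Metric.isCompact_of_isClosed_isBounded (isClosed_eq hcont continuous_const) ?_
    refine (Metric.isBounded_closedBall (x := (0 : SpinState K)) (r := 1)).subset ?_
    intro φ hφ
    rw [mem_closedBall_zero_iff, pi_norm_le_iff_of_nonneg zero_le_one]
    intro s
    have h1 : ‖φ s‖ ^ 2 ≤ spinNsq φ :=
      single_le_sum (f := fun s => ‖φ s‖ ^ 2) (fun _ _ => by (clear * -; positivity)) (mem_univ s)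
    have hφ1 : spinNsq φ = 1 := hφ
    rw [hφ1] at h1
    nlinarith only [h1]
  obtain ⟨φ, hφ, hmax⟩ := hcomp.exists_isMaxOn ⟨unitS K, unitS_nsq⟩ hcont2.continuousOn
  refine ⟨φ, hφ, le_antisymm (le_csSup (heis_bdd J) ⟨φ, hφ, rfl⟩) ?_⟩
  refine csSup_le ⟨_, unitS K, unitS_nsq, rfl⟩ ?_
  rintro E ⟨χ, hχ, rfl⟩
  exact hmax hχ

/-! ### energy of the model -/

/-- energy of the exact model -/
noncomputable def en0 (W t : Fin K → Fin K → ℝ) (ε0 : ℝ) (C : Fam K) : ℝ :=
  ∑ ρ, (ws W ρ + K * ε0) * spinNsq (C ρ) + ∑ ρ, rp (C ρ) (hop t C ρ)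

theorem enT_split (W t : Fin K → Fin K → ℝ) (ε0 : ℝ) (c : Tens K (Fin K × Fin 2)) :
    enT (fun i j => (if i = j then ε0 else 0) + t i j)
      (fun i j k l => if i = j ∧ k = l then W i k else 0) c = en0 W t ε0 (toFam c) := by
  unfold enT en0
  have h1 : spin1 (fun i j : Fin K => (if i = j then ε0 else 0) + t i j) =
      fun p q => spin1 (fun i j => if i = j then ε0 else 0) p q + spin1 t p q := by
    funext p q
    unfold spin1
    split_ifs <;> simp
  rw [h1, oneE_add, oneE_split, oneE_split, twoE_diag]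
  have h2 : ∀ ρ, rp (toFam c ρ) (hop (fun i j => if i = j then ε0 else 0) (toFam c) ρ) =
      K * ε0 * spinNsq (toFam c ρ) := by
    intro ρ
    rw [rp_hop]
    have h3 : ∀ e, ∑ b, (if ρ e = b then ε0 else 0) *
        rp (toFam c ρ) (toFam c (Function.update ρ e b)) = ε0 * spinNsq (toFam c ρ) := by
      intro e
      rw [sum_eq_single (ρ e)]
      · rw [if_pos rfl, Function.update_eq_self, rp_self]
      · intro b _ hb
        rw [if_neg hb.symm, zero_mul]
      · simp only [mem_univ, not_true_eq_false, ↓reduceIte, Function.update_eq_self, mul_eq_zero, IsEmpty.forall_iff]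
    simp only [h3]
    simp only [sum_const, card_univ, Fintype.card_fin, nsmul_eq_mul]
    ring
  simp only [h2]
  simp only [add_mul, sum_add_distrib]
  unfold ws
  ring

theorem enT_error {h W t : Fin K → Fin K → ℝ} {v : Fin K → Fin K → Fin K → Fin K → ℝ}
    {ε0 w0 w1 u τ δ : ℝ} (H : MottHyp K h W t v ε0 w0 w1 u τ δ) (c : Tens K (Fin K × Fin 2)) :
    |enT h v c - en0 W t ε0 (toFam c)| ≤ 2 * K ^ 4 * δ * nsq c := by
  rw [← enT_split]
  have h1 : spin1 h = fun p q => spin1 (fun i j => (if i = j then ε0 else 0) + t i j) p q +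
      spin1 (fun i j => h i j - (if i = j then ε0 else 0) - t i j) p q := by
    funext p q
    unfold spin1
    split_ifs <;> ring
  have h2 : spin2 v = fun p a q b =>
      spin2 (fun i j k l : Fin K => if i = j ∧ k = l then W i k else 0) p a q b +
      spin2 (fun i j k l => v i j k l - (if i = j ∧ k = l then W i k else 0)) p a q b := by
    funext p a q b
    unfold spin2
    split_ifs <;> ring
  have h3 : enT h v c - enT (fun i j => (if i = j then ε0 else 0) + t i j)
      (fun i j k l => if i = j ∧ k = l then W i k else 0) c =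
      oneE (spin1 (fun i j => h i j - (if i = j then ε0 else 0) - t i j)) c +
      twoE (spin2 (fun i j k l => v i j k l - (if i = j ∧ k = l then W i k else 0))) c := by
    unfold enT
    rw [h1, h2, oneE_add, twoE_add]
    ring
  rw [h3]
  have h4 : |oneE (spin1 (fun i j => h i j - (if i = j then ε0 else 0) - t i j)) c| ≤
      (K : ℝ) ^ 2 * δ * nsq c := by
    rw [oneE_split, nsq_split]
    exact hop_bound H.h_near _
  have h5 := twoE_bound H.δ_nonneg H.v_near c
  rw [Fintype.card_fin] at h5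
  have hK : (2 : ℝ) ≤ K := by exact_mod_cast H.two_le
  have hK2 : (1 : ℝ) ≤ (K : ℝ) ^ 2 := by linarith only [mul_nonneg_of_nonpos_of_nonpos (Mathlib.Tactic.Linarith.sub_nonpos_of_le (Mathlib.Tactic.Linarith.natCast_nonneg ℝ K)) (Mathlib.Tactic.Linarith.sub_nonpos_of_le hK), hK]
  have hδc : 0 ≤ (K : ℝ) ^ 2 * δ * nsq c := by
    have := nsq_nonneg c
    have := H.δ_nonneg
    (clear h1 h2 h3 h4 h5 hK2; positivity)
  calc _ ≤ (K : ℝ) ^ 2 * δ * nsq c + (K : ℝ) ^ 2 * (K : ℝ) ^ 2 * δ * nsq c :=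
        (abs_add_le _ _).trans (add_le_add h4 h5)
    _ ≤ (K : ℝ) ^ 2 * ((K : ℝ) ^ 2 * δ * nsq c) + (K : ℝ) ^ 2 * (K : ℝ) ^ 2 * δ * nsq c :=
        by linarith only [mul_nonneg_of_nonpos_of_nonpos (Mathlib.Tactic.Linarith.sub_nonpos_of_le hK2) (Mathlib.Tactic.Linarith.sub_nonpos_of_le hδc)]
    _ = _ := by ring

theorem u_le {h W t : Fin K → Fin K → ℝ} {v : Fin K → Fin K → Fin K → Fin K → ℝ}
    {ε0 w0 w1 u τ δ : ℝ} (H : MottHyp K h W t v ε0 w0 w1 u τ δ) {i j : Fin K} (hij : i ≠ j) :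
    u ≤ w0 - W i j := by
  have h1 := H.W_pd (fun k => (if k = i then 1 else 0) - (if k = j then 1 else 0)) (by
    intro k
    split_ifs <;> simp) (by
    intro h0
    have := congrFun h0 i
    simp only [↓reduceIte, hij, sub_zero, Pi.zero_apply, one_ne_zero] at this)
  push_cast at h1
  simp only [sub_mul, mul_sub, sum_sub_distrib, ite_mul, mul_ite, one_mul, zero_mul, mul_one,
    mul_zero, sum_ite_eq', mem_univ, if_true, H.W_diag] at h1
  rw [H.W_symm j i] at h1
  linarith only [h1]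

/-- the hopping operator and the resolvent -/
theorem hop_res {h W t : Fin K → Fin K → ℝ} {v : Fin K → Fin K → Fin K → Fin K → ℝ}
    {ε0 w0 w1 u τ δ : ℝ} (H : MottHyp K h W t v ε0 w0 w1 u τ δ) {a : ℝ} (ha : a < u) (C : Fam K)
    (ρ : Fin K → Fin K) :
    hop t (bp C) ρ = fun s => ((ws W ρ - ws W id - a : ℝ) : ℂ) *
      hop (fun i j => t i j / (w0 - W i j - a)) (bp C) ρ s := by
  by_cases hρ : Function.Bijective ρ
  · rw [hop_bp_bij t H.t_diag C hρ, hop_bp_bij _ (fun i => by rw [H.t_diag, zero_div]) C hρ]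
    funext s
    simp
  · funext s
    rw [hop_apply, hop_apply, mul_sum]
    refine sum_congr rfl fun e _ => ?_
    rw [mul_sum]
    refine sum_congr rfl fun b _ => ?_
    by_cases hb : Function.Bijective (Function.update ρ e b)
    · have hne : ρ e ≠ b := by
        intro h'
        rw [← h', Function.update_eq_self] at hb
        exact hρ hb
      have h1 := ws_hop H.W_symm H.W_diag H.W_row hb
      have h2 := u_le H hne
      have h3 : w0 - W (ρ e) b - a ≠ 0 := by
        intro h0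
        linarith
      rw [h1, ← mul_assoc]
      congr 1
      rw [← Complex.ofReal_mul]
      congr 1
      (clear * - h3; field_simp)
    · rw [bp_zero hb]
      simp

/-- superexchange form -/
theorem mottJ_form {W t : Fin K → Fin K → ℝ} {w0 : ℝ} (hW : ∀ i j, W i j = W j i)
    (ht : ∀ i j, t i j = t j i) (ht0 : ∀ i, t i i = 0) (φ : SpinState K) :
    ∑ i, ∑ j, t i j ^ 2 / (w0 - W i j) * sw φ i j = heisE (mottJ W t w0) φ := by
  rw [sum_pairs (fun i j => t i j ^ 2 / (w0 - W i j) * sw φ i j)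
    (fun i j => by rw [hW i j, ht i j, sw_symm])]
  simp only [ht0]
  rw [heisE_eq]
  unfold mottJ
  simp only [mul_sum]
  simp only [ne_eq, OfNat.ofNat_ne_zero, not_false_eq_true, zero_pow, zero_div, zero_mul, sum_const_zero, zero_add]
  refine sum_congr rfl fun i _ => sum_congr rfl fun j _ => by ring

theorem en0_split {h W t : Fin K → Fin K → ℝ} {v : Fin K → Fin K → Fin K → Fin K → ℝ}
    {ε0 w0 w1 u τ δ : ℝ} (H : MottHyp K h W t v ε0 w0 w1 u τ δ) (C : Fam K) :
    en0 W t ε0 C = mottBase W ε0 * ∑ ρ, spinNsq (C ρ) +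
      ∑ ρ, (ws W ρ - ws W id) * spinNsq (bq C ρ) + 2 * ∑ ρ, rp (bq C ρ) (hop t (bp C) ρ) +
      ∑ ρ, rp (bq C ρ) (hop t (bq C) ρ) := by
  have h1 : ∑ ρ, (ws W ρ + K * ε0) * spinNsq (C ρ) = mottBase W ε0 * ∑ ρ, spinNsq (C ρ) +
      ∑ ρ, (ws W ρ - ws W id) * spinNsq (bq C ρ) := by
    rw [mul_sum, ← sum_add_distrib]
    refine sum_congr rfl fun ρ _ => ?_
    have h2 : mottBase W ε0 = ws W id + K * ε0 := by
      unfold mottBase ws
      simp only [id]
      ring
    rw [h2]
    by_cases hρ : Function.Bijective ρ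
    · rw [ws_bij H.W_symm H.W_diag H.W_row hρ]
      ring
    · have : bq C ρ = C ρ := if_neg hρ
      rw [this]
      ring
  have h3 : ∑ ρ, rp (C ρ) (hop t C ρ) = 2 * ∑ ρ, rp (bq C ρ) (hop t (bp C) ρ) +
      ∑ ρ, rp (bq C ρ) (hop t (bq C) ρ) := by
    have h4 : ∀ ρ, rp (C ρ) (hop t C ρ) = rp (bp C ρ) (hop t (bp C) ρ) +
        rp (bp C ρ) (hop t (bq C) ρ) + (rp (bq C ρ) (hop t (bp C) ρ) +
        rp (bq C ρ) (hop t (bq C) ρ)) := by
      intro ρ
      conv_lhs => rw [← bp_add_bq C]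
      rw [hop_add, Pi.add_apply, Pi.add_apply, rp_add_left, rp_add_right, rp_add_right]
    have h5 : ∑ ρ, rp (bp C ρ) (hop t (bp C) ρ) = 0 := by
      refine sum_eq_zero fun ρ _ => ?_
      by_cases hρ : Function.Bijective ρ
      · rw [hop_bp_bij t H.t_diag C hρ]
        simp [rp]
      · rw [bp_zero hρ]
        simp only [rp, Pi.zero_apply, map_zero, zero_mul, Complex.zero_re, sum_const_zero]
    simp only [h4, sum_add_distrib]
    rw [h5, hop_symm H.t_symm (bp C) (bq C)]
    ring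
  unfold en0
  rw [h1, h3]
  ring

end Mott

end Vale.Agent.P370.Q
end

section

/-!
Correctness of the calibration: elementary facts on the parameters and the binary search.
-/

namespace Vale.Agent.P370.Q.Alg

open Finset

/-! ### parameters -/

theorem an_ge (k : ℕ) (hk : 1 ≤ k) : 100000 * k ≤ an k := by
  have h1 : k ≤ 2 ^ k := Nat.lt_two_pow_self.le
  have h2 : an k = 2 ^ k * 2 ^ (2047 * k) := by rw [an, ← pow_add]; congr 1; ring
  have h3 : 2 ^ 17 ≤ 2 ^ (2047 * k) := Nat.pow_le_pow_right (by norm_num) (by (clear * - hk; omega))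
  rw [h2, mul_comm]
  exact Nat.mul_le_mul h1 (le_trans (by (clear * -; norm_num)) h3)

theorem an_cube_ge (k : ℕ) (hk : 1 ≤ k) : 100000 * k ≤ an k ^ 3 := by
  refine (an_ge k hk).trans ?_
  exact Nat.le_self_pow (by norm_num) _

theorem TJ_eq (k : ℕ) (hk : 1 ≤ k) : (pT k : ℝ) * pJ k = (aJ1 k : ℝ) := by
  have h0 := an_cube_ge k hk
  have h1 : (pn k : ℝ) = 2 ^ (2048 * k) := by unfold pn; push_cast; rfl
  have h2 : (pK k : ℝ) = 2 ^ k := by unfold pK; push_cast; rfl
  have h3 : (pT k : ℝ) = 2 ^ (2000 * an k ^ 3) := by unfold pT; push_cast; rfl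
  have h4 : (aJ1 k : ℝ) = 2 ^ (2000 * an k ^ 3 - 4352 * k) := by unfold aJ1; push_cast; rfl
  rw [h3, pJ, h1, h2, h4]
  have h5 : (2 : ℝ) ^ (2000 * an k ^ 3) = 2 ^ (2000 * an k ^ 3 - 4352 * k) * 2 ^ (4352 * k) := by
    rw [← pow_add]; congr 1; omega
  have h6 : ((2 : ℝ) ^ (2048 * k)) ^ 2 * ((2 : ℝ) ^ k) ^ 256 = 2 ^ (4352 * k) := by
    rw [← pow_mul, ← pow_mul, ← pow_add]; congr 1; ring
  rw [h6, h5]
  field_simp

theorem TJ_big (k : ℕ) (hk : 1 ≤ k) : 1024 * (pK k : ℝ) ^ 9 ≤ (pT k : ℝ) * pJ k := by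
  rw [TJ_eq k hk]
  have h0 := an_cube_ge k hk
  have h2 : (pK k : ℝ) = 2 ^ k := by unfold pK; push_cast; rfl
  have h4 : (aJ1 k : ℝ) = 2 ^ (2000 * an k ^ 3 - 4352 * k) := by unfold aJ1; push_cast; rfl
  rw [h2, h4, ← pow_mul]
  calc (1024 : ℝ) * 2 ^ (k * 9) = 2 ^ (10 + k * 9) := by rw [pow_add]; norm_num
    _ ≤ _ := pow_le_pow_right₀ (by norm_num) (by omega)

theorem offs_eq (k : ℕ) (hk : 1 ≤ k) (w : List Bool) :
    (offs k w : ℝ) = (2 * ((mSum w : ℝ) + hA w) - 1) * ((pT k : ℝ) * pJ k) / (4 * pK k) := by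
  have h0 := an_cube_ge k hk
  have h2 : (pK k : ℝ) = 2 ^ k := by unfold pK; push_cast; rfl
  have h4 : (aJ1 k : ℝ) = 2 ^ (2000 * an k ^ 3 - 4352 * k) := by unfold aJ1; push_cast; rfl
  rw [TJ_eq k hk, h4, h2, offs]
  push_cast
  have h5 : (2 : ℝ) ^ (2000 * an k ^ 3 - 4352 * k) =
      2 ^ (2000 * an k ^ 3 - 4353 * k - 2) * (4 * 2 ^ k) := by
    rw [show (4 : ℝ) = 2 ^ 2 by norm_num, ← pow_add, ← pow_add]; congr 1; omega
  rw [h5]
  (clear * -; field_simp)

theorem pJ_pos (k : ℕ) : 0 < pJ k := by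
  unfold pJ pn pK; positivity

theorem pK_real_ge (k : ℕ) (hk : 10 ≤ k) : (1024 : ℝ) ≤ (pK k : ℝ) := by
  have : (1024 : ℕ) ≤ pK k := by
    unfold pK
    calc 1024 = 2 ^ 10 := by norm_num
      _ ≤ 2 ^ k := Nat.pow_le_pow_right (by norm_num) hk
  exact_mod_cast this

/-- `2^-n` is tiny compared with `pJ` -/
theorem pJ_big (k : ℕ) (hk : 1 ≤ k) : 4096 * (pK k : ℝ) ^ 12 / 2 ^ pn k ≤ pJ k := by
  have h0 := an_ge k hk
  have h1 : (pn k : ℝ) = 2 ^ (2048 * k) := by unfold pn; push_cast; rfl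
  have h2 : (pK k : ℝ) = 2 ^ k := by unfold pK; push_cast; rfl
  have h6 : ((2 : ℝ) ^ (2048 * k)) ^ 2 * ((2 : ℝ) ^ k) ^ 256 = 2 ^ (4352 * k) := by
    rw [← pow_mul, ← pow_mul, ← pow_add]; congr 1; ring
  rw [pJ, h1, h2, h6, div_le_div_iff₀ (by positivity) (by positivity), one_mul, ← pow_mul,
    show (4096 : ℝ) = 2 ^ 12 by norm_num, ← pow_add, ← pow_add]
  have h3 : pn k = an k := rfl
  exact pow_le_pow_right₀ (by norm_num) (by rw [h3]; omega)

/-! ### binary search -/

theorem lo_nil (B : ℕ) : lo B [] = -2 ^ (B - 1) := by simp only [lo, List.getD_eq_getElem?_getD, List.length_nil, not_lt_zero, not_false_eq_true, getElem?_neg, Option.getD_none, cond_false, List.range_zero, List.map_nil, List.sum_nil, add_zero]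

theorem lo_take_succ (B : ℕ) (ans : List Bool) (t : ℕ) (ht : t < ans.length) :
    lo B (ans.take (t + 1)) =
      lo B (ans.take t) + (bif ans.getD t false then (0 : ℤ) else 2 ^ (B - 1 - t)) := by
  have h1 : (ans.take (t + 1)).length = t + 1 := by simp only [List.length_take, inf_eq_left, Order.add_one_le_iff]; omega
  have h2 : (ans.take t).length = t := by simp only [List.length_take, inf_eq_left]; omega
  rw [lo, lo, h1, h2, List.range_succ, List.map_append, List.sum_append, ← add_assoc]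
  congr 1
  · congr 2
    refine List.map_congr_left fun i hi => ?_
    have hi' := List.mem_range.1 hi
    have e1 : (ans.take (t + 1)).getD i false = ans.getD i false := by
      rw [List.getD_eq_getElem?_getD, List.getD_eq_getElem?_getD, List.getElem?_take_of_lt]
      omega
    have e2 : (ans.take t).getD i false = ans.getD i false := by
      rw [List.getD_eq_getElem?_getD, List.getD_eq_getElem?_getD, List.getElem?_take_of_lt]
      omega
    rw [e1, e2]
  · have e1 : (ans.take (t + 1)).getD t false = ans.getD t false := by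
      rw [List.getD_eq_getElem?_getD, List.getD_eq_getElem?_getD, List.getElem?_take_of_lt]
      omega
    simp only [List.getD_eq_getElem?_getD, List.map_cons, lt_add_iff_pos_right, Order.lt_one_iff, List.getElem?_take_of_lt, List.map_nil, List.sum_cons, List.sum_nil, add_zero]

theorem bs_inv (B : ℕ) (ans : List Bool) (E : ℝ) (hE1 : -(2 : ℝ) ^ (B - 1) ≤ E)
    (hE2 : E ≤ (2 : ℝ) ^ (B - 1)) (hB : 1 ≤ B)
    (h : ∀ t, t < B → t < ans.length →
      (E ≤ ((lo B (ans.take t) + 2 ^ (B - 1 - t) : ℤ) : ℝ) → ans.getD t false = true) ∧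
      (((lo B (ans.take t) + 2 ^ (B - 1 - t) : ℤ) : ℝ) + 1 ≤ E → ans.getD t false = false)) :
    ∀ t, t ≤ B → t ≤ ans.length → ((lo B (ans.take t) : ℤ) : ℝ) ≤ E ∧
      E ≤ ((lo B (ans.take t) : ℤ) : ℝ) + 2 ^ (B - t) + 1 := by
  intro t
  induction t with
  | zero =>
    intro _ _
    rw [List.take_zero, lo_nil]
    push_cast
    refine ⟨hE1, ?_⟩
    have h1 : (2 : ℝ) ^ (B - 0) = 2 ^ (B - 1) + 2 ^ (B - 1) := by
      rw [Nat.sub_zero]
      obtain ⟨b, rfl⟩ : ∃ b, B = b + 1 := ⟨B - 1, by omega⟩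
      rw [Nat.add_sub_cancel, pow_succ]; ring
    rw [h1]
    linarith only [hE2]
  | succ t ih =>
    intro h1 h2
    obtain ⟨i1, i2⟩ := ih (by omega) (by omega)
    obtain ⟨j1, j2⟩ := h t (by omega) (by omega)
    rw [lo_take_succ B ans t (by omega)]
    have h3 : (2 : ℝ) ^ (B - t) = 2 ^ (B - (t + 1)) + 2 ^ (B - (t + 1)) := by
      obtain ⟨b, hb⟩ : ∃ b, B - t = b + 1 := ⟨B - t - 1, by omega⟩
      have : B - (t + 1) = b := by omega
      rw [hb, this, pow_succ]; ring
    have h4 : B - 1 - t = B - (t + 1) := by omega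
    rw [h4] at j1 j2
    rcases e : ans.getD t false with _ | _
    · simp only [cond_false]
      rw [h4]
      have : ¬ (E ≤ ((lo B (ans.take t) + 2 ^ (B - (t + 1)) : ℤ) : ℝ)) := fun hh => by
        have := j1 hh
        rw [e] at this
        exact absurd this (by simp)
      push_cast at this ⊢
      rw [not_le] at this
      constructor <;> linarith only [i2, h3, this]
    · simp only [cond_true, add_zero]
      have : ¬ (((lo B (ans.take t) + 2 ^ (B - (t + 1)) : ℤ) : ℝ) + 1 ≤ E) := fun hh => by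
        have := j2 hh
        rw [e] at this
        exact absurd this (by simp)
      push_cast at this ⊢
      rw [not_le] at this
      constructor <;> linarith only [i1, this]

end Vale.Agent.P370.Q.Alg
end
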