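import Vale.Agent.P370.MathlibUsed
import Vale.Agent.P370.Defs
import Vale.Agent.P370.QMADef

set_option linter.all false

section

/-!
Interface file for part B (mirror-dipole geometry, all lengths natural numbers).
`n` parallel horizontal chains (one per vertex; site `(i, m)` at `((2 m + 1) g, K (i + 1))`) and
`n ^ 2` single cells (one per ordered pair `e` of vertices, at `(2 g Kx (e + 1), 0)`).
Every site is a mirror pair of nuclei at heights `± hgt` over the plane.
-/

namespace Vale.Agent.P370.Chains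

def cg (B : ℕ) : ℕ := B ^ 200
def cK (B : ℕ) : ℕ := B ^ 236
def cH (B : ℕ) : ℕ := B ^ 2
def cV (B : ℕ) : ℕ := B ^ 70
def Kx (B : ℕ) : ℕ := B ^ 61
/-- number of sites of a chain -/
def CL (n B : ℕ) : ℕ := Kx B * (n ^ 2 + 2)

abbrev Site (n B : ℕ) : Type := (Fin n × Fin (CL n B)) ⊕ Fin (n ^ 2)

def px {n B : ℕ} : Site n B → ℕ
  | Sum.inl (_, m) => (2 * m.val + 1) * cg B
  | Sum.inr e => 2 * cg B * (Kx B * (e.val + 1))

def py {n B : ℕ} : Site n B → ℕ
  | Sum.inl (i, _) => cK B * (i.val + 1)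
  | Sum.inr _ => 0

/-- mirror height; `A i e = 1` (resp. `-1`): the site of chain `i` immediately to the right (resp.
left) of the abscissa of cell `e` is higher by `(i + 1) ^ 3`. -/
def hgt {n B : ℕ} (A : Fin n → Fin (n ^ 2) → ℤ) : Site n B → ℕ
  | Sum.inl (i, m) => cH B + (i.val + 1) ^ 3 *
      ∑ e, ((if A i e = 1 ∧ m.val = Kx B * (e.val + 1) then 1 else 0) +
        (if A i e = -1 ∧ m.val + 1 = Kx B * (e.val + 1) then 1 else 0))
  | Sum.inr _ => cV B

/-- reference pattern: alternating along every chain, `1` on the cells -/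
def sg {n B : ℕ} : Site n B → ℝ
  | Sum.inl (_, m) => (-1) ^ m.val
  | Sum.inr _ => 1

theorem hgt_inl {n B : ℕ} (A : Fin n → Fin (n ^ 2) → ℤ) (i : Fin n) (m : Fin (CL n B)) :
    hgt A (Sum.inl (i, m) : Site n B) = cH B + (i.val + 1) ^ 3 *
      ∑ e, ((if A i e = 1 ∧ m.val = Kx B * (e.val + 1) then 1 else 0) +
        (if A i e = -1 ∧ m.val + 1 = Kx B * (e.val + 1) then 1 else 0)) := rfl

theorem px_inl {n B : ℕ} (i : Fin n) (m : Fin (CL n B)) :
    px (Sum.inl (i, m) : Site n B) = (2 * m.val + 1) * cg B := rfl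

theorem px_inr {n B : ℕ} (e : Fin (n ^ 2)) :
    px (Sum.inr e : Site n B) = 2 * cg B * (Kx B * (e.val + 1)) := rfl

theorem py_inl {n B : ℕ} (i : Fin n) (m : Fin (CL n B)) :
    py (Sum.inl (i, m) : Site n B) = cK B * (i.val + 1) := rfl

theorem py_inr {n B : ℕ} (e : Fin (n ^ 2)) : py (Sum.inr e : Site n B) = 0 := rfl

theorem sg_inl {n B : ℕ} (i : Fin n) (m : Fin (CL n B)) :
    sg (Sum.inl (i, m) : Site n B) = (-1) ^ m.val := rfl

theorem sg_inr {n B : ℕ} (e : Fin (n ^ 2)) : sg (Sum.inr e : Site n B) = 1 := rfl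

/-- half the difference of the two mirror interactions -/
noncomputable def J {n B : ℕ} (A : Fin n → Fin (n ^ 2) → ℤ) (a b : Site n B) : ℝ :=
  if a = b then 0 else
    (1 / 2) * (1 / √(((px a : ℝ) - px b) ^ 2 + ((py a : ℝ) - py b) ^ 2 +
        ((hgt A a : ℝ) - hgt A b) ^ 2) -
      1 / √(((px a : ℝ) - px b) ^ 2 + ((py a : ℝ) - py b) ^ 2 +
        ((hgt A a : ℝ) + hgt A b) ^ 2))

noncomputable def isingE {n B : ℕ} (A : Fin n → Fin (n ^ 2) → ℤ) (s : Site n B → ℝ) : ℝ :=
  (1 / 2) * ∑ a, ∑ b, J A a b * s a * s b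

/-- the effective coupling `cV B / (cK B) ^ 3` of an active crossing -/
noncomputable def Jst (B : ℕ) : ℝ := 1 / (B : ℝ) ^ 638

structure Good (n B : ℕ) (A : Fin n → Fin (n ^ 2) → ℤ) : Prop where
  even : Even B
  big : 2 ^ 20 ≤ B
  nB : (n + 2) ^ 4 ≤ B
  vals : ∀ i e, A i e = 0 ∨ A i e = 1 ∨ A i e = -1
  cols : ∀ e, ∑ i, A i e = 0

end Vale.Agent.P370.Chains
end

section

namespace Vale.Agent.P370.Chains

open Finset

/-- wire of a site (a single cell is its own wire) -/
def wire {n B : ℕ} : Site n B → Fin n ⊕ Fin (n ^ 2)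
  | Sum.inl (i, _) => Sum.inl i
  | Sum.inr e => Sum.inr e

theorem wire_inl {n B : ℕ} (i : Fin n) (m : Fin (CL n B)) :
    wire (Sum.inl (i, m) : Site n B) = Sum.inl i := rfl

theorem wire_inr {n B : ℕ} (e : Fin (n ^ 2)) : wire (Sum.inr e : Site n B) = Sum.inr e := rfl

/-- mirror-dipole interaction at squared planar distance `x` -/
noncomputable def FF (x h h' : ℝ) : ℝ :=
  (1 / 2) * (1 / √(x + (h - h') ^ 2) - 1 / √(x + (h + h') ^ 2))

theorem FF_comm (x h h' : ℝ) : FF x h h' = FF x h' h := by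
  unfold FF
  have h1 : (h - h') ^ 2 = (h' - h) ^ 2 := by ring
  have h2 : (h + h') ^ 2 = (h' + h) ^ 2 := by ring
  rw [h1, h2]

theorem inv_sqrt_sub {x y : ℝ} (hx : 0 < x) (hy : 0 < y) :
    1 / √x - 1 / √y = (y - x) / (√x * √y * (√x + √y)) := by
  have h1 : 0 < √x := Real.sqrt_pos.mpr hx
  have h2 : 0 < √y := Real.sqrt_pos.mpr hy
  rw [eq_div_iff (by (clear * - hx hy; positivity))]
  have h3 : √x * √x = x := Real.mul_self_sqrt hx.le
  have h4 : √y * √y = y := Real.mul_self_sqrt hy.le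
  field_simp
  linarith only [h3, h4]

theorem FF_eq {x h h' : ℝ} (hx : 0 < x) :
    FF x h h' = 2 * h * h' / (√(x + (h - h') ^ 2) * √(x + (h + h') ^ 2) *
      (√(x + (h - h') ^ 2) + √(x + (h + h') ^ 2))) := by
  unfold FF
  rw [inv_sqrt_sub (by (clear * - hx; positivity)) (by positivity)]
  ring

theorem FF_nonneg {x h h' : ℝ} (hx : 0 < x) (hh : 0 ≤ h) (hh' : 0 ≤ h') : 0 ≤ FF x h h' := by
  rw [FF_eq hx]
  (clear * - hh hh' hx; positivity)

/-- upper bound in terms of any lower bound `R` of the planar distance -/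
theorem FF_le {x h h' R : ℝ} (hR : 0 < R) (hx : R ^ 2 ≤ x) (hh : 0 ≤ h) (hh' : 0 ≤ h') :
    FF x h h' ≤ h * h' / (x * R) := by
  have hx0 : 0 < x := lt_of_lt_of_le (by (clear * - hR; positivity)) hx
  rw [FF_eq hx0]
  have h1 : R ≤ √(x + (h - h') ^ 2) :=
    Real.le_sqrt_of_sq_le (by linarith only [hx, sq_nonneg (h - h')])
  have h2 : √(x + (h - h') ^ 2) ≤ √(x + (h + h') ^ 2) :=
    Real.sqrt_le_sqrt (by linarith only [mul_nonneg_of_nonpos_of_nonpos (Mathlib.Tactic.Linarith.sub_nonpos_of_le hh) (Mathlib.Tactic.Linarith.sub_nonpos_of_le hh')])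
  have h3 : x ≤ √(x + (h - h') ^ 2) * √(x + (h - h') ^ 2) := by
    rw [Real.mul_self_sqrt (by (clear * - hx0; positivity))]
    linarith only [sq_nonneg (h - h')]
  set a := √(x + (h - h') ^ 2)
  set b := √(x + (h + h') ^ 2)
  have ha : 0 < a := lt_of_lt_of_le hR h1
  have hb : 0 < b := lt_of_lt_of_le ha h2
  rw [div_le_div_iff₀ (by (clear * - hx0; positivity)) (by positivity)]
  have h4 : 2 * (x * R) ≤ a * b * (a + b) := by
    have e1 : x ≤ a * b := h3.trans (mul_le_mul_of_nonneg_left h2 ha.le)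
    have e2 : 2 * R ≤ a + b := by linarith only [h1, h2]
    calc 2 * (x * R) = x * (2 * R) := by ring
      _ ≤ (a * b) * (a + b) := mul_le_mul e1 e2 (by positivity) (by (clear * - hx0; positivity))
  calc 2 * h * h' * (x * R) = h * h' * (2 * (x * R)) := by ring
    _ ≤ h * h' * (a * b * (a + b)) := mul_le_mul_of_nonneg_left h4 (by (clear * - hh hh'; positivity))

theorem FF_le_cube {x h h' R : ℝ} (hR : 0 < R) (hx : R ^ 2 ≤ x) (hh : 0 ≤ h) (hh' : 0 ≤ h') :
    FF x h h' ≤ h * h' / R ^ 3 := by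
  refine (FF_le hR hx hh hh').trans ?_
  have : R ^ 3 ≤ x * R := by nlinarith only [hR, hx]
  exact div_le_div_of_nonneg_left (by positivity) (by positivity) this

theorem le_FF {x h h' S : ℝ} (hx : 0 < x) (hS : 0 < S) (hxS : x + (h + h') ^ 2 ≤ S ^ 2)
    (hh : 0 ≤ h) (hh' : 0 ≤ h') :
    h * h' / S ^ 3 ≤ FF x h h' := by
  rw [FF_eq hx]
  have h1 : √(x + (h + h') ^ 2) ≤ S := Real.sqrt_le_iff.mpr ⟨hS.le, hxS⟩
  have h2 : √(x + (h - h') ^ 2) ≤ √(x + (h + h') ^ 2) :=
    Real.sqrt_le_sqrt (by linarith only [mul_nonneg_of_nonpos_of_nonpos (Mathlib.Tactic.Linarith.sub_nonpos_of_le hh) (Mathlib.Tactic.Linarith.sub_nonpos_of_le hh')])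
  have h0 : 0 < √(x + (h - h') ^ 2) := Real.sqrt_pos.mpr (by (clear * - hx; positivity))
  set a := √(x + (h - h') ^ 2)
  set b := √(x + (h + h') ^ 2)
  have hb : 0 < b := lt_of_lt_of_le h0 h2
  rw [div_le_div_iff₀ (by positivity) (by (clear * - hx; positivity))]
  have h4 : a * b * (a + b) ≤ 2 * S ^ 3 := by
    have e1 : a ≤ S := h2.trans h1
    calc a * b * (a + b) ≤ S * S * (S + S) := by (clear * - e1 h1 hx hS; gcongr)
      _ = 2 * S ^ 3 := by ring
  calc h * h' * (a * b * (a + b)) ≤ h * h' * (2 * S ^ 3) :=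
        mul_le_mul_of_nonneg_left h4 (by (clear * - hh hh'; positivity))
    _ = 2 * h * h' * S ^ 3 := by ring

/-! ### elementary sums -/

theorem inv_cube_le (d : ℕ) (hd : 2 ≤ d) :
    1 / (d : ℝ) ^ 3 ≤ (1 / 2) * (1 / (((d : ℝ) - 1) * d) - 1 / ((d : ℝ) * (d + 1))) := by
  have h1 : (2 : ℝ) ≤ d := by exact_mod_cast hd
  have h2 : (0 : ℝ) < (d : ℝ) - 1 := by linarith only [h1]
  have h3 : (0 : ℝ) < d := by linarith only [h1]
  have : (1 / 2 : ℝ) * (1 / (((d : ℝ) - 1) * d) - 1 / ((d : ℝ) * (d + 1))) =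
      1 / (((d : ℝ) - 1) * d * (d + 1)) := by
    field_simp
    ring
  rw [this]
  apply one_div_le_one_div_of_le (by positivity)
  linarith only []

/-- `∑_{d = a}^{a+k-1} 1/d^3 ≤ 1/(2 (a-1) a)` -/
theorem sum_inv_cube_le (a : ℕ) (ha : 2 ≤ a) (k : ℕ) :
    ∑ j ∈ range k, 1 / ((a + j : ℕ) : ℝ) ^ 3 ≤ 1 / (2 * (((a : ℝ) - 1) * a)) := by
  have key : ∀ k, ∑ j ∈ range k, 1 / ((a + j : ℕ) : ℝ) ^ 3 ≤
      (1 / 2) * (1 / (((a : ℝ) - 1) * a) - 1 / (((a + k : ℕ) : ℝ) - 1) / ((a + k : ℕ) : ℝ)) := by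
    intro k
    induction k with
    | zero => simp only [range_zero, Nat.cast_add, div_eq_mul_inv, mul_comm, mul_one, sum_empty, one_mul, mul_inv_rev, add_zero, sub_self, zero_mul, Std.le_refl]
    | succ k ih =>
      rw [sum_range_succ]
      have h1 := inv_cube_le (a + k) (by omega)
      have e1 : (((a + (k + 1) : ℕ) : ℝ) - 1) = ((a + k : ℕ) : ℝ) := by push_cast; ring
      have e2 : (((a + (k + 1) : ℕ) : ℝ)) = ((a + k : ℕ) : ℝ) + 1 := by push_cast; ring
      rw [e1, e2]
      have e3 : 1 / (((a + k : ℕ) : ℝ) - 1) / ((a + k : ℕ) : ℝ) =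
          1 / ((((a + k : ℕ) : ℝ) - 1) * ((a + k : ℕ) : ℝ)) := by rw [div_div]
      have e4 : 1 / ((a + k : ℕ) : ℝ) / (((a + k : ℕ) : ℝ) + 1) =
          1 / (((a + k : ℕ) : ℝ) * (((a + k : ℕ) : ℝ) + 1)) := by rw [div_div]
      rw [e3] at ih
      rw [e4]
      linarith only [ih, h1]
  refine (key k).trans ?_
  have h1 : (2 : ℝ) ≤ a := by exact_mod_cast ha
  have h2 : (0 : ℝ) ≤ 1 / (((a + k : ℕ) : ℝ) - 1) / ((a + k : ℕ) : ℝ) := by
    have : (0 : ℝ) ≤ ((a + k : ℕ) : ℝ) - 1 := by push_cast; linarith only [h1]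
    positivity
  have h3 : 1 / (2 * (((a : ℝ) - 1) * a)) = (1 / 2) * (1 / (((a : ℝ) - 1) * a)) := by
    rw [one_div_mul_one_div]
  rw [h3]
  linarith only [h2]

theorem sum_tele (p : ℕ) : ∑ j ∈ range p, 1 / (2 * (((j : ℝ) + 1) * ((j : ℝ) + 2))) ≤ 1 / 2 := by
  have key : ∀ p : ℕ, ∑ j ∈ range p, 1 / (2 * (((j : ℝ) + 1) * ((j : ℝ) + 2))) =
      (1 / 2) * (1 - 1 / ((p : ℝ) + 1)) := by
    intro p
    induction p with
    | zero => simp only [range_zero, one_div, mul_inv_rev, sum_empty, CharP.cast_eq_zero, zero_add, ne_eq, one_ne_zero, not_false_eq_true, div_self, sub_self, mul_zero]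
    | succ p ih =>
      rw [sum_range_succ, ih]
      push_cast
      have h1 : (p : ℝ) + 1 ≠ 0 := by positivity
      have h2 : (p : ℝ) + 2 ≠ 0 := by positivity
      have h3 : (p : ℝ) + 1 + 1 ≠ 0 := by positivity
      field_simp
      ring
  rw [key]
  have : (0 : ℝ) ≤ 1 / ((p : ℝ) + 1) := by positivity
  linarith only [this]

/-- pairs at distance at least two straddling the cut between `p` and `p + 1` -/
theorem straddle_sum (p L : ℕ) :
    ∑ m ∈ range (p + 1), ∑ m' ∈ Ico (p + 1) L,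
      (if m + 2 ≤ m' then 1 / ((m' : ℝ) - m) ^ 3 else 0) ≤ 3 / 4 := by
  have hinner : ∀ a m : ℕ, 2 ≤ a → ∀ lo : ℕ, lo = m + a →
      ∑ m' ∈ Ico lo L, 1 / ((m' : ℝ) - m) ^ 3 ≤ 1 / (2 * (((a : ℝ) - 1) * a)) := by
    intro a m ha lo hlo
    rw [sum_Ico_eq_sum_range]
    refine le_trans (le_of_eq ?_) (sum_inv_cube_le a ha (L - lo))
    refine sum_congr rfl (fun j _ => ?_)
    congr 2
    rw [hlo]
    push_cast
    ring
  rw [sum_range_succ]
  have h1 : ∑ m' ∈ Ico (p + 1) L, (if p + 2 ≤ m' then 1 / ((m' : ℝ) - p) ^ 3 else 0) ≤ 1 / 4 := by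
    calc ∑ m' ∈ Ico (p + 1) L, (if p + 2 ≤ m' then 1 / ((m' : ℝ) - p) ^ 3 else 0)
        = ∑ m' ∈ (Ico (p + 1) L).filter (fun m' => p + 2 ≤ m'), 1 / ((m' : ℝ) - p) ^ 3 := by
          rw [sum_filter]
      _ = ∑ m' ∈ Ico (p + 2) L, 1 / ((m' : ℝ) - p) ^ 3 := by
          congr 1
          ext m'
          simp only [mem_filter, mem_Ico]
          omega
      _ ≤ 1 / (2 * (((2 : ℕ) : ℝ) - 1) * (2 : ℕ)) := by
          have := hinner 2 p le_rfl (p + 2) rfl
          refine this.trans (le_of_eq ?_)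
          norm_num
      _ = 1 / 4 := by norm_num
  have h2 : ∑ m ∈ range p, ∑ m' ∈ Ico (p + 1) L,
      (if m + 2 ≤ m' then 1 / ((m' : ℝ) - m) ^ 3 else 0) ≤ 1 / 2 := by
    have h3 : ∀ m ∈ range p, ∑ m' ∈ Ico (p + 1) L,
        (if m + 2 ≤ m' then 1 / ((m' : ℝ) - m) ^ 3 else 0) ≤
        1 / (2 * ((((p - 1 - m : ℕ) : ℝ) + 1) * (((p - 1 - m : ℕ) : ℝ) + 2))) := by
      intro m hm
      rw [mem_range] at hm
      calc ∑ m' ∈ Ico (p + 1) L, (if m + 2 ≤ m' then 1 / ((m' : ℝ) - m) ^ 3 else 0)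
          = ∑ m' ∈ Ico (p + 1) L, 1 / ((m' : ℝ) - m) ^ 3 := by
            refine sum_congr rfl (fun m' hm' => ?_)
            rw [mem_Ico] at hm'
            rw [if_pos (by omega)]
        _ ≤ 1 / (2 * ((((p + 1 - m : ℕ) : ℝ) - 1) * ((p + 1 - m : ℕ) : ℝ))) :=
            hinner (p + 1 - m) m (by omega) (p + 1) (by omega)
        _ = _ := by
            have e1 : (((p + 1 - m : ℕ) : ℝ) - 1) = ((p - 1 - m : ℕ) : ℝ) + 1 := by
              have : p + 1 - m = (p - 1 - m) + 2 := by omega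
              rw [this]; push_cast; ring
            have e2 : (((p + 1 - m : ℕ) : ℝ)) = ((p - 1 - m : ℕ) : ℝ) + 2 := by
              have : p + 1 - m = (p - 1 - m) + 2 := by omega
              rw [this]; push_cast; ring
            rw [e1, e2]
    refine (sum_le_sum h3).trans ?_
    have h4 := sum_range_reflect (fun j : ℕ => (1 : ℝ) / (2 * (((j : ℝ) + 1) * ((j : ℝ) + 2)))) p
    rw [h4]
    exact sum_tele p
  linarith

/-- decay sum: `∑_{k} 1/(a k + K)^2 ≤ 1/K^2 + 1/(a K)` -/
theorem decay_sum {a K : ℝ} (ha : 0 < a) (hK : 0 < K) (N : ℕ) :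
    ∑ k ∈ range N, 1 / (a * k + K) ^ 2 ≤ 1 / K ^ 2 + 1 / (a * K) := by
  have key : ∀ N : ℕ, ∑ k ∈ range (N + 1), 1 / (a * k + K) ^ 2 ≤
      1 / K ^ 2 + 1 / (a * K) - 1 / (a * (a * N + K)) := by
    intro N
    induction N with
    | zero => simp only [zero_add, range_one, one_div, sum_singleton, CharP.cast_eq_zero, mul_zero, mul_inv_rev, add_sub_cancel_right, Std.le_refl]
    | succ N ih =>
      rw [sum_range_succ]
      have hp : 0 < a * (N : ℝ) + K := by positivity
      have hq : a * ((N + 1 : ℕ) : ℝ) + K = (a * (N : ℝ) + K) + a := by push_cast; ring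
      rw [hq]
      set y := a * (N : ℝ) + K
      have h1 : 1 / (y + a) ^ 2 ≤ 1 / (a * y) - 1 / (a * (y + a)) := by
        have e : 1 / (a * y) - 1 / (a * (y + a)) = 1 / (y * (y + a)) := by
          field_simp
          ring
        rw [e]
        apply one_div_le_one_div_of_le (by positivity)
        nlinarith only [ha, hp]
      linarith only [ih, h1]
  rcases N with _ | N
  · simp only [range_zero, sum_empty]; positivity
  · refine (key N).trans ?_
    have : (0 : ℝ) ≤ 1 / (a * (a * N + K)) := by positivity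
    (clear * - this; linarith)

end Vale.Agent.P370.Chains
end

section

/-!
The reduction: from a graph code `w` to an instance of the electronic structure problem.
`j` is a constant.
-/

namespace Vale.Agent.P370.Red

open Chains

/-- number of chains: one dummy vertex is added -/
def nn (w : List Bool) : ℕ := gN w + 1

def BB (j : ℕ) (w : List Bool) : ℕ := 2 * (w.length + j) ^ 4

def adjN (w : List Bool) (e : ℕ) : ℕ := if gAdj w (e / nn w) (e % nn w) = true then 1 else 0

/-- number of chain sites -/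
def NC (n B : ℕ) : ℕ := n * CL n B

/-- number of sites -/
def NT (n B : ℕ) : ℕ := NC n B + n ^ 2

def fX (n B t : ℕ) : ℕ :=
  if t < NC n B then (2 * (t % CL n B) + 1) * cg B else 2 * cg B * (Kx B * (t - NC n B + 1))

def fY (n B t : ℕ) : ℕ := if t < NC n B then cK B * (t / CL n B + 1) else 0

def fH (w : List Bool) (n B t : ℕ) : ℕ :=
  if t < NC n B then cH B + (t / CL n B + 1) ^ 3 *
    ∑ e ∈ Finset.range (n ^ 2), adjN w e *
      ((if t / CL n B = e / n then (if t % CL n B = Kx B * (e + 1) then 1 else 0) else 0) +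
       (if t / CL n B = e % n then (if t % CL n B + 1 = Kx B * (e + 1) then 1 else 0) else 0))
  else cV B

def fP (n B t : ℕ) : ℕ := if t < NC n B then (t % CL n B) % 2 else 0

def sq2 (a b : ℕ) : ℕ := (a - b) ^ 2 + (b - a) ^ 2

def dP (w : List Bool) (n B t t' : ℕ) : ℕ :=
  sq2 (fX n B t) (fX n B t') + sq2 (fY n B t) (fY n B t') + sq2 (fH w n B t) (fH w n B t')

def dM (w : List Bool) (n B t t' : ℕ) : ℕ :=
  sq2 (fX n B t) (fX n B t') + sq2 (fY n B t) (fY n B t') + (fH w n B t + fH w n B t') ^ 2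

def cQ (B : ℕ) : ℕ := B ^ 800
def cl (B : ℕ) : ℕ := B ^ 2300
def cD (B : ℕ) : ℕ := 2 * cl B * cQ B
def cJ (B : ℕ) : ℕ := B ^ 162

/-- `⌊Q / √m⌋` up to one unit -/
def isq (Q m : ℕ) : ℕ := Nat.sqrt (Q ^ 2 / m)

def Asum (w : List Bool) (n B : ℕ) : ℕ :=
  ∑ t ∈ Finset.range (NT n B), (isq (cQ B) ((2 * fH w n B t) ^ 2) +
    ∑ t' ∈ Finset.range t, 2 * (isq (cQ B) (dP w n B t t') + isq (cQ B) (dM w n B t t')))

def Psum (w : List Bool) (n B : ℕ) : ℕ :=
  ∑ t ∈ Finset.range (NT n B), ∑ t' ∈ Finset.range t,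
    isq (cQ B) (if fP n B t = fP n B t' then dP w n B t t' else dM w n B t t')

def zA (w : List Bool) (n B : ℕ) : ℕ :=
  NT n B * cl B * cQ B + 2 * Asum w n B + 4 * gK w * cJ B - 2 * Psum w n B - cJ B

def zB (w : List Bool) (n B : ℕ) : ℕ :=
  NT n B * cl B * cQ B + 2 * Asum w n B + 4 * gK w * cJ B - 2 * Psum w n B - 3 * cJ B

/-- The constructed instance. -/
def inst (j : ℕ) (w : List Bool) : Instance where
  M := 2 * NT (nn w) (BB j w)
  pos := fun α k =>
    if k = 0 then ((cl (BB j w) * fX (nn w) (BB j w) (α.val / 2) : ℕ) : ℚ)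
    else if k = 1 then ((cl (BB j w) * fY (nn w) (BB j w) (α.val / 2) : ℕ) : ℚ)
    else if α.val % 2 = 0 then ((cl (BB j w) * fH w (nn w) (BB j w) (α.val / 2) : ℕ) : ℚ)
    else -((cl (BB j w) * fH w (nn w) (BB j w) (α.val / 2) : ℕ) : ℚ)
  charge := fun _ => 1
  N := NT (nn w) (BB j w)
  a := -(((cD (BB j w) * zA w (nn w) (BB j w) - 1 : ℕ) : ℚ) / ((cD (BB j w) ^ 2 : ℕ) : ℚ))
  b := -(((cD (BB j w) * zB w (nn w) (BB j w) - 1 : ℕ) : ℚ) / ((cD (BB j w) ^ 2 : ℕ) : ℚ))

end Vale.Agent.P370.Red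
end

section

open MeasureTheory

namespace Vale.Agent.P370

/-- Quadratic-form inequality from integration by parts in one direction. -/
theorem ibp_dir {V : Type*} [NormedAddCommGroup V] [NormedSpace ℝ V] [FiniteDimensional ℝ V]
    [MeasurableSpace V] [BorelSpace V] (μ : Measure V) [μ.IsAddHaarMeasure]
    (g : V → ℂ) (hg : ContDiff ℝ 1 g) (hc : HasCompactSupport g)
    (F : V → ℝ) (hF : ContDiff ℝ 1 F) (v : V) :
    ∫ x, (fderiv ℝ F x v - F x ^ 2) * ‖g x‖ ^ 2 ∂μ ≤ ∫ x, ‖fderiv ℝ g x v‖ ^ 2 ∂μ := by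
  have hgd : Differentiable ℝ g := hg.differentiable (by norm_num)
  have hFd : Differentiable ℝ F := hF.differentiable (by norm_num)
  have hn : ContDiff ℝ 1 (fun x => ‖g x‖ ^ 2) := hg.norm_sq ℝ
  have hnd : Differentiable ℝ (fun x => ‖g x‖ ^ 2) := hn.differentiable (by norm_num)
  have hnc : HasCompactSupport (fun x => ‖g x‖ ^ 2) := by
    apply hc.mono
    intro x hx
    simp only [Function.mem_support, ne_eq] at hx ⊢
    intro h0
    apply hx
    simp [h0]
  -- continuity facts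
  have cF : Continuous F := hF.continuous
  have cg : Continuous g := hg.continuous
  have cFd : Continuous (fun x => fderiv ℝ F x v) :=
    (hF.continuous_fderiv (by norm_num)).clm_apply continuous_const
  have cgd : Continuous (fun x => fderiv ℝ g x v) :=
    (hg.continuous_fderiv (by norm_num)).clm_apply continuous_const
  have cnd : Continuous (fun x => fderiv ℝ (fun x => ‖g x‖ ^ 2) x v) :=
    (hn.continuous_fderiv (by norm_num)).clm_apply continuous_const
  have hgdc : HasCompactSupport (fun x => fderiv ℝ g x v) := by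
    have := hc.fderiv (𝕜 := ℝ)
    exact this.comp_left (g := fun (L : V →L[ℝ] ℂ) => L v) (by simp)
  have hndc : HasCompactSupport (fun x => fderiv ℝ (fun x => ‖g x‖ ^ 2) x v) := by
    have := hnc.fderiv (𝕜 := ℝ)
    exact this.comp_left (g := fun (L : V →L[ℝ] ℝ) => L v) (by simp only [zero_apply])
  have key : ∫ x, F x * fderiv ℝ (fun x => ‖g x‖ ^ 2) x v ∂μ
      = - ∫ x, fderiv ℝ F x v * ‖g x‖ ^ 2 ∂μ := by
    apply integral_mul_fderiv_eq_neg_fderiv_mul_of_integrable
    · exact (cFd.mul hn.continuous).integrable_of_hasCompactSupport hnc.mul_left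
    · exact (cF.mul cnd).integrable_of_hasCompactSupport hndc.mul_left
    · exact (cF.mul hn.continuous).integrable_of_hasCompactSupport hnc.mul_left
    · intro x _; exact hFd x
    · intro x _; exact hnd x
  have pt : ∀ x, -(F x * fderiv ℝ (fun x => ‖g x‖ ^ 2) x v) - F x ^ 2 * ‖g x‖ ^ 2
      ≤ ‖fderiv ℝ g x v‖ ^ 2 := by
    intro x
    have h1 : fderiv ℝ (fun x => ‖g x‖ ^ 2) x v = 2 * inner ℝ (g x) (fderiv ℝ g x v) := by
      have := (hgd x).hasFDerivAt.norm_sq
      rw [this.fderiv]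
      simp only [smul_apply, ContinuousLinearMap.comp_apply, coe_innerSL_apply, Complex.inner, Complex.mul_re, Complex.conj_re, Complex.conj_im, mul_neg, sub_neg_eq_add, smul_add, nsmul_eq_mul, Nat.cast_ofNat, mul_add]
    rw [h1]
    have h2 : |inner ℝ (g x) (fderiv ℝ g x v)| ≤ ‖g x‖ * ‖fderiv ℝ g x v‖ :=
      abs_real_inner_le_norm _ _
    have h3 : -(F x * (2 * inner ℝ (g x) (fderiv ℝ g x v)))
        ≤ 2 * (|F x| * (‖g x‖ * ‖fderiv ℝ g x v‖)) := by
      calc -(F x * (2 * inner ℝ (g x) (fderiv ℝ g x v)))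
          ≤ |F x * (2 * inner ℝ (g x) (fderiv ℝ g x v))| := neg_le_abs _
        _ = 2 * (|F x| * |inner ℝ (g x) (fderiv ℝ g x v)|) := by
            rw [abs_mul, abs_mul]; norm_num; ring
        _ ≤ _ := by (clear * - h2; gcongr)
    nlinarith only [h3, sq_nonneg (|F x| * ‖g x‖ - ‖fderiv ℝ g x v‖), sq_abs (F x)]
  calc ∫ x, (fderiv ℝ F x v - F x ^ 2) * ‖g x‖ ^ 2 ∂μ
      = ∫ x, fderiv ℝ F x v * ‖g x‖ ^ 2 ∂μ - ∫ x, F x ^ 2 * ‖g x‖ ^ 2 ∂μ := by
        rw [← integral_sub]
        · congr 1; ext x; ring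
        · exact (cFd.mul hn.continuous).integrable_of_hasCompactSupport hnc.mul_left
        · exact ((cF.pow 2).mul hn.continuous).integrable_of_hasCompactSupport hnc.mul_left
    _ = ∫ x, -(F x * fderiv ℝ (fun x => ‖g x‖ ^ 2) x v) ∂μ - ∫ x, F x ^ 2 * ‖g x‖ ^ 2 ∂μ := by
        rw [integral_neg, key]; ring
    _ = ∫ x, (-(F x * fderiv ℝ (fun x => ‖g x‖ ^ 2) x v) - F x ^ 2 * ‖g x‖ ^ 2) ∂μ := by
        rw [← integral_sub]
        · exact ((cF.mul cnd).integrable_of_hasCompactSupport hndc.mul_left).neg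
        · exact ((cF.pow 2).mul hn.continuous).integrable_of_hasCompactSupport hnc.mul_left
    _ ≤ _ := by
        apply integral_mono
        · exact ((cF.mul cnd).integrable_of_hasCompactSupport hndc.mul_left).neg.sub
            (((cF.pow 2).mul hn.continuous).integrable_of_hasCompactSupport hnc.mul_left)
        · apply Continuous.integrable_of_hasCompactSupport (by fun_prop)
          exact hgdc.comp_left (g := fun z : ℂ => ‖z‖ ^ 2) (by simp)
        · exact pt

end Vale.Agent.P370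
end

section

open MeasureTheory Filter Topology

namespace Vale.Agent.P370

theorem fatou_real {V : Type*} [MeasurableSpace V] {μ : Measure V} {f : V → ℝ} {F : ℕ → V → ℝ}
    (hf : Measurable f) (hf0 : ∀ x, 0 ≤ f x) (hF : ∀ n, Integrable (F n) μ)
    (hF0 : ∀ n x, 0 ≤ F n x)
    (hlim : ∀ x, f x = 0 ∨ Tendsto (fun n => F n x) atTop (𝓝 (f x))) {K : ℝ}
    (hK : ∀ n, ∫ x, F n x ∂μ ≤ K) : Integrable f μ ∧ ∫ x, f x ∂μ ≤ K := by
  have hK0 : 0 ≤ K := le_trans (integral_nonneg (hF0 0)) (hK 0)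
  have h1 : ∫⁻ x, ENNReal.ofReal (f x) ∂μ ≤ ENNReal.ofReal K := by
    calc ∫⁻ x, ENNReal.ofReal (f x) ∂μ
        ≤ ∫⁻ x, liminf (fun n => ENNReal.ofReal (F n x)) atTop ∂μ := by
          apply lintegral_mono
          intro x
          rcases hlim x with h | h
          · simp only [h, ENNReal.ofReal_zero, zero_le]
          · have := (ENNReal.continuous_ofReal.tendsto _).comp h
            exact (this.liminf_eq).ge
      _ ≤ liminf (fun n => ∫⁻ x, ENNReal.ofReal (F n x) ∂μ) atTop := by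
          apply lintegral_liminf_le'
          intro n
          exact (hF n).aestronglyMeasurable.aemeasurable.ennreal_ofReal
      _ ≤ ENNReal.ofReal K := by
          have : ∀ n, ∫⁻ x, ENNReal.ofReal (F n x) ∂μ ≤ ENNReal.ofReal K := by
            intro n
            rw [← ofReal_integral_eq_lintegral_ofReal (hF n) (ae_of_all _ (hF0 n))]
            exact ENNReal.ofReal_le_ofReal (hK n)
          calc liminf (fun n => ∫⁻ x, ENNReal.ofReal (F n x) ∂μ) atTop
              ≤ liminf (fun _ : ℕ => ENNReal.ofReal K) atTop :=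
                liminf_le_liminf (Eventually.of_forall this)
            _ = _ := by simp
  have h2 : Integrable f μ := by
    refine ⟨hf.aestronglyMeasurable, ?_⟩
    rw [hasFiniteIntegral_iff_ofReal (ae_of_all _ hf0)]
    exact lt_of_le_of_lt h1 ENNReal.ofReal_lt_top
  refine ⟨h2, ?_⟩
  have h3 := ofReal_integral_eq_lintegral_ofReal h2 (ae_of_all _ hf0)
  rw [← h3] at h1
  exact (ENNReal.ofReal_le_ofReal_iff hK0).1 h1

/-- the bump profile, as a function of the squared radius -/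
noncomputable def tau (ρ t : ℝ) : ℝ := max 0 (1 - t / ρ ^ 2)

theorem hasDerivAt_max_sq (u : ℝ) :
    HasDerivAt (fun u : ℝ => (max 0 u) ^ 2) (2 * max 0 u) u := by
  rcases lt_trichotomy u 0 with h | h | h
  · have : (fun u : ℝ => (max 0 u) ^ 2) =ᶠ[𝓝 u] fun _ => 0 := by
      filter_upwards [gt_mem_nhds h] with x hx
      rw [max_eq_left hx.le]; simp
    rw [max_eq_left h.le]
    simpa only [mul_zero] using (hasDerivAt_const u (0 : ℝ)).congr_of_eventuallyEq this
  · subst h
    rw [max_self, mul_zero, hasDerivAt_iff_isLittleO]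
    have : (fun x : ℝ => x ^ 2) =o[𝓝 0] fun x => x := by
      simpa only using (Asymptotics.isLittleO_pow_id (𝕜 := ℝ) (n := 2) (by norm_num))
    have hb : (fun x' : ℝ => (max 0 x') ^ 2 - (max 0 0) ^ 2 - (x' - 0) • (0:ℝ))
        =O[𝓝 0] fun x => x ^ 2 := by
      apply Asymptotics.IsBigO.of_bound 1
      filter_upwards with x
      simp only [max_self, ne_eq, OfNat.ofNat_ne_zero, not_false_eq_true, zero_pow, sub_zero, smul_zero, norm_pow, one_mul]
      gcongr
      rw [Real.norm_eq_abs, Real.norm_eq_abs, abs_of_nonneg (le_max_left _ _)]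
      exact max_le (abs_nonneg _) (le_abs_self _)
    simpa only [max_self, ne_eq, OfNat.ofNat_ne_zero, not_false_eq_true, zero_pow, sub_zero, smul_eq_mul,     mul_zero] using hb.trans_isLittleO this
  · have : (fun u : ℝ => (max 0 u) ^ 2) =ᶠ[𝓝 u] fun u => u ^ 2 := by
      filter_upwards [lt_mem_nhds h] with x hx
      rw [max_eq_right hx.le]
    rw [max_eq_right h.le]
    simpa only [Nat.cast_ofNat, Nat.add_one_sub_one, pow_one] using     (hasDerivAt_pow 2 u).congr_of_eventuallyEq this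

theorem hasDerivAt_tau_sq (ρ t : ℝ) :
    HasDerivAt (fun t => tau ρ t ^ 2) (-(2 / ρ ^ 2) * tau ρ t) t := by
  have h1 : HasDerivAt (fun t : ℝ => 1 - t / ρ ^ 2) (-(1 / ρ ^ 2)) t := by
    simpa only [one_div, id_eq] using ((hasDerivAt_id t).div_const (ρ ^ 2)).const_sub 1
  have h2 := (hasDerivAt_max_sq (1 - t / ρ ^ 2)).comp t h1
  convert! h2 using 1
  simp only [tau]; ring

theorem continuous_tau (ρ : ℝ) : Continuous (tau ρ) := by
  unfold tau; fun_prop

theorem tau_nonneg (ρ t : ℝ) : 0 ≤ tau ρ t := le_max_left _ _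

theorem tau_le_one {ρ t : ℝ} (ht : 0 ≤ t) : tau ρ t ≤ 1 := by
  unfold tau
  apply max_le (by norm_num)
  have : 0 ≤ t / ρ ^ 2 := by positivity
  linarith only [this]

theorem tau_eq_zero {ρ t : ℝ} (hρ : 0 < ρ) (ht : ρ ^ 2 ≤ t) : tau ρ t = 0 := by
  unfold tau
  apply max_eq_left
  have : 1 ≤ t / ρ ^ 2 := by rw [le_div_iff₀ (by positivity)]; linarith only [ht]
  linarith

theorem contDiff_tau_sq (ρ : ℝ) : ContDiff ℝ 1 (fun t => tau ρ t ^ 2) := by
  rw [contDiff_one_iff_deriv]
  refine ⟨fun t => (hasDerivAt_tau_sq ρ t).differentiableAt, ?_⟩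
  have : deriv (fun t => tau ρ t ^ 2) = fun t => -(2 / ρ ^ 2) * tau ρ t := by
    ext t; exact (hasDerivAt_tau_sq ρ t).deriv
  rw [this]
  have := continuous_tau ρ
  fun_prop

end Vale.Agent.P370
end

section

/-!
QMA-hardness of the antiferromagnetic Heisenberg model: definitions.
-/

namespace Vale.Agent.P370.H

open Finset ComplexConjugate

/-! ### real qubit states and Pauli operators `X`, `Z` -/

/-- real states of `n` qubits -/
abbrev RSt (n : ℕ) : Type := (Fin n → Bool) → ℝ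

def ip {n : ℕ} (v w : RSt n) : ℝ := ∑ x, v x * w x

def nrm2 {n : ℕ} (v : RSt n) : ℝ := ip v v

/-- Pauli operators `0 = I`, `1 = X`, `2 = Z` on qubit `i` (identity if `i` is not a qubit) -/
def pau {n : ℕ} (P i : ℕ) (v : RSt n) : RSt n :=
  if h : i < n then
    if P = 0 then v
    else if P = 1 then fun x => v (Function.update x ⟨i, h⟩ (!x ⟨i, h⟩))
    else fun x => (if x ⟨i, h⟩ then -1 else 1) * v x
  else v

/-- term `c P_i Q_j` -/
structure Tm (R : Type) where
  c : R
  P : ℕ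
  i : ℕ
  Q : ℕ
  j : ℕ

/-- quadratic form of a list of terms -/
def tform {n : ℕ} (L : List (Tm ℝ)) (v : RSt n) : ℝ :=
  (L.map fun t => t.c * ip v (pau t.P t.i (pau t.Q t.j v))).sum

/-- sum of the absolute values of the coefficients -/
def tabs (L : List (Tm ℝ)) : ℝ := (L.map fun t => |t.c|).sum

/-- admissible terms on `n` qubits: constants, one-qubit terms (`Q = 0`), two-qubit terms with
`i < j` -/
def Tm.Ok {R : Type} (n : ℕ) (t : Tm R) : Prop :=
  (t.P = 0 ∧ t.Q = 0) ∨ ((t.P = 1 ∨ t.P = 2) ∧ t.Q = 0 ∧ t.i < n) ∨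
    ((t.P = 1 ∨ t.P = 2) ∧ (t.Q = 1 ∨ t.Q = 2) ∧ t.i < t.j ∧ t.j < n)

/-! ### real circuits in rounds -/

/-- A round: a one-qubit gate number `a` (`0`: identity, `1`: reflection of angle `π/8`, others:
reflection of angle `π/4` = Hadamard) on qubit `q`, followed by `CZ` on the qubits `f`, `s`. -/
structure Rnd where
  a : ℕ
  q : ℕ
  f : ℕ
  s : ℕ

/-- angle of the reflection -/
noncomputable def ang (a : ℕ) : ℝ := if a = 1 then Real.pi / 8 else Real.pi / 4

/-- `cos φ Z + sin φ X` -/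
noncomputable def refl {n : ℕ} (a q : ℕ) (v : RSt n) : RSt n :=
  if a = 0 then v else Real.cos (ang a) • pau 2 q v + Real.sin (ang a) • pau 1 q v

/-- `CZ = (1 + Z_f + Z_s - Z_f Z_s) / 2` -/
noncomputable def czg {n : ℕ} (f s : ℕ) (v : RSt n) : RSt n :=
  (1 / 2 : ℝ) • (v + pau 2 f v + pau 2 s v - pau 2 f (pau 2 s v))

noncomputable def rndAct {n : ℕ} (r : Rnd) (v : RSt n) : RSt n := czg r.f r.s (refl r.a r.q v)

noncomputable def runR {n : ℕ} (rs : List Rnd) (v : RSt n) : RSt n :=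
  rs.foldl (fun v r => rndAct r v) v

/-- valid rounds on `n` qubits -/
def Rnd.Ok (n : ℕ) (r : Rnd) : Prop := r.q < n ∧ r.f < n ∧ r.s < n ∧ r.f ≠ r.s

/-- projection onto `x_i = 1` -/
noncomputable def one {n : ℕ} (i : ℕ) (v : RSt n) : RSt n := (1 / 2 : ℝ) • (v - pau 2 i v)

/-- projection onto `x_i = 0` -/
noncomputable def zer {n : ℕ} (i : ℕ) (v : RSt n) : RSt n := (1 / 2 : ℝ) • (v + pau 2 i v)

/-- real and imaginary parts, the additional qubit `n` tells them apart -/
def emb {n : ℕ} (ψ : QState n) : RSt (n + 1) := fun x =>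
  if x (Fin.last n) then (ψ (fun i => x i.castSucc)).im else (ψ (fun i => x i.castSucc)).re

/-- rounds of a gate -/
def comp (n kind i j : ℕ) : List Rnd :=
  if i < n then
    if kind = 0 then [⟨2, i, i, n⟩, ⟨0, 0, i, n⟩]
    else if kind = 1 then [⟨0, 0, i, n⟩, ⟨1, n, i, n⟩, ⟨1, n, i, n⟩, ⟨0, 0, i, n⟩]
    else if j < n ∧ i ≠ j then [⟨2, j, i, j⟩, ⟨2, j, i, j⟩, ⟨0, 0, i, j⟩]
    else []
  else []

/-- rounds of a circuit -/
def rnds (z : List Bool) : List Rnd :=
  (List.range (((blocks z).length - 2) / 3)).flatMap fun t =>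
    comp (cQubits z) ((blocks z).getD (3 * t + 2) 0) ((blocks z).getD (3 * t + 3) 0)
      ((blocks z).getD (3 * t + 4) 0)

/-! ### the Hamiltonian of a circuit: `N` qubits, clock qubits `N, ..., N + Tc - 1` -/

section ham

variable {R : Type} [CommRing R]

/-- length of the clock -/
def tc (M : ℕ) : ℕ := 6 * M + 5

/-- clock qubit `t`, `1 ≤ t ≤ Tc` -/
def ck (N t : ℕ) : ℕ := N + t - 1

/-- `2 c · (projection onto the time t)` on legal clock states -/
def projT (N Tc : ℕ) (c : R) (t : ℕ) : List (Tm R) :=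
  if t = 0 then [⟨c, 0, 0, 0, 0⟩, ⟨c, 2, ck N 1, 0, 0⟩]
  else if t = Tc then [⟨c, 0, 0, 0, 0⟩, ⟨-c, 2, ck N Tc, 0, 0⟩]
  else [⟨c, 2, ck N (t + 1), 0, 0⟩, ⟨-c, 2, ck N t, 0, 0⟩]

/-- default round -/
def rget (rs : List Rnd) (l : ℕ) : Rnd := rs.getD l ⟨0, 0, 0, 0⟩

/-- gate at the fine transition `t` (`t` not a multiple of `6`) as a list of (coefficient, Pauli,
qubit); `w` is the unit of the coefficients, `tr a` is (cosine, sine) of the angle of the gate
number `a` in this unit; round `l` is `rget rs (l - 1)` -/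
def fineG (rs : List Rnd) (w : R) (tr : ℕ → R × R) (t : ℕ) : List (R × ℕ × ℕ) :=
  if t % 6 = 1 then
    if 1 ≤ t / 6 then [(w, 2, (rget rs (t / 6 - 1)).f)] else [(w, 0, 0)]
  else if t % 6 = 2 then
    if 1 ≤ t / 6 then [(w, 2, (rget rs (t / 6 - 1)).s)] else [(w, 0, 0)]
  else if t % 6 = 3 then
    if t / 6 < rs.length ∧ (rget rs (t / 6)).a ≠ 0 then
      [((tr (rget rs (t / 6)).a).1, 2, (rget rs (t / 6)).q),
        ((tr (rget rs (t / 6)).a).2, 1, (rget rs (t / 6)).q)]
    else [(w, 0, 0)]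
  else if t % 6 = 4 then
    if t / 6 < rs.length then [(w, 2, (rget rs (t / 6)).f)] else [(w, 0, 0)]
  else
    if t / 6 < rs.length then [(w, 2, (rget rs (t / 6)).s)] else [(w, 0, 0)]

/-- clock Hamiltonian -/
def hClock (N Tc : ℕ) (J : R) : List (Tm R) :=
  (List.range (Tc - 1)).flatMap fun t =>
    [⟨2 * J, 0, 0, 0, 0⟩, ⟨2 * J, 2, ck N (t + 1), 0, 0⟩, ⟨-(2 * J), 2, ck N (t + 2), 0, 0⟩,
      ⟨-(2 * J), 2, ck N (t + 1), 2, ck N (t + 2)⟩]

/-- propagation by one-qubit gates -/
def hFine (N : ℕ) (rs : List Rnd) (w : R) (tr : ℕ → R × R) (J : R) : List (Tm R) :=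
  (List.range (tc rs.length)).flatMap fun t =>
    if (t + 1) % 6 = 0 then [] else
      projT N (tc rs.length) (2 * J * w) (t + 1) ++ projT N (tc rs.length) (2 * J * w) t ++
        (fineG rs w tr (t + 1)).map fun g =>
          if g.2.1 = 0 then ⟨-(4 * J * g.1), 1, ck N (t + 1), 0, 0⟩
          else ⟨-(4 * J * g.1), g.2.1, g.2.2, 1, ck N (t + 1)⟩

/-- propagation by the gates `CZ` -/
def hCz (N : ℕ) (rs : List Rnd) (J : R) : List (Tm R) :=
  (List.range rs.length).flatMap fun l =>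
    [⟨-(4 * J), 1, ck N (6 * (l + 1)), 0, 0⟩,
      ⟨-(6 * J), 2, (rget rs l).f, 1, ck N (6 * (l + 1))⟩,
      ⟨-(6 * J), 2, (rget rs l).s, 1, ck N (6 * (l + 1))⟩] ++
    projT N (tc rs.length) (4 * J) (6 * (l + 1)) ++
    projT N (tc rs.length) (4 * J) (6 * (l + 1) - 1) ++
    [⟨J, 1, ck N (6 * (l + 1) + 1), 0, 0⟩, ⟨J, 1, ck N (6 * (l + 1) + 2), 0, 0⟩,
      ⟨2 * J, 1, ck N (6 * (l + 1) + 1), 1, ck N (6 * (l + 1) + 2)⟩,
      ⟨J, 1, ck N (6 * (l + 1) - 1), 0, 0⟩, ⟨J, 1, ck N (6 * (l + 1) - 2), 0, 0⟩,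
      ⟨2 * J, 1, ck N (6 * (l + 1) - 2), 1, ck N (6 * (l + 1) - 1)⟩]

/-- input check of the qubits `m ≤ i < N - 1` -/
def hIn (N m : ℕ) (J : R) : List (Tm R) :=
  (List.range (N - 1 - m)).flatMap fun i =>
    [⟨2 * J, 0, 0, 0, 0⟩, ⟨-(2 * J), 2, m + i, 0, 0⟩, ⟨2 * J, 2, ck N 1, 0, 0⟩,
      ⟨-(2 * J), 2, m + i, 2, ck N 1⟩]

/-- output check of the qubit `0` -/
def hOut (N Tc : ℕ) (w : R) : List (Tm R) :=
  [⟨2 * w, 0, 0, 0, 0⟩, ⟨2 * w, 2, 0, 0, 0⟩, ⟨-(2 * w), 2, ck N Tc, 0, 0⟩,
    ⟨-(2 * w), 2, 0, 2, ck N Tc⟩]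

/-- size parameter -/
def rr (N M : ℕ) : ℕ := N + M + 1000

/-- the Hamiltonian (eight times the usual normalisation) in the unit `w` -/
def ham (N m : ℕ) (rs : List Rnd) (w : R) (tr : ℕ → R × R) : List (Tm R) :=
  hClock N (tc rs.length) ((rr N rs.length : R) ^ 64 * w) ++
    hFine N rs w tr ((rr N rs.length : R) ^ 24) ++ hCz N rs ((rr N rs.length : R) ^ 8 * w) ++
    hIn N m (1000 * w) ++ hOut N (tc rs.length) w

end ham

/-- cosine and sine -/
noncomputable def trR (a : ℕ) : ℝ × ℝ := (Real.cos (ang a), Real.sin (ang a))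

/-! ### the energy on legal clock states -/

/-- gate at the fine transition `t` -/
noncomputable def gfine {n : ℕ} (rs : List Rnd) (t : ℕ) (v : RSt n) : RSt n :=
  if t % 6 = 1 then (if 1 ≤ t / 6 then pau 2 (rget rs (t / 6 - 1)).f v else v)
  else if t % 6 = 2 then (if 1 ≤ t / 6 then pau 2 (rget rs (t / 6 - 1)).s v else v)
  else if t % 6 = 3 then
    (if t / 6 < rs.length then refl (rget rs (t / 6)).a (rget rs (t / 6)).q v else v)
  else if t % 6 = 4 then (if t / 6 < rs.length then pau 2 (rget rs (t / 6)).f v else v)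
  else (if t / 6 < rs.length then pau 2 (rget rs (t / 6)).s v else v)

/-- energy of the `CZ` transition number `l + 1` -/
noncomputable def q2 {n : ℕ} (r : Rnd) (t : ℕ) (a : ℕ → RSt n) : ℝ :=
  nrm2 (a t) + nrm2 (a (t - 1)) - ip (a t) (a (t - 1)) -
    3 / 2 * (ip (a t) (pau 2 r.f (a (t - 1))) + ip (a t) (pau 2 r.s (a (t - 1)))) +
    1 / 4 * (ip (a (t + 1)) (a t) + ip (a (t + 2)) (a (t + 1)) + ip (a (t - 1)) (a (t - 2)) +
      ip (a (t - 2)) (a (t - 3))) +
    1 / 2 * (ip (a (t + 2)) (a t) + ip (a (t - 1)) (a (t - 3)))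

/-- energy of a family `a t`, `0 ≤ t ≤ Tc` (without the clock term) -/
noncomputable def e1 {n : ℕ} (J1 J2 J3 : ℝ) (m : ℕ) (rs : List Rnd) (a : ℕ → RSt n) : ℝ :=
  J1 * (∑ t ∈ Icc 1 (tc rs.length), if t % 6 = 0 then 0
    else 1 / 2 * nrm2 (a t - gfine rs t (a (t - 1)))) +
  J2 * (∑ l ∈ range rs.length, q2 (rget rs l) (6 * (l + 1)) a) +
  J3 * (∑ i ∈ Ico m (n - 1), nrm2 (one i (a 0))) +
  nrm2 (zer 0 (a (tc rs.length)))

/-- total squared norm -/
noncomputable def tot {n : ℕ} (M : ℕ) (a : ℕ → RSt n) : ℝ :=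
  ∑ t ∈ range (tc M + 1), nrm2 (a t)

/-- valid inputs: the qubits `m ≤ i < n - 1` are zero -/
def ValidIn {n : ℕ} (m : ℕ) (φ : RSt n) : Prop :=
  ∀ i, m ≤ i → i < n - 1 → one i φ = 0

/-! ### spins -/

/-- states of spins one half indexed by `I` -/
abbrev SSt (I : Type) : Type := (I → Fin 2) → ℂ

section spins

variable {I : Type} [Fintype I] [DecidableEq I]

noncomputable def sip (Φ Ψ : SSt I) : ℂ := ∑ s, conj (Φ s) * Ψ s

noncomputable def snorm2 (Φ : SSt I) : ℝ := ∑ s, ‖Φ s‖ ^ 2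

/-- `S_i · S_j` for `i ≠ j` -/
noncomputable def dotS (i j : I) (Φ : SSt I) : SSt I :=
  fun s => (1 / 2) * Φ (s ∘ Equiv.swap i j) - (1 / 4) * Φ s

/-- `⟨Φ, ∑_{i<j} J i j S_i · S_j Φ⟩` for symmetric `J` -/
noncomputable def hs (J : I → I → ℝ) (Φ : SSt I) : ℝ :=
  1 / 2 * ∑ i, ∑ j, if i = j then 0 else J i j * (sip Φ (dotS i j Φ)).re

end spins

/-! ### blocks of four spins -/

section blocks

variable {B : Type} [Fintype B] [DecidableEq B]

/-- class of a pair of spins of a block -/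
def cls (g k : Fin 4) : Fin 4 := ⟨g.val ^^^ k.val, by
  revert g k; decide⟩

/-- `S_g · S_k` in the block `b`, with `S_g · S_g = 3/4` -/
noncomputable def hcl (b : B) (g : Fin 4) (Φ : SSt (B × Fin 4)) : SSt (B × Fin 4) :=
  if g = 0 then (3 / 4 : ℂ) • Φ else dotS (b, 0) (b, g) Φ

/-- block singlets: the total spin of every block vanishes -/
def IsBS (Φ : SSt (B × Fin 4)) : Prop :=
  ∀ b, ∑ g : Fin 4, ∑ k : Fin 4, (if g = k then (3 / 4 : ℂ) • Φ else dotS (b, g) (b, k) Φ) = 0

/-- sum over the blocks of half the squared total spin -/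
noncomputable def casimir (Φ : SSt (B × Fin 4)) : SSt (B × Fin 4) :=
  ∑ b : B, (1 / 2 : ℂ) • ∑ g : Fin 4, ∑ k : Fin 4,
    (if g = k then (3 / 4 : ℂ) • Φ else dotS (b, g) (b, k) Φ)

/-- coupling between different blocks, `c b b' g h = c b' b h g` -/
noncomputable def inter (c : B → B → Fin 4 → Fin 4 → ℝ) (Φ : SSt (B × Fin 4)) :
    SSt (B × Fin 4) :=
  (1 / 2 : ℂ) • ∑ b : B, ∑ b' : B, if b = b' then 0 else
    ∑ g : Fin 4, ∑ h : Fin 4, (c b b' g h : ℂ) • dotS (b, g) (b', h) Φ

/-- orthonormal basis of the singlets of four spins -/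
noncomputable def eb (x : Bool) (s : Fin 4 → Fin 2) : ℝ :=
  if x then
    (if s 0 = s 1 ∧ s 2 = s 3 ∧ s 0 ≠ s 2 then 2
      else if s 0 ≠ s 1 ∧ s 2 ≠ s 3 then -1 else 0) / √12
  else
    (if s 0 ≠ s 1 ∧ s 2 ≠ s 3 then (if s 0 = s 2 then 1 else -1) else 0) / 2

/-- embedding of qubits (one for each block) into spins -/
noncomputable def iota (u : (B → Bool) → ℂ) : SSt (B × Fin 4) := fun s =>
  ∑ x : B → Bool, u x * ∏ b, (eb (x b) (fun g => s (b, g)) : ℂ)

/-- adjoint of `iota` -/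
noncomputable def iotaA (Φ : SSt (B × Fin 4)) : (B → Bool) → ℂ := fun x =>
  ∑ s : B × Fin 4 → Fin 2, (∏ b, (eb (x b) (fun g => s (b, g)) : ℂ)) * Φ s

/-- the three directions `Z`, `-Z/2 + √3/2 X`, `-Z/2 - √3/2 X` -/
noncomputable def sgm (a : Fin 3) (b : B) (u : (B → Bool) → ℂ) : (B → Bool) → ℂ := fun x =>
  (if a = 0 then 1 else -(1 / 2) : ℂ) * ((if x b then -1 else 1) * u x) +
    (if a = 0 then 0 else if a = 1 then ((√3 : ℝ) : ℂ) / 2 else -((√3 : ℝ) : ℂ) / 2) *
      u (Function.update x b (!x b))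

/-- couplings of the final Heisenberg model: blocks with strength `s^10`, modified by `d b a` on
the pairs `(0, a + 1)`; different blocks are coupled by `s^7` on `(0, 0)` and by
`s^6 t b b' a a'` on `(a + 1, a' + 1)` -/
noncomputable def jw (s : ℝ) (t : B → B → Fin 3 → Fin 3 → ℝ) (d : B → Fin 3 → ℝ)
    (p q : B × Fin 4) : ℝ :=
  if p.1 = q.1 then
    s ^ 10 + (if hq : q.2 ≠ 0 then (if p.2 = 0 then d p.1 (q.2.pred hq) else 0) else 0) +
      (if hp : p.2 ≠ 0 then (if q.2 = 0 then d p.1 (p.2.pred hp) else 0) else 0)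
  else
    if hp : p.2 ≠ 0 then (if hq : q.2 ≠ 0 then s ^ 6 * t p.1 q.1 (p.2.pred hp) (q.2.pred hq) else 0)
    else (if q.2 = 0 then s ^ 7 else 0)

/-- effective energy -/
noncomputable def teff (s : ℝ) (t : B → B → Fin 3 → Fin 3 → ℝ) (d : B → Fin 3 → ℝ)
    (u : (B → Bool) → ℂ) : ℝ :=
  -(3 / 2 * s ^ 10 * Fintype.card B) * (∑ x, ‖u x‖ ^ 2) -
    (∑ b : B, ∑ b' : B, if b = b' then 0 else
      (3 / 64 * s ^ 4 * (∑ x, ‖u x‖ ^ 2) +
      ∑ a : Fin 3, ∑ a' : Fin 3, t b b' a a' * s ^ 3 *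
        (1 / 96 * (∑ x, ‖u x‖ ^ 2) + 1 / 24 * (∑ x, conj (u x) * sgm a b u x).re +
          1 / 24 * (∑ x, conj (u x) * sgm a b (sgm a' b' u) x).re))) -
    ∑ b : B, ∑ a : Fin 3, d b a *
      (1 / 4 * (∑ x, ‖u x‖ ^ 2) + 1 / 2 * (∑ x, conj (u x) * sgm a b u x).re)

end blocks

end Vale.Agent.P370.H
end

section

/-!
From the Hamiltonian to the energy on legal clock states (H4).
-/

namespace Vale.Agent.P370.H

open Finset

/-- the state `∑_t a_t ⊗ |1^t 0^(Tc - t)⟩` -/
noncomputable def lift (N Tc : ℕ) (a : ℕ → RSt N) : RSt (N + Tc) := fun x =>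
  ∑ t ∈ range (Tc + 1), if ∀ j : Fin Tc, x (Fin.natAdd N j) = decide ((j : ℕ) < t) then
    a t (fun i => x (Fin.castAdd Tc i)) else 0

/-! ### linear algebra -/

section lin

variable {n : ℕ}

theorem clk_ip_comm (v w : RSt n) : ip v w = ip w v := by
  unfold ip
  exact Finset.sum_congr rfl fun x _ => mul_comm _ _

theorem clk_ip_add_right (u v w : RSt n) : ip u (v + w) = ip u v + ip u w := by
  unfold ip
  rw [← Finset.sum_add_distrib]
  exact Finset.sum_congr rfl fun x _ => mul_add _ _ _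

theorem clk_ip_add_left (u v w : RSt n) : ip (u + v) w = ip u w + ip v w := by
  rw [clk_ip_comm, clk_ip_add_right, clk_ip_comm w u, clk_ip_comm w v]

theorem clk_ip_smul_right (c : ℝ) (v w : RSt n) : ip v (c • w) = c * ip v w := by
  unfold ip
  rw [Finset.mul_sum]
  refine Finset.sum_congr rfl fun x _ => ?_
  simp only [Pi.smul_apply, smul_eq_mul]
  ring

theorem clk_ip_smul_left (c : ℝ) (v w : RSt n) : ip (c • v) w = c * ip v w := by
  rw [clk_ip_comm, clk_ip_smul_right, clk_ip_comm]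

theorem clk_ip_neg_right (v w : RSt n) : ip v (-w) = -ip v w := by
  have := clk_ip_smul_right (-1) v w
  simpa only [neg_smul, one_smul, neg_mul, one_mul] using this

theorem clk_ip_sub_right (u v w : RSt n) : ip u (v - w) = ip u v - ip u w := by
  rw [sub_eq_add_neg, clk_ip_add_right, clk_ip_neg_right, sub_eq_add_neg]

theorem clk_ip_sub_left (u v w : RSt n) : ip (u - v) w = ip u w - ip v w := by
  rw [clk_ip_comm, clk_ip_sub_right, clk_ip_comm w u, clk_ip_comm w v]

theorem clk_ip_zero_right (v : RSt n) : ip v 0 = 0 := by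
  unfold ip; simp only [Pi.zero_apply, mul_zero, sum_const_zero]

theorem clk_ip_zero_left (v : RSt n) : ip 0 v = 0 := by
  unfold ip; simp only [Pi.zero_apply, zero_mul, sum_const_zero]

theorem clk_ip_sum_left {ι : Type} (s : Finset ι) (f : ι → RSt n) (w : RSt n) :
    ip (∑ i ∈ s, f i) w = ∑ i ∈ s, ip (f i) w := by
  classical
  induction s using Finset.induction_on with
  | empty => simp only [sum_empty, clk_ip_zero_left]
  | insert i s hi ih => rw [Finset.sum_insert hi, Finset.sum_insert hi, clk_ip_add_left, ih]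

theorem clk_nrm2_nonneg (v : RSt n) : 0 ≤ nrm2 v := by
  unfold nrm2 ip
  exact Finset.sum_nonneg fun x _ => mul_self_nonneg _

theorem clk_nrm2_sub (v w : RSt n) : nrm2 (v - w) = nrm2 v + nrm2 w - 2 * ip v w := by
  unfold nrm2
  rw [clk_ip_sub_left, clk_ip_sub_right, clk_ip_sub_right, clk_ip_comm w v]
  ring

theorem clk_nrm2_add (v w : RSt n) : nrm2 (v + w) = nrm2 v + nrm2 w + 2 * ip v w := by
  unfold nrm2
  rw [clk_ip_add_left, clk_ip_add_right, clk_ip_add_right, clk_ip_comm w v]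
  ring

theorem clk_nrm2_smul (c : ℝ) (v : RSt n) : nrm2 (c • v) = c ^ 2 * nrm2 v := by
  unfold nrm2
  rw [clk_ip_smul_left, clk_ip_smul_right]
  ring

theorem clk_ip_sq_le (v w : RSt n) : ip v w ^ 2 ≤ nrm2 v * nrm2 w := by
  unfold nrm2 ip
  have := Finset.sum_mul_sq_le_sq_mul_sq Finset.univ v w
  simpa only [sq, ge_iff_le] using this

/-! ### Pauli operators -/

theorem clk_pau_zero (i : ℕ) (v : RSt n) : pau 0 i v = v := by
  unfold pau
  by_cases h : i < n
  · rw [dif_pos h, if_pos rfl]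
  · rw [dif_neg h]

theorem clk_pau_one {i : ℕ} (h : i < n) (v : RSt n) :
    pau 1 i v = fun x => v (Function.update x ⟨i, h⟩ (!x ⟨i, h⟩)) := by
  unfold pau
  rw [dif_pos h, if_neg one_ne_zero, if_pos rfl]

theorem clk_pau_two {i : ℕ} (h : i < n) (v : RSt n) :
    pau 2 i v = fun x => (if x ⟨i, h⟩ then -1 else 1) * v x := by
  unfold pau
  rw [dif_pos h, if_neg two_ne_zero, if_neg (by norm_num)]

/-- flipping one bit -/
def clkFlip {m : ℕ} (i : Fin m) (x : Fin m → Bool) : Fin m → Bool :=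
  Function.update x i (!x i)

theorem clkFlip_flip {m : ℕ} (i : Fin m) (x : Fin m → Bool) : clkFlip i (clkFlip i x) = x := by
  unfold clkFlip
  simp

/-- flipping one bit, as an equivalence -/
def clkFlipE {m : ℕ} (i : Fin m) : (Fin m → Bool) ≃ (Fin m → Bool) where
  toFun := clkFlip i
  invFun := clkFlip i
  left_inv := clkFlip_flip i
  right_inv := clkFlip_flip i

theorem clk_pau_self (P i : ℕ) (v w : RSt n) : ip (pau P i v) w = ip v (pau P i w) := by
  unfold pau
  split_ifs with h h0 h1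
  · rfl
  · unfold ip
    rw [← (clkFlipE (⟨i, h⟩ : Fin n)).sum_comp]
    refine Finset.sum_congr rfl fun x _ => ?_
    have e : clkFlipE (⟨i, h⟩ : Fin n) x = clkFlip ⟨i, h⟩ x := rfl
    have e2 : Function.update (clkFlip ⟨i, h⟩ x) ⟨i, h⟩ (!clkFlip ⟨i, h⟩ x ⟨i, h⟩) = x :=
      clkFlip_flip _ _
    simp only [e, e2]
    rfl
  · unfold ip
    refine Finset.sum_congr rfl fun x _ => ?_
    ring
  · rfl

theorem clk_pau_pau (P i : ℕ) (v : RSt n) : pau P i (pau P i v) = v := by
  unfold pau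
  split_ifs with h h0 h1
  · rfl
  · funext x
    have e2 : Function.update (clkFlip ⟨i, h⟩ x) ⟨i, h⟩ (!clkFlip ⟨i, h⟩ x ⟨i, h⟩) = x :=
      clkFlip_flip _ _
    exact congrArg v e2
  · funext x
    rcases Bool.eq_false_or_eq_true (x ⟨i, h⟩) with hx | hx <;> simp [hx]
  · rfl

theorem clk_nrm2_pau (P i : ℕ) (v : RSt n) : nrm2 (pau P i v) = nrm2 v := by
  unfold nrm2
  rw [clk_pau_self, clk_pau_pau]

theorem clk_pau_add (P i : ℕ) (v w : RSt n) : pau P i (v + w) = pau P i v + pau P i w := by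
  unfold pau
  split_ifs with h h0 h1
  · rfl
  · rfl
  · funext x
    simp only [Pi.add_apply]
    ring
  · rfl

theorem clk_ip_two_one (i : ℕ) (v : RSt n) (h : i < n) : ip (pau 2 i v) (pau 1 i v) = 0 := by
  have e : ip (pau 2 i v) (pau 1 i v) = -ip (pau 2 i v) (pau 1 i v) := by
    conv_lhs => unfold ip
    rw [← (clkFlipE (⟨i, h⟩ : Fin n)).sum_comp]
    unfold ip
    rw [← Finset.sum_neg_distrib]
    refine Finset.sum_congr rfl fun x _ => ?_
    have e : clkFlipE (⟨i, h⟩ : Fin n) x = clkFlip ⟨i, h⟩ x := rfl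
    have e2 : Function.update (clkFlip ⟨i, h⟩ x) ⟨i, h⟩ (!clkFlip ⟨i, h⟩ x ⟨i, h⟩) = x :=
      clkFlip_flip _ _
    rw [clk_pau_one h, clk_pau_two h, e]
    simp only [e2]
    have e3 : clkFlip (⟨i, h⟩ : Fin n) x ⟨i, h⟩ = !x ⟨i, h⟩ := by
      unfold clkFlip; simp
    rw [e3]
    have e4 : clkFlip (⟨i, h⟩ : Fin n) x = Function.update x ⟨i, h⟩ (!x ⟨i, h⟩) := rfl
    rw [e4]
    cases x ⟨i, h⟩ <;> simp <;> ring
  linarith only [e]

theorem clk_nrm2_refl (a i : ℕ) (v : RSt n) (h : i < n) : nrm2 (refl a i v) = nrm2 v := by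
  unfold refl
  split_ifs
  · rfl
  · rw [clk_nrm2_add, clk_nrm2_smul, clk_nrm2_smul, clk_ip_smul_left, clk_ip_smul_right,
      clk_nrm2_pau, clk_nrm2_pau, clk_ip_two_one i v h]
    have := Real.cos_sq_add_sin_sq (ang a)
    calc _ = (Real.cos (ang a) ^ 2 + Real.sin (ang a) ^ 2) * nrm2 v := by ring
      _ = nrm2 v := by rw [this, one_mul]

end lin

/-! ### slices at a clock string -/

section slices

variable {N Tc : ℕ}

/-- legal clock string -/
def clkL (Tc t : ℕ) : Fin Tc → Bool := fun j => decide ((j : ℕ) < t)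

/-- slice of a state at a clock string -/
def clkR (w : RSt (N + Tc)) (c : Fin Tc → Bool) : RSt N := fun y => w (Fin.append y c)

theorem clk_ip_slice (v w : RSt (N + Tc)) : ip v w = ∑ c, ip (clkR v c) (clkR w c) := by
  unfold ip
  rw [← (Fin.appendEquiv N Tc).sum_comp, Fintype.sum_prod_type_right]
  rfl

theorem clk_update_append_left (y : Fin N → Bool) (c : Fin Tc → Bool) (i : Fin N) (b : Bool) :
    Function.update (Fin.append y c) (Fin.castAdd Tc i) b = Fin.append (Function.update y i b) c := by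
  funext k
  refine Fin.addCases (fun l => ?_) (fun r => ?_) k
  · rw [Fin.append_left]
    by_cases h : l = i
    · subst h; simp
    · rw [Function.update_of_ne h, Function.update_of_ne, Fin.append_left]
      intro h2
      exact h (Fin.castAdd_injective _ _ h2)
  · rw [Fin.append_right, Function.update_of_ne, Fin.append_right]
    intro h2
    have := congrArg Fin.val h2
    simp at this
    omega

theorem clk_update_append_right (y : Fin N → Bool) (c : Fin Tc → Bool) (i : Fin Tc) (b : Bool) :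
    Function.update (Fin.append y c) (Fin.natAdd N i) b = Fin.append y (Function.update c i b) := by
  funext k
  refine Fin.addCases (fun l => ?_) (fun r => ?_) k
  · rw [Fin.append_left, Function.update_of_ne, Fin.append_left]
    intro h2
    have := congrArg Fin.val h2
    simp at this
    omega
  · rw [Fin.append_right]
    by_cases h : r = i
    · subst h; simp
    · rw [Function.update_of_ne h, Function.update_of_ne, Fin.append_right]
      intro h2
      exact h (Fin.natAdd_injective _ _ h2)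

theorem clkR_data (P : ℕ) {i : ℕ} (hi : i < N) (w : RSt (N + Tc)) (c : Fin Tc → Bool) :
    clkR (pau P i w) c = pau P i (clkR w c) := by
  have hi2 : i < N + Tc := by omega
  have e : (⟨i, hi2⟩ : Fin (N + Tc)) = Fin.castAdd Tc ⟨i, hi⟩ := rfl
  unfold pau
  rw [dif_pos hi, dif_pos hi2]
  split_ifs with h0 h1
  · rfl
  · funext y
    unfold clkR
    simp only [e, Fin.append_left, clk_update_append_left]
  · funext y
    unfold clkR
    simp only [e, Fin.append_left]

theorem clkR_two (j : Fin Tc) (w : RSt (N + Tc)) (c : Fin Tc → Bool) :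
    clkR (pau 2 (N + j) w) c = (if c j then -1 else 1 : ℝ) • clkR w c := by
  have hi2 : N + (j : ℕ) < N + Tc := by omega
  have e : (⟨N + j, hi2⟩ : Fin (N + Tc)) = Fin.natAdd N j := rfl
  rw [clk_pau_two hi2]
  funext y
  unfold clkR
  simp only [e, Fin.append_right, Pi.smul_apply, smul_eq_mul]

theorem clkR_one (j : Fin Tc) (w : RSt (N + Tc)) (c : Fin Tc → Bool) :
    clkR (pau 1 (N + j) w) c = clkR w (clkFlip j c) := by
  have hi2 : N + (j : ℕ) < N + Tc := by omega
  have e : (⟨N + j, hi2⟩ : Fin (N + Tc)) = Fin.natAdd N j := rfl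
  rw [clk_pau_one hi2]
  funext y
  unfold clkR clkFlip
  simp only [e, Fin.append_right, clk_update_append_right]

theorem clkL_inj {t s : ℕ} (ht : t ≤ Tc) (hs : s ≤ Tc) (h : clkL Tc t = clkL Tc s) : t = s := by
  by_contra hne
  rcases lt_or_gt_of_ne hne with hlt | hlt
  · have := congrFun h ⟨t, by omega⟩
    simp only [clkL, lt_self_iff_false, decide_false, false_eq_decide_iff, not_lt] at this
    omega
  · have := congrFun h ⟨s, by omega⟩
    simp only [clkL, lt_self_iff_false, decide_false, decide_eq_false_iff_not, not_lt] at this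
    omega

theorem clkR_lift (a : ℕ → RSt N) (c : Fin Tc → Bool) :
    clkR (lift N Tc a) c = ∑ t ∈ range (Tc + 1), if c = clkL Tc t then a t else 0 := by
  funext y
  unfold clkR lift
  rw [Finset.sum_apply]
  refine Finset.sum_congr rfl fun t _ => ?_
  simp only [Fin.append_right, Fin.append_left]
  by_cases h : c = clkL Tc t
  · have h3 : ∀ j : Fin Tc, c j = decide ((j : ℕ) < t) := fun j => congrFun h j
    rw [if_pos h, if_pos h3]
  · have h3 : ¬ ∀ j : Fin Tc, c j = decide ((j : ℕ) < t) := fun h2 => h (funext h2)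
    rw [if_neg h, if_neg h3]
    rfl

theorem clkR_lift_leg (a : ℕ → RSt N) {t : ℕ} (ht : t ≤ Tc) :
    clkR (lift N Tc a) (clkL Tc t) = a t := by
  rw [clkR_lift, Finset.sum_eq_single t]
  · rw [if_pos rfl]
  · intro s hs hne
    rw [if_neg]
    intro h
    exact hne (clkL_inj ht (by rw [Finset.mem_range] at hs; omega) h).symm
  · intro h
    exact absurd (Finset.mem_range.mpr (by omega)) h

theorem clkR_lift_ill (a : ℕ → RSt N) {c : Fin Tc → Bool} (h : ∀ t ≤ Tc, c ≠ clkL Tc t) :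
    clkR (lift N Tc a) c = 0 := by
  rw [clkR_lift]
  refine Finset.sum_eq_zero fun t ht => ?_
  rw [if_neg (h t (by rw [Finset.mem_range] at ht; omega))]

theorem clk_ip_lift (a : ℕ → RSt N) (w : RSt (N + Tc)) :
    ip (lift N Tc a) w = ∑ t ∈ range (Tc + 1), ip (a t) (clkR w (clkL Tc t)) := by
  rw [clk_ip_slice]
  have h1 : ∀ c, ip (clkR (lift N Tc a) c) (clkR w c) =
      ∑ t ∈ range (Tc + 1), if c = clkL Tc t then ip (a t) (clkR w c) else 0 := by
    intro c
    rw [clkR_lift, clk_ip_sum_left]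
    refine Finset.sum_congr rfl fun t _ => ?_
    split_ifs
    · rfl
    · exact clk_ip_zero_left _
  simp only [h1]
  rw [Finset.sum_comm]
  refine Finset.sum_congr rfl fun t _ => ?_
  rw [Finset.sum_ite_eq' Finset.univ (clkL Tc t)]
  simp

/-! ### clock operators on lifted states -/

/-- flipping the bit `j` of a legal string -/
theorem clkR_lift_flip (a : ℕ → RSt N) (j : Fin Tc) {t : ℕ} (ht : t ≤ Tc) :
    clkR (lift N Tc a) (clkFlip j (clkL Tc t)) =
      if t = j then a (j + 1) else if t = j + 1 then a j else 0 := by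
  have hj := j.2
  split_ifs with h1 h2
  · have : clkFlip j (clkL Tc t) = clkL Tc (j + 1) := by
      funext i
      unfold clkFlip
      by_cases hij : i = j
      · subst hij; subst h1; simp only [clkL, lt_self_iff_false, decide_false, Bool.not_false, Function.update_self, lt_add_iff_pos_right, Order.lt_one_iff, decide_true]
      · rw [Function.update_of_ne hij]
        have : (i : ℕ) ≠ j := fun h => hij (Fin.ext h)
        subst h1
        simp only [clkL, decide_eq_decide]
        omega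
    rw [this, clkR_lift_leg a (by omega)]
  · have : clkFlip j (clkL Tc t) = clkL Tc j := by
      funext i
      unfold clkFlip
      by_cases hij : i = j
      · subst hij; subst h2; simp only [clkL, lt_add_iff_pos_right, Order.lt_one_iff, decide_true, Bool.not_true, Function.update_self, lt_self_iff_false, decide_false]
      · rw [Function.update_of_ne hij]
        have : (i : ℕ) ≠ j := fun h => hij (Fin.ext h)
        subst h2
        simp only [clkL, decide_eq_decide]
        omega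
    rw [this, clkR_lift_leg a (by omega)]
  · apply clkR_lift_ill
    intro s hs h
    rcases lt_or_ge t j with hlt | hge
    · have e1 := congrFun h j
      have e2 := congrFun h ⟨t, by omega⟩
      unfold clkFlip at e1 e2
      rw [Function.update_self] at e1
      rw [Function.update_of_ne (fun h => by have := congrArg Fin.val h; simp at this; omega)] at e2
      simp only [clkL, lt_irrefl, decide_false] at e1 e2
      have e3 : ¬ (j : ℕ) < t := by omega
      simp only [e3, decide_false, Bool.not_false] at e1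
      have e4 : (j : ℕ) < s := by simpa using e1.symm
      have e5 : ¬ t < s := by simpa only [not_lt, decide_eq_false_iff_not] using e2.symm
      omega
    · have e1 := congrFun h j
      have e2 := congrFun h ⟨j + 1, by (clear * - ht hj h1 h2 hge; omega)⟩
      unfold clkFlip at e1 e2
      rw [Function.update_self] at e1
      rw [Function.update_of_ne (fun h => by have := congrArg Fin.val h; simp at this)] at e2
      simp only [clkL] at e1 e2
      have e3 : (j : ℕ) < t := by omega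
      simp only [e3, decide_true, Bool.not_true] at e1
      have e4 : ¬ (j : ℕ) < s := by simpa only [not_lt, decide_eq_false_iff_not] using e1.symm
      have e5 : (j : ℕ) + 1 < t := by omega
      simp only [e5, decide_true] at e2
      have e6 : (j : ℕ) + 1 < s := by simpa only [decide_eq_true_eq] using e2.symm
      omega

/-- flipping the bits `j`, `j + 1` of a legal string -/
theorem clkR_lift_flip2 (a : ℕ → RSt N) {j : ℕ} (hj : j + 1 < Tc) {t : ℕ} (ht : t ≤ Tc) :
    clkR (lift N Tc a) (clkFlip ⟨j + 1, hj⟩ (clkFlip ⟨j, by omega⟩ (clkL Tc t))) =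
      if t = j then a (j + 2) else if t = j + 2 then a j else 0 := by
  have key : ∀ i : Fin Tc, clkFlip ⟨j + 1, hj⟩ (clkFlip ⟨j, by omega⟩ (clkL Tc t)) i =
      if (i : ℕ) = j + 1 then !decide (j + 1 < t) else if (i : ℕ) = j then !decide (j < t)
        else decide ((i : ℕ) < t) := by
    intro i
    unfold clkFlip
    by_cases h1 : (i : ℕ) = j + 1
    · have : i = ⟨j + 1, hj⟩ := Fin.ext h1
      rw [this, Function.update_self, Function.update_of_ne (by simp [Fin.ext_iff])]
      simp [clkL]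
    · rw [Function.update_of_ne (fun h => h1 (by rw [h])), if_neg h1]
      by_cases h2 : (i : ℕ) = j
      · have : i = ⟨j, by omega⟩ := Fin.ext h2
        rw [this, Function.update_self]
        simp [clkL]
      · rw [Function.update_of_ne (fun h => h2 (by rw [h])), if_neg h2]
        rfl
  split_ifs with h1 h2
  · have : clkFlip ⟨j + 1, hj⟩ (clkFlip ⟨j, by omega⟩ (clkL Tc t)) = clkL Tc (j + 2) := by
      funext i
      rw [key]
      subst h1
      unfold clkL
      split_ifs with h3 h4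
      · rw [h3]; simp
      · rw [h4]; simp only [lt_self_iff_false, decide_false, Bool.not_false, lt_add_iff_pos_right, Order.lt_two_iff, zero_le, decide_true]
      · rw [decide_eq_decide]; omega
    rw [this, clkR_lift_leg a (by omega)]
  · have : clkFlip ⟨j + 1, hj⟩ (clkFlip ⟨j, by omega⟩ (clkL Tc t)) = clkL Tc j := by
      funext i
      rw [key]
      subst h2
      unfold clkL
      split_ifs with h3 h4
      · rw [h3]; simp
      · rw [h4]; simp
      · rw [decide_eq_decide]; (clear * - h3 h4; omega)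
    rw [this, clkR_lift_leg a (by (clear * - ht h2; omega))]
  · apply clkR_lift_ill
    intro s hs h
    have f : ∀ i : ℕ, ∀ hi : i < Tc, (if i = j + 1 then !decide (j + 1 < t) else
        if i = j then !decide (j < t) else decide (i < t)) = decide (i < s) := by
      intro i hi
      have := congrFun h ⟨i, hi⟩
      rw [key] at this
      exact this
    have f0 := f j (by omega)
    have f1 := f (j + 1) hj
    rw [if_neg (by omega), if_pos rfl] at f0
    rw [if_pos rfl] at f1
    rcases lt_trichotomy t j with hlt | heq | hgt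
    · have f2 := f t (by omega)
      rw [if_neg (by omega), if_neg (by omega)] at f2
      have e3 : ¬ j < t := by omega
      simp only [e3, decide_false, Bool.not_false, lt_irrefl] at f0 f2
      have e4 : j < s := by simpa only [decide_eq_true_eq] using f0.symm
      have e5 : ¬ t < s := by simpa only [not_lt, decide_eq_false_iff_not] using f2.symm
      omega
    · exact h1 heq
    · have e3 : j < t := hgt
      simp only [e3, decide_true, Bool.not_true] at f0
      have e4 : ¬ j < s := by simpa only [not_lt, decide_eq_false_iff_not] using f0.symm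
      by_cases h5 : j + 1 < t
      · have f2 := f (j + 2) (by omega)
        rw [if_neg (by omega), if_neg (by omega)] at f2
        have e5 : j + 2 < t := by omega
        simp only [e5, decide_true] at f2
        have e6 : j + 2 < s := by simpa only [decide_eq_true_eq] using f2.symm
        omega
      · simp only [h5, decide_false, Bool.not_false] at f1
        have e6 : j + 1 < s := by simpa only [decide_eq_true_eq] using f1.symm
        (clear * - hgt e4 h5 e6; omega)

end slices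

/-! ### quadratic forms of lists of terms -/

section forms

variable {n : ℕ}

/-- bilinear form of a list of terms -/
def clkB (L : List (Tm ℝ)) (v w : RSt n) : ℝ :=
  (L.map fun t => t.c * ip v (pau t.P t.i (pau t.Q t.j w))).sum

theorem clk_tform_nil (v : RSt n) : tform [] v = 0 := rfl

theorem clk_tform_cons (t : Tm ℝ) (L : List (Tm ℝ)) (v : RSt n) :
    tform (t :: L) v = t.c * ip v (pau t.P t.i (pau t.Q t.j v)) + tform L v := by
  unfold tform
  rw [List.map_cons, List.sum_cons]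

theorem clk_tform_append (L₁ L₂ : List (Tm ℝ)) (v : RSt n) :
    tform (L₁ ++ L₂) v = tform L₁ v + tform L₂ v := by
  unfold tform
  rw [List.map_append, List.sum_append]

theorem clk_tform_flatMap (k : ℕ) (f : ℕ → List (Tm ℝ)) (v : RSt n) :
    tform ((List.range k).flatMap f) v = ∑ t ∈ range k, tform (f t) v := by
  induction k with
  | zero => rfl
  | succ k ih =>
    rw [List.range_succ, List.flatMap_append, clk_tform_append, ih, Finset.sum_range_succ]
    simp

end forms

section evals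

variable {N Tc : ℕ}

theorem clk_ev_one (a : ℕ → RSt N) :
    ip (lift N Tc a) (lift N Tc a) = ∑ t ∈ range (Tc + 1), nrm2 (a t) := by
  rw [clk_ip_lift]
  refine Finset.sum_congr rfl fun t ht => ?_
  rw [clkR_lift_leg a (by rw [Finset.mem_range] at ht; omega)]
  rfl

theorem clk_ev_data (a : ℕ → RSt N) (P : ℕ) {q : ℕ} (hq : q < N) :
    ip (lift N Tc a) (pau P q (lift N Tc a)) =
      ∑ t ∈ range (Tc + 1), ip (a t) (pau P q (a t)) := by
  rw [clk_ip_lift]
  refine Finset.sum_congr rfl fun t ht => ?_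
  rw [clkR_data P hq, clkR_lift_leg a (by rw [Finset.mem_range] at ht; omega)]

theorem clk_ev_z (a : ℕ → RSt N) {j : ℕ} (hj : j < Tc) :
    ip (lift N Tc a) (pau 2 (N + j) (lift N Tc a)) =
      ∑ t ∈ range (Tc + 1), (if j < t then -1 else 1 : ℝ) * nrm2 (a t) := by
  rw [clk_ip_lift]
  refine Finset.sum_congr rfl fun t ht => ?_
  have := clkR_two (⟨j, hj⟩ : Fin Tc) (lift N Tc a) (clkL Tc t)
  simp only at this
  rw [this, clkR_lift_leg a (by rw [Finset.mem_range] at ht; omega), clk_ip_smul_right]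
  simp only [clkL, decide_eq_true_eq, ite_mul, neg_mul, one_mul, nrm2]

theorem clk_ev_dz (a : ℕ → RSt N) (P : ℕ) {q : ℕ} (hq : q < N) {j : ℕ} (hj : j < Tc) :
    ip (lift N Tc a) (pau P q (pau 2 (N + j) (lift N Tc a))) =
      ∑ t ∈ range (Tc + 1), (if j < t then -1 else 1 : ℝ) * ip (a t) (pau P q (a t)) := by
  rw [clk_ip_lift]
  refine Finset.sum_congr rfl fun t ht => ?_
  have := clkR_two (⟨j, hj⟩ : Fin Tc) (lift N Tc a) (clkL Tc t)
  simp only at this
  rw [clkR_data P hq, this, clkR_lift_leg a (by rw [Finset.mem_range] at ht; omega),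
    ← clk_pau_self, clk_ip_smul_right, clk_pau_self]
  simp [clkL]

theorem clk_ev_zz (a : ℕ → RSt N) {j k : ℕ} (hj : j < Tc) (hk : k < Tc) :
    ip (lift N Tc a) (pau 2 (N + j) (pau 2 (N + k) (lift N Tc a))) =
      ∑ t ∈ range (Tc + 1), (if j < t then -1 else 1 : ℝ) * (if k < t then -1 else 1 : ℝ) *
        nrm2 (a t) := by
  rw [clk_ip_lift]
  refine Finset.sum_congr rfl fun t ht => ?_
  have h1 := clkR_two (⟨k, hk⟩ : Fin Tc) (lift N Tc a) (clkL Tc t)
  have h2 := clkR_two (⟨j, hj⟩ : Fin Tc) (pau 2 (N + k) (lift N Tc a)) (clkL Tc t)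
  simp only at h1 h2
  rw [h2, h1, clkR_lift_leg a (by rw [Finset.mem_range] at ht; omega), clk_ip_smul_right,
    clk_ip_smul_right]
  simp only [clkL, decide_eq_true_eq, ite_mul, neg_mul, one_mul, mul_ite, mul_neg, mul_one, nrm2]

theorem clk_sum_two {f : ℕ → ℝ} {j k : ℕ} (hjk : j ≠ k) {m : ℕ} (hj : j < m) (hk : k < m)
    (hf : ∀ t, t ≠ j → t ≠ k → f t = 0) : ∑ t ∈ range m, f t = f j + f k := by
  rw [← Finset.sum_pair (f := f) hjk]
  symm
  apply Finset.sum_subset
  · intro t ht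
    rw [Finset.mem_insert, Finset.mem_singleton] at ht
    rw [Finset.mem_range]
    rcases ht with h | h <;> omega
  · intro t _ ht
    rw [Finset.mem_insert, Finset.mem_singleton, not_or] at ht
    exact hf t ht.1 ht.2

theorem clk_ev_dx (a : ℕ → RSt N) (P : ℕ) {q : ℕ} (hq : q < N) {j : ℕ} (hj : j < Tc) :
    ip (lift N Tc a) (pau P q (pau 1 (N + j) (lift N Tc a))) =
      2 * ip (a (j + 1)) (pau P q (a j)) := by
  rw [clk_ip_lift]
  have h1 : ∀ t ∈ range (Tc + 1),
      ip (a t) (clkR (pau P q (pau 1 (N + j) (lift N Tc a))) (clkL Tc t)) =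
      ip (a t) (pau P q (if t = j then a (j + 1) else if t = j + 1 then a j else 0)) := by
    intro t ht
    have := clkR_one (⟨j, hj⟩ : Fin Tc) (lift N Tc a) (clkL Tc t)
    simp only at this
    rw [clkR_data P hq, this, clkR_lift_flip a _ (by rw [Finset.mem_range] at ht; omega)]
  rw [Finset.sum_congr rfl h1, clk_sum_two (j := j) (k := j + 1) (by omega) (by omega) (by omega)]
  · rw [if_pos rfl, if_neg (by omega), if_pos rfl, ← clk_pau_self, clk_ip_comm]
    ring
  · intro t h1 h2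
    rw [if_neg h1, if_neg h2, ← clk_pau_self, clk_ip_zero_right]

theorem clk_ev_x (a : ℕ → RSt N) {j : ℕ} (hj : j < Tc) :
    ip (lift N Tc a) (pau 1 (N + j) (lift N Tc a)) = 2 * ip (a (j + 1)) (a j) := by
  rw [clk_ip_lift]
  have h1 : ∀ t ∈ range (Tc + 1), ip (a t) (clkR (pau 1 (N + j) (lift N Tc a)) (clkL Tc t)) =
      ip (a t) (if t = j then a (j + 1) else if t = j + 1 then a j else 0) := by
    intro t ht
    have := clkR_one (⟨j, hj⟩ : Fin Tc) (lift N Tc a) (clkL Tc t)
    simp only at this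
    rw [this, clkR_lift_flip a _ (by rw [Finset.mem_range] at ht; omega)]
  rw [Finset.sum_congr rfl h1, clk_sum_two (j := j) (k := j + 1) (by omega) (by omega) (by omega)]
  · rw [if_pos rfl, if_neg (by omega), if_pos rfl, clk_ip_comm]
    ring
  · intro t h1 h2
    rw [if_neg h1, if_neg h2, clk_ip_zero_right]

theorem clk_ev_xx (a : ℕ → RSt N) {j : ℕ} (hj : j + 1 < Tc) :
    ip (lift N Tc a) (pau 1 (N + j) (pau 1 (N + (j + 1)) (lift N Tc a))) =
      2 * ip (a (j + 2)) (a j) := by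
  rw [clk_ip_lift]
  have h1 : ∀ t ∈ range (Tc + 1),
      ip (a t) (clkR (pau 1 (N + j) (pau 1 (N + (j + 1)) (lift N Tc a))) (clkL Tc t)) =
      ip (a t) (if t = j then a (j + 2) else if t = j + 2 then a j else 0) := by
    intro t ht
    have h1 := clkR_one (⟨j, by omega⟩ : Fin Tc) (pau 1 (N + (j + 1)) (lift N Tc a)) (clkL Tc t)
    have h2 := clkR_one (⟨j + 1, hj⟩ : Fin Tc) (lift N Tc a)
      (clkFlip (⟨j, by omega⟩ : Fin Tc) (clkL Tc t))
    simp only at h1 h2
    rw [h1, h2, clkR_lift_flip2 a hj (by rw [Finset.mem_range] at ht; omega)]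
  rw [Finset.sum_congr rfl h1, clk_sum_two (j := j) (k := j + 2) (by omega) (by omega) (by omega)]
  · rw [if_pos rfl, if_neg (by omega), if_pos rfl, clk_ip_comm]
    ring
  · intro t h1 h2
    rw [if_neg h1, if_neg h2, clk_ip_zero_right]

end evals

theorem nrm2_lift (N M : ℕ) (a : ℕ → RSt N) : nrm2 (lift N (tc M) a) = tot M a :=
  clk_ev_one a

/-! ### the groups of terms -/

section groups

variable {N : ℕ}

theorem clk_projT (Tc : ℕ) (hTc : 1 < Tc) (a : ℕ → RSt N) (c : ℝ) {t : ℕ} (ht : t ≤ Tc) :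
    tform (projT N Tc c t) (lift N Tc a) = 2 * c * nrm2 (a t) := by
  have key : ∀ f : ℕ → ℝ, (∀ s ≤ Tc, s ≠ t → f s = 0) → f t = 2 * c →
      ∑ s ∈ range (Tc + 1), f s * nrm2 (a s) = 2 * c * nrm2 (a t) := by
    intro f hf h1
    rw [Finset.sum_eq_single t, h1]
    · intro s hs hne
      rw [hf s (by rw [Finset.mem_range] at hs; (clear * - hs; omega)) hne, zero_mul]
    · intro h
      exact absurd (Finset.mem_range.mpr (by omega)) h
  unfold projT
  split_ifs with h0 h1
  · have e : ck N 1 = N + 0 := rfl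
    rw [clk_tform_cons, clk_tform_cons, clk_tform_nil]
    simp only [clk_pau_zero]
    rw [e, clk_ev_z a (by omega : 0 < Tc), clk_ev_one, Finset.mul_sum, Finset.mul_sum, add_zero,
      ← Finset.sum_add_distrib, ← key (fun s => c + c * (if 0 < s then -1 else 1))]
    · refine Finset.sum_congr rfl fun s _ => ?_
      ring
    · intro s _ hne
      rw [if_pos (by (clear * - h0 hne; omega))]
      ring
    · rw [if_neg (by omega)]
      ring
  · have e : ck N Tc = N + (Tc - 1) := by unfold ck; omega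
    rw [clk_tform_cons, clk_tform_cons, clk_tform_nil]
    simp only [clk_pau_zero]
    rw [e, clk_ev_z a (by omega : Tc - 1 < Tc), clk_ev_one, Finset.mul_sum, Finset.mul_sum,
      add_zero, ← Finset.sum_add_distrib,
      ← key (fun s => c + -c * (if Tc - 1 < s then -1 else 1))]
    · refine Finset.sum_congr rfl fun s _ => ?_
      ring
    · intro s hs hne
      rw [if_neg (by omega)]
      ring
    · rw [if_pos (by omega)]
      ring
  · have e : ck N (t + 1) = N + t := rfl
    have e2 : ck N t = N + (t - 1) := by unfold ck; omega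
    rw [clk_tform_cons, clk_tform_cons, clk_tform_nil]
    simp only [clk_pau_zero]
    rw [e, e2, clk_ev_z a (by omega : t - 1 < Tc), clk_ev_z a (by (clear * - hTc ht h1 e e2; omega) : t < Tc),
      Finset.mul_sum, Finset.mul_sum, add_zero, ← Finset.sum_add_distrib,
      ← key (fun s => c * (if t < s then -1 else 1) + -c * (if t - 1 < s then -1 else 1))]
    · refine Finset.sum_congr rfl fun s _ => ?_
      ring
    · intro s hs hne
      rcases lt_or_gt_of_ne hne with h | h
      · rw [if_neg (by omega), if_neg (by (clear * - e e2 hne h; (clear * - hne h; omega)))]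
        ring
      · rw [if_pos (by omega), if_pos (by (clear * - e e2 hne h; (clear * - hne h; omega)))]
        ring
    · rw [if_neg (by omega), if_pos (by omega)]
      ring

theorem clk_hClock (Tc : ℕ) (J : ℝ) (a : ℕ → RSt N) :
    tform (hClock N Tc J) (lift N Tc a) = 0 := by
  unfold hClock
  rw [clk_tform_flatMap]
  refine Finset.sum_eq_zero fun t ht => ?_
  rw [Finset.mem_range] at ht
  have e : ck N (t + 1) = N + t := rfl
  have e2 : ck N (t + 2) = N + (t + 1) := rfl
  rw [clk_tform_cons, clk_tform_cons, clk_tform_cons, clk_tform_cons, clk_tform_nil]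
  simp only [clk_pau_zero, e, e2]
  rw [clk_ev_zz a (by (clear * - ht e e2; omega) : t < Tc) (by omega : t + 1 < Tc), clk_ev_z a (by omega : t < Tc),
    clk_ev_z a (by omega : t + 1 < Tc), clk_ev_one, Finset.mul_sum, Finset.mul_sum,
    Finset.mul_sum, Finset.mul_sum, add_zero, ← Finset.sum_add_distrib, ← Finset.sum_add_distrib,
    ← Finset.sum_add_distrib]
  refine Finset.sum_eq_zero fun s _ => ?_
  by_cases h : t < s
  · rw [if_pos h]
    ring
  · rw [if_neg h, if_neg (by (clear * - e e2 h; omega))]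
    ring

theorem clk_rget {rs : List Rnd} (hN : 1 ≤ N) (hok : ∀ r ∈ rs, r.Ok N) (l : ℕ) :
    (rget rs l).q < N ∧ (rget rs l).f < N ∧ (rget rs l).s < N := by
  unfold rget
  by_cases h : l < rs.length
  · rw [List.getD_eq_getElem _ _ h]
    have := hok _ (List.getElem_mem h)
    exact ⟨this.1, this.2.1, this.2.2.1⟩
  · rw [List.getD_eq_default _ _ (by omega)]
    exact ⟨hN, hN, hN⟩

theorem clk_nrm2_gfine {rs : List Rnd} (hN : 1 ≤ N) (hok : ∀ r ∈ rs, r.Ok N) (t : ℕ)
    (v : RSt N) : nrm2 (gfine rs t v) = nrm2 v := by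
  have ite' : ∀ {c : Prop} [Decidable c] {a b : RSt N}, nrm2 a = nrm2 v →
      nrm2 b = nrm2 v → nrm2 (if c then a else b) = nrm2 v := by
    intro c _ a b h1 h2
    by_cases hc : c
    · rw [if_pos hc]; exact h1
    · rw [if_neg hc]; exact h2
  unfold gfine
  exact ite' (ite' (clk_nrm2_pau _ _ _) rfl) (ite' (ite' (clk_nrm2_pau _ _ _) rfl)
    (ite' (ite' (clk_nrm2_refl _ _ _ (clk_rget hN hok _).1) rfl)
    (ite' (ite' (clk_nrm2_pau _ _ _) rfl) (ite' (clk_nrm2_pau _ _ _) rfl))))

theorem clk_fineG (rs : List Rnd) (t : ℕ) (b v : RSt N) :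
    ((fineG rs (1 : ℝ) trR t).map fun g => g.1 * ip b (pau g.2.1 g.2.2 v)).sum =
      ip b (gfine rs t v) := by
  unfold fineG gfine refl
  by_cases h1 : t % 6 = 1
  · rw [if_pos h1, if_pos h1]
    split_ifs <;> simp [clk_pau_zero]
  rw [if_neg h1, if_neg h1]
  by_cases h2 : t % 6 = 2
  · rw [if_pos h2, if_pos h2]
    split_ifs <;> simp [clk_pau_zero]
  rw [if_neg h2, if_neg h2]
  by_cases h3 : t % 6 = 3
  · rw [if_pos h3, if_pos h3]
    by_cases h4 : t / 6 < rs.length
    · by_cases h5 : (rget rs (t / 6)).a = 0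
      · simp [h4, h5, clk_pau_zero]
      · simp [h4, h5, trR, clk_ip_add_right, clk_ip_smul_right]
    · simp [h4, clk_pau_zero]
  rw [if_neg h3, if_neg h3]
  by_cases h4 : t % 6 = 4
  · rw [if_pos h4, if_pos h4]
    split_ifs <;> simp [clk_pau_zero]
  rw [if_neg h4, if_neg h4]
  split_ifs <;> simp [clk_pau_zero]

theorem clk_fineG_lt {rs : List Rnd} (hN : 1 ≤ N) (hok : ∀ r ∈ rs, r.Ok N) (t : ℕ) :
    ∀ g ∈ fineG rs (1 : ℝ) trR t, g.2.2 < N ∧ (g.2.1 = 0 ∨ g.2.1 = 1 ∨ g.2.1 = 2) := by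
  have ite' : ∀ {c : Prop} [Decidable c] {a b : List (ℝ × ℕ × ℕ)},
      (∀ g ∈ a, g.2.2 < N ∧ (g.2.1 = 0 ∨ g.2.1 = 1 ∨ g.2.1 = 2)) →
      (∀ g ∈ b, g.2.2 < N ∧ (g.2.1 = 0 ∨ g.2.1 = 1 ∨ g.2.1 = 2)) →
      ∀ g ∈ (if c then a else b), g.2.2 < N ∧ (g.2.1 = 0 ∨ g.2.1 = 1 ∨ g.2.1 = 2) := by
    intro c _ a b h1 h2
    by_cases hc : c
    · rw [if_pos hc]; exact h1
    · rw [if_neg hc]; exact h2
  have one : ∀ x : ℝ × ℕ × ℕ, (x.2.2 < N ∧ (x.2.1 = 0 ∨ x.2.1 = 1 ∨ x.2.1 = 2)) →
      ∀ g ∈ [x], g.2.2 < N ∧ (g.2.1 = 0 ∨ g.2.1 = 1 ∨ g.2.1 = 2) := by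
    intro x hx g hg
    rw [List.mem_singleton.1 hg]; exact hx
  have z0 : ∀ g ∈ [((1 : ℝ), 0, 0)], g.2.2 < N ∧ (g.2.1 = 0 ∨ g.2.1 = 1 ∨ g.2.1 = 2) :=
    one _ ⟨hN, Or.inl rfl⟩
  unfold fineG
  refine ite' (ite' (one _ ⟨(clk_rget hN hok _).2.1, Or.inr (Or.inr rfl)⟩) z0) (ite'
    (ite' (one _ ⟨(clk_rget hN hok _).2.2, Or.inr (Or.inr rfl)⟩) z0) (ite' (ite' ?_ z0)
    (ite' (ite' (one _ ⟨(clk_rget hN hok _).2.1, Or.inr (Or.inr rfl)⟩) z0)
    (ite' (one _ ⟨(clk_rget hN hok _).2.2, Or.inr (Or.inr rfl)⟩) z0))))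
  intro g hg
  rcases List.mem_cons.1 hg with rfl | hg
  · exact ⟨(clk_rget hN hok _).1, Or.inr (Or.inr rfl)⟩
  · rw [List.mem_singleton.1 hg]
    exact ⟨(clk_rget hN hok _).1, Or.inr (Or.inl rfl)⟩

theorem clk_fine_map (Tc : ℕ) (a : ℕ → RSt N) (J : ℝ) {t : ℕ} (ht : t < Tc)
    (G : List (ℝ × ℕ × ℕ)) (hG : ∀ g ∈ G, g.2.2 < N) :
    tform (G.map fun g => if g.2.1 = 0 then (⟨-(4 * J * g.1), 1, ck N (t + 1), 0, 0⟩ : Tm ℝ)
        else ⟨-(4 * J * g.1), g.2.1, g.2.2, 1, ck N (t + 1)⟩) (lift N Tc a) =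
      -(8 * J) * (G.map fun g => g.1 * ip (a (t + 1)) (pau g.2.1 g.2.2 (a t))).sum := by
  induction G with
  | nil => simp [clk_tform_nil]
  | cons g G ih =>
    rw [List.map_cons, clk_tform_cons, List.map_cons, List.sum_cons,
      ih (fun g hg => hG g (List.mem_cons_of_mem _ hg))]
    have e : ck N (t + 1) = N + t := rfl
    have hq : g.2.2 < N := hG g List.mem_cons_self
    split_ifs with h0
    · simp only [clk_pau_zero, e, h0]
      rw [clk_ev_x a ht]
      ring
    · simp only [e]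
      rw [clk_ev_dx a _ hq ht]
      ring

theorem clk_hFine (hN : 1 ≤ N) (rs : List Rnd) (hok : ∀ r ∈ rs, r.Ok N) (J : ℝ)
    (a : ℕ → RSt N) :
    tform (hFine N rs 1 trR J) (lift N (tc rs.length) a) =
      8 * (J * (∑ t ∈ Icc 1 (tc rs.length), if t % 6 = 0 then 0
        else 1 / 2 * nrm2 (a t - gfine rs t (a (t - 1))))) := by
  have hI : ∑ t ∈ Icc 1 (tc rs.length), (if t % 6 = 0 then (0 : ℝ)
        else 1 / 2 * nrm2 (a t - gfine rs t (a (t - 1)))) =
      ∑ t ∈ range (tc rs.length), if (t + 1) % 6 = 0 then (0 : ℝ)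
        else 1 / 2 * nrm2 (a (t + 1) - gfine rs (t + 1) (a t)) := by
    rw [← Finset.Ico_succ_right_eq_Icc, Finset.sum_Ico_eq_sum_range]
    have : Order.succ (tc rs.length) - 1 = tc rs.length := by
      rw [Nat.succ_eq_succ]; rfl
    rw [this]
    refine Finset.sum_congr rfl fun t _ => ?_
    rw [add_comm 1 t, Nat.add_sub_cancel]
  rw [hI]
  unfold hFine
  rw [clk_tform_flatMap, Finset.mul_sum, Finset.mul_sum]
  refine Finset.sum_congr rfl fun t ht => ?_
  rw [Finset.mem_range] at ht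
  by_cases h6 : (t + 1) % 6 = 0
  · rw [if_pos h6, if_pos h6, clk_tform_nil]
    ring
  · have htc : 1 < tc rs.length := by unfold tc; (clear * -; omega)
    rw [if_neg h6, if_neg h6, clk_tform_append, clk_tform_append,
      clk_projT _ htc a _ (by omega : t + 1 ≤ tc rs.length),
      clk_projT _ htc a _ (by omega : t ≤ tc rs.length),
      clk_fine_map _ a J ht _ (fun g hg => (clk_fineG_lt hN hok _ g hg).1), clk_fineG,
      clk_nrm2_sub, clk_nrm2_gfine hN hok]
    ring

theorem clk_hIn (Tc m : ℕ) (hTc : 1 < Tc) (J : ℝ) (a : ℕ → RSt N) :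
    tform (hIn N m J) (lift N Tc a) = 8 * (J * (∑ i ∈ Ico m (N - 1), nrm2 (one i (a 0)))) := by
  unfold hIn
  rw [clk_tform_flatMap, Finset.sum_Ico_eq_sum_range, Finset.mul_sum, Finset.mul_sum]
  refine Finset.sum_congr rfl fun i hi => ?_
  rw [Finset.mem_range] at hi
  have hq : m + i < N := by omega
  have e : ck N 1 = N + 0 := rfl
  rw [clk_tform_cons, clk_tform_cons, clk_tform_cons, clk_tform_cons, clk_tform_nil]
  simp only [clk_pau_zero, e]
  rw [clk_ev_dz a 2 hq (by omega : 0 < Tc), clk_ev_z a (by omega : 0 < Tc), clk_ev_data a 2 hq,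
    clk_ev_one, Finset.mul_sum, Finset.mul_sum, Finset.mul_sum, Finset.mul_sum, add_zero,
    ← Finset.sum_add_distrib, ← Finset.sum_add_distrib, ← Finset.sum_add_distrib,
    Finset.sum_eq_single 0]
  · rw [if_neg (by omega)]
    unfold one
    rw [clk_nrm2_smul, clk_nrm2_sub, clk_nrm2_pau]
    ring
  · intro s _ hs
    rw [if_pos (by omega)]
    ring
  · intro h
    exact absurd (Finset.mem_range.mpr (by omega)) h

theorem clk_hOut (Tc : ℕ) (hN : 1 ≤ N) (hTc : 1 < Tc) (w : ℝ) (a : ℕ → RSt N) :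
    tform (hOut N Tc w) (lift N Tc a) = 8 * (w * nrm2 (zer 0 (a Tc))) := by
  unfold hOut
  have hq : 0 < N := hN
  have e : ck N Tc = N + (Tc - 1) := by unfold ck; omega
  rw [clk_tform_cons, clk_tform_cons, clk_tform_cons, clk_tform_cons, clk_tform_nil]
  simp only [clk_pau_zero, e]
  rw [clk_ev_dz a 2 hq (by omega : Tc - 1 < Tc), clk_ev_z a (by omega : Tc - 1 < Tc),
    clk_ev_data a 2 hq, clk_ev_one, Finset.mul_sum, Finset.mul_sum, Finset.mul_sum,
    Finset.mul_sum, add_zero, ← Finset.sum_add_distrib, ← Finset.sum_add_distrib,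
    ← Finset.sum_add_distrib, Finset.sum_eq_single Tc]
  · rw [if_pos (by omega)]
    unfold zer
    rw [clk_nrm2_smul, clk_nrm2_add, clk_nrm2_pau]
    ring
  · intro s hs hne
    rw [Finset.mem_range] at hs
    rw [if_neg (by omega)]
    ring
  · intro h
    exact absurd (Finset.mem_range.mpr (by omega)) h

theorem clk_hCz (hN : 1 ≤ N) (rs : List Rnd) (hok : ∀ r ∈ rs, r.Ok N) (J : ℝ)
    (a : ℕ → RSt N) :
    tform (hCz N rs J) (lift N (tc rs.length) a) =
      8 * (J * (∑ l ∈ range rs.length, q2 (rget rs l) (6 * (l + 1)) a)) := by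
  unfold hCz
  rw [clk_tform_flatMap, Finset.mul_sum, Finset.mul_sum]
  refine Finset.sum_congr rfl fun l hl => ?_
  rw [Finset.mem_range] at hl
  obtain ⟨-, hf, hs⟩ := clk_rget hN hok l
  have htc : 1 < tc rs.length := by unfold tc; (clear * -; omega)
  have e0 : ck N (6 * (l + 1)) = N + (6 * l + 5) := by unfold ck; omega
  have e1 : ck N (6 * (l + 1) + 1) = N + (6 * l + 6) := by unfold ck; (clear * - e0; omega)
  have e2 : ck N (6 * (l + 1) + 2) = N + (6 * l + 6 + 1) := by unfold ck; (clear * - e0 e1; omega)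
  have e3 : ck N (6 * (l + 1) - 1) = N + (6 * l + 3 + 1) := by unfold ck; (clear * - hN e0 e1 e2; omega)
  have e4 : ck N (6 * (l + 1) - 2) = N + (6 * l + 3) := by unfold ck; omega
  have h0 : 6 * l + 5 < tc rs.length := by unfold tc; (clear * - hl; omega)
  have h1 : 6 * l + 6 < tc rs.length := by unfold tc; omega
  have h2 : 6 * l + 6 + 1 < tc rs.length := by unfold tc; omega
  have h3 : 6 * l + 3 + 1 < tc rs.length := by unfold tc; (clear * - hl; omega)
  have h4 : 6 * l + 3 < tc rs.length := by unfold tc; (clear * - hl; omega)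
  simp only [clk_tform_append, clk_tform_cons, clk_tform_nil, clk_pau_zero, e0, e1, e2, e3, e4]
  rw [clk_projT _ htc a _ (by unfold tc; (clear * - hl; omega) : 6 * (l + 1) ≤ tc rs.length),
    clk_projT _ htc a _ (by unfold tc; (clear * - hl; omega) : 6 * (l + 1) - 1 ≤ tc rs.length),
    clk_ev_x a h0, clk_ev_dx a 2 hf h0, clk_ev_dx a 2 hs h0, clk_ev_x a h1, clk_ev_x a h2,
    clk_ev_xx a h2, clk_ev_x a h3, clk_ev_x a h4, clk_ev_xx a h3]
  unfold q2
  have f0 : 6 * (l + 1) = 6 * l + 6 := by ring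
  have f1 : 6 * (l + 1) - 1 = 6 * l + 5 := by omega
  have f2 : 6 * (l + 1) - 2 = 6 * l + 4 := by omega
  have f3 : 6 * (l + 1) - 3 = 6 * l + 3 := by omega
  rw [f1, f2, f3, f0]
  ring

end groups

/-- the energy of a legal state -/
theorem tform_lift (N m : ℕ) (hN : 1 ≤ N) (rs : List Rnd) (hok : ∀ r ∈ rs, r.Ok N)
    (a : ℕ → RSt N) :
    tform (ham N m rs 1 trR) (lift N (tc rs.length) a) =
      8 * e1 ((rr N rs.length : ℝ) ^ 24) ((rr N rs.length : ℝ) ^ 8) 1000 m rs a := by
  have htc : 1 < tc rs.length := by unfold tc; omega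
  unfold ham e1
  rw [clk_tform_append, clk_tform_append, clk_tform_append, clk_tform_append, clk_hClock,
    clk_hFine hN rs hok, clk_hCz hN rs hok, clk_hIn _ m htc, clk_hOut _ hN htc]
  ring

/-! ### admissibility of the terms, sum of the coefficients -/

theorem clk_ok0 {n : ℕ} (c : ℝ) (i j : ℕ) : Tm.Ok n (⟨c, 0, i, 0, j⟩ : Tm ℝ) :=
  Or.inl ⟨rfl, rfl⟩

theorem clk_ok1 {n : ℕ} (c : ℝ) {P i : ℕ} (j : ℕ) (hP : P = 1 ∨ P = 2) (hi : i < n) :
    Tm.Ok n (⟨c, P, i, 0, j⟩ : Tm ℝ) :=
  Or.inr (Or.inl ⟨hP, rfl, hi⟩)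

theorem clk_ok2 {n : ℕ} (c : ℝ) {P i Q j : ℕ} (hP : P = 1 ∨ P = 2) (hQ : Q = 1 ∨ Q = 2)
    (hij : i < j) (hj : j < n) : Tm.Ok n (⟨c, P, i, Q, j⟩ : Tm ℝ) :=
  Or.inr (Or.inr ⟨hP, hQ, hij, hj⟩)

theorem clk_forall_flat {p : Tm ℝ → Prop} (k : ℕ) (f : ℕ → List (Tm ℝ))
    (h : ∀ i < k, ∀ t ∈ f i, p t) : ∀ t ∈ (List.range k).flatMap f, p t := by
  intro t ht
  rw [List.mem_flatMap] at ht
  obtain ⟨i, hi, hit⟩ := ht
  exact h i (List.mem_range.mp hi) t hit

theorem clk_ok_projT (N Tc : ℕ) (c : ℝ) {t : ℕ} (ht : t ≤ Tc) (h1 : 1 < Tc) :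
    ∀ x ∈ projT N Tc c t, x.Ok (N + Tc) := by
  unfold projT
  split_ifs with h0 h2
  · simp only [List.forall_mem_cons]
    exact ⟨clk_ok0 _ _ _, clk_ok1 _ _ (Or.inr rfl) (by unfold ck; omega), by simp⟩
  · simp only [List.forall_mem_cons]
    exact ⟨clk_ok0 _ _ _, clk_ok1 _ _ (Or.inr rfl) (by unfold ck; omega), by simp⟩
  · simp only [List.forall_mem_cons]
    exact ⟨clk_ok1 _ _ (Or.inr rfl) (by unfold ck; omega),
      clk_ok1 _ _ (Or.inr rfl) (by unfold ck; omega), by simp⟩

theorem ham_ok (N m : ℕ) (hN : 1 ≤ N) (rs : List Rnd) (hok : ∀ r ∈ rs, r.Ok N) :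
    ∀ t ∈ ham N m rs 1 trR, t.Ok (N + tc rs.length) := by
  have htc : 1 < tc rs.length := by unfold tc; omega
  unfold ham
  simp only [List.forall_mem_append]
  refine ⟨⟨⟨⟨?_, ?_⟩, ?_⟩, ?_⟩, ?_⟩
  · unfold hClock
    refine clk_forall_flat _ _ fun t ht => ?_
    simp only [List.forall_mem_cons]
    exact ⟨clk_ok0 _ _ _, clk_ok1 _ _ (Or.inr rfl) (by unfold ck; omega),
      clk_ok1 _ _ (Or.inr rfl) (by unfold ck; omega),
      clk_ok2 _ (Or.inr rfl) (Or.inr rfl) (by unfold ck; omega) (by unfold ck; (clear * - hN htc ht; omega)), by simp⟩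
  · unfold hFine
    refine clk_forall_flat _ _ fun t ht => ?_
    split_ifs with h6
    · simp only [List.not_mem_nil, IsEmpty.forall_iff, implies_true]
    · simp only [List.forall_mem_append]
      refine ⟨⟨clk_ok_projT _ _ _ (by omega) htc, clk_ok_projT _ _ _ (by omega) htc⟩, ?_⟩
      intro x hx
      rw [List.mem_map] at hx
      obtain ⟨g, hg, rfl⟩ := hx
      have h1 := clk_fineG_lt hN hok _ g hg
      split_ifs with h0
      · exact clk_ok1 _ _ (Or.inl rfl) (by unfold ck; omega)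
      · exact clk_ok2 _ (by omega) (Or.inl rfl) (by unfold ck; (clear * - h1; omega)) (by unfold ck; omega)
  · unfold hCz
    refine clk_forall_flat _ _ fun l hl => ?_
    obtain ⟨-, hf, hs⟩ := clk_rget hN hok l
    have h5 : 6 * (l + 1) + 2 ≤ tc rs.length := by unfold tc; (clear * - hl; omega)
    simp only [List.forall_mem_append, List.forall_mem_cons]
    refine ⟨⟨⟨⟨clk_ok1 _ _ (Or.inl rfl) ?_, clk_ok2 _ (Or.inr rfl) (Or.inl rfl) ?_ ?_,
      clk_ok2 _ (Or.inr rfl) (Or.inl rfl) ?_ ?_, by simp⟩,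
      clk_ok_projT _ _ _ (by omega) htc⟩, clk_ok_projT _ _ _ (by (clear * - h5; omega)) htc⟩,
      clk_ok1 _ _ (Or.inl rfl) ?_, clk_ok1 _ _ (Or.inl rfl) ?_,
      clk_ok2 _ (Or.inl rfl) (Or.inl rfl) ?_ ?_, clk_ok1 _ _ (Or.inl rfl) ?_,
      clk_ok1 _ _ (Or.inl rfl) ?_, clk_ok2 _ (Or.inl rfl) (Or.inl rfl) ?_ ?_, by simp⟩ <;>
      (unfold ck; omega)
  · unfold hIn
    refine clk_forall_flat _ _ fun i hi => ?_
    simp only [List.forall_mem_cons]
    exact ⟨clk_ok0 _ _ _, clk_ok1 _ _ (Or.inr rfl) (by omega),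
      clk_ok1 _ _ (Or.inr rfl) (by unfold ck; omega),
      clk_ok2 _ (Or.inr rfl) (Or.inr rfl) (by unfold ck; omega) (by unfold ck; omega), by simp⟩
  · unfold hOut
    simp only [List.forall_mem_cons]
    exact ⟨clk_ok0 _ _ _, clk_ok1 _ _ (Or.inr rfl) (by omega),
      clk_ok1 _ _ (Or.inr rfl) (by unfold ck; omega),
      clk_ok2 _ (Or.inr rfl) (Or.inr rfl) (by unfold ck; omega) (by unfold ck; omega), by simp⟩

theorem clk_tabs_nil : tabs [] = 0 := rfl

theorem clk_tabs_cons (t : Tm ℝ) (L : List (Tm ℝ)) : tabs (t :: L) = |t.c| + tabs L := by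
  unfold tabs
  rw [List.map_cons, List.sum_cons]

theorem clk_tabs_append (L₁ L₂ : List (Tm ℝ)) : tabs (L₁ ++ L₂) = tabs L₁ + tabs L₂ := by
  unfold tabs
  rw [List.map_append, List.sum_append]

theorem clk_tabs_flat (k : ℕ) (f : ℕ → List (Tm ℝ)) (C : ℝ) (h : ∀ i < k, tabs (f i) ≤ C) :
    tabs ((List.range k).flatMap f) ≤ k * C := by
  induction k with
  | zero => simp only [List.range_zero, List.flatMap_nil, clk_tabs_nil, CharP.cast_eq_zero, zero_mul, Std.le_refl]
  | succ k ih =>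
    rw [List.range_succ, List.flatMap_append, clk_tabs_append]
    have h1 := ih fun i hi => h i (by omega)
    have h2 := h k (by omega)
    push_cast
    simp only [List.flatMap_cons, List.flatMap_nil, List.append_nil]
    (clear * - h1 h2; linarith)

theorem clk_tabs_projT (N Tc : ℕ) (c : ℝ) (t : ℕ) : tabs (projT N Tc c t) = 2 * |c| := by
  unfold projT
  split_ifs <;> simp only [clk_tabs_cons, abs_neg, clk_tabs_nil] <;> ring

theorem clk_tabs_fineG (rs : List Rnd) (t : ℕ) :
    ((fineG rs (1 : ℝ) trR t).map fun g => |g.1|).sum ≤ 2 := by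
  have h1 : |Real.cos (ang (rget rs (t / 6)).a)| + |Real.sin (ang (rget rs (t / 6)).a)| ≤ 2 := by
    have := Real.abs_cos_le_one (ang (rget rs (t / 6)).a)
    have := Real.abs_sin_le_one (ang (rget rs (t / 6)).a)
    linarith
  unfold fineG
  split_ifs <;> simp [trR]
  exact h1

theorem clk_tabs_map (N t : ℕ) {J : ℝ} (hJ : 0 ≤ J) (G : List (ℝ × ℕ × ℕ)) :
    tabs (G.map fun g => if g.2.1 = 0 then (⟨-(4 * J * g.1), 1, ck N (t + 1), 0, 0⟩ : Tm ℝ)
        else ⟨-(4 * J * g.1), g.2.1, g.2.2, 1, ck N (t + 1)⟩) =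
      4 * J * (G.map fun g => |g.1|).sum := by
  induction G with
  | nil => simp only [List.map_nil, clk_tabs_nil, List.sum_nil, mul_zero]
  | cons g G ih =>
    rw [List.map_cons, clk_tabs_cons, List.map_cons, List.sum_cons, ih]
    have : |4 * J * g.1| = 4 * J * |g.1| := by
      rw [abs_mul, abs_of_nonneg (by (clear * - hJ; positivity))]
    split_ifs
    · simp only [abs_neg, this]
      ring
    · simp only [abs_neg, this]
      ring

/-- the Hamiltonian without the clock term -/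
noncomputable def clkH (N m : ℕ) (rs : List Rnd) : List (Tm ℝ) :=
  hFine N rs 1 trR ((rr N rs.length : ℝ) ^ 24) ++ hCz N rs ((rr N rs.length : ℝ) ^ 8 * 1) ++
    hIn N m (1000 * 1) ++ hOut N (tc rs.length) 1

theorem clk_ham_eq (N m : ℕ) (rs : List Rnd) :
    ham N m rs 1 trR =
      hClock N (tc rs.length) ((rr N rs.length : ℝ) ^ 64 * 1) ++ clkH N m rs := by
  unfold ham clkH
  simp only [List.append_assoc]

theorem clk_rr_ge (N M : ℕ) : (1000 : ℝ) ≤ rr N M ∧ (N : ℝ) ≤ rr N M ∧ (M : ℝ) + 1 ≤ rr N M := by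
  unfold rr
  push_cast
  have h1 : (0 : ℝ) ≤ N := N.cast_nonneg
  have h2 : (0 : ℝ) ≤ M := M.cast_nonneg
  exact ⟨by linarith, by linarith only [], by linarith only []⟩

theorem clk_tabs_H (N m : ℕ) (rs : List Rnd) :
    tabs (clkH N m rs) ≤ (rr N rs.length : ℝ) ^ 27 := by
  obtain ⟨hr, hrN, hrM⟩ := clk_rr_ge N rs.length
  set r : ℝ := ((rr N rs.length : ℕ) : ℝ) with hrdef
  have hr1 : (1 : ℝ) ≤ r := by linarith only [hr]
  have h24 : (0 : ℝ) ≤ r ^ 24 := by (clear * - hr; positivity)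
  have hF : tabs (hFine N rs 1 trR (r ^ 24)) ≤ (tc rs.length : ℕ) * (16 * r ^ 24) := by
    unfold hFine
    apply clk_tabs_flat
    intro t _
    split_ifs with h6
    · rw [clk_tabs_nil]; (clear * - hr; positivity)
    · rw [clk_tabs_append, clk_tabs_append, clk_tabs_projT, clk_tabs_projT,
        clk_tabs_map _ _ h24, mul_one, abs_of_nonneg (by (clear * - hr; positivity) : (0 : ℝ) ≤ 2 * r ^ 24)]
      have := clk_tabs_fineG rs (t + 1)
      nlinarith only [h24, this]
  have hC : tabs (hCz N rs (r ^ 8 * 1)) ≤ (rs.length : ℕ) * (40 * r ^ 8) := by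
    unfold hCz
    apply clk_tabs_flat
    intro l _
    have h8 : (0 : ℝ) ≤ r ^ 8 := by positivity
    simp only [clk_tabs_append, clk_tabs_cons, clk_tabs_nil, clk_tabs_projT, abs_neg, abs_mul,
      mul_one, abs_of_nonneg h8]
    norm_num
    linarith only []
  have hI : tabs (hIn N m (1000 * 1)) ≤ ((N - 1 - m : ℕ) : ℝ) * 8000 := by
    unfold hIn
    apply clk_tabs_flat
    intro i _
    simp only [clk_tabs_cons, clk_tabs_nil, abs_neg]
    norm_num
  have hO : tabs (hOut N (tc rs.length) (1 : ℝ)) ≤ 8 := by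
    unfold hOut
    simp only [clk_tabs_cons, clk_tabs_nil, abs_neg]
    norm_num
  have hN2 : ((N - 1 - m : ℕ) : ℝ) ≤ r := by
    have : (N - 1 - m : ℕ) ≤ N := by omega
    have : ((N - 1 - m : ℕ) : ℝ) ≤ N := by exact_mod_cast this
    linarith only [hrN, this]
  have htc : ((tc rs.length : ℕ) : ℝ) ≤ 6 * r := by
    unfold tc
    push_cast
    linarith only [hrM]
  have p8 : r ^ 8 ≤ r ^ 24 := pow_le_pow_right₀ hr1 (by norm_num)
  have p1 : r ≤ r ^ 25 := by
    calc r = r ^ 1 := (pow_one r).symm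
      _ ≤ r ^ 25 := pow_le_pow_right₀ hr1 (by norm_num)
  have p0 : 1 ≤ r ^ 25 := one_le_pow₀ hr1
  have e25 : r * r ^ 24 = r ^ 25 := by ring
  have hM : ((rs.length : ℕ) : ℝ) ≤ r := by linarith only [hrM]
  unfold clkH
  rw [clk_tabs_append, clk_tabs_append, clk_tabs_append]
  have hF2 : (tc rs.length : ℕ) * (16 * r ^ 24) ≤ 96 * r ^ 25 := by
    calc (tc rs.length : ℕ) * (16 * r ^ 24) ≤ (6 * r) * (16 * r ^ 24) :=
          mul_le_mul_of_nonneg_right htc (by (clear * - hr; positivity))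
      _ = 96 * r ^ 25 := by ring
  have hC2 : ((rs.length : ℕ) : ℝ) * (40 * r ^ 8) ≤ 40 * r ^ 25 := by
    calc ((rs.length : ℕ) : ℝ) * (40 * r ^ 8) ≤ r * (40 * r ^ 24) :=
          mul_le_mul hM (by linarith only [p8]) (by positivity) (by linarith only [hr])
      _ = 40 * r ^ 25 := by ring
  have hI2 : ((N - 1 - m : ℕ) : ℝ) * 8000 ≤ 8000 * r ^ 25 := by linarith only [hN2, p1]
  have e27 : r ^ 27 = r ^ 2 * r ^ 25 := by ring
  have h2 : (1000000 : ℝ) ≤ r ^ 2 := by nlinarith only [hr]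
  have h3 : 1000000 * r ^ 25 ≤ r ^ 27 := by
    rw [e27]
    exact mul_le_mul_of_nonneg_right h2 (by (clear * - hr; positivity))
  linarith only [hr, hF, hC, hI, hO, hN2, p1, hF2, hC2, h3]

/-- crude bound of the coefficients -/
theorem ham_abs (N m : ℕ) (rs : List Rnd) :
    tabs (ham N m rs 1 trR) ≤ (rr N rs.length : ℝ) ^ 66 := by
  have hH := clk_tabs_H N m rs
  rw [clk_ham_eq, clk_tabs_append]
  obtain ⟨hr, hrN, hrM⟩ := clk_rr_ge N rs.length
  set r : ℝ := ((rr N rs.length : ℕ) : ℝ) with hrdef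
  have hr1 : (1 : ℝ) ≤ r := by linarith only [hr]
  have hC : tabs (hClock N (tc rs.length) (r ^ 64 * 1)) ≤
      ((tc rs.length - 1 : ℕ) : ℝ) * (8 * r ^ 64) := by
    unfold hClock
    apply clk_tabs_flat
    intro t _
    have h64 : (0 : ℝ) ≤ r ^ 64 := by (clear * - hr; positivity)
    simp only [clk_tabs_cons, clk_tabs_nil, abs_neg, abs_mul, mul_one, abs_of_nonneg h64]
    norm_num
    linarith only []
  have htc : ((tc rs.length - 1 : ℕ) : ℝ) ≤ 6 * r := by
    have : (tc rs.length - 1 : ℕ) = 6 * rs.length + 4 := by unfold tc; (clear * -; omega)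
    rw [this]
    push_cast
    linarith only [hrM]
  have h1 : ((tc rs.length - 1 : ℕ) : ℝ) * (8 * r ^ 64) ≤ 48 * r ^ 65 := by
    calc _ ≤ (6 * r) * (8 * r ^ 64) := mul_le_mul_of_nonneg_right htc (by (clear * - hr; positivity))
      _ = 48 * r ^ 65 := by ring
  have h2 : r ^ 27 ≤ r ^ 65 := pow_le_pow_right₀ hr1 (by norm_num)
  have h3 : r ^ 66 = r * r ^ 65 := by ring
  have h4 : 1000 * r ^ 65 ≤ r ^ 66 := by
    rw [h3]
    exact mul_le_mul_of_nonneg_right hr (by (clear * - hr; positivity))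
  have h5 : 0 ≤ r ^ 65 := by positivity
  linarith only [hH, hC, h1, h2, h4, h5]

/-! ### lower bound for all states -/

section bilin

variable {n : ℕ}

theorem clk_tform_eq (L : List (Tm ℝ)) (v : RSt n) : tform L v = clkB L v v := rfl

theorem clkB_cons (t : Tm ℝ) (L : List (Tm ℝ)) (v w : RSt n) :
    clkB (t :: L) v w = t.c * ip v (pau t.P t.i (pau t.Q t.j w)) + clkB L v w := by
  unfold clkB
  rw [List.map_cons, List.sum_cons]

theorem clkB_add_left (L : List (Tm ℝ)) (u v w : RSt n) :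
    clkB L (u + v) w = clkB L u w + clkB L v w := by
  induction L with
  | nil => simp only [clkB, List.map_nil, List.sum_nil, add_zero]
  | cons t L ih =>
    rw [clkB_cons, clkB_cons, clkB_cons, ih, clk_ip_add_left]
    ring

theorem clkB_add_right (L : List (Tm ℝ)) (u v w : RSt n) :
    clkB L u (v + w) = clkB L u v + clkB L u w := by
  induction L with
  | nil => simp [clkB]
  | cons t L ih =>
    rw [clkB_cons, clkB_cons, clkB_cons, ih, clk_pau_add, clk_pau_add, clk_ip_add_right]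
    ring

theorem clkB_abs (L : List (Tm ℝ)) (v w : RSt n) :
    |clkB L v w| ≤ tabs L * (√(nrm2 v) * √(nrm2 w)) := by
  induction L with
  | nil => simp [clkB, clk_tabs_nil]
  | cons t L ih =>
    rw [clkB_cons, clk_tabs_cons, add_mul]
    refine (abs_add_le _ _).trans (add_le_add ?_ ih)
    rw [abs_mul]
    refine mul_le_mul_of_nonneg_left ?_ (abs_nonneg _)
    rw [← Real.sqrt_mul (clk_nrm2_nonneg v)]
    apply Real.abs_le_sqrt
    have := clk_ip_sq_le v (pau t.P t.i (pau t.Q t.j w))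
    rwa [clk_nrm2_pau, clk_nrm2_pau] at this

end bilin

section lower

variable {N Tc : ℕ}

/-- an illegal string contains a `0` followed by a `1` -/
theorem clk_illegal {c : Fin Tc → Bool} (h : ∀ t ≤ Tc, c ≠ clkL Tc t) :
    ∃ t, ∃ ht : t + 1 < Tc, c ⟨t, by omega⟩ = false ∧ c ⟨t + 1, ht⟩ = true := by
  by_contra hcon
  have hcon2 : ∀ t, ∀ ht : t + 1 < Tc, c ⟨t, by omega⟩ = false → c ⟨t + 1, ht⟩ = false := by
    intro t ht h1
    by_contra h2
    exact hcon ⟨t, ht, h1, by simpa using h2⟩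
  by_cases hf : ∃ j, ∃ hj : j < Tc, c ⟨j, hj⟩ = false
  · classical
    obtain ⟨ht, hct⟩ := Nat.find_spec hf
    refine h (Nat.find hf) ht.le (funext fun i => ?_)
    rcases lt_or_ge (i : ℕ) (Nat.find hf) with hi | hi
    · have h1 := Nat.find_min hf hi
      have h2 : c i = true := by
        by_contra h3
        exact h1 ⟨i.2, by simpa using h3⟩
      rw [h2]
      unfold clkL
      rw [decide_eq_true hi]
    · have h1 : ∀ k, Nat.find hf ≤ k → ∀ hk : k < Tc, c ⟨k, hk⟩ = false := by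
        intro k hk
        induction k, hk using Nat.le_induction with
        | base => intro _; exact hct
        | succ k hk ih => intro hk1; exact hcon2 k hk1 (ih (by omega))
      have h2 : c i = false := h1 i hi i.2
      rw [h2]
      unfold clkL
      rw [decide_eq_false (by omega)]
  · refine h Tc le_rfl (funext fun i => ?_)
    have h2 : c i = true := by
      by_contra h3
      exact hf ⟨i, i.2, by simpa using h3⟩
    rw [h2]
    unfold clkL
    rw [decide_eq_true i.2]

/-- sign of a clock bit -/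
noncomputable def clkZ (c : Fin Tc → Bool) (t : ℕ) : ℝ :=
  if h : t < Tc then (if c ⟨t, h⟩ then -1 else 1) else 1

theorem clkZ_le (c : Fin Tc → Bool) (t : ℕ) : -1 ≤ clkZ c t ∧ clkZ c t ≤ 1 := by
  unfold clkZ
  split_ifs <;> norm_num

theorem clk_gen_z (v w : RSt (N + Tc)) {j : ℕ} (hj : j < Tc) :
    ip v (pau 2 (N + j) w) = ∑ c, clkZ c j * ip (clkR v c) (clkR w c) := by
  rw [clk_ip_slice]
  refine Finset.sum_congr rfl fun c _ => ?_
  have h1 := clkR_two (⟨j, hj⟩ : Fin Tc) w c
  simp only at h1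
  rw [h1, clk_ip_smul_right]
  unfold clkZ
  rw [dif_pos hj]

theorem clk_gen_zz (v w : RSt (N + Tc)) {j k : ℕ} (hj : j < Tc) (hk : k < Tc) :
    ip v (pau 2 (N + j) (pau 2 (N + k) w)) =
      ∑ c, clkZ c j * clkZ c k * ip (clkR v c) (clkR w c) := by
  rw [clk_gen_z v _ hj]
  refine Finset.sum_congr rfl fun c _ => ?_
  have h1 := clkR_two (⟨k, hk⟩ : Fin Tc) w c
  simp only at h1
  rw [h1, clk_ip_smul_right, mul_assoc]
  unfold clkZ
  rw [dif_pos hk]

/-- clock energy of a general state -/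
theorem clk_hClock_gen (J : ℝ) (v : RSt (N + Tc)) :
    tform (hClock N Tc J) v = ∑ c : Fin Tc → Bool, (∑ t ∈ range (Tc - 1),
      2 * J * ((1 + clkZ c t) * (1 - clkZ c (t + 1)))) * nrm2 (clkR v c) := by
  unfold hClock
  rw [clk_tform_flatMap]
  simp only [Finset.sum_mul]
  rw [Finset.sum_comm]
  refine Finset.sum_congr rfl fun t ht => ?_
  rw [Finset.mem_range] at ht
  have e : ck N (t + 1) = N + t := rfl
  have e2 : ck N (t + 2) = N + (t + 1) := rfl
  rw [clk_tform_cons, clk_tform_cons, clk_tform_cons, clk_tform_cons, clk_tform_nil]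
  simp only [clk_pau_zero, e, e2]
  rw [clk_gen_zz v v (by omega : t < Tc) (by omega : t + 1 < Tc),
    clk_gen_z v v (by omega : t < Tc), clk_gen_z v v (by omega : t + 1 < Tc), clk_ip_slice v v,
    Finset.mul_sum, Finset.mul_sum, Finset.mul_sum, Finset.mul_sum, add_zero,
    ← Finset.sum_add_distrib, ← Finset.sum_add_distrib, ← Finset.sum_add_distrib]
  refine Finset.sum_congr rfl fun c _ => ?_
  unfold nrm2
  ring

theorem clk_hClock_lower {J : ℝ} (hJ : 0 ≤ J) (v : RSt (N + Tc)) :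
    8 * J * nrm2 (v - lift N Tc fun t => clkR v (clkL Tc t)) ≤ tform (hClock N Tc J) v := by
  have hpos : ∀ (c : Fin Tc → Bool) (t : ℕ),
      0 ≤ 2 * J * ((1 + clkZ c t) * (1 - clkZ c (t + 1))) := by
    intro c t
    have h1 := (clkZ_le c t).1
    have h2 := (clkZ_le c (t + 1)).2
    exact mul_nonneg (by (clear * - hJ; positivity)) (mul_nonneg (by linarith) (by linarith only [h2]))
  rw [clk_hClock_gen]
  have e : nrm2 (v - lift N Tc fun t => clkR v (clkL Tc t)) =
      ∑ c, nrm2 (clkR (v - lift N Tc fun t => clkR v (clkL Tc t)) c) := clk_ip_slice _ _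
  rw [e, Finset.mul_sum]
  refine Finset.sum_le_sum fun c _ => ?_
  have hsub : clkR (v - lift N Tc fun t => clkR v (clkL Tc t)) c =
      clkR v c - clkR (lift N Tc fun t => clkR v (clkL Tc t)) c := rfl
  rw [hsub]
  by_cases hc : ∀ t ≤ Tc, c ≠ clkL Tc t
  · rw [clkR_lift_ill _ hc, sub_zero]
    refine mul_le_mul_of_nonneg_right ?_ (clk_nrm2_nonneg _)
    obtain ⟨t, ht, h1, h2⟩ := clk_illegal hc
    have h3 : 2 * J * ((1 + clkZ c t) * (1 - clkZ c (t + 1))) = 8 * J := by
      unfold clkZ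
      rw [dif_pos (by omega : t < Tc), dif_pos ht, h1, h2]
      norm_num
      ring
    rw [← h3]
    exact Finset.single_le_sum (f := fun t => 2 * J * ((1 + clkZ c t) * (1 - clkZ c (t + 1))))
      (fun s _ => hpos c s) (Finset.mem_range.mpr (by omega))
  · push Not at hc
    obtain ⟨t, ht, rfl⟩ := hc
    rw [clkR_lift_leg _ ht, sub_self]
    have : nrm2 (0 : RSt N) = 0 := clk_ip_zero_right _
    rw [this, mul_zero]
    exact mul_nonneg (Finset.sum_nonneg fun s _ => hpos _ s) (clk_nrm2_nonneg _)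

theorem clk_orth (v : RSt (N + Tc)) :
    ip (lift N Tc fun t => clkR v (clkL Tc t)) (v - lift N Tc fun t => clkR v (clkL Tc t)) = 0 := by
  rw [clk_ip_lift]
  refine Finset.sum_eq_zero fun t ht => ?_
  have hsub : clkR (v - lift N Tc fun t => clkR v (clkL Tc t)) (clkL Tc t) =
      clkR v (clkL Tc t) - clkR (lift N Tc fun t => clkR v (clkL Tc t)) (clkL Tc t) := rfl
  rw [hsub, clkR_lift_leg _ (by rw [Finset.mem_range] at ht; omega), sub_self, clk_ip_zero_right]

end lower

theorem clk_quad {J C K δ lam x y BLL BLD BDL BDD T : ℝ} (hδ0 : 0 < δ)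
    (hK : K = 8 * J - C - 8 * lam + δ) (hδK : C ^ 2 ≤ δ * K) (hT : 8 * J * y ^ 2 ≤ T)
    (hLL : 8 * lam * x ^ 2 ≤ BLL) (hLD : -(C * (x * y)) ≤ BLD) (hDL : -(C * (x * y)) ≤ BDL)
    (hDD : -(C * y ^ 2) ≤ BDD) :
    (8 * lam - δ) * (x ^ 2 + y ^ 2) ≤ T + (BLL + BLD + (BDL + BDD)) := by
  have hquad : 0 ≤ δ * x ^ 2 - 2 * C * (x * y) + K * y ^ 2 := by
    have h3 : 0 ≤ δ * (δ * x ^ 2 - 2 * C * (x * y) + K * y ^ 2) := by
      have e : δ * (δ * x ^ 2 - 2 * C * (x * y) + K * y ^ 2) =
          (δ * x - C * y) ^ 2 + (δ * K - C ^ 2) * y ^ 2 := by ring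
      rw [e]
      exact add_nonneg (sq_nonneg _) (mul_nonneg (by linarith only [hδK]) (sq_nonneg _))
    exact nonneg_of_mul_nonneg_right h3 hδ0
  have efin : (8 * lam - δ) * (x ^ 2 + y ^ 2) =
      8 * J * y ^ 2 + (8 * lam * x ^ 2 + -(C * (x * y)) + (-(C * (x * y)) + -(C * y ^ 2))) -
        (δ * x ^ 2 - 2 * C * (x * y) + K * y ^ 2) := by
    rw [hK]
    ring
  rw [efin]
  linarith only [hT, hLL, hLD, hDL, hDD, hquad]

theorem clk_num {r lam δ M : ℝ} (hr : 1000 ≤ r) (hM : M + 1 ≤ r) (hM0 : 0 < M + 1)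
    (h1 : lam ≤ 1) (hδ : δ = 1 / (18 * (M + 1))) :
    (r ^ 27) ^ 2 ≤ δ * (8 * r ^ 64 - r ^ 27 - 8 * lam + δ) := by
  have hr1 : (1 : ℝ) ≤ r := by linarith only [hr]
  have hδ0 : 0 < δ := by rw [hδ]; (clear * - hM0; positivity)
  have hδr : 1 ≤ δ * (18 * r) := by
    rw [hδ, div_mul_eq_mul_div, one_mul, le_div_iff₀ (by positivity)]
    linarith only [hM]
  have p27 : r ^ 27 ≤ r ^ 64 := pow_le_pow_right₀ hr1 (by norm_num)
  have p1 : r ≤ r ^ 9 := by
    calc r = r ^ 1 := (pow_one r).symm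
      _ ≤ r ^ 9 := pow_le_pow_right₀ hr1 (by norm_num)
  have p9 : r ^ 9 ≤ r ^ 64 := pow_le_pow_right₀ hr1 (by norm_num)
  have hKge : r ^ 64 ≤ 8 * r ^ 64 - r ^ 27 - 8 * lam + δ := by linarith only [hr, h1, hδ0, p27, p1, p9]
  have p55 : 18 * r * r ^ 54 ≤ r ^ 64 := by
    have e : r ^ 64 = r ^ 9 * (r * r ^ 54) := by ring
    have e9 : (18 : ℝ) ≤ r ^ 9 := by linarith only [hr, p1]
    calc 18 * r * r ^ 54 = 18 * (r * r ^ 54) := by ring
      _ ≤ r ^ 9 * (r * r ^ 54) := mul_le_mul_of_nonneg_right e9 (by positivity)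
      _ = r ^ 64 := e.symm
  have e : (r ^ 27) ^ 2 = r ^ 54 := by ring
  rw [e]
  calc r ^ 54 = 1 * r ^ 54 := (one_mul _).symm
    _ ≤ δ * (18 * r) * r ^ 54 := mul_le_mul_of_nonneg_right hδr (by positivity)
    _ = δ * (18 * r * r ^ 54) := by ring
    _ ≤ δ * r ^ 64 := mul_le_mul_of_nonneg_left p55 hδ0.le
    _ ≤ _ := mul_le_mul_of_nonneg_left hKge hδ0.le

theorem clock_lower (N m : ℕ) (hN : 1 ≤ N) (rs : List Rnd) (hok : ∀ r ∈ rs, r.Ok N) (lam : ℝ)
    (h0 : 0 ≤ lam) (h1 : lam ≤ 1)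
    (h : ∀ a : ℕ → RSt N, lam * tot rs.length a ≤
      e1 ((rr N rs.length : ℝ) ^ 24) ((rr N rs.length : ℝ) ^ 8) 1000 m rs a)
    (v : RSt (N + tc rs.length)) :
    (8 * lam - 1 / (18 * ((rs.length : ℝ) + 1))) * nrm2 v ≤ tform (ham N m rs 1 trR) v := by
  obtain ⟨hr, hrN, hrM⟩ := clk_rr_ge N rs.length
  have hC := clk_tabs_H N m rs
  have hM0 : (0 : ℝ) < (rs.length : ℝ) + 1 := by (clear * -; positivity)
  have hnum := clk_num hr hrM hM0 h1 rfl
  have hδ0 : 0 < 1 / (18 * ((rs.length : ℝ) + 1)) := by (clear * -; positivity)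
  have hr0 : (0 : ℝ) ≤ (rr N rs.length : ℝ) ^ 64 := by (clear * - hr; positivity)
  have hClk := clk_hClock_lower (by rw [mul_one]; exact hr0 :
    (0 : ℝ) ≤ (rr N rs.length : ℝ) ^ 64 * 1) v
  have horth := clk_orth v
  have hLL : 8 * lam * nrm2 (lift N (tc rs.length) fun t => clkR v (clkL (tc rs.length) t)) ≤
      clkB (clkH N m rs) (lift N (tc rs.length) fun t => clkR v (clkL (tc rs.length) t))
        (lift N (tc rs.length) fun t => clkR v (clkL (tc rs.length) t)) := by
    have e1' := tform_lift N m hN rs hok fun t => clkR v (clkL (tc rs.length) t)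
    rw [clk_ham_eq, clk_tform_append, clk_hClock, zero_add] at e1'
    rw [← clk_tform_eq, e1', nrm2_lift]
    have := h fun t => clkR v (clkL (tc rs.length) t)
    linarith only [this]
  rw [clk_ham_eq, clk_tform_append]
  generalize lift N (tc rs.length) (fun t => clkR v (clkL (tc rs.length) t)) = L at *
  obtain ⟨D, hD⟩ : ∃ D, D = v - L := ⟨_, rfl⟩
  have hv : v = L + D := by rw [hD]; abel
  rw [← hD] at hClk horth
  have hnv : nrm2 v = nrm2 L + nrm2 D := by
    rw [hv, clk_nrm2_add, horth]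
    ring
  have hexp : tform (clkH N m rs) v = clkB (clkH N m rs) L L + clkB (clkH N m rs) L D +
      (clkB (clkH N m rs) D L + clkB (clkH N m rs) D D) := by
    rw [clk_tform_eq, hv, clkB_add_left, clkB_add_right, clkB_add_right]
  have hLD := (abs_le.mp (clkB_abs (clkH N m rs) L D)).1
  have hDL := (abs_le.mp (clkB_abs (clkH N m rs) D L)).1
  have hDD := (abs_le.mp (clkB_abs (clkH N m rs) D D)).1
  rw [hexp, hnv]
  generalize tform (hClock N (tc rs.length) ((rr N rs.length : ℝ) ^ 64 * 1)) v = T at *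
  generalize clkB (clkH N m rs) L L = BLL at *
  generalize clkB (clkH N m rs) L D = BLD at *
  generalize clkB (clkH N m rs) D L = BDL at *
  generalize clkB (clkH N m rs) D D = BDD at *
  generalize tabs (clkH N m rs) = tb at *
  have hx2 : nrm2 L = √(nrm2 L) ^ 2 := (Real.sq_sqrt (clk_nrm2_nonneg L)).symm
  have hy2 : nrm2 D = √(nrm2 D) ^ 2 := (Real.sq_sqrt (clk_nrm2_nonneg D)).symm
  have hx0 : 0 ≤ √(nrm2 L) := Real.sqrt_nonneg _
  have hy0 : 0 ≤ √(nrm2 D) := Real.sqrt_nonneg _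
  rw [hx2] at hLL
  rw [hy2] at hClk
  rw [hx2, hy2]
  generalize √(nrm2 L) = x at *
  generalize √(nrm2 D) = y at *
  generalize (rr N rs.length : ℝ) ^ 64 = J at *
  generalize (rr N rs.length : ℝ) ^ 27 = C at *
  rw [mul_one] at hClk
  refine clk_quad hδ0 rfl hnum hClk hLL ?_ ?_ ?_
  · have := mul_le_mul_of_nonneg_right hC (mul_nonneg hx0 hy0)
    linarith only [hLD, this]
  · have := mul_le_mul_of_nonneg_right hC (mul_nonneg hx0 hy0)
    have e : y * x = x * y := mul_comm _ _
    rw [e] at hDL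
    linarith only [hDL, this]
  · have := mul_le_mul_of_nonneg_right hC (mul_nonneg hy0 hy0)
    have e : y * y = y ^ 2 := (sq y).symm
    rw [e] at this hDD
    linarith only [hDD, this]

end Vale.Agent.P370.H
end

section

/-!
Integrals over R^3 of products of complex linear forms against a Gaussian (Wick formula for
isotropic vectors) and against radial functions.
-/

namespace Vale.Agent.P370.GC

open MeasureTheory Set Metric Module

abbrev V3 : Type := EuclideanSpace ℝ (Fin 3)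

/-- the complex linear form `x ↦ a · x`, as a real-linear map -/
noncomputable def lf (a : Fin 3 → ℂ) : V3 →L[ℝ] ℂ :=
  ∑ k, (EuclideanSpace.proj k : V3 →L[ℝ] ℝ).smulRight (a k)

theorem lf_apply (a : Fin 3 → ℂ) (x : V3) : lf a x = ∑ k, (x k : ℂ) * a k := by
  simp [lf]

theorem lf_single (a : Fin 3 → ℂ) (k : Fin 3) : lf a (EuclideanSpace.single k 1) = a k := by
  rw [lf_apply]
  rw [Finset.sum_eq_single k]
  · simp
  · intro j _ hj
    simp [hj]
  · simp

theorem norm_lf_le (a : Fin 3 → ℂ) (x : V3) : ‖lf a x‖ ≤ ‖lf a‖ * ‖x‖ := (lf a).le_opNorm x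

theorem integrable_norm_pow_mul_exp_neg (m : ℕ) {κ : ℝ} (hκ : 0 < κ) :
    Integrable (fun x : V3 => ‖x‖ ^ m * Real.exp (-κ * ‖x‖)) := by
  rw [integrable_fun_norm_addHaar (volume : Measure V3)
    (f := fun r : ℝ => r ^ m * Real.exp (-κ * r))]
  have h := Real.GammaIntegral_convergent (s := m + 3) (by (clear * -; positivity))
  have h2 : IntegrableOn (fun x : ℝ => Real.exp (-(κ * x)) * (κ * x) ^ ((m : ℝ) + 3 - 1)) (Ioi 0) := by
    have := (integrableOn_Ioi_comp_mul_left_iff (fun x : ℝ => Real.exp (-x) * x ^ ((m : ℝ) + 3 - 1))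
      0 hκ).2 (by simpa only [mul_zero] using h)
    exact this
  have h3 : IntegrableOn (fun x : ℝ => (κ ^ (m + 2))⁻¹ *
      (Real.exp (-(κ * x)) * (κ * x) ^ ((m : ℝ) + 3 - 1))) (Ioi 0) := h2.const_mul _
  refine h3.congr_fun (fun x hx => ?_) measurableSet_Ioi
  have hx' : (0 : ℝ) < x := hx
  have e1 : (κ * x) ^ ((m : ℝ) + 3 - 1) = (κ * x) ^ (m + 2) := by
    rw [← Real.rpow_natCast]
    congr 1
    push_cast
    ring
  simp only [finrank_euclideanSpace, Fintype.card_fin, smul_eq_mul]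
  rw [e1, mul_pow]
  have : κ ^ (m + 2) ≠ 0 := by positivity
  field_simp
  ring

theorem integrable_norm_pow_mul_exp_neg_sq (m : ℕ) {b : ℝ} (hb : 0 < b) :
    Integrable (fun x : V3 => ‖x‖ ^ m * Real.exp (-b * ‖x‖ ^ 2)) := by
  rw [integrable_fun_norm_addHaar (volume : Measure V3)
    (f := fun r : ℝ => r ^ m * Real.exp (-b * r ^ 2))]
  have h := (integrable_rpow_mul_exp_neg_mul_sq hb (s := (m : ℝ) + 2)
    (by have : (0 : ℝ) ≤ m := Nat.cast_nonneg m
        linarith)).integrableOn (s := Ioi (0 : ℝ))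
  refine h.congr_fun (fun x hx => ?_) measurableSet_Ioi
  have hx' : (0 : ℝ) < x := hx
  have e1 : x ^ ((m : ℝ) + 2) = x ^ (m + 2) := by
    rw [← Real.rpow_natCast]
    congr 1
    push_cast
    ring
  simp only [finrank_euclideanSpace, Fintype.card_fin, smul_eq_mul]
  rw [e1]
  ring

/-- polynomially bounded continuous functions are integrable against a Gaussian -/
theorem integrable_mul_gauss {P : V3 → ℂ} (hP : Continuous P) {C : ℝ} {m : ℕ}
    (hb : ∀ x, ‖P x‖ ≤ C * ‖x‖ ^ m) :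
    Integrable (fun x : V3 => P x * Real.exp (-‖x‖ ^ 2)) := by
  have h := (integrable_norm_pow_mul_exp_neg_sq m (b := 1) one_pos).const_mul C
  refine h.mono' ?_ (.of_forall fun x => ?_)
  · refine Continuous.aestronglyMeasurable ?_
    exact hP.mul (by (clear * -; fun_prop))
  · rw [norm_mul, Complex.norm_real, Real.norm_of_nonneg (Real.exp_pos _).le]
    calc ‖P x‖ * Real.exp (-‖x‖ ^ 2) ≤ (C * ‖x‖ ^ m) * Real.exp (-‖x‖ ^ 2) := by
          gcongr
          exact hb x
      _ = C * (‖x‖ ^ m * Real.exp (-1 * ‖x‖ ^ 2)) := by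
          rw [neg_one_mul]
          ring

theorem hasFDerivAt_gauss (x : V3) :
    HasFDerivAt (fun x : V3 => ((Real.exp (-‖x‖ ^ 2) : ℝ) : ℂ))
      ((Real.exp (-‖x‖ ^ 2) : ℂ) • Complex.ofRealCLM.comp (-(2 : ℝ) • (innerSL ℝ x))) x := by
  have h1 : HasFDerivAt (fun x : V3 => ‖x‖ ^ 2) ((2 : ℝ) • (innerSL ℝ x)) x := by
    have := (hasStrictFDerivAt_norm_sq x).hasFDerivAt
    rwa [two_nsmul, ← two_smul ℝ] at this
  have h2 := (h1.neg).exp
  have h3 := Complex.ofRealCLM.hasFDerivAt (x := Real.exp (-‖x‖ ^ 2)) |>.comp x h2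
  refine h3.congr_fderiv ?_
  ext v
  simp

/-- Gaussian integration by parts -/
theorem gauss_ibp {P : V3 → ℂ} (hP : Differentiable ℝ P) (a : Fin 3 → ℂ)
    (h1 : ∀ k : Fin 3, Integrable
      (fun x : V3 => fderiv ℝ P x (EuclideanSpace.single k 1) * Real.exp (-‖x‖ ^ 2)))
    (h2 : ∀ k : Fin 3, Integrable (fun x : V3 => P x * (x k : ℂ) * Real.exp (-‖x‖ ^ 2)))
    (h3 : Integrable (fun x : V3 => P x * Real.exp (-‖x‖ ^ 2))) :
    ∫ x : V3, P x * lf a x * Real.exp (-‖x‖ ^ 2) =
      (1 / 2) * ∑ k, a k *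
        ∫ x : V3, fderiv ℝ P x (EuclideanSpace.single k 1) * Real.exp (-‖x‖ ^ 2) := by
  have key : ∀ k : Fin 3, ∫ x : V3, P x * (x k : ℂ) * Real.exp (-‖x‖ ^ 2) =
      (1 / 2) * ∫ x : V3, fderiv ℝ P x (EuclideanSpace.single k 1) * Real.exp (-‖x‖ ^ 2) := by
    intro k
    have hfd : ∀ x : V3, fderiv ℝ (fun x : V3 => ((Real.exp (-‖x‖ ^ 2) : ℝ) : ℂ)) x
        (EuclideanSpace.single k 1) = -2 * (x k : ℂ) * Real.exp (-‖x‖ ^ 2) := by
      intro x
      rw [(hasFDerivAt_gauss x).fderiv]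
      have hin : (inner ℝ x (EuclideanSpace.single k (1 : ℝ)) : ℝ) = x k := by
        rw [EuclideanSpace.inner_single_right]
        simp
      simp [hin]
      ring
    have := integral_mul_fderiv_eq_neg_fderiv_mul_of_integrable (μ := (volume : Measure V3))
      (f := P) (g := fun x : V3 => ((Real.exp (-‖x‖ ^ 2) : ℝ) : ℂ))
      (v := EuclideanSpace.single k 1) (h1 k)
      (by
        simp only [hfd]
        refine ((h2 k).const_mul (-2)).congr (.of_forall fun x => ?_)
        simp only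
        ring) h3 (fun x _ => hP x)
      (fun x _ => (hasFDerivAt_gauss x).differentiableAt)
    simp only [hfd] at this
    have e : ∫ x : V3, P x * (-2 * (x k : ℂ) * Real.exp (-‖x‖ ^ 2)) =
        -2 * ∫ x : V3, P x * (x k : ℂ) * Real.exp (-‖x‖ ^ 2) := by
      rw [← integral_const_mul]
      refine integral_congr_ae (.of_forall fun x => ?_)
      simp only
      ring
    rw [e] at this
    linear_combination (-1 / 2) * this
  have e0 : ∀ x : V3, P x * lf a x * Real.exp (-‖x‖ ^ 2) =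
      ∑ k, a k * (P x * (x k : ℂ) * Real.exp (-‖x‖ ^ 2)) := by
    intro x
    rw [lf_apply, Finset.mul_sum, Finset.sum_mul]
    refine Finset.sum_congr rfl fun k _ => ?_
    ring
  simp only [e0]
  rw [integral_finsetSum _ (fun k _ => (h2 k).const_mul (a k))]
  rw [Finset.mul_sum]
  refine Finset.sum_congr rfl fun k _ => ?_
  rw [integral_const_mul, key k]
  ring

end Vale.Agent.P370.GC
end

section

/-!
The inverse distance as a superposition of products of indicator functions of balls.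
-/

namespace Vale.Agent.P370.GC

open MeasureTheory Set Metric Module
open scoped ENNReal

/-- volume of the intersection of two balls of radius `t` at distance one -/
noncomputable def lens (t : ℝ) : ℝ≥0∞ :=
  volume (ball (0 : V3) t ∩ ball (EuclideanSpace.single 2 1 : V3) t)

theorem lens_of_norm_one {w : V3} (hw : ‖w‖ = 1) (t : ℝ) :
    volume (ball (0 : V3) t ∩ ball w t) = lens t := by
  have he : ‖w‖ = ‖(EuclideanSpace.single 2 1 : V3)‖ := by
    rw [hw]
    simp
  set g := (ℝ ∙ (w - (EuclideanSpace.single 2 1 : V3)))ᗮ.reflection with hg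
  have h1 : g w = EuclideanSpace.single 2 1 := Submodule.reflection_sub he
  have h2 := g.measurePreserving.measure_preimage
    ((measurableSet_ball (x := (0 : V3)) (ε := t)).inter
      (measurableSet_ball (x := (EuclideanSpace.single 2 1 : V3)) (ε := t))).nullMeasurableSet
  unfold lens
  rw [← h2]
  congr 1
  ext x
  simp only [mem_inter_iff, mem_ball, mem_preimage, dist_zero_right, g.norm_map]
  rw [← h1, g.dist_map]

theorem lens_scale (x y : V3) (hxy : x ≠ y) (t : ℝ) :
    volume (ball x t ∩ ball y t) = ENNReal.ofReal (dist x y ^ 3) * lens (t / dist x y) := by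
  have hd : 0 < dist x y := dist_pos.2 hxy
  set d := dist x y with hdd
  have h1 : volume (ball x t ∩ ball y t) = volume (ball (0 : V3) t ∩ ball (y - x) t) := by
    have := (measurePreserving_add_left (volume : Measure V3) x).measure_preimage
      ((measurableSet_ball (x := x) (ε := t)).inter
        (measurableSet_ball (x := y) (ε := t))).nullMeasurableSet
    rw [← this]
    congr 1
    ext z
    simp only [mem_preimage, mem_inter_iff, mem_ball, dist_eq_norm]
    rw [add_sub_cancel_left, sub_zero, show x + z - y = z - (y - x) by abel]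
  have h2 := Measure.addHaar_preimage_smul (volume : Measure V3) hd.ne'
    (ball (0 : V3) t ∩ ball (y - x) t)
  have h3 : ((d • ·) : V3 → V3) ⁻¹' (ball (0 : V3) t ∩ ball (y - x) t) =
      ball (0 : V3) (t / d) ∩ ball (d⁻¹ • (y - x)) (t / d) := by
    ext z
    simp only [mem_inter_iff, mem_ball, mem_preimage, dist_eq_norm, sub_zero]
    have e1 : ‖d • z‖ = d * ‖z‖ := by rw [norm_smul, Real.norm_of_nonneg hd.le]
    have e2 : ‖d • z - (y - x)‖ = d * ‖z - d⁻¹ • (y - x)‖ := by
      rw [← Real.norm_of_nonneg hd.le, ← norm_smul, smul_sub, smul_smul]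
      rw [Real.norm_of_nonneg hd.le, mul_inv_cancel₀ hd.ne', one_smul]
    rw [e1, e2, lt_div_iff₀ hd, lt_div_iff₀ hd, mul_comm d, mul_comm d]
  have h4 : ‖d⁻¹ • (y - x)‖ = 1 := by
    rw [norm_smul, norm_inv, Real.norm_of_nonneg hd.le, ← dist_eq_norm, dist_comm, ← hdd,
      inv_mul_cancel₀ hd.ne']
  rw [h3, lens_of_norm_one h4] at h2
  rw [h1, h2, ← mul_assoc, ← ENNReal.ofReal_mul (by (clear * - hd; positivity))]
  simp only [finrank_euclideanSpace, Fintype.card_fin]
  rw [abs_of_pos (by positivity), mul_inv_cancel₀ (by positivity), ENNReal.ofReal_one, one_mul]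

theorem measurable_lens : Measurable lens := by
  have hs : MeasurableSet {p : ℝ × V3 | dist p.2 0 < p.1 ∧
      dist p.2 (EuclideanSpace.single 2 1 : V3) < p.1} :=
    (measurableSet_lt (by fun_prop) measurable_fst).inter
      (measurableSet_lt (by fun_prop) measurable_fst)
  exact measurable_measure_prodMk_left hs

/-- the constant of the representation -/
noncomputable def kap : ℝ≥0∞ :=
  ∫⁻ t in Ioi (0 : ℝ), ENNReal.ofReal (1 / t ^ 5) * lens t

theorem lens_eq_zero {t : ℝ} (ht : t ≤ 1 / 2) : lens t = 0 := by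
  unfold lens
  have : ball (0 : V3) t ∩ ball (EuclideanSpace.single 2 1 : V3) t = ∅ := by
    rw [← disjoint_iff_inter_eq_empty]
    refine ball_disjoint_ball ?_
    rw [dist_zero_left]
    simp only [Fin.isValue, PiLp.norm_single, norm_one]
    linarith
  rw [this, measure_empty]

theorem lens_le {t : ℝ} (ht : 0 < t) : lens t ≤ ENNReal.ofReal (4 * Real.pi / 3 * t ^ 3) := by
  unfold lens
  refine (measure_mono inter_subset_left).trans ?_
  rw [EuclideanSpace.volume_ball_fin_three, ← ENNReal.ofReal_pow ht.le,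
    ← ENNReal.ofReal_mul (by positivity)]
  apply ENNReal.ofReal_le_ofReal
  apply le_of_eq
  ring

theorem kap_le : kap ≤ ENNReal.ofReal (8 * Real.pi / 3) := by
  unfold kap
  have h1 : ∀ t ∈ Ioi (0 : ℝ), ENNReal.ofReal (1 / t ^ 5) * lens t ≤
      (Ioi (1 / 2 : ℝ)).indicator (fun t => ENNReal.ofReal (4 * Real.pi / 3 * t ^ (-2 : ℝ))) t := by
    intro t ht
    have ht0 : 0 < t := ht
    by_cases h : t ∈ Ioi (1 / 2 : ℝ)
    · rw [indicator_of_mem h]
      calc ENNReal.ofReal (1 / t ^ 5) * lens t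
          ≤ ENNReal.ofReal (1 / t ^ 5) * ENNReal.ofReal (4 * Real.pi / 3 * t ^ 3) := by
            gcongr
            exact lens_le ht0
        _ = _ := by
            rw [← ENNReal.ofReal_mul (by (clear * - ht0; positivity))]
            congr 1
            rw [Real.rpow_neg ht0.le, show (2 : ℝ) = ((2 : ℕ) : ℝ) by norm_num, Real.rpow_natCast]
            field_simp
    · rw [indicator_of_notMem h, lens_eq_zero (by simpa only [one_div, mem_Ioi, not_lt] using h), mul_zero]
  calc ∫⁻ t in Ioi (0 : ℝ), ENNReal.ofReal (1 / t ^ 5) * lens t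
      ≤ ∫⁻ t in Ioi (0 : ℝ), (Ioi (1 / 2 : ℝ)).indicator
        (fun t => ENNReal.ofReal (4 * Real.pi / 3 * t ^ (-2 : ℝ))) t :=
        setLIntegral_mono' measurableSet_Ioi h1
    _ ≤ ∫⁻ t, (Ioi (1 / 2 : ℝ)).indicator
        (fun t => ENNReal.ofReal (4 * Real.pi / 3 * t ^ (-2 : ℝ))) t := setLIntegral_le_lintegral _ _
    _ = ∫⁻ t in Ioi (1 / 2 : ℝ), ENNReal.ofReal (4 * Real.pi / 3 * t ^ (-2 : ℝ)) :=
        lintegral_indicator measurableSet_Ioi _
    _ = ENNReal.ofReal (∫ t in Ioi (1 / 2 : ℝ), 4 * Real.pi / 3 * t ^ (-2 : ℝ)) := by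
        rw [ofReal_integral_eq_lintegral_ofReal]
        · exact ((integrableOn_Ioi_rpow_of_lt (by norm_num) (by norm_num)).const_mul _)
        · filter_upwards [ae_restrict_mem measurableSet_Ioi] with t ht
          have ht0 : (0 : ℝ) < t := lt_trans (by norm_num) (mem_Ioi.1 ht)
          have := Real.rpow_pos_of_pos ht0 (-2)
          have := Real.pi_pos
          show 0 ≤ 4 * Real.pi / 3 * t ^ (-2 : ℝ)
          (clear * - ht0; positivity)
    _ = _ := by
        rw [integral_const_mul, integral_Ioi_rpow_of_lt (by norm_num) (by (clear * -; norm_num))]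
        congr 1
        rw [show (-2 : ℝ) + 1 = -1 by norm_num, Real.rpow_neg_one]
        ring

/-- the inverse distance as a superposition of balls -/
theorem kap_rep (x y : V3) (hxy : x ≠ y) :
    ∫⁻ t in Ioi (0 : ℝ), ENNReal.ofReal (1 / t ^ 5) * volume (ball x t ∩ ball y t) =
      kap * ENNReal.ofReal (1 / dist x y) := by
  have hd : 0 < dist x y := dist_pos.2 hxy
  set d := dist x y with hdd
  set H : ℝ → ℝ≥0∞ := (Ioi (0 : ℝ)).indicator (fun s => ENNReal.ofReal (1 / s ^ 5) * lens s) with hH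
  have hHm : Measurable H :=
    Measurable.indicator ((by (clear * -; fun_prop) : Measurable fun s : ℝ => ENNReal.ofReal (1 / s ^ 5)).mul
      measurable_lens) measurableSet_Ioi
  have h1 : ∀ t : ℝ, (Ioi (0 : ℝ)).indicator
      (fun t => ENNReal.ofReal (1 / t ^ 5) * volume (ball x t ∩ ball y t)) t =
      ENNReal.ofReal (1 / d ^ 2) * H (d⁻¹ * t) := by
    intro t
    by_cases ht : t ∈ Ioi (0 : ℝ)
    · have ht0 : 0 < t := ht
      have hm : d⁻¹ * t ∈ Ioi (0 : ℝ) := by
        show 0 < d⁻¹ * t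
        (clear * - hd ht0; positivity)
      rw [indicator_of_mem ht, hH, indicator_of_mem hm, lens_scale x y hxy, ← hdd, ← mul_assoc,
        ← mul_assoc, ← ENNReal.ofReal_mul (by (clear * - ht0; positivity)), ← ENNReal.ofReal_mul (by positivity)]
      rw [show t / d = d⁻¹ * t by rw [div_eq_inv_mul]]
      congr 2
      field_simp
    · have hm : d⁻¹ * t ∉ Ioi (0 : ℝ) := by
        simp only [mem_Ioi, not_lt] at ht ⊢
        exact mul_nonpos_of_nonneg_of_nonpos (by (clear * - hd; positivity)) ht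
      rw [indicator_of_notMem ht, hH, indicator_of_notMem hm, mul_zero]
  rw [← lintegral_indicator measurableSet_Ioi]
  simp only [h1]
  have hHm2 : Measurable fun t : ℝ => H (d⁻¹ * t) := hHm.comp (measurable_const_mul _)
  rw [lintegral_const_mul _ hHm2]
  have h2 : ∫⁻ t : ℝ, H (d⁻¹ * t) = ENNReal.ofReal d * ∫⁻ s, H s := by
    have h3 := Real.map_volume_mul_left (a := d⁻¹) (by positivity)
    rw [← lintegral_map hHm (measurable_const_mul _), h3, lintegral_smul_measure, inv_inv,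
      abs_of_pos hd, smul_eq_mul]
  rw [h2, ← mul_assoc, ← ENNReal.ofReal_mul (by positivity), hH,
    lintegral_indicator measurableSet_Ioi, mul_comm]
  unfold kap
  congr 2
  (clear * - hd; field_simp)

end Vale.Agent.P370.GC
end

section

/-!
Coulomb energies of densities as squares of ball masses.
-/

namespace Vale.Agent.P370.GC

open MeasureTheory Set Metric Module
open scoped ENNReal

/-- parameter space of balls `(t, z)` -/
noncomputable def nub : Measure (ℝ × V3) := (volume.restrict (Ioi (0 : ℝ))).prod volume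

instance : SFinite nub := by unfold nub; infer_instance

/-- indicator of `x ∈ ball z t` -/
noncomputable def gb (p : ℝ × V3) (x : V3) : ℝ≥0∞ := (ball p.2 p.1).indicator (fun _ => 1) x

theorem measurable_gb : Measurable (fun q : (ℝ × V3) × V3 => gb q.1 q.2) := by
  have hs : MeasurableSet {q : (ℝ × V3) × V3 | dist q.2 q.1.2 < q.1.1} :=
    measurableSet_lt (by (clear * -; fun_prop)) (by fun_prop)
  have : (fun q : (ℝ × V3) × V3 => gb q.1 q.2) =
      {q : (ℝ × V3) × V3 | dist q.2 q.1.2 < q.1.1}.indicator (fun _ => 1) := by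
    ext q
    by_cases hq : dist q.2 q.1.2 < q.1.1
    · rw [gb, indicator_of_mem (show q.2 ∈ ball q.1.2 q.1.1 from hq),
        indicator_of_mem (show q ∈ {q : (ℝ × V3) × V3 | dist q.2 q.1.2 < q.1.1} from hq)]
    · rw [gb, indicator_of_notMem (show q.2 ∉ ball q.1.2 q.1.1 from hq),
        indicator_of_notMem (show q ∉ {q : (ℝ × V3) × V3 | dist q.2 q.1.2 < q.1.1} from hq)]
  rw [this]
  exact measurable_const.indicator hs

theorem measurable_gb_left (x : V3) : Measurable fun p : ℝ × V3 => gb p x := by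
  have h : Measurable fun p : ℝ × V3 => ((p, x) : (ℝ × V3) × V3) :=
    measurable_id.prodMk measurable_const
  have h2 := measurable_gb.comp h
  simp only [Function.comp_def] at h2
  exact h2

theorem measurable_gb_right (p : ℝ × V3) : Measurable fun x : V3 => gb p x := by
  have h : Measurable fun x : V3 => ((p, x) : (ℝ × V3) × V3) :=
    measurable_const.prodMk measurable_id
  have h2 := measurable_gb.comp h
  simp only [Function.comp_def] at h2
  exact h2

theorem measurable_gb_mid (t : ℝ) (x : V3) : Measurable fun z : V3 => gb (t, z) x := by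
  have h : Measurable fun z : V3 => (((t, z), x) : (ℝ × V3) × V3) :=
    (measurable_const.prodMk measurable_id).prodMk measurable_const
  have h2 := measurable_gb.comp h
  simp only [Function.comp_def] at h2
  exact h2

theorem measurable_gb_swap {α : Type*} [MeasurableSpace α] {f : α → V3} {g : α → ℝ × V3}
    (hf : Measurable f) (hg : Measurable g) : Measurable fun a => gb (g a) (f a) := by
  have h : Measurable fun a => ((g a, f a) : (ℝ × V3) × V3) := hg.prodMk hf
  have h2 := measurable_gb.comp h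
  simp only [Function.comp_def] at h2
  exact h2

/-- mass of a ball -/
noncomputable def bm (d : V3 → ℝ) (p : ℝ × V3) : ℝ := ∫ x in ball p.2 p.1, d x

theorem lintegral_gb {d : V3 → ℝ} (hd : Integrable d) (hd0 : ∀ x, 0 ≤ d x) (p : ℝ × V3) :
    ∫⁻ x, ENNReal.ofReal (d x) * gb p x = ENNReal.ofReal (bm d p) := by
  unfold bm
  rw [ofReal_integral_eq_lintegral_ofReal hd.integrableOn (.of_forall hd0),
    ← lintegral_indicator measurableSet_ball]
  refine lintegral_congr fun x => ?_
  unfold gb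
  by_cases hx : x ∈ ball p.2 p.1
  · rw [indicator_of_mem hx, indicator_of_mem hx, mul_one]
  · rw [indicator_of_notMem hx, indicator_of_notMem hx, mul_zero]

theorem bm_nonneg {d : V3 → ℝ} (hd0 : ∀ x, 0 ≤ d x) (p : ℝ × V3) : 0 ≤ bm d p :=
  integral_nonneg hd0

theorem measurable_bm {d : V3 → ℝ} (hdm : Measurable d) (hd : Integrable d)
    (hd0 : ∀ x, 0 ≤ d x) : Measurable (bm d) := by
  have h1 : Measurable fun p : ℝ × V3 => ∫⁻ x, ENNReal.ofReal (d x) * gb p x :=
    ((hdm.comp measurable_snd).ennreal_ofReal.mul measurable_gb).lintegral_prod_right'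
  simp only [lintegral_gb hd hd0] at h1
  have h2 : bm d = fun p => (ENNReal.ofReal (bm d p)).toReal := by
    funext p
    rw [ENNReal.toReal_ofReal (bm_nonneg hd0 p)]
  rw [h2]
  exact h1.ennreal_toReal

theorem vol_inter (x y : V3) (t : ℝ) :
    volume (ball x t ∩ ball y t) = ∫⁻ z, gb (t, z) x * gb (t, z) y := by
  rw [← lintegral_indicator_one (measurableSet_ball.inter measurableSet_ball)]
  refine lintegral_congr fun z => ?_
  unfold gb
  by_cases hx : dist x z < t
  · rw [indicator_of_mem (show x ∈ ball (t, z).2 (t, z).1 from hx), one_mul]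
    by_cases hy : dist y z < t
    · rw [indicator_of_mem (show y ∈ ball (t, z).2 (t, z).1 from hy), indicator_of_mem]
      · rfl
      · exact ⟨by rw [mem_ball, dist_comm]; exact hx, by rw [mem_ball, dist_comm]; exact hy⟩
    · rw [indicator_of_notMem (show y ∉ ball (t, z).2 (t, z).1 from hy), indicator_of_notMem]
      intro h
      exact hy (by rw [dist_comm]; exact h.2)
  · rw [indicator_of_notMem (show x ∉ ball (t, z).2 (t, z).1 from hx), zero_mul,
      indicator_of_notMem]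
    intro h
    exact hx (by rw [dist_comm]; exact h.1)

theorem kap_rep' (x y : V3) (hxy : x ≠ y) :
    ∫⁻ p, ENNReal.ofReal (1 / p.1 ^ 5) * (gb p x * gb p y) ∂nub =
      kap * ENNReal.ofReal (1 / dist x y) := by
  rw [← kap_rep x y hxy]
  have mw : Measurable fun p : ℝ × V3 => ENNReal.ofReal (1 / p.1 ^ 5) := by (clear * -; fun_prop)
  have hm : Measurable fun p : ℝ × V3 => ENNReal.ofReal (1 / p.1 ^ 5) * (gb p x * gb p y) :=
    mw.mul ((measurable_gb_left x).mul (measurable_gb_left y))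
  unfold nub
  rw [lintegral_prod _ hm.aemeasurable]
  refine lintegral_congr fun t => ?_
  have m : Measurable fun z : V3 => gb (t, z) x * gb (t, z) y :=
    (measurable_gb_mid t x).mul (measurable_gb_mid t y)
  rw [vol_inter, ← lintegral_const_mul _ m]

/-- Coulomb energy as a superposition of products of ball masses -/
theorem rep_lintegral {d e : V3 → ℝ} (hdm : Measurable d) (hem : Measurable e)
    (hd : Integrable d) (he : Integrable e) (hd0 : ∀ x, 0 ≤ d x) (he0 : ∀ x, 0 ≤ e x) :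
    ∫⁻ p, ENNReal.ofReal (1 / p.1 ^ 5) * (ENNReal.ofReal (bm d p) * ENNReal.ofReal (bm e p)) ∂nub =
      kap * ∫⁻ y, ∫⁻ x, ENNReal.ofReal (d x / dist x y * e y) := by
  -- measurability
  have mw : Measurable fun p : ℝ × V3 => ENNReal.ofReal (1 / p.1 ^ 5) := by (clear * -; fun_prop)
  have md : Measurable fun x : V3 => ENNReal.ofReal (d x) := hdm.ennreal_ofReal
  have me : Measurable fun x : V3 => ENNReal.ofReal (e x) := hem.ennreal_ofReal
  have g1 := measurable_gb_left
  have g2 := measurable_gb_right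
  -- step 1
  have s1 : ∀ y x : V3, x ≠ y → kap * ENNReal.ofReal (d x / dist x y * e y) =
      ∫⁻ p, ENNReal.ofReal (1 / p.1 ^ 5) * (ENNReal.ofReal (d x) * gb p x) *
        (ENNReal.ofReal (e y) * gb p y) ∂nub := by
    intro y x hxy
    have e1 : ENNReal.ofReal (d x / dist x y * e y) =
        ENNReal.ofReal (d x) * ENNReal.ofReal (e y) * ENNReal.ofReal (1 / dist x y) := by
      rw [← ENNReal.ofReal_mul (hd0 x), ← ENNReal.ofReal_mul (mul_nonneg (hd0 x) (he0 y))]
      congr 1
      ring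
    have m0 : Measurable fun p : ℝ × V3 => ENNReal.ofReal (1 / p.1 ^ 5) * (gb p x * gb p y) :=
      mw.mul ((g1 x).mul (g1 y))
    rw [e1, mul_comm (ENNReal.ofReal (d x) * ENNReal.ofReal (e y)), ← mul_assoc,
      ← kap_rep' x y hxy, mul_comm, ← lintegral_const_mul _ m0]
    refine lintegral_congr fun p => ?_
    ring
  have s2 : ∀ y : V3, kap * ∫⁻ x, ENNReal.ofReal (d x / dist x y * e y) =
      ∫⁻ p, ENNReal.ofReal (1 / p.1 ^ 5) * ENNReal.ofReal (bm d p) *
        (ENNReal.ofReal (e y) * gb p y) ∂nub := by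
    intro y
    have m1 : Measurable fun x : V3 => ENNReal.ofReal (d x / dist x y * e y) :=
      ((hdm.div (by fun_prop)).mul_const _).ennreal_ofReal
    rw [← lintegral_const_mul _ m1]
    have hne : ∀ᵐ x ∂(volume : Measure V3), x ≠ y := by
      have := measure_singleton (μ := (volume : Measure V3)) y
      rw [ae_iff]
      simp
    have e1 : ∫⁻ x, kap * ENNReal.ofReal (d x / dist x y * e y) =
        ∫⁻ x, ∫⁻ p, ENNReal.ofReal (1 / p.1 ^ 5) * (ENNReal.ofReal (d x) * gb p x) *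
        (ENNReal.ofReal (e y) * gb p y) ∂nub := by
      refine lintegral_congr_ae ?_
      filter_upwards [hne] with x hx
      exact s1 y x hx
    have m2 : Measurable (Function.uncurry fun (x : V3) (p : ℝ × V3) =>
        ENNReal.ofReal (1 / p.1 ^ 5) * (ENNReal.ofReal (d x) * gb p x) *
        (ENNReal.ofReal (e y) * gb p y)) := by
      refine ((mw.comp measurable_snd).mul ((md.comp measurable_fst).mul ?_)).mul
        (measurable_const.mul ((g1 y).comp measurable_snd))
      exact measurable_gb_swap measurable_fst measurable_snd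
    rw [e1, lintegral_lintegral_swap m2.aemeasurable]
    refine lintegral_congr fun p => ?_
    have e2 : ∀ x : V3, ENNReal.ofReal (1 / p.1 ^ 5) * (ENNReal.ofReal (d x) * gb p x) *
        (ENNReal.ofReal (e y) * gb p y) = (ENNReal.ofReal (1 / p.1 ^ 5) *
          (ENNReal.ofReal (e y) * gb p y)) * (ENNReal.ofReal (d x) * gb p x) := by
      intro x
      ring
    simp only [e2]
    have m5 : Measurable fun x : V3 => ENNReal.ofReal (d x) * gb p x := md.mul (g2 p)
    rw [lintegral_const_mul _ m5, lintegral_gb hd hd0]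
    ring
  have m3 : Measurable fun y : V3 => ∫⁻ x, ENNReal.ofReal (d x / dist x y * e y) := by
    refine Measurable.lintegral_prod_right' (f := fun q : V3 × V3 =>
      ENNReal.ofReal (d q.2 / dist q.2 q.1 * e q.1)) ?_
    exact (((hdm.comp measurable_snd).div (by fun_prop)).mul
      (hem.comp measurable_fst)).ennreal_ofReal
  rw [← lintegral_const_mul _ m3]
  simp only [s2]
  have mbd : Measurable fun p : ℝ × V3 => ENNReal.ofReal (bm d p) :=
    (measurable_bm hdm hd hd0).ennreal_ofReal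
  have m4 : Measurable (Function.uncurry fun (y : V3) (p : ℝ × V3) =>
      ENNReal.ofReal (1 / p.1 ^ 5) * ENNReal.ofReal (bm d p) *
        (ENNReal.ofReal (e y) * gb p y)) := by
    refine ((mw.comp measurable_snd).mul (mbd.comp measurable_snd)).mul
      ((me.comp measurable_fst).mul ?_)
    exact measurable_gb_swap measurable_fst measurable_snd
  rw [lintegral_lintegral_swap m4.aemeasurable]
  refine lintegral_congr fun p => ?_
  have m5 : Measurable fun x : V3 => ENNReal.ofReal (e x) * gb p x := me.mul (g2 p)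
  rw [lintegral_const_mul _ m5, lintegral_gb he he0]
  ring

end Vale.Agent.P370.GC
end

section

/-!
Coulomb quadratic forms as integrals of squares.
-/

namespace Vale.Agent.P370.GC

open MeasureTheory Set Metric Module
open scoped ENNReal

/-- an admissible density -/
structure Dens (d : V3 → ℝ) : Prop where
  meas : Measurable d
  int : Integrable d
  nn : ∀ x, 0 ≤ d x

/-- Coulomb energy of two densities -/
noncomputable def cw (d e : V3 → ℝ) : ℝ := ∫ y, (∫ x, d x / dist x y) * e y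

/-- weighted product of ball masses -/
noncomputable def fp (d e : V3 → ℝ) (p : ℝ × V3) : ℝ := 1 / p.1 ^ 5 * (bm d p * bm e p)

theorem ae_nub_pos : ∀ᵐ p ∂nub, 0 < p.1 := by
  have h : ∀ᵐ t ∂(volume.restrict (Ioi (0 : ℝ))), t ∈ Ioi (0 : ℝ) :=
    ae_restrict_mem measurableSet_Ioi
  have h2 : ∀ᵐ p ∂nub, p.1 ∈ Ioi (0 : ℝ) := Measure.quasiMeasurePreserving_fst.ae h
  filter_upwards [h2] with p hp
  exact hp

theorem cw_lintegral {d e : V3 → ℝ} (hd : Dens d) (he : Dens e)
    (hI : Integrable (fun q : V3 × V3 => d q.1 / dist q.1 q.2 * e q.2) (volume.prod volume)) :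
    ∫⁻ y, ∫⁻ x, ENNReal.ofReal (d x / dist x y * e y) = ENNReal.ofReal (cw d e) := by
  have hnn : ∀ q : V3 × V3, 0 ≤ d q.1 / dist q.1 q.2 * e q.2 := fun q =>
    mul_nonneg (div_nonneg (hd.nn _) dist_nonneg) (he.nn _)
  have hm : Measurable fun q : V3 × V3 => d q.1 / dist q.1 q.2 * e q.2 :=
    ((hd.meas.comp measurable_fst).div (by (clear * -; fun_prop))).mul (he.meas.comp measurable_snd)
  have h1 : cw d e = ∫ q : V3 × V3, d q.1 / dist q.1 q.2 * e q.2 ∂(volume.prod volume) := by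
    rw [integral_prod_symm _ hI]
    unfold cw
    refine integral_congr_ae (.of_forall fun y => ?_)
    simp only
    rw [integral_mul_const]
  rw [h1, ofReal_integral_eq_lintegral_ofReal hI (.of_forall hnn),
    lintegral_prod_symm _ hm.ennreal_ofReal.aemeasurable]

theorem cw_nonneg {d e : V3 → ℝ} (hd : Dens d) (he : Dens e) : 0 ≤ cw d e :=
  integral_nonneg fun y => mul_nonneg (integral_nonneg fun x => div_nonneg (hd.nn x) dist_nonneg)
    (he.nn y)

theorem measurable_fp {d e : V3 → ℝ} (hd : Dens d) (he : Dens e) : Measurable (fp d e) := by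
  unfold fp
  have m1 := measurable_bm hd.meas hd.int hd.nn
  have m2 := measurable_bm he.meas he.int he.nn
  exact (by (clear * -; fun_prop) : Measurable fun p : ℝ × V3 => 1 / p.1 ^ 5).mul (m1.mul m2)

theorem fp_lintegral {d e : V3 → ℝ} (hd : Dens d) (he : Dens e)
    (hI : Integrable (fun q : V3 × V3 => d q.1 / dist q.1 q.2 * e q.2) (volume.prod volume)) :
    ∫⁻ p, ENNReal.ofReal (fp d e p) ∂nub = kap * ENNReal.ofReal (cw d e) := by
  rw [← cw_lintegral hd he hI, ← rep_lintegral hd.meas he.meas hd.int he.int hd.nn he.nn]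
  refine lintegral_congr_ae ?_
  filter_upwards [ae_nub_pos] with p hp
  unfold fp
  have h1 := bm_nonneg hd.nn p
  rw [ENNReal.ofReal_mul (by (clear * - hp; positivity)), ENNReal.ofReal_mul h1]

theorem kap_ne_top : kap ≠ ∞ := (kap_le.trans_lt ENNReal.ofReal_lt_top).ne

theorem fp_integrable {d e : V3 → ℝ} (hd : Dens d) (he : Dens e)
    (hI : Integrable (fun q : V3 × V3 => d q.1 / dist q.1 q.2 * e q.2) (volume.prod volume)) :
    Integrable (fp d e) nub := by
  refine ⟨(measurable_fp hd he).aestronglyMeasurable, ?_⟩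
  have hnn : 0 ≤ᵐ[nub] fp d e := by
    filter_upwards [ae_nub_pos] with p hp
    unfold fp
    have h1 := bm_nonneg hd.nn p
    have h2 := bm_nonneg he.nn p
    show 0 ≤ 1 / p.1 ^ 5 * (bm d p * bm e p)
    (clear * - hp h1 h2; positivity)
  rw [hasFiniteIntegral_iff_ofReal hnn, fp_lintegral hd he hI]
  exact ENNReal.mul_lt_top kap_ne_top.lt_top ENNReal.ofReal_lt_top

theorem fp_integral {d e : V3 → ℝ} (hd : Dens d) (he : Dens e)
    (hI : Integrable (fun q : V3 × V3 => d q.1 / dist q.1 q.2 * e q.2) (volume.prod volume)) :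
    ∫ p, fp d e p ∂nub = kap.toReal * cw d e := by
  have hnn : 0 ≤ᵐ[nub] fp d e := by
    filter_upwards [ae_nub_pos] with p hp
    unfold fp
    have h1 := bm_nonneg hd.nn p
    have h2 := bm_nonneg he.nn p
    show 0 ≤ 1 / p.1 ^ 5 * (bm d p * bm e p)
    (clear * - hp h1 h2; positivity)
  rw [integral_eq_lintegral_of_nonneg_ae hnn (measurable_fp hd he).aestronglyMeasurable,
    fp_lintegral hd he hI, ENNReal.toReal_mul, ENNReal.toReal_ofReal (cw_nonneg hd he)]

/-- the quadratic form is the integral of a square -/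
theorem quad_integral {ι : Type*} [Fintype ι] {d : ι → V3 → ℝ} (hd : ∀ i, Dens (d i))
    (hI : ∀ i j, Integrable (fun q : V3 × V3 => d i q.1 / dist q.1 q.2 * d j q.2)
      (volume.prod volume)) (v : ι → ℝ) :
    Integrable (fun p => 1 / p.1 ^ 5 * (∑ i, v i * bm (d i) p) ^ 2) nub ∧
    kap.toReal * ∑ i, ∑ j, v i * v j * cw (d i) (d j) =
      ∫ p, 1 / p.1 ^ 5 * (∑ i, v i * bm (d i) p) ^ 2 ∂nub := by
  have e : ∀ p : ℝ × V3, 1 / p.1 ^ 5 * (∑ i, v i * bm (d i) p) ^ 2 =
      ∑ i, ∑ j, (v i * v j) * fp (d i) (d j) p := by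
    intro p
    unfold fp
    rw [sq, Finset.sum_mul_sum, Finset.mul_sum]
    refine Finset.sum_congr rfl fun i _ => ?_
    rw [Finset.mul_sum]
    refine Finset.sum_congr rfl fun j _ => ?_
    ring
  have hi : ∀ i j, Integrable (fun p => (v i * v j) * fp (d i) (d j) p) nub := fun i j =>
    (fp_integrable (hd i) (hd j) (hI i j)).const_mul _
  have hi2 : ∀ i, Integrable (fun p => ∑ j, (v i * v j) * fp (d i) (d j) p) nub := fun i =>
    integrable_finsetSum _ fun j _ => hi i j
  constructor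
  · simp only [e]
    exact integrable_finsetSum _ fun i _ => hi2 i
  · simp only [e]
    rw [integral_finsetSum _ fun i _ => hi2 i, Finset.mul_sum]
    refine Finset.sum_congr rfl fun i _ => ?_
    rw [integral_finsetSum _ fun j _ => hi i j, Finset.mul_sum]
    refine Finset.sum_congr rfl fun j _ => ?_
    rw [integral_const_mul, fp_integral (hd i) (hd j) (hI i j)]
    ring

end Vale.Agent.P370.GC
end

section

/-!
Averages of ball masses over a region of balls.
-/

namespace Vale.Agent.P370.GC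

open MeasureTheory Set Metric Module
open scoped ENNReal

/-- measure on a region of balls -/
noncomputable def nur (t0 : ℝ) (Rs : Set V3) : Measure (ℝ × V3) :=
  (volume.restrict (Ioc t0 (2 * t0))).prod (volume.restrict Rs)

instance (t0 : ℝ) (Rs : Set V3) : SFinite (nur t0 Rs) := by unfold nur; infer_instance

theorem nub_restrict {t0 : ℝ} (ht0 : 0 < t0) (Rs : Set V3) :
    nub.restrict (Ioc t0 (2 * t0) ×ˢ Rs) = nur t0 Rs := by
  unfold nub nur
  have h : Ioc t0 (2 * t0) ∩ Ioi 0 = Ioc t0 (2 * t0) :=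
    inter_eq_left.2 (fun t ht => ht0.trans ht.1)
  rw [← Measure.prod_restrict, Measure.restrict_restrict measurableSet_Ioc, h]

theorem lintegral_gb_nur (t0 : ℝ) {Rs : Set V3} (hR : MeasurableSet Rs) (x : V3) :
    ∫⁻ p, gb p x ∂(nur t0 Rs) =
      ∫⁻ t in Ioc t0 (2 * t0), volume (ball x t ∩ Rs) := by
  unfold nur
  rw [lintegral_prod _ (measurable_gb_left x).aemeasurable]
  refine lintegral_congr fun t => ?_
  rw [← lintegral_indicator hR, ← lintegral_indicator_one (measurableSet_ball.inter hR)]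
  refine lintegral_congr fun z => ?_
  by_cases hz : z ∈ Rs
  · rw [indicator_of_mem hz]
    unfold gb
    by_cases hx : dist x z < t
    · rw [indicator_of_mem (show x ∈ ball (t, z).2 (t, z).1 from hx), indicator_of_mem]
      · rfl
      · exact ⟨by rw [mem_ball, dist_comm]; exact hx, hz⟩
    · rw [indicator_of_notMem (show x ∉ ball (t, z).2 (t, z).1 from hx), indicator_of_notMem]
      intro h
      exact hx (by rw [dist_comm]; exact h.1)
  · rw [indicator_of_notMem hz, indicator_of_notMem]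
    intro h
    exact hz h.2

theorem lintegral_bm_nur {d : V3 → ℝ} (hd : Dens d) (t0 : ℝ) {Rs : Set V3}
    (hR : MeasurableSet Rs) :
    ∫⁻ p, ENNReal.ofReal (bm d p) ∂(nur t0 Rs) =
      ∫⁻ x, ENNReal.ofReal (d x) * ∫⁻ t in Ioc t0 (2 * t0), volume (ball x t ∩ Rs) := by
  have m : Measurable (Function.uncurry fun (p : ℝ × V3) (x : V3) =>
      ENNReal.ofReal (d x) * gb p x) :=
    (hd.meas.comp measurable_snd).ennreal_ofReal.mul
      (measurable_gb_swap measurable_snd measurable_fst)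
  simp only [← lintegral_gb hd.int hd.nn]
  rw [lintegral_lintegral_swap m.aemeasurable]
  refine lintegral_congr fun x => ?_
  rw [lintegral_const_mul _ (measurable_gb_left x), lintegral_gb_nur t0 hR]

theorem vol_ball_V3 (x : V3) {t : ℝ} (ht : 0 ≤ t) :
    volume (ball x t) = ENNReal.ofReal (4 * Real.pi / 3 * t ^ 3) := by
  rw [EuclideanSpace.volume_ball_fin_three, ← ENNReal.ofReal_pow ht,
    ← ENNReal.ofReal_mul (by (clear * - ht; positivity))]
  congr 1
  ring

/-- lower bound -/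
theorem bm_nur_lower {d : V3 → ℝ} (hd : Dens d) {t0 : ℝ} (ht0 : 0 < t0) {Rs A : Set V3}
    (hR : MeasurableSet Rs) (hA : MeasurableSet A)
    (h : ∀ x ∈ A, ∀ z, dist z x < 2 * t0 → z ∈ Rs) :
    ENNReal.ofReal (4 * Real.pi / 3 * t0 ^ 4) * ENNReal.ofReal (∫ x in A, d x) ≤
      ∫⁻ p, ENNReal.ofReal (bm d p) ∂(nur t0 Rs) := by
  rw [lintegral_bm_nur hd t0 hR, ofReal_integral_eq_lintegral_ofReal hd.int.integrableOn
    (.of_forall hd.nn), ← lintegral_const_mul _ hd.meas.ennreal_ofReal,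
    ← lintegral_indicator hA]
  refine lintegral_mono fun x => ?_
  by_cases hx : x ∈ A
  · rw [indicator_of_mem hx, mul_comm]
    gcongr
    calc ENNReal.ofReal (4 * Real.pi / 3 * t0 ^ 4)
        = ∫⁻ _ in Ioc t0 (2 * t0), ENNReal.ofReal (4 * Real.pi / 3 * t0 ^ 3) := by
          rw [setLIntegral_const, Real.volume_Ioc, ← ENNReal.ofReal_mul (by (clear * - ht0; positivity))]
          congr 1
          ring
      _ ≤ ∫⁻ t in Ioc t0 (2 * t0), volume (ball x t ∩ Rs) := by
          refine setLIntegral_mono' measurableSet_Ioc fun t ht => ?_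
          have ht1 : 0 < t := ht0.trans ht.1
          have e : ball x t ∩ Rs = ball x t := by
            refine inter_eq_left.2 fun z hz => h x hx z ?_
            exact lt_of_lt_of_le (mem_ball.1 hz) ht.2
          rw [e, vol_ball_V3 x ht1.le]
          apply ENNReal.ofReal_le_ofReal
          have := ht.1.le
          gcongr
  · rw [indicator_of_notMem hx]
    exact zero_le

/-- upper bound -/
theorem bm_nur_upper {d : V3 → ℝ} (hd : Dens d) {t0 : ℝ} (ht0 : 0 < t0) {Rs N : Set V3}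
    (hR : MeasurableSet Rs) (hN : MeasurableSet N)
    (h : ∀ z ∈ Rs, ∀ x, dist z x < 2 * t0 → x ∈ N) :
    ∫⁻ p, ENNReal.ofReal (bm d p) ∂(nur t0 Rs) ≤
      ENNReal.ofReal (32 * Real.pi / 3 * t0 ^ 4) * ENNReal.ofReal (∫ x in N, d x) := by
  rw [lintegral_bm_nur hd t0 hR, ofReal_integral_eq_lintegral_ofReal hd.int.integrableOn
    (.of_forall hd.nn), ← lintegral_const_mul _ hd.meas.ennreal_ofReal,
    ← lintegral_indicator hN]
  refine lintegral_mono fun x => ?_
  by_cases hx : x ∈ N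
  · rw [indicator_of_mem hx, mul_comm]
    gcongr
    calc ∫⁻ t in Ioc t0 (2 * t0), volume (ball x t ∩ Rs)
        ≤ ∫⁻ _ in Ioc t0 (2 * t0), ENNReal.ofReal (32 * Real.pi / 3 * t0 ^ 3) := by
          refine setLIntegral_mono' measurableSet_Ioc fun t ht => ?_
          have ht1 : 0 < t := ht0.trans ht.1
          refine (measure_mono inter_subset_left).trans ?_
          rw [vol_ball_V3 x ht1.le]
          apply ENNReal.ofReal_le_ofReal
          have := ht.2
          calc 4 * Real.pi / 3 * t ^ 3 ≤ 4 * Real.pi / 3 * (2 * t0) ^ 3 := by (clear * - ht1 this; gcongr)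
            _ = 32 * Real.pi / 3 * t0 ^ 3 := by ring
      _ = ENNReal.ofReal (32 * Real.pi / 3 * t0 ^ 4) := by
          rw [setLIntegral_const, Real.volume_Ioc, ← ENNReal.ofReal_mul (by (clear * - ht0; positivity))]
          congr 1
          ring
  · rw [indicator_of_notMem hx]
    have e : ∀ t ∈ Ioc t0 (2 * t0), volume (ball x t ∩ Rs) = 0 := by
      intro t ht
      have : ball x t ∩ Rs = ∅ := by
        rw [eq_empty_iff_forall_notMem]
        intro z hz
        exact hx (h z hz.2 x (lt_of_lt_of_le (mem_ball.1 hz.1) ht.2))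
      rw [this, measure_empty]
    rw [setLIntegral_congr_fun measurableSet_Ioc e]
    simp only [lintegral_const, MeasurableSet.univ, Measure.restrict_apply, univ_inter, Real.volume_Ioc, zero_mul, mul_zero, Std.le_refl]

theorem bm_le_one {d : V3 → ℝ} (hd : Dens d) (h1 : ∫ x, d x = 1) (p : ℝ × V3) : bm d p ≤ 1 := by
  rw [← h1]
  exact setIntegral_le_integral hd.int (.of_forall hd.nn)

end Vale.Agent.P370.GC
end
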