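import Vale.Agent.P370.MathlibUsed
import Vale.Agent.P370.Bdl.B3
import Vale.Agent.P370.Bdl.B1
import Vale.Agent.P370.Bdl.B2

set_option linter.all false

section

/-!
History states (H3).
-/

set_option linter.all false

namespace Vale.Agent.P370.H

open Finset

namespace HistU

/-- sign of `Z_i` -/
def zg {n : ℕ} (i : ℕ) (x : Fin n → Bool) : ℝ :=
  if h : i < n then (if x ⟨i, h⟩ then -1 else 1) else 1

theorem pau2 {n : ℕ} (i : ℕ) (v : RSt n) : pau 2 i v = fun x => zg i x * v x := by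
  unfold pau zg
  by_cases h : i < n
  · simp only [h, ↓reduceDIte, OfNat.ofNat_ne_zero, ↓reduceIte, OfNat.ofNat_ne_one, ite_mul, neg_mul, one_mul]
  · simp [h]

theorem zg_cases {n : ℕ} (i : ℕ) (x : Fin n → Bool) : zg i x = 1 ∨ zg i x = -1 := by
  unfold zg
  by_cases h : i < n
  · simp only [h, dite_true]
    by_cases h2 : x ⟨i, h⟩ = true
    · right; simp [h2]
    · left; simp [h2]
  · left; simp [h]

theorem nrm2_pau2 {n : ℕ} (i : ℕ) (v : RSt n) : nrm2 (pau 2 i v) = nrm2 v := by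
  unfold nrm2 ip
  rw [pau2]
  refine Finset.sum_congr rfl fun x _ => ?_
  beta_reduce
  rcases zg_cases i x with h | h <;> rw [h] <;> ring

theorem czg_eq {n : ℕ} (f s : ℕ) (v : RSt n) :
    czg f s v = fun x => (1 / 2 * (1 + zg f x + zg s x - zg f x * zg s x)) * v x := by
  unfold czg
  rw [pau2, pau2, pau2]
  funext x
  simp only [Pi.smul_apply, Pi.add_apply, Pi.sub_apply, smul_eq_mul]
  ring

theorem nrm2_czg {n : ℕ} (f s : ℕ) (v : RSt n) : nrm2 (czg f s v) = nrm2 v := by
  unfold nrm2 ip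
  rw [czg_eq]
  refine Finset.sum_congr rfl fun x _ => ?_
  beta_reduce
  rcases zg_cases f x with h | h <;> rcases zg_cases s x with h' | h' <;> rw [h, h'] <;> ring

/-- flip of the bit `i` -/
def flp {n : ℕ} (i : Fin n) : (Fin n → Bool) ≃ (Fin n → Bool) where
  toFun x := Function.update x i (!x i)
  invFun x := Function.update x i (!x i)
  left_inv x := by simp
  right_inv x := by simp

theorem nrm2_refl {n : ℕ} (a q : ℕ) (hq : q < n) (v : RSt n) : nrm2 (refl a q v) = nrm2 v := by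
  unfold refl
  by_cases ha : a = 0
  · simp [ha]
  · simp only [ha, if_false]
    have e1 : pau 1 q v = fun x => v (flp ⟨q, hq⟩ x) := by
      unfold pau flp
      simp only [hq, ↓reduceDIte, one_ne_zero, ↓reduceIte, Equiv.coe_fn_mk]
    have e2 : ∑ x, zg q x * v x * v (flp ⟨q, hq⟩ x) = 0 := by
      have h1 : ∑ x, zg q x * v x * v (flp ⟨q, hq⟩ x)
          = ∑ x, zg q (flp ⟨q, hq⟩ x) * v (flp ⟨q, hq⟩ x) * v (flp ⟨q, hq⟩ (flp ⟨q, hq⟩ x)) :=
        (Equiv.sum_comp (flp ⟨q, hq⟩) (fun x => zg q x * v x * v (flp ⟨q, hq⟩ x))).symm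
      have h2 : ∀ x : Fin n → Bool, zg q (flp ⟨q, hq⟩ x) = - zg q x := by
        intro x
        unfold zg flp
        by_cases h : x ⟨q, hq⟩ = true <;> simp [hq, h]
      have h3 : ∀ x : Fin n → Bool, flp ⟨q, hq⟩ (flp ⟨q, hq⟩ x) = x := fun x =>
        (flp ⟨q, hq⟩).left_inv x
      have h4 : ∑ x, zg q x * v x * v (flp ⟨q, hq⟩ x)
          = - ∑ x, zg q x * v x * v (flp ⟨q, hq⟩ x) := by
        conv_lhs => rw [h1]
        rw [← Finset.sum_neg_distrib]
        refine Finset.sum_congr rfl fun x _ => ?_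
        rw [h2, h3]; ring
      linarith only [h4]
    have e3 : ∑ x, v (flp ⟨q, hq⟩ x) * v (flp ⟨q, hq⟩ x) = ∑ x, v x * v x :=
      Equiv.sum_comp (flp ⟨q, hq⟩) (fun x => v x * v x)
    have e4 : ∑ x, zg q x * v x * (zg q x * v x) = ∑ x, v x * v x := by
      refine Finset.sum_congr rfl fun x _ => ?_
      rcases zg_cases q x with h | h <;> rw [h] <;> ring
    unfold nrm2 ip
    rw [e1, pau2]
    have e5 : ∀ x : Fin n → Bool,
        (Real.cos (ang a) • (fun x => zg q x * v x) + Real.sin (ang a) •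
          (fun x => v (flp ⟨q, hq⟩ x)) : RSt n) x *
        (Real.cos (ang a) • (fun x => zg q x * v x) + Real.sin (ang a) •
          (fun x => v (flp ⟨q, hq⟩ x)) : RSt n) x
        = Real.cos (ang a) ^ 2 * (zg q x * v x * (zg q x * v x)) +
          Real.sin (ang a) ^ 2 * (v (flp ⟨q, hq⟩ x) * v (flp ⟨q, hq⟩ x)) +
          (2 * Real.cos (ang a) * Real.sin (ang a)) * (zg q x * v x * v (flp ⟨q, hq⟩ x)) := by
      intro x
      simp only [Pi.smul_apply, Pi.add_apply, smul_eq_mul]
      ring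
    rw [Finset.sum_congr rfl fun x _ => e5 x, Finset.sum_add_distrib, Finset.sum_add_distrib,
      ← Finset.mul_sum, ← Finset.mul_sum, ← Finset.mul_sum, e2, e3, e4]
    have := Real.sin_sq_add_cos_sq (ang a)
    linear_combination (∑ x, v x * v x) * this

/-- gate at the time `t` -/
noncomputable def hgate {n : ℕ} (rs : List Rnd) (t : ℕ) (v : RSt n) : RSt n :=
  if t % 6 = 0 then czg (rget rs (t / 6 - 1)).f (rget rs (t / 6 - 1)).s v else gfine rs t v

/-- history state -/
noncomputable def hst {n : ℕ} (rs : List Rnd) (φ : RSt n) : ℕ → RSt n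
  | 0 => φ
  | t + 1 => hgate rs (t + 1) (hst rs φ t)

theorem rget_ok {n : ℕ} (rs : List Rnd) (hok : ∀ r ∈ rs, r.Ok n) (l : ℕ) (hl : l < rs.length) :
    (rget rs l).Ok n := by
  unfold rget
  rw [List.getD_eq_getElem _ _ hl]
  exact hok _ (List.getElem_mem hl)

theorem nrm2_gfine {n : ℕ} (rs : List Rnd) (hok : ∀ r ∈ rs, r.Ok n) (t : ℕ) (v : RSt n) :
    nrm2 (gfine rs t v) = nrm2 v := by
  unfold gfine
  split_ifs with h1 h2 h3 h4 h5 h6 h7 h8 h9
  · exact nrm2_pau2 _ _
  · rfl
  · exact nrm2_pau2 _ _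
  · rfl
  · exact nrm2_refl _ _ (rget_ok rs hok _ h6).1 _
  · rfl
  · exact nrm2_pau2 _ _
  · rfl
  · exact nrm2_pau2 _ _
  · rfl

theorem nrm2_hst {n : ℕ} (rs : List Rnd) (hok : ∀ r ∈ rs, r.Ok n) (φ : RSt n) (t : ℕ) :
    nrm2 (hst rs φ t) = nrm2 φ := by
  induction t with
  | zero => rfl
  | succ t ih =>
    show nrm2 (hgate rs (t + 1) (hst rs φ t)) = nrm2 φ
    unfold hgate
    split_ifs with h
    · rw [nrm2_czg, ih]
    · rw [nrm2_gfine rs hok, ih]

theorem hst_succ {n : ℕ} (rs : List Rnd) (φ : RSt n) (t : ℕ) :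
    hst rs φ (t + 1) = hgate rs (t + 1) (hst rs φ t) := rfl

/-- the gates of a block -/
theorem hst_block {n : ℕ} (rs : List Rnd) (φ : RSt n) (l : ℕ) (hl : l < rs.length) :
    hst rs φ (6 * l + 3) = refl (rget rs l).a (rget rs l).q (hst rs φ (6 * l + 2)) ∧
    hst rs φ (6 * l + 4) = pau 2 (rget rs l).f (hst rs φ (6 * l + 3)) ∧
    hst rs φ (6 * l + 5) = pau 2 (rget rs l).s (hst rs φ (6 * l + 4)) ∧
    hst rs φ (6 * l + 6) = czg (rget rs l).f (rget rs l).s (hst rs φ (6 * l + 5)) ∧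
    hst rs φ (6 * l + 7) = pau 2 (rget rs l).f (hst rs φ (6 * l + 6)) ∧
    hst rs φ (6 * l + 8) = pau 2 (rget rs l).s (hst rs φ (6 * l + 7)) := by
  refine ⟨?_, ?_, ?_, ?_, ?_, ?_⟩
  · rw [hst_succ]
    have h1 : (6 * l + 2 + 1) % 6 = 3 := by omega
    have h2 : (6 * l + 2 + 1) / 6 = l := by omega
    simp only [hgate, h1, OfNat.ofNat_ne_zero, ↓reduceIte, gfine, OfNat.ofNat_ne_one, Nat.succ_ne_self, h2, hl]
  · rw [hst_succ]
    have h1 : (6 * l + 3 + 1) % 6 = 4 := by omega
    have h2 : (6 * l + 3 + 1) / 6 = l := by omega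
    simp only [hgate, h1, OfNat.ofNat_ne_zero, ↓reduceIte, gfine, OfNat.ofNat_ne_one, Nat.reduceEqDiff, Nat.succ_ne_self, h2, hl]
  · rw [hst_succ]
    have h1 : (6 * l + 4 + 1) % 6 = 5 := by omega
    have h2 : (6 * l + 4 + 1) / 6 = l := by omega
    simp only [hgate, h1, OfNat.ofNat_ne_zero, ↓reduceIte, gfine, OfNat.ofNat_ne_one, Nat.reduceEqDiff, Nat.succ_ne_self, h2, hl]
  · rw [hst_succ]
    have h1 : (6 * l + 5 + 1) % 6 = 0 := by (clear * -; omega)
    have h2 : (6 * l + 5 + 1) / 6 - 1 = l := by omega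
    simp [hgate, h1, h2]
  · rw [hst_succ]
    have h1 : (6 * l + 6 + 1) % 6 = 1 := by omega
    have h2 : (6 * l + 6 + 1) / 6 = l + 1 := by omega
    simp only [hgate, h1, one_ne_zero, ↓reduceIte, gfine, h2, le_add_iff_nonneg_left, zero_le, add_tsub_cancel_right]
  · rw [hst_succ]
    have h1 : (6 * l + 7 + 1) % 6 = 2 := by omega
    have h2 : (6 * l + 7 + 1) / 6 = l + 1 := by omega
    simp only [hgate, h1, OfNat.ofNat_ne_zero, ↓reduceIte, gfine, OfNat.ofNat_ne_one, h2, le_add_iff_nonneg_left, zero_le, add_tsub_cancel_right]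

theorem hst_two {n : ℕ} (rs : List Rnd) (φ : RSt n) : hst rs φ 2 = φ := by
  show hgate rs (1 + 1) (hgate rs (0 + 1) φ) = φ
  simp only [hgate, Nat.reduceAdd, Nat.reduceMod, OfNat.ofNat_ne_zero, ↓reduceIte, gfine, OfNat.ofNat_ne_one, Nat.reduceDiv, nonpos_iff_eq_zero, one_ne_zero, zero_add, Nat.one_mod]

theorem hst_last {n : ℕ} (rs : List Rnd) (φ : RSt n) :
    hst rs φ (6 * rs.length + 5) = hst rs φ (6 * rs.length + 2) := by
  rw [hst_succ, hst_succ, hst_succ]
  have h1 : (6 * rs.length + 4 + 1) % 6 = 5 := by omega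
  have h2 : (6 * rs.length + 4 + 1) / 6 = rs.length := by (clear * - h1; omega)
  have h3 : (6 * rs.length + 3 + 1) % 6 = 4 := by omega
  have h4 : (6 * rs.length + 3 + 1) / 6 = rs.length := by (clear * - h1 h3; omega)
  have h5 : (6 * rs.length + 2 + 1) % 6 = 3 := by omega
  have h6 : (6 * rs.length + 2 + 1) / 6 = rs.length := by omega
  simp only [hgate, h1, OfNat.ofNat_ne_zero, ↓reduceIte, gfine, OfNat.ofNat_ne_one, Nat.reduceEqDiff, Nat.succ_ne_self, h2, lt_self_iff_false, h3, h4, h5, h6]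

theorem czg_conj {n : ℕ} (f s : ℕ) (v : RSt n) :
    pau 2 s (pau 2 f (czg f s (pau 2 s (pau 2 f v)))) = czg f s v := by
  rw [czg_eq, czg_eq, pau2, pau2, pau2, pau2]
  funext x
  simp only
  rcases zg_cases f x with h | h <;> rcases zg_cases s x with h' | h' <;> rw [h, h'] <;> ring

theorem hst_round {n : ℕ} (rs : List Rnd) (φ : RSt n) (l : ℕ) (hl : l < rs.length) :
    hst rs φ (6 * (l + 1) + 2) = rndAct (rget rs l) (hst rs φ (6 * l + 2)) := by
  obtain ⟨h3, h4, h5, h6, h7, h8⟩ := hst_block rs φ l hl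
  have e : 6 * (l + 1) + 2 = 6 * l + 8 := by ring
  rw [e, h8, h7, h6, h5, h4, h3, czg_conj]
  rfl

theorem hst_run {n : ℕ} (rs : List Rnd) (φ : RSt n) (l : ℕ) (hl : l ≤ rs.length) :
    hst rs φ (6 * l + 2) = runR (rs.take l) φ := by
  induction l with
  | zero => simp only [mul_zero, zero_add, hst_two, runR, List.take_zero, List.foldl_nil]
  | succ l ih =>
    have hl' : l < rs.length := by omega
    rw [hst_round rs φ l hl', ih hl'.le, List.take_succ_eq_append_getElem hl']
    unfold runR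
    rw [List.foldl_append]
    have hr : rget rs l = rs[l] := List.getD_eq_getElem _ _ hl'
    rw [hr]
    rfl

theorem q2_zero {n : ℕ} (rs : List Rnd) (φ : RSt n) (l : ℕ) (hl : l < rs.length) :
    q2 (rget rs l) (6 * (l + 1)) (hst rs φ) = 0 := by
  obtain ⟨h3, h4, h5, h6, h7, h8⟩ := hst_block rs φ l hl
  have e1 : 6 * (l + 1) = 6 * l + 6 := by ring
  have e2 : 6 * l + 6 - 1 = 6 * l + 5 := by omega
  have e3 : 6 * l + 6 - 2 = 6 * l + 4 := by omega
  have e4 : 6 * l + 6 - 3 = 6 * l + 3 := by (clear * -; omega)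
  unfold q2
  rw [e1, e2, e3, e4]
  have e5 : 6 * l + 6 + 1 = 6 * l + 7 := by ring
  have e6 : 6 * l + 6 + 2 = 6 * l + 8 := by ring
  rw [e5, e6, h8, h7, h6, h5, h4]
  set v := hst rs φ (6 * l + 3) with hv
  set f := (rget rs l).f
  set s := (rget rs l).s
  unfold nrm2 ip
  simp only [czg_eq, pau2]
  rw [← Finset.sum_add_distrib, ← Finset.sum_sub_distrib, ← Finset.sum_add_distrib,
    Finset.mul_sum, ← Finset.sum_sub_distrib, ← Finset.sum_add_distrib,
    ← Finset.sum_add_distrib, ← Finset.sum_add_distrib, Finset.mul_sum,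
    ← Finset.sum_add_distrib, ← Finset.sum_add_distrib, Finset.mul_sum,
    ← Finset.sum_add_distrib]
  refine Finset.sum_eq_zero fun x _ => ?_
  rcases zg_cases f x with h | h <;> rcases zg_cases s x with h' | h' <;> rw [h, h'] <;> ring

end HistU

open HistU in
theorem hist_upper (N m : ℕ) (hN : 1 ≤ N) (rs : List Rnd) (hok : ∀ r ∈ rs, r.Ok N)
    (J1 J2 J3 : ℝ) (φ : RSt N) (hφ : ValidIn m φ) :
    ∃ a : ℕ → RSt N, tot rs.length a = 6 * ((rs.length : ℝ) + 1) * nrm2 φ ∧
      e1 J1 J2 J3 m rs a = nrm2 (zer 0 (runR rs φ)) := by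
  refine ⟨hst rs φ, ?_, ?_⟩
  · unfold tot tc
    rw [Finset.sum_congr rfl fun t _ => nrm2_hst rs hok φ t, Finset.sum_const, Finset.card_range,
      nsmul_eq_mul]
    push_cast
    ring
  · unfold e1
    have h1 : (∑ t ∈ Icc 1 (tc rs.length), if t % 6 = 0 then (0 : ℝ)
        else 1 / 2 * nrm2 (hst rs φ t - gfine rs t (hst rs φ (t - 1)))) = 0 := by
      refine Finset.sum_eq_zero fun t ht => ?_
      rw [Finset.mem_Icc] at ht
      split_ifs with h
      · rfl
      · obtain ⟨u, rfl⟩ : ∃ u, t = u + 1 := ⟨t - 1, by omega⟩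
        have : hst rs φ (u + 1) = gfine rs (u + 1) (hst rs φ (u + 1 - 1)) := by
          rw [hst_succ, hgate, if_neg h]; rfl
        rw [← this, sub_self]
        simp only [one_div, nrm2, ip, Pi.zero_apply, mul_zero, sum_const_zero]
    have h2 : (∑ l ∈ range rs.length, q2 (rget rs l) (6 * (l + 1)) (hst rs φ)) = 0 :=
      Finset.sum_eq_zero fun l hl => q2_zero rs φ l (Finset.mem_range.1 hl)
    have h3 : (∑ i ∈ Ico m (N - 1), nrm2 (one i (hst rs φ 0))) = 0 := by
      refine Finset.sum_eq_zero fun i hi => ?_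
      rw [Finset.mem_Ico] at hi
      have : one i (hst rs φ 0) = 0 := hφ i hi.1 hi.2
      rw [this]
      simp only [nrm2, ip, Pi.zero_apply, mul_zero, sum_const_zero]
    have h4 : hst rs φ (tc rs.length) = runR rs φ := by
      show hst rs φ (6 * rs.length + 5) = _
      rw [hst_last, hst_run rs φ _ le_rfl, List.take_length]
    rw [h1, h2, h3, h4]
    ring

end Vale.Agent.P370.H
end

section

/-!
The dimension of the spaces of harmonic polynomials, orthogonality to lower degrees,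
orthonormal families are bases.
-/

namespace Vale.Agent.P370.Hyd

open MeasureTheory Filter Topology MvPolynomial

theorem sph_nsq_right (P Q : Pl) : sph P (nsq * Q) = sph P Q := by
  unfold sph
  refine integral_congr_ae (Eventually.of_forall fun ω => ?_)
  have h : ‖(ω : R3)‖ = 1 := by
    have := ω.2
    rwa [mem_sphere_zero_iff_norm] at this
  simp only [ev_mul, ev_nsq, h]
  ring

theorem nsq_mul_mem_Hom {l : ℕ} {f : Pl} (hf : f ∈ Hom l) : nsq * f ∈ Hom (l + 2) := by
  rw [mem_homogeneousSubmodule] at hf ⊢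
  have := isHomogeneous_nsq.mul hf
  rwa [add_comm] at this

/-- multiplication by `nsq` -/
noncomputable def mulN (l : ℕ) : Hom l →ₗ[ℝ] Pl :=
  (LinearMap.mulLeft ℝ nsq).domRestrict (Hom l)

theorem mulN_apply (l : ℕ) (f : Hom l) : mulN l f = nsq * (f : Pl) := rfl

theorem nsq_ne_zero : nsq ≠ 0 := by
  intro h
  have h1 : ev nsq (ei 0) = 1 := by
    rw [ev_nsq]
    simp only [ei, Fin.isValue, PiLp.norm_single, norm_one, one_pow]
  rw [h] at h1
  simp only [ev, Fin.isValue, map_zero, zero_ne_one] at h1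

theorem mulN_injective (l : ℕ) : Function.Injective (mulN l) := by
  intro f g h
  rw [mulN_apply, mulN_apply] at h
  exact Subtype.ext (mul_left_cancel₀ nsq_ne_zero h)

theorem Harm_eq_Hom {l : ℕ} (hl : l < 2) : Harm l = Hom l := by
  refine inf_eq_left.2 fun P hP => ?_
  rw [LinearMap.mem_ker, lapL_apply]
  rcases Nat.lt_or_ge 0 l with h0 | h0
  · have : l = 1 := by omega
    subst this
    unfold lapP
    refine Finset.sum_eq_zero fun i _ => ?_
    have h2 : pderiv i P ∈ lt 1 := pderiv_mem_lt i (Hom_le_lt 1 hP)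
    exact pderiv_lt_zero i h2
  · have : l = 0 := by (clear * - hl h0; omega)
    subst this
    exact lapP_lt_one (Hom_le_lt 0 hP)

theorem decomp_aux (l : ℕ) (ih : ∀ f ∈ Hom l, ∀ m, l < m → ∀ h ∈ Harm m, sph h f = 0) :
    Hom (l + 2) = Harm (l + 2) ⊔ LinearMap.range (mulN l) ∧
      Module.finrank ℝ (Harm (l + 2)) = 2 * (l + 2) + 1 := by
  have hle : Harm (l + 2) ⊔ LinearMap.range (mulN l) ≤ Hom (l + 2) := by
    refine sup_le inf_le_left ?_
    rintro _ ⟨f, rfl⟩
    exact nsq_mul_mem_Hom f.2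
  have hdis : Harm (l + 2) ⊓ LinearMap.range (mulN l) = ⊥ := by
    rw [eq_bot_iff]
    rintro h ⟨h1, ⟨f, hf⟩⟩
    rw [mulN_apply] at hf
    have h2 : sph h h = 0 := by
      have h3 : sph h h = sph h (nsq * (f : Pl)) := by rw [hf]
      rw [h3, sph_nsq_right]
      exact ih f f.2 (l + 2) (by (clear * -; omega)) h h1
    by_contra h3
    exact (sph_pos (mem_Harm.1 h1).1 h3).ne' h2
  have hr : Module.finrank ℝ (LinearMap.range (mulN l)) = (l + 2).choose 2 := by
    rw [LinearMap.finrank_range_of_inj (mulN_injective l), finrank_Hom]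
  have h1 := Submodule.finrank_sup_add_finrank_inf_eq (Harm (l + 2)) (LinearMap.range (mulN l))
  rw [hdis, finrank_bot, add_zero, hr] at h1
  have h4 : (l + 2 + 2).choose 2 = (l + 2).choose 2 + (2 * (l + 2) + 1) := by
    rw [Nat.choose_succ_succ' (l + 3) 1, Nat.choose_succ_succ' (l + 2) 1]
    simp only [Nat.choose_one_right, Nat.reduceAdd]
    ring
  have h5 := finrank_Harm_ge (l + 2)
  have h6 := Submodule.finrank_mono hle
  rw [finrank_Hom, h1, h4] at h6
  refine ⟨(Submodule.eq_of_le_of_finrank_le hle ?_).symm, by (clear * - h5 h6; omega)⟩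
  rw [finrank_Hom, h1, h4]
  omega

theorem sph_lower : ∀ l : ℕ, ∀ f ∈ Hom l, ∀ m, l < m → ∀ h ∈ Harm m, sph h f = 0 := by
  intro l
  induction l using Nat.strong_induction_on with
  | _ l ih =>
    intro f hf m hm h hh
    rcases Nat.lt_or_ge l 2 with hl | hl
    · rw [← Harm_eq_Hom hl] at hf
      exact sph_orth (by omega) hh hf
    · obtain ⟨l', rfl⟩ : ∃ l', l = l' + 2 := ⟨l - 2, by (clear * - hl; omega)⟩
      obtain ⟨h1, -⟩ := decomp_aux l' (ih l' (by omega))
      rw [h1] at hf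
      obtain ⟨u, hu, v, ⟨v', hv'⟩, rfl⟩ := Submodule.mem_sup.1 hf
      rw [mulN_apply] at hv'
      rw [← sphB_apply, map_add, sphB_apply, sphB_apply, sph_orth (by omega) hh hu, ← hv',
        sph_nsq_right, ih l' (by (clear * -; omega)) v' v'.2 m (by (clear * - hm; omega)) h hh, add_zero]

theorem finrank_Harm (l : ℕ) : Module.finrank ℝ (Harm l) = 2 * l + 1 := by
  rcases Nat.lt_or_ge l 2 with hl | hl
  · rw [Harm_eq_Hom hl, finrank_Hom]
    interval_cases l <;> decide
  · obtain ⟨l', rfl⟩ : ∃ l', l = l' + 2 := ⟨l - 2, by omega⟩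
    exact (decomp_aux l' (sph_lower l')).2

/-- a harmonic polynomial divisible by `nsq` vanishes -/
theorem harm_nsq_zero {l : ℕ} {h Q : Pl} (hh : h ∈ Harm l) (hQ : h = nsq * Q) : h = 0 := by
  by_contra h0
  have hhom := (mem_Harm.1 hh).1
  have hQ0 : Q ≠ 0 := by
    rintro rfl
    exact h0 (by rw [hQ, mul_zero])
  have h1 : h.totalDegree = l := hhom.totalDegree h0
  have h2 : (nsq * Q).totalDegree = nsq.totalDegree + Q.totalDegree :=
    totalDegree_mul_of_isDomain nsq_ne_zero hQ0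
  have h3 : nsq.totalDegree = 2 := isHomogeneous_nsq.totalDegree nsq_ne_zero
  rw [← hQ, h1, h3] at h2
  have h4 : sph h h = 0 := by
    have h5 : sph h h = sph h (nsq * Q) := by rw [← hQ]
    rw [h5, sph_nsq_right, ← sum_homogeneousComponent Q, ← sphB_apply, map_sum]
    refine Finset.sum_eq_zero fun i hi => ?_
    rw [Finset.mem_range] at hi
    rw [sphB_apply]
    exact sph_lower i _ ((mem_homogeneousSubmodule _ _).2
      (homogeneousComponent_isHomogeneous i Q)) l (by omega) h hh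
  exact (sph_pos hhom h0).ne' h4

end Vale.Agent.P370.Hyd
end

section

/-!
Wick formula for three isotropic linear forms on R^3.
-/

namespace Vale.Agent.P370.GC

open MeasureTheory Set Metric Module

/-- bilinear dot product on C^3 -/
noncomputable def dd (a b : Fin 3 → ℂ) : ℂ := ∑ k, a k * b k

theorem dd_comm (a b : Fin 3 → ℂ) : dd a b = dd b a := by
  unfold dd
  exact Finset.sum_congr rfl fun k _ => mul_comm _ _

/-- monomial in three linear forms -/
noncomputable def mon (a b c : Fin 3 → ℂ) (p q w : ℕ) (x : V3) : ℂ :=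
  lf a x ^ p * lf b x ^ q * lf c x ^ w

theorem continuous_mon (a b c : Fin 3 → ℂ) (p q w : ℕ) : Continuous (mon a b c p q w) := by
  unfold mon
  (clear * -; fun_prop)

theorem norm_mon_le (a b c : Fin 3 → ℂ) (p q w : ℕ) (x : V3) :
    ‖mon a b c p q w x‖ ≤ (‖lf a‖ ^ p * ‖lf b‖ ^ q * ‖lf c‖ ^ w) * ‖x‖ ^ (p + q + w) := by
  unfold mon
  rw [norm_mul, norm_mul, norm_pow, norm_pow, norm_pow]
  calc ‖lf a x‖ ^ p * ‖lf b x‖ ^ q * ‖lf c x‖ ^ w
      ≤ (‖lf a‖ * ‖x‖) ^ p * (‖lf b‖ * ‖x‖) ^ q * (‖lf c‖ * ‖x‖) ^ w := by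
        gcongr <;> exact norm_lf_le _ _
    _ = _ := by ring

theorem mon_smul (a b c : Fin 3 → ℂ) (p q w : ℕ) (t : ℝ) (x : V3) :
    mon a b c p q w (t • x) = (t : ℂ) ^ (p + q + w) * mon a b c p q w x := by
  unfold mon
  simp only [map_smul, Complex.real_smul]
  ring

theorem integrable_mon_gauss (a b c : Fin 3 → ℂ) (p q w : ℕ) :
    Integrable (fun x : V3 => mon a b c p q w x * Real.exp (-‖x‖ ^ 2)) :=
  integrable_mul_gauss (continuous_mon a b c p q w) (norm_mon_le a b c p q w)

theorem integrable_mon_coord_gauss (a b c : Fin 3 → ℂ) (p q w : ℕ) (k : Fin 3) :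
    Integrable (fun x : V3 => mon a b c p q w x * (x k : ℂ) * Real.exp (-‖x‖ ^ 2)) := by
  refine integrable_mul_gauss (C := ‖lf a‖ ^ p * ‖lf b‖ ^ q * ‖lf c‖ ^ w) (m := p + q + w + 1)
    ((continuous_mon a b c p q w).mul (by fun_prop)) fun x => ?_
  rw [norm_mul, Complex.norm_real, pow_succ, ← mul_assoc]
  gcongr
  · exact norm_mon_le a b c p q w x
  · exact EuclideanSpace.norm_eq x ▸ by
      rw [← EuclideanSpace.norm_eq]
      exact PiLp.norm_apply_le x k

theorem hasFDerivAt_mon (a b c : Fin 3 → ℂ) (p q w : ℕ) (x : V3) :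
    HasFDerivAt (mon a b c p q w)
      (((p : ℂ) * mon a b c (p - 1) q w x) • lf a + ((q : ℂ) * mon a b c p (q - 1) w x) • lf b
        + ((w : ℂ) * mon a b c p q (w - 1) x) • lf c) x := by
  have ha := ((lf a).hasFDerivAt (x := x)).pow p
  have hb := ((lf b).hasFDerivAt (x := x)).pow q
  have hc := ((lf c).hasFDerivAt (x := x)).pow w
  have h := (ha.mul hb).mul hc
  refine h.congr_fderiv ?_
  ext v
  simp only [Pi.mul_apply, nsmul_eq_mul, smul_add, add_apply, smul_apply, smul_eq_mul, mon]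
  ring

/-- the Gaussian integral of a monomial -/
noncomputable def gi (a b c : Fin 3 → ℂ) (p q w : ℕ) : ℂ :=
  ∫ x : V3, mon a b c p q w x * Real.exp (-‖x‖ ^ 2)

theorem gi_zero (a b c : Fin 3 → ℂ) : gi a b c 0 0 0 = (Real.pi : ℂ) ^ (3 / 2 : ℂ) := by
  unfold gi mon
  have h := GaussianFourier.integral_cexp_neg_mul_sq_norm (V := V3) (b := 1) (by simp only [Complex.one_re, zero_lt_one])
  simp only [pow_zero, one_mul, mul_one]
  rw [show (Real.pi : ℂ) ^ (3 / 2 : ℂ) = ((Real.pi : ℂ) / 1) ^ ((finrank ℝ V3 : ℂ) / 2) by simp only [div_one, finrank_euclideanSpace, Fintype.card_fin, Nat.cast_ofNat],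
    ← h]
  refine integral_congr_ae (.of_forall fun x => ?_)
  simp only [Complex.ofReal_exp, Complex.ofReal_neg, Complex.ofReal_pow, neg_mul, one_mul]

theorem gi_succ (a b c : Fin 3 → ℂ) (haa : dd a a = 0) (p q w : ℕ) :
    gi a b c (p + 1) q w = (1 / 2) * ((q : ℂ) * dd a b * gi a b c p (q - 1) w
      + (w : ℂ) * dd a c * gi a b c p q (w - 1)) := by
  have hfd : ∀ (x : V3) (k : Fin 3), fderiv ℝ (mon a b c p q w) x (EuclideanSpace.single k 1) =
      (p : ℂ) * mon a b c (p - 1) q w x * a k + (q : ℂ) * mon a b c p (q - 1) w x * b k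
        + (w : ℂ) * mon a b c p q (w - 1) x * c k := by
    intro x k
    rw [(hasFDerivAt_mon a b c p q w x).fderiv]
    simp only [add_apply, smul_apply, lf_single, smul_eq_mul]
  have i1 := integrable_mon_gauss a b c (p - 1) q w
  have i2 := integrable_mon_gauss a b c p (q - 1) w
  have i3 := integrable_mon_gauss a b c p q (w - 1)
  have hsum : ∀ k : Fin 3, (fun x : V3 => fderiv ℝ (mon a b c p q w) x
      (EuclideanSpace.single k 1) * Real.exp (-‖x‖ ^ 2)) = fun x : V3 =>
        ((p : ℂ) * a k) * (mon a b c (p - 1) q w x * Real.exp (-‖x‖ ^ 2))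
        + ((q : ℂ) * b k) * (mon a b c p (q - 1) w x * Real.exp (-‖x‖ ^ 2))
        + ((w : ℂ) * c k) * (mon a b c p q (w - 1) x * Real.exp (-‖x‖ ^ 2)) := by
    intro k
    funext x
    rw [hfd]
    ring
  have hint : ∀ k : Fin 3, Integrable (fun x : V3 => fderiv ℝ (mon a b c p q w) x
      (EuclideanSpace.single k 1) * Real.exp (-‖x‖ ^ 2)) := by
    intro k
    rw [hsum k]
    exact ((i1.const_mul _).add (i2.const_mul _)).add (i3.const_mul _)
  have h := gauss_ibp (P := mon a b c p q w)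
    (fun x => (hasFDerivAt_mon a b c p q w x).differentiableAt) a hint
    (integrable_mon_coord_gauss a b c p q w) (integrable_mon_gauss a b c p q w)
  have hl : gi a b c (p + 1) q w = ∫ x : V3, mon a b c p q w x * lf a x * Real.exp (-‖x‖ ^ 2) := by
    unfold gi
    refine integral_congr_ae (.of_forall fun x => ?_)
    simp only [mon]
    ring
  rw [hl, h]
  congr 1
  have hk : ∀ k : Fin 3, ∫ x : V3, fderiv ℝ (mon a b c p q w) x
      (EuclideanSpace.single k 1) * Real.exp (-‖x‖ ^ 2) =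
      ((p : ℂ) * a k) * gi a b c (p - 1) q w + ((q : ℂ) * b k) * gi a b c p (q - 1) w
        + ((w : ℂ) * c k) * gi a b c p q (w - 1) := by
    intro k
    have j1 := i1.const_mul ((p : ℂ) * a k)
    have j2 := i2.const_mul ((q : ℂ) * b k)
    have j3 := i3.const_mul ((w : ℂ) * c k)
    have j12 : Integrable (fun x : V3 =>
        ((p : ℂ) * a k) * (mon a b c (p - 1) q w x * Real.exp (-‖x‖ ^ 2))
        + ((q : ℂ) * b k) * (mon a b c p (q - 1) w x * Real.exp (-‖x‖ ^ 2))) := j1.add j2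
    rw [hsum k, integral_add j12 j3, integral_add j1 j2, integral_const_mul, integral_const_mul,
      integral_const_mul]
    rfl
  simp only [hk]
  have e : ∑ k, a k * (((p : ℂ) * a k) * gi a b c (p - 1) q w
      + ((q : ℂ) * b k) * gi a b c p (q - 1) w + ((w : ℂ) * c k) * gi a b c p q (w - 1)) =
      (p : ℂ) * dd a a * gi a b c (p - 1) q w + (q : ℂ) * dd a b * gi a b c p (q - 1) w
      + (w : ℂ) * dd a c * gi a b c p q (w - 1) := by
    unfold dd
    simp only [Fin.sum_univ_three]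
    ring
  rw [e, haa]
  ring

theorem gi_swap (a b c : Fin 3 → ℂ) (p q w : ℕ) : gi a b c p q w = gi b a c q p w := by
  unfold gi mon
  refine integral_congr_ae (.of_forall fun x => ?_)
  simp only
  ring

theorem gi_rot (a b c : Fin 3 → ℂ) (p q w : ℕ) : gi a b c p q w = gi b c a q w p := by
  unfold gi mon
  refine integral_congr_ae (.of_forall fun x => ?_)
  simp only
  ring

theorem gi_vanish (a b c : Fin 3 → ℂ) (haa : dd a a = 0) :
    ∀ (n p q w : ℕ), q + w ≤ n → q + w < p → gi a b c p q w = 0 := by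
  intro n
  induction n with
  | zero =>
    intro p q w hn hp
    obtain ⟨rfl, rfl⟩ : q = 0 ∧ w = 0 := by (clear * - hn; omega)
    obtain ⟨p, rfl⟩ : ∃ p', p = p' + 1 := ⟨p - 1, by omega⟩
    rw [gi_succ a b c haa]
    simp only [one_div, CharP.cast_eq_zero, zero_mul, zero_tsub, add_zero, mul_zero]
  | succ n ih =>
    intro p q w hn hp
    obtain ⟨p, rfl⟩ : ∃ p', p = p' + 1 := ⟨p - 1, by omega⟩
    rw [gi_succ a b c haa]
    have t1 : (q : ℂ) * dd a b * gi a b c p (q - 1) w = 0 := by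
      rcases Nat.eq_zero_or_pos q with rfl | hq
      · simp only [CharP.cast_eq_zero, zero_mul, zero_tsub]
      · rw [ih p (q - 1) w (by omega) (by omega)]
        simp
    have t2 : (w : ℂ) * dd a c * gi a b c p q (w - 1) = 0 := by
      rcases Nat.eq_zero_or_pos w with rfl | hw
      · simp
      · rw [ih p q (w - 1) (by omega) (by omega)]
        simp
    rw [t1, t2]
    simp only [one_div, add_zero, mul_zero]

/-- the Wick closed form -/
noncomputable def wick (a b c : Fin 3 → ℂ) (x y z : ℕ) : ℂ :=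
  (Real.pi : ℂ) ^ (3 / 2 : ℂ) * (((x + y).factorial * (x + z).factorial * (y + z).factorial : ℕ) : ℂ)
    / ((x.factorial * y.factorial * z.factorial : ℕ) : ℂ)
    * ((dd a b / 2) ^ x * (dd a c / 2) ^ y * (dd b c / 2) ^ z)

theorem gi_eq_wick_two (a b c : Fin 3 → ℂ) (hbb : dd b b = 0) (z : ℕ) :
    gi a b c 0 z z = wick a b c 0 0 z := by
  rw [gi_rot]
  induction z with
  | zero => rw [gi_zero]; simp [wick]
  | succ z ih =>
    rw [gi_succ b c a hbb]
    simp only [Nat.add_sub_cancel]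
    rw [ih]
    unfold wick
    simp only [zero_add, Nat.factorial_zero, Nat.factorial_succ, pow_succ]
    have h1 : ((z.factorial : ℕ) : ℂ) ≠ 0 := by exact_mod_cast z.factorial_ne_zero
    have h2 : ((z : ℂ) + 1) ≠ 0 := by exact_mod_cast Nat.succ_ne_zero z
    push_cast
    field_simp
    ring

theorem wick_alg_aux (K u v X Y Z P Q R x y z U V W : ℂ) (hX : X ≠ 0) (hY : Y ≠ 0) (hZ : Z ≠ 0)
    (hx : x + 1 ≠ 0) (hy : y + 1 ≠ 0) :
    (1 / 2) * ((x + 1 + z) * (2 * u) * (K * (R * P * ((y + 1 + z) * Q)) / (X * ((y + 1) * Y) * Z)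
        * (U * (V * v) * W))
      + (y + 1 + z) * (2 * v) * (K * (R * ((x + 1 + z) * P) * Q) / (((x + 1) * X) * Y * Z)
        * ((U * u) * V * W))) =
    K * (((x + y + 2) * R) * ((x + 1 + z) * P) * ((y + 1 + z) * Q)) /
      (((x + 1) * X) * ((y + 1) * Y) * Z) * ((U * u) * (V * v) * W) := by
  have e1 : ∀ A : ℂ, A / (X * ((y + 1) * Y) * Z) =
      A * (x + 1) / (((x + 1) * X) * ((y + 1) * Y) * Z) := by
    intro A
    rw [div_eq_div_iff (by positivity) (by positivity)]
    ring
  have e2 : ∀ A : ℂ, A / (((x + 1) * X) * Y * Z) =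
      A * (y + 1) / (((x + 1) * X) * ((y + 1) * Y) * Z) := by
    intro A
    rw [div_eq_div_iff (by positivity) (by positivity)]
    ring
  rw [e1, e2]
  ring

theorem wick_alg (a b c : Fin 3 → ℂ) (x y z : ℕ) :
    (1 / 2) * (((x + 1 + z : ℕ) : ℂ) * dd a b * wick a b c x (y + 1) z
      + ((y + 1 + z : ℕ) : ℂ) * dd a c * wick a b c (x + 1) y z) = wick a b c (x + 1) (y + 1) z := by
  have hX : ((x.factorial : ℕ) : ℂ) ≠ 0 := by exact_mod_cast x.factorial_ne_zero
  have hx : ((x : ℂ) + 1) ≠ 0 := by exact_mod_cast Nat.succ_ne_zero x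
  have hZ : ((z.factorial : ℕ) : ℂ) ≠ 0 := by exact_mod_cast z.factorial_ne_zero
  have hY : ((y.factorial : ℕ) : ℂ) ≠ 0 := by exact_mod_cast y.factorial_ne_zero
  have hy : ((y : ℂ) + 1) ≠ 0 := by exact_mod_cast Nat.succ_ne_zero y
  have main := wick_alg_aux ((Real.pi : ℂ) ^ (3 / 2 : ℂ)) (dd a b / 2) (dd a c / 2)
    (x.factorial : ℂ) (y.factorial : ℂ) (z.factorial : ℂ) ((x + z).factorial : ℂ)
    ((y + z).factorial : ℂ) ((x + y + 1).factorial : ℂ) x y z ((dd a b / 2) ^ x)
    ((dd a c / 2) ^ y) ((dd b c / 2) ^ z) hX hY hZ hx hy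
  have e5 : x + (y + 1) = x + y + 1 := by omega
  have e6 : x + 1 + y = x + y + 1 := by omega
  have e7 : x + 1 + z = (x + z) + 1 := by omega
  have e8 : y + 1 + z = (y + z) + 1 := by omega
  have e4 : x + 1 + (y + 1) = (x + y + 1) + 1 := by omega
  have w1 : wick a b c x (y + 1) z = (Real.pi : ℂ) ^ (3 / 2 : ℂ) * (((x + y + 1).factorial : ℂ) *
      ((x + z).factorial : ℂ) * (((y : ℂ) + 1 + z) * ((y + z).factorial : ℂ))) /
      ((x.factorial : ℂ) * (((y : ℂ) + 1) * (y.factorial : ℂ)) * (z.factorial : ℂ)) *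
      ((dd a b / 2) ^ x * ((dd a c / 2) ^ y * (dd a c / 2)) * (dd b c / 2) ^ z) := by
    unfold wick
    rw [e5, e8, Nat.factorial_succ (y + z), Nat.factorial_succ y, pow_succ]
    push_cast
    ring
  have w2 : wick a b c (x + 1) y z = (Real.pi : ℂ) ^ (3 / 2 : ℂ) * (((x + y + 1).factorial : ℂ) *
      (((x : ℂ) + 1 + z) * ((x + z).factorial : ℂ)) * ((y + z).factorial : ℂ)) /
      ((((x : ℂ) + 1) * (x.factorial : ℂ)) * (y.factorial : ℂ) * (z.factorial : ℂ)) *
      (((dd a b / 2) ^ x * (dd a b / 2)) * (dd a c / 2) ^ y * (dd b c / 2) ^ z) := by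
    unfold wick
    rw [e6, e7, Nat.factorial_succ (x + z), Nat.factorial_succ x, pow_succ]
    push_cast
    ring
  have w3 : wick a b c (x + 1) (y + 1) z = (Real.pi : ℂ) ^ (3 / 2 : ℂ) *
      ((((x : ℂ) + y + 2) * ((x + y + 1).factorial : ℂ)) *
      (((x : ℂ) + 1 + z) * ((x + z).factorial : ℂ)) *
      (((y : ℂ) + 1 + z) * ((y + z).factorial : ℂ))) /
      ((((x : ℂ) + 1) * (x.factorial : ℂ)) * (((y : ℂ) + 1) * (y.factorial : ℂ)) *
        (z.factorial : ℂ)) *
      (((dd a b / 2) ^ x * (dd a b / 2)) * ((dd a c / 2) ^ y * (dd a c / 2)) *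
        (dd b c / 2) ^ z) := by
    unfold wick
    rw [e4, e7, e8, Nat.factorial_succ (x + z), Nat.factorial_succ (y + z),
      Nat.factorial_succ (x + y + 1), Nat.factorial_succ x, Nat.factorial_succ y, pow_succ,
      pow_succ]
    push_cast
    ring
  rw [w1, w2, w3, ← main]
  push_cast
  ring

theorem gi_eq_wick (a b c : Fin 3 → ℂ) (haa : dd a a = 0) (hbb : dd b b = 0) (hcc : dd c c = 0) :
    ∀ (n x y z : ℕ), x + y ≤ n → gi a b c (x + y) (x + z) (y + z) = wick a b c x y z := by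
  intro n
  induction n with
  | zero =>
    intro x y z h
    obtain ⟨rfl, rfl⟩ : x = 0 ∧ y = 0 := by omega
    simpa using gi_eq_wick_two a b c hbb z
  | succ n ih =>
    intro x y z h
    rcases Nat.eq_zero_or_pos (x + y) with h0 | h0
    · exact ih x y z (by omega)
    rcases Nat.eq_zero_or_pos x with rfl | hx
    · -- x = 0, y > 0
      obtain ⟨y, rfl⟩ : ∃ y', y = y' + 1 := ⟨y - 1, by omega⟩
      have e : (0 + (y + 1)) = y + 1 := by omega
      rw [e, gi_succ a b c haa]
      have t1 : ((0 + z : ℕ) : ℂ) * dd a b * gi a b c y (0 + z - 1) (y + 1 + z) = 0 := by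
        rcases Nat.eq_zero_or_pos z with rfl | hz
        · simp only [add_zero, CharP.cast_eq_zero, zero_mul, zero_tsub]
        · have : gi a b c y (0 + z - 1) (y + 1 + z) = 0 := by
            rw [gi_rot, gi_rot]
            exact gi_vanish c a b hcc _ _ _ _ le_rfl (by omega)
          rw [this]; simp
      rw [t1]
      have e2 : y + 1 + z - 1 = y + z := by (clear * -; omega)
      have t2 := ih 0 y z (by omega)
      rw [zero_add] at t2
      rw [e2, t2]
      unfold wick
      have h1 : ((y.factorial : ℕ) : ℂ) ≠ 0 := by exact_mod_cast y.factorial_ne_zero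
      have h2 : ((y : ℂ) + 1) ≠ 0 := by exact_mod_cast Nat.succ_ne_zero y
      have h3 : ((z.factorial : ℕ) : ℂ) ≠ 0 := by exact_mod_cast z.factorial_ne_zero
      have e3 : y + 1 + z = (y + z) + 1 := by omega
      rw [e3]
      simp only [Nat.factorial_succ, zero_add, pow_succ, Nat.factorial_zero, pow_zero]
      push_cast
      field_simp
    · obtain ⟨x, rfl⟩ : ∃ x', x = x' + 1 := ⟨x - 1, by omega⟩
      rcases Nat.eq_zero_or_pos y with rfl | hy
      · -- y = 0, x > 0
        have e : (x + 1 + 0) = x + 1 := by omega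
        rw [e, gi_succ a b c haa]
        have t2 : ((0 + z : ℕ) : ℂ) * dd a c * gi a b c x (x + 1 + z) (0 + z - 1) = 0 := by
          rcases Nat.eq_zero_or_pos z with rfl | hz
          · simp
          · have : gi a b c x (x + 1 + z) (0 + z - 1) = 0 := by
              rw [gi_rot]
              exact gi_vanish b c a hbb _ _ _ _ le_rfl (by omega)
            rw [this]; simp
        rw [t2]
        have e2 : x + 1 + z - 1 = x + z := by omega
        have t1 := ih x 0 z (by omega)
        rw [add_zero] at t1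
        rw [e2, t1]
        unfold wick
        have h1 : ((x.factorial : ℕ) : ℂ) ≠ 0 := by exact_mod_cast x.factorial_ne_zero
        have h2 : ((x : ℂ) + 1) ≠ 0 := by exact_mod_cast Nat.succ_ne_zero x
        have h3 : ((z.factorial : ℕ) : ℂ) ≠ 0 := by exact_mod_cast z.factorial_ne_zero
        have e3 : x + 1 + z = (x + z) + 1 := by (clear * -; omega)
        rw [e3]
        simp only [add_zero, zero_add, Nat.factorial_zero, pow_zero, Nat.factorial_succ, pow_succ]
        push_cast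
        (clear * - h2 h3 h1; field_simp)
      · obtain ⟨y, rfl⟩ : ∃ y', y = y' + 1 := ⟨y - 1, by omega⟩
        have e : (x + 1 + (y + 1)) = (x + 1 + y) + 1 := by omega
        rw [e, gi_succ a b c haa]
        have t1 := ih x (y + 1) z (by omega)
        have t2 := ih (x + 1) y z (by omega)
        have e1 : x + 1 + z - 1 = x + z := by omega
        have e2 : y + 1 + z - 1 = y + z := by (clear * -; omega)
        have e3 : x + 1 + y = x + (y + 1) := by omega
        rw [e1, e2, t2, e3, t1]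
        exact wick_alg a b c x y z

end Vale.Agent.P370.GC
end

section

/-!
Integrals of products of three isotropic linear forms on R^3 against an arbitrary radial weight.
-/

namespace Vale.Agent.P370.GC

open MeasureTheory Set Metric Module

theorem integral_pow_mul_exp_neg_sq (k : ℕ) :
    ∫ r in Ioi (0 : ℝ), r ^ (2 * k + 2) * Real.exp (-r ^ 2) =
      Real.sqrt Real.pi / 4 * (((2 * k + 1).factorial : ℕ) : ℝ) / (4 ^ k * (k.factorial : ℝ)) := by
  have h := integral_rpow_mul_exp_neg_rpow (p := 2) (q := (2 * k + 2 : ℕ)) (by norm_num)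
    (by have : (0 : ℝ) ≤ ((2 * k + 2 : ℕ) : ℝ) := Nat.cast_nonneg _
        linarith only [])
  have e : ∫ r in Ioi (0 : ℝ), r ^ (2 * k + 2) * Real.exp (-r ^ 2) =
      ∫ x in Ioi (0 : ℝ), x ^ (((2 * k + 2 : ℕ) : ℝ)) * Real.exp (-x ^ (2 : ℝ)) := by
    refine setIntegral_congr_fun measurableSet_Ioi fun x _ => ?_
    simp only [Real.rpow_natCast]
    norm_num
  rw [e, h]
  have h2 : ((((2 * k + 2 : ℕ) : ℝ)) + 1) / 2 = ((k : ℝ) + 1) + 1 / 2 := by
    push_cast
    ring
  rw [h2]
  have h3 := Real.Gamma_nat_add_half (k + 1)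
  push_cast at h3
  rw [h3]
  have h4 : 2 * (k + 1) - 1 = 2 * k + 1 := by (clear * -; omega)
  rw [h4]
  have h5 : (((2 * k + 1).doubleFactorial : ℕ) : ℝ) * (2 ^ k * (k.factorial : ℝ)) =
      ((2 * k + 1).factorial : ℝ) := by
    have := Nat.factorial_eq_mul_doubleFactorial (2 * k)
    rw [Nat.doubleFactorial_two_mul] at this
    exact_mod_cast this.symm
  rw [← h5]
  have hk : (k.factorial : ℝ) ≠ 0 := by exact_mod_cast k.factorial_ne_zero
  have h6 : (4 : ℝ) ^ k = 2 ^ k * 2 ^ k := by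
    rw [← mul_pow]
    norm_num
  rw [h6]
  field_simp
  ring

/-- the integral over the unit sphere of the product of three isotropic linear forms -/
noncomputable def sph (a b c : Fin 3 → ℂ) (x y z : ℕ) : ℂ :=
  4 * (Real.pi : ℂ) * (2 : ℂ) ^ (x + y + z) * (((x + y + z).factorial : ℕ) : ℂ) /
      (((2 * (x + y + z) + 1).factorial : ℕ) : ℂ) *
    ((((x + y).factorial * (x + z).factorial * (y + z).factorial : ℕ) : ℂ) /
      ((x.factorial * y.factorial * z.factorial : ℕ) : ℂ)) *
    (dd a b ^ x * dd a c ^ y * dd b c ^ z)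

theorem pi_cpow_three_half : (Real.pi : ℂ) ^ (3 / 2 : ℂ) = (Real.pi : ℂ) * (Real.sqrt Real.pi : ℂ) := by
  have h : Real.pi ^ (3 / 2 : ℝ) = Real.pi * Real.sqrt Real.pi := by
    rw [Real.sqrt_eq_rpow, show (3 / 2 : ℝ) = 1 + 1 / 2 by norm_num,
      Real.rpow_add Real.pi_pos, Real.rpow_one]
  have h2 : ((Real.pi ^ (3 / 2 : ℝ) : ℝ) : ℂ) = (Real.pi : ℂ) ^ (3 / 2 : ℂ) := by
    rw [Complex.ofReal_cpow Real.pi_pos.le]
    norm_num
  rw [← h2, h]
  push_cast
  rfl

theorem integral_sphere_mon (a b c : Fin 3 → ℂ) (haa : dd a a = 0) (hbb : dd b b = 0)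
    (hcc : dd c c = 0) (x y z : ℕ) :
    ∫ ω : sphere (0 : V3) 1, mon a b c (x + y) (x + z) (y + z) ω
      ∂(volume : Measure V3).toSphere = sph a b c x y z := by
  have h := integral_homog_mul_radial (volume : Measure V3) (mon a b c (x + y) (x + z) (y + z))
    (2 * (x + y + z)) (fun t _ v => by
      rw [mon_smul]
      congr 2
      ring) (fun r => ((Real.exp (-r ^ 2) : ℝ) : ℂ))
  have h1 : ∫ v : V3, mon a b c (x + y) (x + z) (y + z) v * ((Real.exp (-‖v‖ ^ 2) : ℝ) : ℂ) =
      wick a b c x y z := gi_eq_wick a b c haa hbb hcc (x + y) x y z le_rfl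
  rw [h1] at h
  have h2 : ∫ r in Ioi (0 : ℝ), (r : ℂ) ^ (2 * (x + y + z) + (finrank ℝ V3 - 1)) *
      ((Real.exp (-r ^ 2) : ℝ) : ℂ) = ((Real.sqrt Real.pi / 4 *
        (((2 * (x + y + z) + 1).factorial : ℕ) : ℝ) /
        (4 ^ (x + y + z) * ((x + y + z).factorial : ℝ)) : ℝ) : ℂ) := by
    rw [← integral_pow_mul_exp_neg_sq, ← integral_complex_ofReal]
    refine setIntegral_congr_fun measurableSet_Ioi fun r _ => ?_
    simp only [finrank_euclideanSpace, Fintype.card_fin]
    push_cast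
    rfl
  rw [h2] at h
  set k := x + y + z with hk
  have hkf : ((k.factorial : ℕ) : ℂ) ≠ 0 := by exact_mod_cast k.factorial_ne_zero
  have h2kf : (((2 * k + 1).factorial : ℕ) : ℂ) ≠ 0 := by
    exact_mod_cast (2 * k + 1).factorial_ne_zero
  have hsp : ((Real.sqrt Real.pi : ℝ) : ℂ) ≠ 0 := by
    exact_mod_cast (Real.sqrt_pos.2 Real.pi_pos).ne'
  have h4 : (4 : ℂ) ^ k = 2 ^ k * 2 ^ k := by
    rw [← mul_pow]
    norm_num
  have h2k : (2 : ℂ) ^ k ≠ 0 := pow_ne_zero _ two_ne_zero
  have hw : wick a b c x y z = (Real.pi : ℂ) * (Real.sqrt Real.pi : ℂ) *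
      ((((x + y).factorial * (x + z).factorial * (y + z).factorial : ℕ) : ℂ)
    / ((x.factorial * y.factorial * z.factorial : ℕ) : ℂ))
    * ((dd a b ^ x * dd a c ^ y * dd b c ^ z) / 2 ^ k) := by
    unfold wick
    rw [pi_cpow_three_half, hk, pow_add, pow_add, div_pow, div_pow, div_pow]
    ring
  rw [hw] at h
  unfold sph
  rw [← hk]
  generalize ((((x + y).factorial * (x + z).factorial * (y + z).factorial : ℕ) : ℂ)
    / ((x.factorial * y.factorial * z.factorial : ℕ) : ℂ)) = F at h ⊢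
  generalize dd a b ^ x * dd a c ^ y * dd b c ^ z = D at h ⊢
  push_cast at h
  rw [h4] at h
  generalize ∫ ω : sphere (0 : V3) 1, mon a b c (x + y) (x + z) (y + z) ω
      ∂(volume : Measure V3).toSphere = S at h ⊢
  field_simp at h
  field_simp
  linear_combination (-1 : ℂ) * h

theorem integral_mon_radial (a b c : Fin 3 → ℂ) (haa : dd a a = 0) (hbb : dd b b = 0)
    (hcc : dd c c = 0) (x y z : ℕ) (g : ℝ → ℂ) :
    ∫ v : V3, mon a b c (x + y) (x + z) (y + z) v * g ‖v‖ =
      sph a b c x y z * ∫ r in Ioi (0 : ℝ), (r : ℂ) ^ (2 * (x + y + z) + 2) * g r := by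
  have h := integral_homog_mul_radial (volume : Measure V3) (mon a b c (x + y) (x + z) (y + z))
    (2 * (x + y + z)) (fun t _ v => by
      rw [mon_smul]
      congr 2
      ring) g
  rw [h, integral_sphere_mon a b c haa hbb hcc]
  simp only [finrank_euclideanSpace, Fintype.card_fin]

end Vale.Agent.P370.GC
end

section

/-!
Great circle harmonics `Re (a(α)·x)^l` and their overlaps and three-fold integrals.
-/

namespace Vale.Agent.P370.GC

open MeasureTheory Set Metric Module

/-- the isotropic vector of the great circle through the third axis at azimuth `α` -/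
noncomputable def av (α : ℝ) : Fin 3 → ℂ :=
  ![Complex.I * (Real.cos α : ℂ), Complex.I * (Real.sin α : ℂ), 1]

theorem dd_av (α β : ℝ) : dd (av α) (av β) = ((1 - Real.cos (α - β) : ℝ) : ℂ) := by
  unfold dd av
  simp only [Fin.sum_univ_three, Matrix.cons_val_zero, Matrix.cons_val_one, Matrix.cons_val]
  rw [Real.cos_sub, Complex.ofReal_sub, Complex.ofReal_add, Complex.ofReal_mul,
    Complex.ofReal_mul, Complex.ofReal_one]
  linear_combination ((Real.cos α : ℂ) * (Real.cos β : ℂ) + (Real.sin α : ℂ) * (Real.sin β : ℂ)) *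
    Complex.I_sq

theorem dd_av_self (α : ℝ) : dd (av α) (av α) = 0 := by
  rw [dd_av]
  simp

theorem lf_av (α : ℝ) (x : V3) :
    lf (av α) x = ((x 2 : ℝ) : ℂ) + ((Real.cos α * x 0 + Real.sin α * x 1 : ℝ) : ℂ) * Complex.I := by
  rw [lf_apply]
  simp only [av, Fin.sum_univ_three, Matrix.cons_val_zero, Matrix.cons_val_one, Matrix.cons_val]
  push_cast
  ring

theorem conj_lf_av (α : ℝ) (x : V3) :
    (starRingEnd ℂ) (lf (av α) x) = lf (av (α + Real.pi)) x := by
  rw [lf_av, lf_av, Real.cos_add_pi, Real.sin_add_pi]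
  simp only [map_add, map_mul, Complex.conj_ofReal, Complex.conj_I]
  push_cast
  ring

/-- the great circle harmonic -/
noncomputable def fr (l : ℕ) (α : ℝ) (x : V3) : ℝ := ((lf (av α) x) ^ l).re

theorem fr_eq (l : ℕ) (α : ℝ) (x : V3) :
    (fr l α x : ℂ) = (lf (av α) x ^ l + lf (av (α + Real.pi)) x ^ l) / 2 := by
  unfold fr
  rw [Complex.re_eq_add_conj, map_pow, conj_lf_av]

theorem fr_smul (l : ℕ) (α t : ℝ) (x : V3) : fr l α (t • x) = t ^ l * fr l α x := by
  unfold fr
  rw [map_smul, Complex.real_smul, mul_pow, ← Complex.ofReal_pow, Complex.re_ofReal_mul]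

theorem abs_fr_le (l : ℕ) (α : ℝ) (x : V3) : |fr l α x| ≤ ‖lf (av α) x‖ ^ l := by
  unfold fr
  rw [← norm_pow]
  exact Complex.abs_re_le_norm _

theorem normSq_lf_av (α : ℝ) (x : V3) :
    ‖lf (av α) x‖ ^ 2 = x 2 ^ 2 + (Real.cos α * x 0 + Real.sin α * x 1) ^ 2 := by
  rw [lf_av, ← Complex.normSq_eq_norm_sq, Complex.normSq_add_mul_I]

theorem continuous_fr (l : ℕ) (α : ℝ) : Continuous (fr l α) := by
  unfold fr
  (clear * -; fun_prop)

theorem integrable_monsph (a b c : Fin 3 → ℂ) (p q w : ℕ) :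
    Integrable (fun ω : sphere (0 : V3) 1 => mon a b c p q w ω) (volume : Measure V3).toSphere :=
  ((continuous_mon a b c p q w).comp continuous_subtype_val).integrable_of_hasCompactSupport
    (HasCompactSupport.of_compactSpace _)

theorem integral_add8 {X : Type*} [MeasurableSpace X] {μ : Measure X}
    {F1 F2 F3 F4 F5 F6 F7 F8 : X → ℂ} (h1 : Integrable F1 μ) (h2 : Integrable F2 μ)
    (h3 : Integrable F3 μ) (h4 : Integrable F4 μ) (h5 : Integrable F5 μ) (h6 : Integrable F6 μ)
    (h7 : Integrable F7 μ) (h8 : Integrable F8 μ) :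
    ∫ x, F1 x + F2 x + F3 x + F4 x + F5 x + F6 x + F7 x + F8 x ∂μ =
      ∫ x, F1 x ∂μ + ∫ x, F2 x ∂μ + ∫ x, F3 x ∂μ + ∫ x, F4 x ∂μ + ∫ x, F5 x ∂μ + ∫ x, F6 x ∂μ
        + ∫ x, F7 x ∂μ + ∫ x, F8 x ∂μ := by
  have g2 : Integrable (fun x => F1 x + F2 x) μ := h1.add h2
  have g3 : Integrable (fun x => F1 x + F2 x + F3 x) μ := g2.add h3
  have g4 : Integrable (fun x => F1 x + F2 x + F3 x + F4 x) μ := g3.add h4
  have g5 : Integrable (fun x => F1 x + F2 x + F3 x + F4 x + F5 x) μ := g4.add h5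
  have g6 : Integrable (fun x => F1 x + F2 x + F3 x + F4 x + F5 x + F6 x) μ := g5.add h6
  have g7 : Integrable (fun x => F1 x + F2 x + F3 x + F4 x + F5 x + F6 x + F7 x) μ := g6.add h7
  rw [integral_add g7 h8, integral_add g6 h7, integral_add g5 h6, integral_add g4 h5,
    integral_add g3 h4, integral_add g2 h3, integral_add h1 h2]

/-- the sphere constant in front of three-fold integrals -/
noncomputable def c3 (l y : ℕ) : ℝ :=
  4 * Real.pi * 2 ^ (l + y) * ((l + y).factorial : ℝ) / ((2 * (l + y) + 1).factorial : ℝ) *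
    ((l.factorial : ℝ) ^ 2 * ((2 * y).factorial : ℝ) /
      (((l - y).factorial : ℝ) * (y.factorial : ℝ) ^ 2))

theorem sph_av (l y : ℕ) (hy : y ≤ l) (α β γ : ℝ) :
    ∫ ω : sphere (0 : V3) 1, mon (av α) (av β) (av γ) l l (2 * y) ω
      ∂(volume : Measure V3).toSphere =
    ((c3 l y * ((1 - Real.cos (α - β)) ^ (l - y) * (1 - Real.cos (α - γ)) ^ y *
      (1 - Real.cos (β - γ)) ^ y) : ℝ) : ℂ) := by
  have h := integral_sphere_mon (av α) (av β) (av γ) (dd_av_self α) (dd_av_self β)
    (dd_av_self γ) (l - y) y y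
  have e1 : l - y + y = l := by omega
  have e2 : y + y = 2 * y := by omega
  rw [e1, e2] at h
  rw [h]
  unfold sph c3
  rw [dd_av, dd_av, dd_av, e1, e2]
  push_cast
  ring

/-- three-fold overlap integral of great circle harmonics -/
theorem integral_sphere_three (l y : ℕ) (hy : y ≤ l) (α β γ : ℝ) :
    ∫ ω : sphere (0 : V3) 1, fr l α ω * fr l β ω * fr (2 * y) γ ω
      ∂(volume : Measure V3).toSphere =
      c3 l y * (1 / 4) *
      ((1 - Real.cos (α - β)) ^ (l - y) * (1 - Real.cos (α - γ)) ^ y * (1 - Real.cos (β - γ)) ^ y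
      + (1 + Real.cos (α - β)) ^ (l - y) * (1 + Real.cos (α - γ)) ^ y * (1 - Real.cos (β - γ)) ^ y
      + (1 + Real.cos (α - β)) ^ (l - y) * (1 - Real.cos (α - γ)) ^ y * (1 + Real.cos (β - γ)) ^ y
      + (1 - Real.cos (α - β)) ^ (l - y) * (1 + Real.cos (α - γ)) ^ y *
        (1 + Real.cos (β - γ)) ^ y) := by
  apply Complex.ofReal_injective
  rw [← integral_complex_ofReal]
  have hI := fun a b c => integrable_monsph a b c l l (2 * y)
  have e : ∀ ω : sphere (0 : V3) 1, ((fr l α ω * fr l β ω * fr (2 * y) γ ω : ℝ) : ℂ) =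
      (1 / 8) * (mon (av α) (av β) (av γ) l l (2 * y) ω
      + mon (av (α + Real.pi)) (av β) (av γ) l l (2 * y) ω
      + mon (av α) (av (β + Real.pi)) (av γ) l l (2 * y) ω
      + mon (av (α + Real.pi)) (av (β + Real.pi)) (av γ) l l (2 * y) ω
      + mon (av α) (av β) (av (γ + Real.pi)) l l (2 * y) ω
      + mon (av (α + Real.pi)) (av β) (av (γ + Real.pi)) l l (2 * y) ω
      + mon (av α) (av (β + Real.pi)) (av (γ + Real.pi)) l l (2 * y) ω
      + mon (av (α + Real.pi)) (av (β + Real.pi)) (av (γ + Real.pi)) l l (2 * y) ω) := by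
    intro ω
    rw [Complex.ofReal_mul, Complex.ofReal_mul, fr_eq, fr_eq, fr_eq]
    unfold mon
    ring
  simp only [e]
  have h1 := hI (av α) (av β) (av γ)
  have h2 := hI (av (α + Real.pi)) (av β) (av γ)
  have h3 := hI (av α) (av (β + Real.pi)) (av γ)
  have h4 := hI (av (α + Real.pi)) (av (β + Real.pi)) (av γ)
  have h5 := hI (av α) (av β) (av (γ + Real.pi))
  have h6 := hI (av (α + Real.pi)) (av β) (av (γ + Real.pi))
  have h7 := hI (av α) (av (β + Real.pi)) (av (γ + Real.pi))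
  have h8 := hI (av (α + Real.pi)) (av (β + Real.pi)) (av (γ + Real.pi))
  rw [integral_const_mul, integral_add8 h1 h2 h3 h4 h5 h6 h7 h8,
    sph_av l y hy, sph_av l y hy, sph_av l y hy, sph_av l y hy, sph_av l y hy, sph_av l y hy,
    sph_av l y hy, sph_av l y hy]
  have c1 : ∀ s t : ℝ, Real.cos (s + Real.pi - t) = -Real.cos (s - t) := by
    intro s t
    rw [show s + Real.pi - t = (s - t) + Real.pi by ring, Real.cos_add_pi]
  have c2 : ∀ s t : ℝ, Real.cos (s - (t + Real.pi)) = -Real.cos (s - t) := by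
    intro s t
    rw [show s - (t + Real.pi) = (s - t) - Real.pi by ring, Real.cos_sub_pi]
  simp only [c1, c2, neg_neg, sub_neg_eq_add]
  push_cast
  ring

/-- three-fold overlap integral of great circle harmonics against a radial weight -/
theorem integral_three (l y : ℕ) (hy : y ≤ l) (α β γ : ℝ) (g : ℝ → ℝ) :
    ∫ x : V3, fr l α x * fr l β x * fr (2 * y) γ x * g ‖x‖ =
      c3 l y * (1 / 4) *
      ((1 - Real.cos (α - β)) ^ (l - y) * (1 - Real.cos (α - γ)) ^ y * (1 - Real.cos (β - γ)) ^ y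
      + (1 + Real.cos (α - β)) ^ (l - y) * (1 + Real.cos (α - γ)) ^ y * (1 - Real.cos (β - γ)) ^ y
      + (1 + Real.cos (α - β)) ^ (l - y) * (1 - Real.cos (α - γ)) ^ y * (1 + Real.cos (β - γ)) ^ y
      + (1 - Real.cos (α - β)) ^ (l - y) * (1 + Real.cos (α - γ)) ^ y *
        (1 + Real.cos (β - γ)) ^ y)
      * ∫ r in Ioi (0 : ℝ), r ^ (2 * (l + y) + 2) * g r := by
  rw [← integral_sphere_three l y hy α β γ]
  have h := integral_homog_mul_radial_real (volume : Measure V3)
    (fun x : V3 => fr l α x * fr l β x * fr (2 * y) γ x) (2 * (l + y))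
    (fun t _ v => by
      simp only [fr_smul]
      ring) g
  simpa only [finrank_euclideanSpace, Fintype.card_fin] using h

/-- the sphere constant in front of overlaps -/
noncomputable def c2 (l : ℕ) : ℝ :=
  2 * Real.pi * 4 ^ l * (l.factorial : ℝ) ^ 2 / ((2 * l + 1).factorial : ℝ)

theorem integral_sphere_two (l : ℕ) (α β : ℝ) :
    ∫ ω : sphere (0 : V3) 1, fr l α ω * fr l β ω ∂(volume : Measure V3).toSphere =
      c2 l * (((1 - Real.cos (α - β)) / 2) ^ l + ((1 + Real.cos (α - β)) / 2) ^ l) := by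
  have h := integral_sphere_three l 0 (Nat.zero_le l) α β 0
  have e : ∀ ω : sphere (0 : V3) 1, fr l α ω * fr l β ω * fr (2 * 0) 0 ω =
      fr l α ω * fr l β ω := by
    intro ω
    simp only [fr, mul_zero, pow_zero, Complex.one_re, mul_one]
  simp only [e] at h
  rw [h]
  unfold c3 c2
  simp only [Nat.sub_zero, pow_zero, mul_one, add_zero, Nat.factorial_zero, Nat.cast_one,
    one_pow, mul_zero, div_pow]
  have h1 : (l.factorial : ℝ) ≠ 0 := by exact_mod_cast l.factorial_ne_zero
  have h4 : (4 : ℝ) ^ l = 2 ^ l * 2 ^ l := by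
    rw [← mul_pow]
    norm_num
  rw [h4]
  field_simp
  ring

/-- overlap integral of great circle harmonics against a radial weight -/
theorem integral_two (l : ℕ) (α β : ℝ) (g : ℝ → ℝ) :
    ∫ x : V3, fr l α x * fr l β x * g ‖x‖ =
      c2 l * (((1 - Real.cos (α - β)) / 2) ^ l + ((1 + Real.cos (α - β)) / 2) ^ l) *
        ∫ r in Ioi (0 : ℝ), r ^ (2 * l + 2) * g r := by
  rw [← integral_sphere_two l α β]
  have h := integral_homog_mul_radial_real (volume : Measure V3)
    (fun x : V3 => fr l α x * fr l β x) (2 * l)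
    (fun t _ v => by
      simp only [fr_smul]
      ring) g
  simpa only [finrank_euclideanSpace, Fintype.card_fin] using h

end Vale.Agent.P370.GC
end

section

/-!
Great circle densities and their moments.
-/

namespace Vale.Agent.P370.GC

open MeasureTheory Set Metric Module

theorem integral_pow_mul_exp_neg_mul (k : ℕ) {κ : ℝ} (hκ : 0 < κ) :
    ∫ r in Ioi (0 : ℝ), r ^ k * Real.exp (-κ * r) = (k.factorial : ℝ) / κ ^ (k + 1) := by
  have h := Real.integral_rpow_mul_exp_neg_mul_Ioi (a := (k : ℝ) + 1) (r := κ) (by positivity) hκ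
  have e : ∫ r in Ioi (0 : ℝ), r ^ k * Real.exp (-κ * r) =
      ∫ t in Ioi (0 : ℝ), t ^ ((k : ℝ) + 1 - 1) * Real.exp (-(κ * t)) := by
    refine setIntegral_congr_fun measurableSet_Ioi fun x _ => ?_
    simp only [add_sub_cancel_right, Real.rpow_natCast, neg_mul]
  rw [e, h, Real.Gamma_nat_eq_factorial]
  have : ((k : ℝ) + 1) = ((k + 1 : ℕ) : ℝ) := by push_cast; ring
  rw [this, Real.rpow_natCast]
  field_simp
  rw [← mul_pow, one_div_mul_cancel hκ.ne', one_pow]

/-- sphere integral of `|a·ω|^(2m)` -/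
noncomputable def c1 (m : ℕ) : ℝ :=
  4 * Real.pi * 4 ^ m * (m.factorial : ℝ) ^ 2 / ((2 * m + 1).factorial : ℝ)

theorem c1_pos (m : ℕ) : 0 < c1 m := by
  unfold c1
  have := Real.pi_pos
  have h1 : (0 : ℝ) < (m.factorial : ℝ) := by exact_mod_cast m.factorial_pos
  have h2 : (0 : ℝ) < ((2 * m + 1).factorial : ℝ) := by exact_mod_cast (2 * m + 1).factorial_pos
  positivity

theorem norm_lf_av_smul (α : ℝ) (t : ℝ) (x : V3) :
    ‖lf (av α) (t • x)‖ = |t| * ‖lf (av α) x‖ := by
  rw [map_smul, norm_smul, Real.norm_eq_abs]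

theorem norm_lf_av_le (α : ℝ) (x : V3) : ‖lf (av α) x‖ ≤ ‖x‖ := by
  refine le_of_sq_le_sq ?_ (norm_nonneg _)
  rw [normSq_lf_av, EuclideanSpace.norm_sq_eq, Fin.sum_univ_three]
  simp only [Real.norm_eq_abs, sq_abs]
  nlinarith [sq_nonneg (Real.sin α * x 0 - Real.cos α * x 1), Real.sin_sq_add_cos_sq α]

theorem integral_sphere_norm_pow (m : ℕ) (α : ℝ) :
    ∫ ω : sphere (0 : V3) 1, ‖lf (av α) (ω : V3)‖ ^ (2 * m) ∂(volume : Measure V3).toSphere =
      c1 m := by
  apply Complex.ofReal_injective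
  rw [← integral_complex_ofReal]
  have h := integral_sphere_mon (av α) (av (α + Real.pi)) (av α) (dd_av_self α)
    (dd_av_self _) (dd_av_self α) m 0 0
  have e : ∀ ω : sphere (0 : V3) 1, ((‖lf (av α) (ω : V3)‖ ^ (2 * m) : ℝ) : ℂ) =
      mon (av α) (av (α + Real.pi)) (av α) (m + 0) (m + 0) (0 + 0) ω := by
    intro ω
    unfold mon
    rw [← conj_lf_av, add_zero, pow_zero, mul_one, ← mul_pow, Complex.mul_conj,
      Complex.normSq_eq_norm_sq, pow_mul]
    push_cast
    rfl
  simp only [e]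
  rw [h]
  unfold sph c1
  rw [dd_av]
  have h1 : α - (α + Real.pi) = -Real.pi := by ring
  rw [h1, Real.cos_neg, Real.cos_pi]
  have hm : ((m.factorial : ℕ) : ℂ) ≠ 0 := by exact_mod_cast m.factorial_ne_zero
  have h4 : (4 : ℂ) ^ m = 2 ^ m * 2 ^ m := by
    rw [← mul_pow]
    norm_num
  simp only [add_zero, pow_zero, mul_one, Nat.factorial_zero]
  push_cast
  rw [h4, show (1 : ℂ) - -1 = 2 by norm_num]
  field_simp

/-- moments of great circle densities -/
theorem integral_norm_pow (m j : ℕ) (α : ℝ) {κ : ℝ} (hκ : 0 < κ) :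
    ∫ x : V3, ‖lf (av α) x‖ ^ (2 * m) * (‖x‖ ^ j * Real.exp (-κ * ‖x‖)) =
      c1 m * (((2 * m + j + 2).factorial : ℝ) / κ ^ (2 * m + j + 3)) := by
  have h := integral_homog_mul_radial_real (volume : Measure V3)
    (fun x : V3 => ‖lf (av α) x‖ ^ (2 * m)) (2 * m)
    (fun t ht v => by
      simp only [norm_lf_av_smul, abs_of_pos ht]
      ring) (fun r => r ^ j * Real.exp (-κ * r))
  rw [h, integral_sphere_norm_pow]
  congr 1
  rw [← integral_pow_mul_exp_neg_mul (2 * m + j + 2) hκ]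
  refine setIntegral_congr_fun measurableSet_Ioi fun x _ => ?_
  simp only [finrank_euclideanSpace, Fintype.card_fin]
  ring

theorem integrable_norm_pow (m j : ℕ) (α : ℝ) {κ : ℝ} (hκ : 0 < κ) :
    Integrable (fun x : V3 => ‖lf (av α) x‖ ^ (2 * m) * (‖x‖ ^ j * Real.exp (-κ * ‖x‖))) := by
  have h := integrable_norm_pow_mul_exp_neg (2 * m + j) hκ
  refine h.mono' ?_ (.of_forall fun x => ?_)
  · exact Continuous.aestronglyMeasurable (by (clear * -; fun_prop))
  · rw [Real.norm_of_nonneg (by (clear * -; positivity)), pow_add, mul_assoc]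
    gcongr
    exact norm_lf_av_le α x

/-- the great circle density (not normalised), `n = l + 1` -/
noncomputable def wd (l : ℕ) (α : ℝ) (x : V3) : ℝ :=
  ‖lf (av α) x‖ ^ (2 * l) * Real.exp (-(2 / ((l : ℝ) + 1)) * ‖x‖)

/-- total mass of the great circle density -/
noncomputable def wm (l : ℕ) : ℝ :=
  Real.pi * (l.factorial : ℝ) ^ 2 * ((l : ℝ) + 1) ^ (2 * l + 4)

theorem wm_pos (l : ℕ) : 0 < wm l := by
  unfold wm
  have := Real.pi_pos
  have h1 : (0 : ℝ) < (l.factorial : ℝ) := by exact_mod_cast l.factorial_pos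
  positivity

theorem wd_nonneg (l : ℕ) (α : ℝ) (x : V3) : 0 ≤ wd l α x := by
  unfold wd
  positivity

theorem continuous_wd (l : ℕ) (α : ℝ) : Continuous (wd l α) := by
  unfold wd
  (clear * -; fun_prop)

theorem integrable_wd_mul (l m j : ℕ) (α : ℝ) :
    Integrable (fun x : V3 => wd l α x * (‖lf (av α) x‖ ^ (2 * m) * ‖x‖ ^ j)) := by
  have h := integrable_norm_pow (l + m) j α (κ := 2 / ((l : ℝ) + 1)) (by (clear * -; positivity))
  refine h.congr (.of_forall fun x => ?_)
  simp only [wd]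
  ring

theorem integrable_wd (l : ℕ) (α : ℝ) : Integrable (wd l α) := by
  simpa only [mul_zero, pow_zero, mul_one] using integrable_wd_mul l 0 0 α

theorem integral_wd_mul (l m : ℕ) (α : ℝ) :
    ∫ x : V3, wd l α x * ‖lf (av α) x‖ ^ (2 * m) =
      Real.pi * ((l + m).factorial : ℝ) ^ 2 * ((l : ℝ) + m + 1) *
        ((l : ℝ) + 1) ^ (2 * l + 2 * m + 3) := by
  have h := integral_norm_pow (l + m) 0 α (κ := 2 / ((l : ℝ) + 1)) (by positivity)
  have e : ∫ x : V3, wd l α x * ‖lf (av α) x‖ ^ (2 * m) =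
      ∫ x : V3, ‖lf (av α) x‖ ^ (2 * (l + m)) * (‖x‖ ^ 0 * Real.exp (-(2 / ((l : ℝ) + 1)) * ‖x‖)) := by
    refine integral_congr_ae (.of_forall fun x => ?_)
    simp only [wd]
    ring
  rw [e, h]
  unfold c1
  have e2 : 2 * (l + m) + 0 + 2 = (2 * (l + m) + 1) + 1 := by ring
  rw [e2, Nat.factorial_succ (2 * (l + m) + 1), Nat.cast_mul]
  have h2 : (((2 * (l + m) + 1).factorial : ℕ) : ℝ) ≠ 0 := by
    exact_mod_cast (2 * (l + m) + 1).factorial_ne_zero
  generalize (((2 * (l + m) + 1).factorial : ℕ) : ℝ) = F at h2 ⊢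
  have e3 : 2 * (l + m) + 0 + 3 = 2 * (l + m) + 3 := by ring
  have e4 : 2 * l + 2 * m + 3 = 2 * (l + m) + 3 := by ring
  rw [e3, e4, div_pow]
  have h5 : (2 : ℝ) ^ (2 * (l + m) + 3) = 4 ^ (l + m) * 8 := by
    rw [pow_add, pow_mul]
    norm_num
  rw [h5]
  push_cast
  field_simp
  ring

theorem integral_wd (l : ℕ) (α : ℝ) : ∫ x : V3, wd l α x = wm l := by
  have h := integral_wd_mul l 0 α
  simp only [mul_zero, pow_zero, mul_one, add_zero, Nat.cast_zero] at h
  rw [h]
  unfold wm
  ring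

theorem integral_wd_mul_norm_sq (l : ℕ) (α : ℝ) :
    ∫ x : V3, wd l α x * ‖x‖ ^ 2 =
      wm l * (((l : ℝ) + 1) ^ 2 * ((l : ℝ) + 2) * (2 * (l : ℝ) + 3) / 2) := by
  have h := integral_norm_pow l 2 α (κ := 2 / ((l : ℝ) + 1)) (by positivity)
  have e : ∫ x : V3, wd l α x * ‖x‖ ^ 2 =
      ∫ x : V3, ‖lf (av α) x‖ ^ (2 * l) * (‖x‖ ^ 2 * Real.exp (-(2 / ((l : ℝ) + 1)) * ‖x‖)) := by
    refine integral_congr_ae (.of_forall fun x => ?_)
    simp only [wd]
    ring
  rw [e, h]
  unfold c1 wm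
  have e2 : 2 * l + 2 + 2 = ((2 * l + 1) + 1 + 1) + 1 := by ring
  rw [e2, Nat.factorial_succ (2 * l + 1 + 1 + 1), Nat.factorial_succ (2 * l + 1 + 1),
    Nat.factorial_succ (2 * l + 1), Nat.cast_mul, Nat.cast_mul, Nat.cast_mul]
  have h2 : (((2 * l + 1).factorial : ℕ) : ℝ) ≠ 0 := by
    exact_mod_cast (2 * l + 1).factorial_ne_zero
  generalize (((2 * l + 1).factorial : ℕ) : ℝ) = F at h2 ⊢
  rw [div_pow]
  have h5 : (2 : ℝ) ^ (2 * l + 2 + 3) = 4 ^ l * 32 := by
    rw [show 2 * l + 2 + 3 = 2 * l + 5 by ring, pow_add, pow_mul]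
    norm_num
  rw [h5]
  push_cast
  field_simp
  ring

end Vale.Agent.P370.GC
end

section

/-!
Chebyshev bounds for great circle densities.
-/

namespace Vale.Agent.P370.GC

open MeasureTheory Set Metric Module

/-- coordinate normal to the great circle -/
noncomputable def nu (α : ℝ) (x : V3) : ℝ := -Real.sin α * x 0 + Real.cos α * x 1

/-- horizontal tangential coordinate of the great circle -/
noncomputable def ta (α : ℝ) (x : V3) : ℝ := Real.cos α * x 0 + Real.sin α * x 1

theorem normSq_lf_av' (α : ℝ) (x : V3) : ‖lf (av α) x‖ ^ 2 = x 2 ^ 2 + ta α x ^ 2 :=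
  normSq_lf_av α x

theorem norm_sq_eq_add (α : ℝ) (x : V3) : ‖x‖ ^ 2 = ‖lf (av α) x‖ ^ 2 + nu α x ^ 2 := by
  rw [normSq_lf_av, EuclideanSpace.norm_sq_eq, Fin.sum_univ_three]
  simp only [Real.norm_eq_abs, sq_abs, nu]
  linear_combination (-(x 0 ^ 2) - x 1 ^ 2) * Real.sin_sq_add_cos_sq α

theorem continuous_nu (α : ℝ) : Continuous (nu α) := by
  unfold nu
  fun_prop

theorem continuous_ta (α : ℝ) : Continuous (ta α) := by
  unfold ta
  fun_prop

theorem integral_wd_mul_s2 (l : ℕ) (α : ℝ) :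
    ∫ x : V3, wd l α x * ‖lf (av α) x‖ ^ 2 =
      wm l * (((l : ℝ) + 1) ^ 3 * ((l : ℝ) + 2)) := by
  have h := integral_wd_mul l 1 α
  simp only [mul_one] at h
  rw [h]
  unfold wm
  rw [Nat.factorial_succ]
  push_cast
  ring

theorem integral_wd_mul_s4 (l : ℕ) (α : ℝ) :
    ∫ x : V3, wd l α x * ‖lf (av α) x‖ ^ 4 =
      wm l * (((l : ℝ) + 1) ^ 5 * ((l : ℝ) + 2) ^ 2 * ((l : ℝ) + 3)) := by
  have h := integral_wd_mul l 2 α
  norm_num at h
  rw [h]
  unfold wm
  rw [show l + 2 = (l + 1) + 1 by ring, Nat.factorial_succ, Nat.factorial_succ]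
  push_cast
  ring

theorem integral_wd_mul_nu2 (l : ℕ) (α : ℝ) :
    ∫ x : V3, wd l α x * nu α x ^ 2 =
      wm l * (((l : ℝ) + 1) ^ 2 * ((l : ℝ) + 2) / 2) := by
  have i1 : Integrable (fun x : V3 => wd l α x * ‖x‖ ^ 2) := by
    simpa only [mul_zero, pow_zero, one_mul] using integrable_wd_mul l 0 2 α
  have i2 : Integrable (fun x : V3 => wd l α x * ‖lf (av α) x‖ ^ 2) := by
    simpa only [mul_one, pow_zero] using integrable_wd_mul l 1 0 α
  have e : ∀ x : V3, wd l α x * nu α x ^ 2 =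
      wd l α x * ‖x‖ ^ 2 - wd l α x * ‖lf (av α) x‖ ^ 2 := by
    intro x
    rw [norm_sq_eq_add α x]
    ring
  simp only [e]
  rw [integral_sub i1 i2, integral_wd_mul_norm_sq, integral_wd_mul_s2]
  ring

/-- general Chebyshev inequality against `wd` -/
theorem setIntegral_wd_le (l : ℕ) (α : ℝ) {S : Set V3} (hS : MeasurableSet S) {g : V3 → ℝ}
    (hg : Integrable (fun x => wd l α x * g x)) (hg0 : ∀ x, 0 ≤ g x) {c : ℝ} (hc : 0 < c)
    (h : ∀ x ∈ S, c ≤ g x) :
    ∫ x in S, wd l α x ≤ (∫ x, wd l α x * g x) / c := by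
  rw [le_div_iff₀ hc, ← integral_mul_const]
  calc ∫ x in S, wd l α x * c ≤ ∫ x in S, wd l α x * g x := by
        refine setIntegral_mono_on ((integrable_wd l α).mul_const c).integrableOn hg.integrableOn hS
          fun x hx => ?_
        exact mul_le_mul_of_nonneg_left (h x hx) (wd_nonneg l α x)
    _ ≤ ∫ x, wd l α x * g x := by
        refine setIntegral_le_integral hg (.of_forall fun x => ?_)
        exact mul_nonneg (wd_nonneg l α x) (hg0 x)

/-- mass close to the axis of the circle -/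
theorem mass_small_s (l : ℕ) (hl : 1 ≤ l) (α : ℝ) :
    ∫ x in {x : V3 | ‖lf (av α) x‖ ≤ 2 * ((l : ℝ) + 1) ^ 2 / 3}, wd l α x ≤
      wm l * (15 / ((l : ℝ) + 1)) := by
  obtain ⟨n, hn⟩ : ∃ n : ℝ, n = (l : ℝ) + 1 := ⟨_, rfl⟩
  have hn1 : 2 ≤ n := by rw [hn]; have : (1 : ℝ) ≤ l := by exact_mod_cast hl
                         linarith only [this]
  have hl2 : (l : ℝ) + 2 = n + 1 := by rw [hn]; ring
  have hl3 : (l : ℝ) + 3 = n + 2 := by rw [hn]; ring
  have i0 := integrable_wd l α
  have i2 : Integrable (fun x : V3 => wd l α x * ‖lf (av α) x‖ ^ 2) := by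
    simpa only [mul_one, pow_zero] using integrable_wd_mul l 1 0 α
  have i4 : Integrable (fun x : V3 => wd l α x * ‖lf (av α) x‖ ^ 4) := by
    simpa only [Nat.reduceMul, pow_zero, mul_one] using integrable_wd_mul l 2 0 α
  have hexp : ∀ x : V3, wd l α x * (‖lf (av α) x‖ ^ 2 - n ^ 3 * (n + 1)) ^ 2 =
      wd l α x * ‖lf (av α) x‖ ^ 4 - (2 * (n ^ 3 * (n + 1))) * (wd l α x * ‖lf (av α) x‖ ^ 2)
        + (n ^ 3 * (n + 1)) ^ 2 * wd l α x := by
    intro x
    ring
  have j1 : Integrable (fun x : V3 => wd l α x * ‖lf (av α) x‖ ^ 4 -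
      (2 * (n ^ 3 * (n + 1))) * (wd l α x * ‖lf (av α) x‖ ^ 2)) := i4.sub (i2.const_mul _)
  have hint : Integrable (fun x : V3 => wd l α x *
      (‖lf (av α) x‖ ^ 2 - n ^ 3 * (n + 1)) ^ 2) := by
    simp only [hexp]
    exact j1.add (i0.const_mul _)
  have hval : ∫ x : V3, wd l α x * (‖lf (av α) x‖ ^ 2 - n ^ 3 * (n + 1)) ^ 2 =
      wm l * (2 * n ^ 5 * (n + 1) ^ 2) := by
    simp only [hexp]
    rw [integral_add j1 (i0.const_mul _), integral_sub i4 (i2.const_mul _), integral_const_mul,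
      integral_const_mul, integral_wd, integral_wd_mul_s2, integral_wd_mul_s4, hl2, hl3, ← hn]
    ring
  have hS : MeasurableSet {x : V3 | ‖lf (av α) x‖ ≤ 2 * ((l : ℝ) + 1) ^ 2 / 3} :=
    measurableSet_le (by (clear * -; fun_prop)) measurable_const
  have hc : 0 < 25 * n ^ 8 / 81 := by positivity
  have h := setIntegral_wd_le l α hS hint (fun x => sq_nonneg _) hc (fun x hx => by
    have hx' : ‖lf (av α) x‖ ≤ 2 * n ^ 2 / 3 := by rw [hn]; exact hx
    have h1 : ‖lf (av α) x‖ ^ 2 ≤ 4 * n ^ 4 / 9 := by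
      calc ‖lf (av α) x‖ ^ 2 ≤ (2 * n ^ 2 / 3) ^ 2 := by (clear * - hx'; gcongr)
        _ = 4 * n ^ 4 / 9 := by ring
    have h2 : 5 * n ^ 4 / 9 ≤ n ^ 3 * (n + 1) - ‖lf (av α) x‖ ^ 2 := by
      have : 0 ≤ n ^ 3 := by positivity
      nlinarith only [h1, this]
    calc 25 * n ^ 8 / 81 = (5 * n ^ 4 / 9) ^ 2 := by ring
      _ ≤ (n ^ 3 * (n + 1) - ‖lf (av α) x‖ ^ 2) ^ 2 := by gcongr
      _ = (‖lf (av α) x‖ ^ 2 - n ^ 3 * (n + 1)) ^ 2 := by ring)
  refine h.trans ?_
  rw [hval, mul_div_assoc]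
  refine mul_le_mul_of_nonneg_left ?_ (wm_pos l).le
  rw [← hn, div_le_div_iff₀ hc (by positivity)]
  have h5 : (n + 1) ^ 2 ≤ 9 / 4 * n ^ 2 := by nlinarith only [hn1]
  calc 2 * n ^ 5 * (n + 1) ^ 2 * n ≤ 2 * n ^ 5 * (9 / 4 * n ^ 2) * n := by (clear * - h5 hn1; gcongr)
    _ = 9 / 2 * n ^ 8 := by ring
    _ ≤ 15 * (25 * n ^ 8 / 81) := by
      have : 0 ≤ n ^ 8 := by positivity
      linarith only [hc]

/-- mass far from the plane of the circle -/
theorem mass_large_nu (l : ℕ) (α : ℝ) {θ : ℝ} (hθ : 0 < θ) :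
    ∫ x in {x : V3 | θ * ((l : ℝ) + 1) ^ 2 ≤ |nu α x|}, wd l α x ≤
      wm l * (1 / (θ ^ 2 * ((l : ℝ) + 1))) := by
  obtain ⟨n, hn⟩ : ∃ n : ℝ, n = (l : ℝ) + 1 := ⟨_, rfl⟩
  have hn1 : 1 ≤ n := by rw [hn]; have : (0 : ℝ) ≤ l := Nat.cast_nonneg l; linarith
  have hl2 : (l : ℝ) + 2 = n + 1 := by rw [hn]; ring
  have i1 : Integrable (fun x : V3 => wd l α x * ‖x‖ ^ 2) := by
    simpa only [mul_zero, pow_zero, one_mul] using integrable_wd_mul l 0 2 α
  have i2 : Integrable (fun x : V3 => wd l α x * ‖lf (av α) x‖ ^ 2) := by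
    simpa only [mul_one, pow_zero] using integrable_wd_mul l 1 0 α
  have e : ∀ x : V3, wd l α x * nu α x ^ 2 =
      wd l α x * ‖x‖ ^ 2 - wd l α x * ‖lf (av α) x‖ ^ 2 := by
    intro x
    rw [norm_sq_eq_add α x]
    ring
  have hint : Integrable (fun x : V3 => wd l α x * nu α x ^ 2) := by
    simp only [e]
    exact i1.sub i2
  have hS : MeasurableSet {x : V3 | θ * ((l : ℝ) + 1) ^ 2 ≤ |nu α x|} :=
    measurableSet_le measurable_const ((continuous_nu α).measurable.abs)
  have hc : 0 < (θ * n ^ 2) ^ 2 := by positivity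
  have h := setIntegral_wd_le l α hS hint (fun x => sq_nonneg _) hc (fun x hx => by
    have hx' : θ * n ^ 2 ≤ |nu α x| := by rw [hn]; exact hx
    rw [← sq_abs (nu α x)]
    gcongr)
  refine h.trans ?_
  rw [integral_wd_mul_nu2, mul_div_assoc]
  refine mul_le_mul_of_nonneg_left ?_ (wm_pos l).le
  rw [hl2, ← hn, div_le_div_iff₀ hc (by positivity)]
  have h5 : n + 1 ≤ 2 * n := by linarith only [hn]
  calc n ^ 2 * (n + 1) / 2 * (θ ^ 2 * n) ≤ n ^ 2 * (2 * n) / 2 * (θ ^ 2 * n) := by gcongr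
    _ = 1 * (θ * n ^ 2) ^ 2 := by ring

/-- mass far from the origin -/
theorem mass_large_norm (l : ℕ) (α : ℝ) {M : ℝ} (hM : 0 < M) :
    ∫ x in {x : V3 | M * ((l : ℝ) + 1) ^ 2 ≤ ‖x‖}, wd l α x ≤ wm l * (3 / M ^ 2) := by
  obtain ⟨n, hn⟩ : ∃ n : ℝ, n = (l : ℝ) + 1 := ⟨_, rfl⟩
  have hn1 : 1 ≤ n := by rw [hn]; have : (0 : ℝ) ≤ l := Nat.cast_nonneg l; linarith
  have hl2 : (l : ℝ) + 2 = n + 1 := by rw [hn]; ring
  have hl3 : 2 * (l : ℝ) + 3 = 2 * n + 1 := by rw [hn]; ring
  have i1 : Integrable (fun x : V3 => wd l α x * ‖x‖ ^ 2) := by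
    simpa only [mul_zero, pow_zero, one_mul] using integrable_wd_mul l 0 2 α
  have hS : MeasurableSet {x : V3 | M * ((l : ℝ) + 1) ^ 2 ≤ ‖x‖} :=
    measurableSet_le measurable_const measurable_norm
  have hc : 0 < (M * n ^ 2) ^ 2 := by positivity
  have h := setIntegral_wd_le l α hS i1 (fun x => sq_nonneg _) hc (fun x hx => by
    have hx' : M * n ^ 2 ≤ ‖x‖ := by rw [hn]; exact hx
    (clear * - hM hn1 hx'; gcongr))
  refine h.trans ?_
  rw [integral_wd_mul_norm_sq, mul_div_assoc]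
  refine mul_le_mul_of_nonneg_left ?_ (wm_pos l).le
  rw [hl2, hl3, ← hn, div_le_div_iff₀ hc (by positivity)]
  have h5 : n + 1 ≤ 2 * n := by linarith only [hn]
  have h6 : 2 * n + 1 ≤ 3 * n := by linarith only [hn]
  calc n ^ 2 * (n + 1) * (2 * n + 1) / 2 * M ^ 2 ≤ n ^ 2 * (2 * n) * (3 * n) / 2 * M ^ 2 := by
        (clear * - h5 hn1 h6 hM; gcongr)
    _ = 3 * (M * n ^ 2) ^ 2 := by ring

end Vale.Agent.P370.GC
end

section

/-!
Rotations in the plane of a great circle; masses of balls.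
-/

namespace Vale.Agent.P370.GC

open MeasureTheory Set Metric Module

/-- rotation by the angle `φ` in the plane of the circle (vertical plane of azimuth `α`) -/
noncomputable def rotL (α φ : ℝ) : V3 →ₗ[ℝ] V3 where
  toFun x := !₂[x 0 + ((Real.sin φ * x 2 + Real.cos φ * ta α x) - ta α x) * Real.cos α,
    x 1 + ((Real.sin φ * x 2 + Real.cos φ * ta α x) - ta α x) * Real.sin α,
    Real.cos φ * x 2 - Real.sin φ * ta α x]
  map_add' x y := by
    ext i
    fin_cases i <;> simp [ta] <;> ring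
  map_smul' c x := by
    ext i
    fin_cases i <;> simp [ta] <;> ring

theorem ta_rotL (α φ : ℝ) (x : V3) :
    ta α (rotL α φ x) = Real.sin φ * x 2 + Real.cos φ * ta α x := by
  have h : ta α (rotL α φ x) =
      Real.cos α * (x 0 + ((Real.sin φ * x 2 + Real.cos φ * ta α x) - ta α x) * Real.cos α) +
      Real.sin α * (x 1 + ((Real.sin φ * x 2 + Real.cos φ * ta α x) - ta α x) * Real.sin α) := by
    simp only [ta, Fin.isValue, rotL, LinearMap.coe_mk, AddHom.coe_mk, Matrix.cons_val_zero, Matrix.cons_val_one]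
  have h2 : ta α x = Real.cos α * x 0 + Real.sin α * x 1 := rfl
  rw [h]
  linear_combination ((Real.sin φ * x 2 + Real.cos φ * ta α x) - ta α x) *
    Real.sin_sq_add_cos_sq α - h2

theorem rotL_two (α φ : ℝ) (x : V3) :
    rotL α φ x 2 = Real.cos φ * x 2 - Real.sin φ * ta α x := by
  simp only [Fin.isValue, rotL, LinearMap.coe_mk, AddHom.coe_mk, Matrix.cons_val]

theorem nu_rotL (α φ : ℝ) (x : V3) : nu α (rotL α φ x) = nu α x := by
  simp only [nu, Fin.isValue, rotL, LinearMap.coe_mk, AddHom.coe_mk, Matrix.cons_val_zero, neg_mul, Matrix.cons_val_one]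
  ring

theorem lf_rotL (α φ : ℝ) (x : V3) :
    lf (av α) (rotL α φ x) = Complex.exp (φ * Complex.I) * lf (av α) x := by
  have e1 : ∀ y : V3, lf (av α) y = ((y 2 : ℝ) : ℂ) + ((ta α y : ℝ) : ℂ) * Complex.I :=
    fun y => lf_av α y
  rw [e1, e1, ta_rotL, rotL_two, Complex.exp_mul_I, ← Complex.ofReal_cos, ← Complex.ofReal_sin]
  push_cast
  linear_combination (-(Complex.sin φ) * (ta α x : ℂ)) * Complex.I_sq

theorem norm_lf_rotL (α φ : ℝ) (x : V3) : ‖lf (av α) (rotL α φ x)‖ = ‖lf (av α) x‖ := by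
  rw [lf_rotL, norm_mul, Complex.norm_exp_ofReal_mul_I, one_mul]

theorem norm_rotL (α φ : ℝ) (x : V3) : ‖rotL α φ x‖ = ‖x‖ := by
  have h : ‖rotL α φ x‖ ^ 2 = ‖x‖ ^ 2 := by
    rw [norm_sq_eq_add α, norm_sq_eq_add α x, norm_lf_rotL, nu_rotL]
  exact (sq_eq_sq₀ (norm_nonneg _) (norm_nonneg _)).1 h

/-- rotation as a linear isometry equivalence -/
noncomputable def rot (α φ : ℝ) : V3 ≃ₗᵢ[ℝ] V3 :=
  LinearIsometry.toLinearIsometryEquiv ⟨rotL α φ, norm_rotL α φ⟩ rfl

theorem rot_apply (α φ : ℝ) (x : V3) : rot α φ x = rotL α φ x := rfl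

theorem wd_rot (l : ℕ) (α φ : ℝ) (x : V3) : wd l α (rot α φ x) = wd l α x := by
  unfold wd
  rw [rot_apply, norm_lf_rotL, norm_rotL]

theorem dist_rot (α φ ψ : ℝ) (x : V3) :
    dist (rot α φ x) (rot α ψ x) = 2 * |Real.sin ((φ - ψ) / 2)| * ‖lf (av α) x‖ := by
  have h : dist (rot α φ x) (rot α ψ x) ^ 2 =
      (2 * |Real.sin ((φ - ψ) / 2)| * ‖lf (av α) x‖) ^ 2 := by
    rw [dist_eq_norm, rot_apply, rot_apply, norm_sq_eq_add α]
    have h1 : nu α (rotL α φ x - rotL α ψ x) = 0 := by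
      have : nu α (rotL α φ x - rotL α ψ x) = nu α (rotL α φ x) - nu α (rotL α ψ x) := by
        simp only [nu, Fin.isValue, PiLp.sub_apply, neg_mul]
        ring
      rw [this, nu_rotL, nu_rotL, sub_self]
    have h2 : ‖lf (av α) (rotL α φ x - rotL α ψ x)‖ =
        ‖Complex.exp (φ * Complex.I) - Complex.exp (ψ * Complex.I)‖ * ‖lf (av α) x‖ := by
      rw [map_sub, lf_rotL, lf_rotL, ← sub_mul, norm_mul]
    rw [h1, h2]
    have h3 : ‖Complex.exp (φ * Complex.I) - Complex.exp (ψ * Complex.I)‖ ^ 2 =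
        (2 * Real.sin ((φ - ψ) / 2)) ^ 2 := by
      rw [← Complex.normSq_eq_norm_sq, Complex.exp_mul_I, Complex.exp_mul_I,
        ← Complex.ofReal_cos, ← Complex.ofReal_sin, ← Complex.ofReal_cos, ← Complex.ofReal_sin]
      have : ((Real.cos φ : ℂ) + (Real.sin φ : ℂ) * Complex.I) -
          ((Real.cos ψ : ℂ) + (Real.sin ψ : ℂ) * Complex.I) =
          ((Real.cos φ - Real.cos ψ : ℝ) : ℂ) + ((Real.sin φ - Real.sin ψ : ℝ) : ℂ) * Complex.I := by
        push_cast
        ring
      have hc : Real.cos (φ - ψ) = 1 - 2 * Real.sin ((φ - ψ) / 2) ^ 2 := by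
        have h1 := Real.cos_two_mul ((φ - ψ) / 2)
        rw [show 2 * ((φ - ψ) / 2) = φ - ψ by ring] at h1
        (clear * - h1; linarith [Real.sin_sq_add_cos_sq ((φ - ψ) / 2)])
      rw [Real.cos_sub] at hc
      rw [this, Complex.normSq_add_mul_I]
      linear_combination Real.sin_sq_add_cos_sq φ + Real.sin_sq_add_cos_sq ψ - 2 * hc
    rw [mul_pow, h3]
    rw [mul_pow, mul_pow, mul_pow, sq_abs]
    ring
  exact (sq_eq_sq₀ dist_nonneg (by positivity)).1 h

theorem abs_sin_pi_mul_ge {N : ℕ} {j k : ℕ} (hj : j < N) (hk : k < N) (hjk : j ≠ k) :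
    2 / (N : ℝ) ≤ |Real.sin ((2 * Real.pi * j / N - 2 * Real.pi * k / N) / 2)| := by
  wlog h : k < j generalizing j k
  · have h' : j < k := by omega
    have := this hk hj (Ne.symm hjk) h'
    rw [← abs_neg, ← Real.sin_neg] at this
    convert this using 3
    ring
  have hN : (0 : ℝ) < N := by exact_mod_cast (by omega : 0 < N)
  obtain ⟨m, rfl⟩ : ∃ m, j = k + m := ⟨j - k, by omega⟩
  have hm1 : (1 : ℝ) ≤ m := by exact_mod_cast (by omega : 1 ≤ m)
  have hm2 : (m : ℝ) + 1 ≤ N := by exact_mod_cast (by omega : m + 1 ≤ N)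
  have e : (2 * Real.pi * ((k + m : ℕ) : ℝ) / N - 2 * Real.pi * k / N) / 2 = Real.pi * m / N := by
    push_cast
    field_simp
    ring
  rw [e]
  refine le_trans ?_ (le_abs_self _)
  have hpi := Real.pi_pos
  rcases le_or_gt (Real.pi * m / N) (Real.pi / 2) with hx | hx
  · refine le_trans ?_ (Real.mul_le_sin (by positivity) hx)
    rw [div_le_iff₀ hN]
    have : 2 / Real.pi * (Real.pi * m / N) * N = 2 * m := by
      (clear * - hN hm1; field_simp)
    rw [this]
    linarith only [hm1]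
  · rw [← Real.sin_pi_sub]
    have h1 : Real.pi - Real.pi * m / N = Real.pi * (N - m) / N := by
      (clear * - hN; field_simp)
    have h2 : 0 ≤ Real.pi * (N - m) / N := by
      have : (0 : ℝ) ≤ N - m := by linarith only [hm2]
      (clear * - this hN; positivity)
    have hx' : Real.pi * (N - m) / N ≤ Real.pi / 2 := by rw [← h1]; linarith only [hx]
    rw [h1]
    refine le_trans ?_ (Real.mul_le_sin h2 hx')
    rw [div_le_iff₀ hN]
    have : 2 / Real.pi * (Real.pi * (N - m) / N) * N = 2 * (N - m) := by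
      (clear * - hN; field_simp)
    rw [this]
    linarith only [hm2]

theorem ball_integral_rot (l : ℕ) (α φ : ℝ) (z : V3) (t : ℝ) :
    ∫ x in ball (rot α φ z) t, wd l α x = ∫ x in ball z t, wd l α x := by
  have h := (rot α φ).measurePreserving.setIntegral_preimage_emb
    (rot α φ).toHomeomorph.measurableEmbedding (wd l α) (ball (rot α φ z) t)
  rw [← h]
  have e : (rot α φ) ⁻¹' (ball (rot α φ z) t) = ball z t := by
    ext x
    simp [mem_ball]
  rw [e]
  refine setIntegral_congr_fun measurableSet_ball fun x _ => ?_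
  exact wd_rot l α φ x

theorem ball_mass_le_div (l : ℕ) (α : ℝ) (z : V3) (t : ℝ) {N : ℕ} (hN : 1 ≤ N)
    (h : t * N ≤ 2 * ‖lf (av α) z‖) :
    ∫ x in ball z t, wd l α x ≤ wm l / N := by
  have hN0 : (0 : ℝ) < N := by exact_mod_cast hN
  rw [le_div_iff₀ hN0]
  have hd : ((Finset.range N : Finset ℕ) : Set ℕ).Pairwise
      (Function.onFun Disjoint fun k : ℕ => ball (rot α (2 * Real.pi * k / N) z) t) := by
    intro j hj k hk hjk
    simp only [Finset.coe_range, Set.mem_Iio] at hj hk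
    refine ball_disjoint_ball ?_
    rw [dist_rot]
    have h1 := abs_sin_pi_mul_ge hj hk hjk
    have h2 : 0 ≤ ‖lf (av α) z‖ := norm_nonneg _
    calc t + t = 2 * (t * N) / N := by field_simp; ring
      _ ≤ 2 * (2 * ‖lf (av α) z‖) / N := by gcongr
      _ = 2 * (2 / N) * ‖lf (av α) z‖ := by ring
      _ ≤ _ := by gcongr
  have hs := integral_biUnion_finset (μ := (volume : Measure V3)) (Finset.range N)
    (s := fun k : ℕ => ball (rot α (2 * Real.pi * k / N) z) t) (f := wd l α)
    (fun k _ => measurableSet_ball) hd (fun k _ => (integrable_wd l α).integrableOn)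
  have h3 : ∑ k ∈ Finset.range N, ∫ x in ball (rot α (2 * Real.pi * k / N) z) t, wd l α x =
      (∫ x in ball z t, wd l α x) * N := by
    simp only [ball_integral_rot]
    rw [Finset.sum_const, Finset.card_range, nsmul_eq_mul, mul_comm]
  rw [← h3, ← hs, ← integral_wd l α]
  exact setIntegral_le_integral (integrable_wd l α) (.of_forall fun x => wd_nonneg l α x)

theorem ball_mass_le_one (l : ℕ) (α : ℝ) (z : V3) (t : ℝ) :
    ∫ x in ball z t, wd l α x ≤ wm l := by
  rw [← integral_wd l α]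
  exact setIntegral_le_integral (integrable_wd l α) (.of_forall fun x => wd_nonneg l α x)

/-- the ball mass bound -/
theorem ball_mass_le (l : ℕ) (hl : 1 ≤ l) (α : ℝ) (z : V3) {t : ℝ} (ht : 0 < t) :
    ∫ x in ball z t, wd l α x ≤
      wm l * (3 * t / ((l : ℝ) + 1) ^ 2 + 15 / ((l : ℝ) + 1)) := by
  obtain ⟨n, hn⟩ : ∃ n : ℝ, n = (l : ℝ) + 1 := ⟨_, rfl⟩
  have hn1 : 1 ≤ n := by rw [hn]; have : (0 : ℝ) ≤ l := Nat.cast_nonneg l; linarith only []
  have hw := wm_pos l
  rw [← hn]
  have hn2 : 0 < n ^ 2 := by positivity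
  rcases le_or_gt (n ^ 2 / 3) t with h1 | h1
  · refine (ball_mass_le_one l α z t).trans ?_
    have : 1 ≤ 3 * t / n ^ 2 + 15 / n := by
      have h2 : 1 ≤ 3 * t / n ^ 2 := by
        rw [le_div_iff₀ hn2]
        linarith only [h1]
      have h3 : 0 ≤ 15 / n := by positivity
      linarith only [h2, h3]
    calc wm l = wm l * 1 := (mul_one _).symm
      _ ≤ _ := by (clear * - this hw; gcongr)
  rcases le_or_gt (n ^ 2 / 3) ‖lf (av α) z‖ with h2 | h2
  · -- rotation argument
    have hR : 0 < ‖lf (av α) z‖ := lt_of_lt_of_le (by (clear * - hn1; positivity)) h2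
    obtain ⟨N, hN⟩ : ∃ N : ℕ, N = ⌊2 * ‖lf (av α) z‖ / t⌋₊ := ⟨_, rfl⟩
    have h3 : (N : ℝ) ≤ 2 * ‖lf (av α) z‖ / t := by
      rw [hN]
      exact Nat.floor_le (by (clear * - hR ht; positivity))
    have h4 : 2 * ‖lf (av α) z‖ / t < N + 1 := by
      rw [hN]
      exact Nat.lt_floor_add_one _
    have h5 : 2 ≤ 2 * ‖lf (av α) z‖ / t := by
      rw [le_div_iff₀ ht]
      linarith only [h1, h2]
    have h6 : 1 ≤ N := by
      have : (1 : ℝ) < N + 1 + 0 := by linarith only [h4, h5]
      have : (0 : ℝ) < N := by linarith only [h4, h5]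
      exact_mod_cast this
    have h7 : t * N ≤ 2 * ‖lf (av α) z‖ := by
      rw [le_div_iff₀ ht] at h3
      linarith only [h3]
    refine (ball_mass_le_div l α z t h6 h7).trans ?_
    rw [div_eq_mul_inv]
    refine mul_le_mul_of_nonneg_left ?_ hw.le
    have h8 : ‖lf (av α) z‖ / t ≤ N := by
      have : 2 * ‖lf (av α) z‖ / t = 2 * (‖lf (av α) z‖ / t) := by ring
      rw [this] at h4 h5
      linarith only [h4, h5]
    have hN0 : (0 : ℝ) < N := by exact_mod_cast h6
    calc (N : ℝ)⁻¹ ≤ (‖lf (av α) z‖ / t)⁻¹ := by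
          gcongr
      _ = t / ‖lf (av α) z‖ := inv_div _ _
      _ ≤ t / (n ^ 2 / 3) := by gcongr
      _ = 3 * t / n ^ 2 := by field_simp
      _ ≤ 3 * t / n ^ 2 + 15 / n := by
          have : 0 ≤ 15 / n := by positivity
          linarith only [this]
  · -- near the axis
    have hsub : ball z t ⊆ {x : V3 | ‖lf (av α) x‖ ≤ 2 * ((l : ℝ) + 1) ^ 2 / 3} := by
      intro x hx
      rw [mem_ball, dist_eq_norm] at hx
      have : ‖lf (av α) x‖ ≤ ‖lf (av α) (x - z)‖ + ‖lf (av α) z‖ := by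
        rw [map_sub]
        simpa only [sub_add_cancel] using norm_add_le (lf (av α) x - lf (av α) z) (lf (av α) z)
      have h3 := norm_lf_av_le α (x - z)
      show ‖lf (av α) x‖ ≤ 2 * ((l : ℝ) + 1) ^ 2 / 3
      rw [← hn]
      linarith only [h1, h2, hx, this, h3]
    have h3 : ∫ x in ball z t, wd l α x ≤
        ∫ x in {x : V3 | ‖lf (av α) x‖ ≤ 2 * ((l : ℝ) + 1) ^ 2 / 3}, wd l α x :=
      setIntegral_mono_set (integrable_wd l α).integrableOn
        (.of_forall fun x => wd_nonneg l α x) hsub.eventuallyLE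
    refine (h3.trans (mass_small_s l hl α)).trans ?_
    refine mul_le_mul_of_nonneg_left ?_ hw.le
    rw [← hn]
    have : 0 ≤ 3 * t / n ^ 2 := by positivity
    linarith only [this]

end Vale.Agent.P370.GC
end

section

/-!
Pointwise bound and Coulomb potential bound for great circle densities.
-/

namespace Vale.Agent.P370.GC

open MeasureTheory Set Metric Module

theorem wd_le (l : ℕ) (hl : 1 ≤ l) (α : ℝ) (x : V3) :
    wd l α x ≤ wm l / (2 * Real.pi ^ 2 * l * ((l : ℝ) + 1) ^ 4) := by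
  have hl0 : (0 : ℝ) < l := by exact_mod_cast hl
  obtain ⟨n, hn⟩ : ∃ n : ℝ, n = (l : ℝ) + 1 := ⟨_, rfl⟩
  have hn0 : 0 < n := by rw [hn]; positivity
  obtain ⟨r, hr⟩ : ∃ r : ℝ, r = ‖x‖ := ⟨_, rfl⟩
  have hr0 : 0 ≤ r := by rw [hr]; exact norm_nonneg _
  have h1 : wd l α x ≤ r ^ (2 * l) * Real.exp (-(2 / n) * r) := by
    unfold wd
    rw [← hn, ← hr]
    gcongr
    rw [hr]
    exact norm_lf_av_le α x
  have h2 : r * Real.exp (-(r / (n * l))) ≤ n * l / Real.exp 1 := by
    have h3 : r / (n * l) ≤ Real.exp (r / (n * l) - 1) := by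
      have := Real.add_one_le_exp (r / (n * l) - 1)
      linarith only [this]
    have h4 : r ≤ (n * l) * Real.exp (r / (n * l) - 1) := by
      rw [div_le_iff₀ (by positivity)] at h3
      linarith only [h3]
    calc r * Real.exp (-(r / (n * l)))
        ≤ ((n * l) * Real.exp (r / (n * l) - 1)) * Real.exp (-(r / (n * l))) := by gcongr
      _ = (n * l) * (Real.exp (r / (n * l) - 1) * Real.exp (-(r / (n * l)))) := by ring
      _ = n * l / Real.exp 1 := by
          rw [← Real.exp_add, show r / (n * l) - 1 + -(r / (n * l)) = -1 by ring, Real.exp_neg]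
          rfl
  have h5 : r ^ (2 * l) * Real.exp (-(2 / n) * r) ≤ (n * l / Real.exp 1) ^ (2 * l) := by
    have e : r ^ (2 * l) * Real.exp (-(2 / n) * r) = (r * Real.exp (-(r / (n * l)))) ^ (2 * l) := by
      rw [mul_pow, ← Real.exp_nat_mul]
      congr 2
      push_cast
      (clear * - hl hn0; field_simp)
    rw [e]
    (clear * - hr0 h2; gcongr)
  have h6 := Stirling.le_factorial_stirling l
  have h7 : 2 * Real.pi * l * ((l : ℝ) / Real.exp 1) ^ (2 * l) ≤ (l.factorial : ℝ) ^ 2 := by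
    have h8 : (√(2 * Real.pi * l) * ((l : ℝ) / Real.exp 1) ^ l) ^ 2 ≤ (l.factorial : ℝ) ^ 2 := by
      (clear * - hl h6; gcongr)
    rw [mul_pow, Real.sq_sqrt (by positivity), ← pow_mul, mul_comm l 2] at h8
    exact h8
  rw [le_div_iff₀ (by positivity)]
  calc wd l α x * (2 * Real.pi ^ 2 * l * ((l : ℝ) + 1) ^ 4)
      ≤ (n * l / Real.exp 1) ^ (2 * l) * (2 * Real.pi ^ 2 * l * ((l : ℝ) + 1) ^ 4) := by
        gcongr
        exact h1.trans h5
    _ = Real.pi * (2 * Real.pi * l * ((l : ℝ) / Real.exp 1) ^ (2 * l)) * n ^ (2 * l + 4) := by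
        rw [← hn, mul_div_assoc, mul_pow]
        ring
    _ ≤ Real.pi * (l.factorial : ℝ) ^ 2 * n ^ (2 * l + 4) := by
        gcongr
    _ = wm l := by
        unfold wm
        rw [← hn]

theorem ball_mass_le_vol (l : ℕ) (hl : 1 ≤ l) (α : ℝ) (z : V3) {t : ℝ} (ht : 0 < t) :
    ∫ x in ball z t, wd l α x ≤
      wm l / (2 * Real.pi ^ 2 * l * ((l : ℝ) + 1) ^ 4) * (4 * Real.pi / 3 * t ^ 3) := by
  have hl0 : (0 : ℝ) < l := by exact_mod_cast hl
  have hv : (volume : Measure V3).real (ball z t) = 4 * Real.pi / 3 * t ^ 3 := by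
    rw [Measure.real, EuclideanSpace.volume_ball_fin_three, ENNReal.toReal_mul,
      ENNReal.toReal_pow, ENNReal.toReal_ofReal ht.le, ENNReal.toReal_ofReal (by positivity)]
    ring
  calc ∫ x in ball z t, wd l α x
      ≤ ∫ x in ball z t, wm l / (2 * Real.pi ^ 2 * l * ((l : ℝ) + 1) ^ 4) := by
        refine setIntegral_mono_on (integrable_wd l α).integrableOn ?_ measurableSet_ball
          fun x _ => wd_le l hl α x
        exact integrableOn_const (measure_ball_lt_top.ne)
    _ = _ := by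
        rw [setIntegral_const, hv, smul_eq_mul, mul_comm]

/-- layer cake for the inverse distance, truncated at `T` -/
theorem ofReal_inv_le {T d : ℝ} (hT : 0 < T) (hd : 0 < d) :
    ENNReal.ofReal (1 / d) ≤ ENNReal.ofReal (1 / T) +
      ∫⁻ t in Ioc (0 : ℝ) T, (Ioi d).indicator (fun t => ENNReal.ofReal (1 / t ^ 2)) t := by
  rcases le_or_gt T d with h | h
  · refine le_add_right ?_
    (clear * - hT h; gcongr)
  · have h1 : ∫⁻ t in Ioc (0 : ℝ) T, (Ioi d).indicator (fun t => ENNReal.ofReal (1 / t ^ 2)) t =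
        ∫⁻ t in Ioc d T, ENNReal.ofReal (1 / t ^ 2) := by
      rw [← lintegral_indicator measurableSet_Ioc, ← lintegral_indicator measurableSet_Ioc]
      congr 1
      ext t
      by_cases h2 : t ∈ Ioc d T
      · have h3 : t ∈ Ioc (0 : ℝ) T := ⟨hd.trans h2.1, h2.2⟩
        rw [indicator_of_mem h3, indicator_of_mem h2, indicator_of_mem (show t ∈ Ioi d from h2.1)]
      · rw [indicator_of_notMem h2]
        by_cases h3 : t ∈ Ioc (0 : ℝ) T
        · rw [indicator_of_mem h3, indicator_of_notMem]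
          intro h4
          exact h2 ⟨h4, h3.2⟩
        · rw [indicator_of_notMem h3]
    have h2 : ∫⁻ t in Ioc d T, ENNReal.ofReal (1 / t ^ 2) = ENNReal.ofReal (1 / d - 1 / T) := by
      have hii : ∀ t ∈ Set.uIcc d T, t ≠ 0 := by
        intro t ht
        rw [uIcc_of_le h.le] at ht
        exact (hd.trans_le ht.1).ne'
      have hint : ∫ t in d..T, 1 / t ^ 2 = 1 / d - 1 / T := by
        have : ∫ t in d..T, 1 / t ^ 2 = (-1 / T) - (-1 / d) := by
          refine intervalIntegral.integral_eq_sub_of_hasDerivAt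
            (f := fun t => -1 / t) (fun t ht => ?_) ?_
          · have h0 := hii t ht
            have := ((hasDerivAt_id t).inv h0).neg
            refine (this.congr_deriv ?_).congr_of_eventuallyEq (.of_forall fun s => ?_)
            · simp only [id_eq, neg_div, one_div, neg_neg]
            · simp [neg_div]
          · refine ContinuousOn.intervalIntegrable ?_
            exact continuousOn_const.div (continuousOn_pow 2) fun t ht => pow_ne_zero 2 (hii t ht)
        rw [this]
        ring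
      rw [← hint, intervalIntegral.integral_of_le h.le, ofReal_integral_eq_lintegral_ofReal]
      · have : IntervalIntegrable (fun t : ℝ => 1 / t ^ 2) volume d T := by
          refine ContinuousOn.intervalIntegrable ?_
          exact continuousOn_const.div (continuousOn_pow 2) fun t ht => pow_ne_zero 2 (hii t ht)
        exact (intervalIntegrable_iff_integrableOn_Ioc_of_le h.le).1 this
      · exact .of_forall fun t => by (clear * -; positivity)
    rw [h1, h2, ← ENNReal.ofReal_add (by positivity)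
      (by rw [sub_nonneg]; exact one_div_le_one_div_of_le hd h.le)]
    gcongr
    linarith only []

theorem lintegral_ball_wd (l : ℕ) (α : ℝ) (y : V3) (t : ℝ) :
    ∫⁻ x in ball y t, ENNReal.ofReal (wd l α x) =
      ENNReal.ofReal (∫ x in ball y t, wd l α x) :=
  (ofReal_integral_eq_lintegral_ofReal (integrable_wd l α).integrableOn
    (.of_forall fun x => wd_nonneg l α x)).symm

theorem lintegral_wd (l : ℕ) (α : ℝ) : ∫⁻ x, ENNReal.ofReal (wd l α x) =
    ENNReal.ofReal (wm l) := by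
  rw [← integral_wd l α, ofReal_integral_eq_lintegral_ofReal (integrable_wd l α)
    (.of_forall fun x => wd_nonneg l α x)]

theorem pot_le_layer (l : ℕ) (α : ℝ) (y : V3) {T : ℝ} (hT : 0 < T) :
    ∫⁻ x, ENNReal.ofReal (wd l α x / dist x y) ≤ ENNReal.ofReal (wm l * (1 / T)) +
      ∫⁻ t in Ioc (0 : ℝ) T, ENNReal.ofReal (1 / t ^ 2) *
        ENNReal.ofReal (∫ x in ball y t, wd l α x) := by
  have h1 : ∀ x : V3, ENNReal.ofReal (wd l α x / dist x y) ≤
      ENNReal.ofReal (wd l α x) * ENNReal.ofReal (1 / T) +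
      ∫⁻ t in Ioc (0 : ℝ) T, ENNReal.ofReal (wd l α x) *
        (Ioi (dist x y)).indicator (fun t => ENNReal.ofReal (1 / t ^ 2)) t := by
    intro x
    rcases eq_or_lt_of_le (dist_nonneg (x := x) (y := y)) with h | h
    · rw [← h]
      simp only [div_zero, ENNReal.ofReal_zero, one_div, zero_le]
    · have h2 := ofReal_inv_le hT h
      rw [lintegral_const_mul _ (Measurable.indicator (by fun_prop) measurableSet_Ioi), ← mul_add]
      calc ENNReal.ofReal (wd l α x / dist x y)
          = ENNReal.ofReal (wd l α x) * ENNReal.ofReal (1 / dist x y) := by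
            rw [← ENNReal.ofReal_mul (wd_nonneg l α x)]
            congr 1
            ring
        _ ≤ _ := by gcongr
  have hm : Measurable fun p : V3 × ℝ => ENNReal.ofReal (wd l α p.1) *
      (Ioi (dist p.1 y)).indicator (fun t => ENNReal.ofReal (1 / t ^ 2)) p.2 := by
    refine ((continuous_wd l α).measurable.comp measurable_fst).ennreal_ofReal.mul ?_
    have hs : MeasurableSet {p : V3 × ℝ | dist p.1 y < p.2} :=
      measurableSet_lt (by fun_prop) measurable_snd
    have : (fun p : V3 × ℝ => (Ioi (dist p.1 y)).indicator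
        (fun t => ENNReal.ofReal (1 / t ^ 2)) p.2) =
        {p : V3 × ℝ | dist p.1 y < p.2}.indicator (fun p => ENNReal.ofReal (1 / p.2 ^ 2)) := by
      ext p
      by_cases hp : dist p.1 y < p.2
      · rw [indicator_of_mem (show p.2 ∈ Ioi (dist p.1 y) from hp), indicator_of_mem (by exact hp)]
      · rw [indicator_of_notMem (by simpa only [mem_Ioi, not_lt] using hp), indicator_of_notMem (by exact hp)]
    rw [this]
    exact Measurable.indicator (by (clear * -; fun_prop)) hs
  calc ∫⁻ x, ENNReal.ofReal (wd l α x / dist x y)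
      ≤ ∫⁻ x, (ENNReal.ofReal (wd l α x) * ENNReal.ofReal (1 / T) +
        ∫⁻ t in Ioc (0 : ℝ) T, ENNReal.ofReal (wd l α x) *
          (Ioi (dist x y)).indicator (fun t => ENNReal.ofReal (1 / t ^ 2)) t) :=
        lintegral_mono h1
    _ = (∫⁻ x, ENNReal.ofReal (wd l α x) * ENNReal.ofReal (1 / T)) +
        ∫⁻ x, ∫⁻ t in Ioc (0 : ℝ) T, ENNReal.ofReal (wd l α x) *
          (Ioi (dist x y)).indicator (fun t => ENNReal.ofReal (1 / t ^ 2)) t := by
        refine lintegral_add_left ?_ _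
        exact (continuous_wd l α).measurable.ennreal_ofReal.mul_const _
    _ = _ := by
        congr 1
        · rw [lintegral_mul_const _ (continuous_wd l α).measurable.ennreal_ofReal, lintegral_wd,
            ← ENNReal.ofReal_mul (wm_pos l).le]
        · rw [lintegral_lintegral_swap hm.aemeasurable]
          refine lintegral_congr fun t => ?_
          rw [← lintegral_ball_wd, ← lintegral_indicator measurableSet_ball,
            ← lintegral_const_mul _ (Measurable.indicator
              (continuous_wd l α).measurable.ennreal_ofReal measurableSet_ball)]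
          refine lintegral_congr fun x => ?_
          by_cases hx : dist x y < t
          · rw [indicator_of_mem (show t ∈ Ioi (dist x y) from hx),
              indicator_of_mem (show x ∈ ball y t from hx), mul_comm]
          · rw [indicator_of_notMem (show t ∉ Ioi (dist x y) by simpa only [mem_Ioi, not_lt] using hx),
              indicator_of_notMem (show x ∉ ball y t by simpa only [mem_ball, not_lt] using hx)]
            simp only [mul_zero, one_div]

/-- potential of a great circle density -/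
theorem pot_le (l : ℕ) (hl : 1 ≤ l) (α : ℝ) (y : V3) :
    ∫⁻ x, ENNReal.ofReal (wd l α x / dist x y) ≤
      ENNReal.ofReal (wm l * ((17 + 3 * Real.log ((l : ℝ) + 1)) / ((l : ℝ) + 1) ^ 2)) := by
  have hl1 : (1 : ℝ) ≤ l := by exact_mod_cast hl
  obtain ⟨n, hn⟩ : ∃ n : ℝ, n = (l : ℝ) + 1 := ⟨_, rfl⟩
  have hn2 : 2 ≤ n := by linarith only [hl1, hn]
  have hn0 : 0 < n := by linarith only [hn]
  have hw := wm_pos l
  have hnn : n ≤ n ^ 2 := by nlinarith only [hn]
  have hlog : 0 ≤ Real.log n := Real.log_nonneg (by linarith only [hn])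
  rw [← hn]
  refine (pot_le_layer l α y (T := n ^ 2) (by positivity)).trans ?_
  have hsplit : ∫⁻ t in Ioc (0 : ℝ) (n ^ 2), ENNReal.ofReal (1 / t ^ 2) *
        ENNReal.ofReal (∫ x in ball y t, wd l α x) =
      (∫⁻ t in Ioc (0 : ℝ) n, ENNReal.ofReal (1 / t ^ 2) *
        ENNReal.ofReal (∫ x in ball y t, wd l α x)) +
      ∫⁻ t in Ioc n (n ^ 2), ENNReal.ofReal (1 / t ^ 2) *
        ENNReal.ofReal (∫ x in ball y t, wd l α x) := by
    rw [← lintegral_union measurableSet_Ioc (Ioc_disjoint_Ioc_of_le le_rfl),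
      Ioc_union_Ioc_eq_Ioc hn0.le hnn]
  have hI1 : (∫⁻ t in Ioc (0 : ℝ) n, ENNReal.ofReal (1 / t ^ 2) *
        ENNReal.ofReal (∫ x in ball y t, wd l α x)) ≤ ENNReal.ofReal (wm l * (1 / n ^ 2)) := by
    calc (∫⁻ t in Ioc (0 : ℝ) n, ENNReal.ofReal (1 / t ^ 2) *
        ENNReal.ofReal (∫ x in ball y t, wd l α x))
        ≤ ∫⁻ _ in Ioc (0 : ℝ) n, ENNReal.ofReal (wm l * (1 / n ^ 3)) := by
          refine setLIntegral_mono measurable_const fun t ht => ?_
          have ht0 : 0 < t := ht.1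
          rw [← ENNReal.ofReal_mul (by positivity)]
          apply ENNReal.ofReal_le_ofReal
          have h1 := ball_mass_le_vol l hl α y ht0
          rw [← hn] at h1
          calc 1 / t ^ 2 * ∫ x in ball y t, wd l α x
              ≤ 1 / t ^ 2 * (wm l / (2 * Real.pi ^ 2 * l * n ^ 4) * (4 * Real.pi / 3 * t ^ 3)) := by
                gcongr
            _ = wm l * (2 / (3 * Real.pi * l)) * (t / n ^ 4) := by
                have := Real.pi_pos
                field_simp
                ring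
            _ ≤ wm l * 1 * (n / n ^ 4) := by
                have h3 : 2 / (3 * Real.pi * l) ≤ 1 := by
                  rw [div_le_one (by positivity)]
                  nlinarith only [hl1, Real.pi_gt_three]
                have h4 : t ≤ n := ht.2
                (clear * - h3 hw h4 hn2 ht0; gcongr)
            _ = wm l * (1 / n ^ 3) := by field_simp
      _ = _ := by
          rw [setLIntegral_const, Real.volume_Ioc, sub_zero, ← ENNReal.ofReal_mul (by positivity)]
          congr 1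
          field_simp
  have hI2 : (∫⁻ t in Ioc n (n ^ 2), ENNReal.ofReal (1 / t ^ 2) *
        ENNReal.ofReal (∫ x in ball y t, wd l α x)) ≤
      ENNReal.ofReal (wm l * (3 * Real.log n / n ^ 2 + 15 / n ^ 2)) := by
    have hpos : ∀ t ∈ uIcc n (n ^ 2), t ≠ 0 := by
      intro t ht
      rw [uIcc_of_le hnn] at ht
      exact (hn0.trans_le ht.1).ne'
    have hii : IntervalIntegrable (fun t : ℝ => wm l * (3 / n ^ 2 * (1 / t) + 15 / n * (1 / t ^ 2)))
        volume n (n ^ 2) := by
      refine ContinuousOn.intervalIntegrable ?_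
      refine continuousOn_const.mul ((continuousOn_const.mul ?_).add (continuousOn_const.mul ?_))
      · exact continuousOn_const.div continuousOn_id fun t ht => hpos t ht
      · exact continuousOn_const.div (continuousOn_pow 2) fun t ht => pow_ne_zero 2 (hpos t ht)
    have hint : ∫ t in n..n ^ 2, wm l * (3 / n ^ 2 * (1 / t) + 15 / n * (1 / t ^ 2)) =
        wm l * (3 / n ^ 2 * Real.log n + 15 / n * (1 / n - 1 / n ^ 2)) := by
      have hd : ∀ t ∈ uIcc n (n ^ 2), HasDerivAt
          (fun t : ℝ => wm l * (3 / n ^ 2 * Real.log t + 15 / n * (-1 / t)))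
          (wm l * (3 / n ^ 2 * (1 / t) + 15 / n * (1 / t ^ 2))) t := by
        intro t ht
        have h0 := hpos t ht
        have d1 : HasDerivAt Real.log (1 / t) t := by
          simpa using Real.hasDerivAt_log h0
        have d2 : HasDerivAt (fun t : ℝ => -1 / t) (1 / t ^ 2) t := by
          have := ((hasDerivAt_id t).inv h0).neg
          refine (this.congr_deriv ?_).congr_of_eventuallyEq (.of_forall fun s => ?_)
          · simp [neg_div]
          · simp only [neg_div, one_div, Pi.neg_apply, Pi.inv_apply, id_eq]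
        exact ((d1.const_mul _).add (d2.const_mul _)).const_mul _
      rw [intervalIntegral.integral_eq_sub_of_hasDerivAt hd hii, Real.log_pow]
      push_cast
      ring
    calc (∫⁻ t in Ioc n (n ^ 2), ENNReal.ofReal (1 / t ^ 2) *
        ENNReal.ofReal (∫ x in ball y t, wd l α x))
        ≤ ∫⁻ t in Ioc n (n ^ 2),
          ENNReal.ofReal (wm l * (3 / n ^ 2 * (1 / t) + 15 / n * (1 / t ^ 2))) := by
          refine setLIntegral_mono (by fun_prop) fun t ht => ?_
          have ht0 : 0 < t := hn0.trans ht.1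
          rw [← ENNReal.ofReal_mul (by (clear * - ht0; positivity))]
          apply ENNReal.ofReal_le_ofReal
          have h1 := ball_mass_le l hl α y ht0
          rw [← hn] at h1
          calc 1 / t ^ 2 * ∫ x in ball y t, wd l α x
              ≤ 1 / t ^ 2 * (wm l * (3 * t / n ^ 2 + 15 / n)) := by (clear * - h1 ht0; gcongr)
            _ = _ := by (clear * - ht0 hn2 hw; field_simp)
      _ = ENNReal.ofReal (∫ t in n..n ^ 2,
            wm l * (3 / n ^ 2 * (1 / t) + 15 / n * (1 / t ^ 2))) := by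
          rw [intervalIntegral.integral_of_le hnn, ofReal_integral_eq_lintegral_ofReal]
          · exact (intervalIntegrable_iff_integrableOn_Ioc_of_le hnn).1 hii
          · filter_upwards [ae_restrict_mem measurableSet_Ioc] with t ht
            have ht0 : 0 < t := hn0.trans ht.1
            positivity
      _ ≤ _ := by
          rw [hint]
          apply ENNReal.ofReal_le_ofReal
          refine mul_le_mul_of_nonneg_left ?_ hw.le
          have h3 : 15 / n * (1 / n - 1 / n ^ 2) ≤ 15 / n ^ 2 := by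
            have : 15 / n * (1 / n - 1 / n ^ 2) = 15 / n ^ 2 - 15 / n ^ 3 := by
              (clear * - hn2; field_simp)
            have h4 : 0 ≤ 15 / n ^ 3 := by positivity
            linarith only [this, h4]
          have h5 : 3 / n ^ 2 * Real.log n = 3 * Real.log n / n ^ 2 := by ring
          linarith only [h3, h5]
  rw [hsplit]
  calc ENNReal.ofReal (wm l * (1 / n ^ 2)) + (_ + _)
      ≤ ENNReal.ofReal (wm l * (1 / n ^ 2)) + (ENNReal.ofReal (wm l * (1 / n ^ 2)) +
        ENNReal.ofReal (wm l * (3 * Real.log n / n ^ 2 + 15 / n ^ 2))) := by (clear * - hI1 hI2; gcongr)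
    _ = _ := by
        rw [← ENNReal.ofReal_add (by (clear * - hw hn2; positivity)) (by positivity),
          ← ENNReal.ofReal_add (by positivity) (by positivity)]
        congr 1
        ring

end Vale.Agent.P370.GC
end

section

/-!
Translation between the notation of Base.lean and the notation of the GC files.
-/

namespace Vale.Agent.P370.Q

open MeasureTheory Finset ComplexConjugate

theorem cdot_eq_lf (v : C3) (x : R3) : cdot v x = GC.lf v x := by
  rw [GC.lf_apply]
  unfold cdot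
  exact Finset.sum_congr rfl fun k _ => mul_comm _ _

theorem av_eq (α : ℝ) : av α = GC.av α := rfl

theorem cc_eq (v w : C3) : cc v w = GC.dd v w := rfl

theorem two_nf (n : ℕ) (hn : 1 ≤ n) : 2 * nf n = GC.wm (n - 1) := by
  obtain ⟨l, rfl⟩ : ∃ l, n = l + 1 := ⟨n - 1, by omega⟩
  unfold nf GC.wm
  rw [Nat.add_sub_cancel]
  push_cast
  ring

theorem rho0_eq (n : ℕ) (hn : 1 ≤ n) (α : ℝ) (x : R3) :
    rho0 n α x = GC.wd (n - 1) α x / GC.wm (n - 1) := by
  obtain ⟨l, rfl⟩ : ∃ l, n = l + 1 := ⟨n - 1, by omega⟩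
  unfold rho0 GC.wd
  rw [two_nf _ (by omega), cdot_eq_lf, av_eq, Nat.add_sub_cancel]
  congr 3
  push_cast
  ring

theorem nuv_inner (α : ℝ) (x : R3) : inner ℝ (nuv α) x = GC.nu α x := by
  unfold GC.nu
  rw [EuclideanSpace.inner_eq_star_dotProduct]
  simp only [dotProduct, nuv, Pi.star_apply, star_trivial, Fin.sum_univ_three, Fin.isValue, Matrix.cons_val_zero, mul_neg, Matrix.cons_val_one, Matrix.cons_val, mul_zero, add_zero, neg_mul]
  ring

end Vale.Agent.P370.Q
end

section

/-!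
Moments of linear forms on the sphere, evaluation formula, triple products.
-/

namespace Vale.Agent.P370.Q

open MeasureTheory Finset ComplexConjugate

lemma sph2_cdot_cont (v : C3) : Continuous (fun u : R3 => cdot v u) := by
  unfold cdot
  fun_prop

lemma sph2_sum {ι : Type} (s : Finset ι) (f : ι → R3 → ℂ) (hf : ∀ i ∈ s, Continuous (f i)) :
    sph (fun u => ∑ i ∈ s, f i u) = ∑ i ∈ s, sph (f i) := by
  classical
  induction s using Finset.induction_on with
  | empty => simp only [Finset.sum_empty]; exact sph_const 0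
  | insert a s ha ih =>
    simp only [Finset.sum_insert ha]
    rw [sph_add, ih (fun i hi => hf i (Finset.mem_insert_of_mem hi))]
    · exact (hf a (Finset.mem_insert_self a s)).continuousOn
    · exact (continuous_finsetSum s
        (fun i hi => hf i (Finset.mem_insert_of_mem hi))).continuousOn

lemma sph2_const_mul (c : ℂ) (f : R3 → ℂ) : sph (fun u => c * f u) = c * sph f := by
  unfold sph
  simp_rw [← mul_smul_comm, intervalIntegral.integral_const_mul, ← mul_smul_comm]

lemma sph2_unit (w : R3) : ∃ e : R3, ‖e‖ = 1 ∧ w = ‖w‖ • e := by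
  by_cases h : w = 0
  · refine ⟨EuclideanSpace.single 0 1, by simp, ?_⟩
    rw [h]; simp only [norm_zero, Fin.isValue, zero_smul]
  · refine ⟨‖w‖⁻¹ • w, ?_, ?_⟩
    · rw [norm_smul, norm_inv, norm_norm, inv_mul_cancel₀ (norm_ne_zero_iff.mpr h)]
    · rw [smul_smul, mul_inv_cancel₀ (norm_ne_zero_iff.mpr h), one_smul]

lemma sph2_pow_real (w : R3) (m : ℕ) :
    sph (fun u => cdot (fun k => (w k : ℂ)) u ^ m) =
      if Even m then cc (fun k => (w k : ℂ)) (fun k => (w k : ℂ)) ^ (m / 2) / (m + 1) else 0 := by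
  obtain ⟨e, he, hw⟩ := sph2_unit w
  have h1 : ∀ u : R3, cdot (fun k => (w k : ℂ)) u = (((‖w‖ * inner ℝ e u : ℝ)) : ℂ) := by
    intro u
    have h2 : ‖w‖ * inner ℝ e u = inner ℝ w u := by
      conv_rhs => rw [hw]
      rw [real_inner_smul_left]
    rw [h2, PiLp.inner_apply]
    unfold cdot
    push_cast
    refine Finset.sum_congr rfl fun k _ => ?_
    simp only [RCLike.inner_apply, conj_trivial]
    push_cast
    ring
  have h3 : cc (fun k => (w k : ℂ)) (fun k => (w k : ℂ)) = ((‖w‖ ^ 2 : ℝ) : ℂ) := by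
    rw [EuclideanSpace.norm_sq_eq]
    unfold cc
    push_cast
    refine Finset.sum_congr rfl fun k _ => ?_
    rw [Real.norm_eq_abs]
    have : (((|w k| : ℝ) ^ 2 : ℝ) : ℂ) = ((w k ^ 2 : ℝ) : ℂ) := by rw [sq_abs]
    push_cast at this
    rw [this]; ring
  have h4 : sph (fun u => cdot (fun k => (w k : ℂ)) u ^ m) =
      (1 / 2 : ℝ) • ∫ t in (-1 : ℝ)..1, (((‖w‖ * t : ℝ)) : ℂ) ^ m := by
    simp_rw [h1]
    exact sph_zonal e he (fun t => (((‖w‖ * t : ℝ)) : ℂ) ^ m) (by (clear * -; fun_prop))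
  have h5 : ∫ t in (-1 : ℝ)..1, (((‖w‖ * t : ℝ)) : ℂ) ^ m =
      (((‖w‖ ^ m * ((1 - (-1) ^ (m + 1)) / (m + 1))) : ℝ) : ℂ) := by
    have h6 : ∀ t : ℝ, (((‖w‖ * t : ℝ)) : ℂ) ^ m = ((‖w‖ ^ m * t ^ m : ℝ) : ℂ) := by
      intro t; push_cast; ring
    simp_rw [h6]
    rw [intervalIntegral.integral_ofReal, intervalIntegral.integral_const_mul, integral_pow,
      one_pow]
  rw [h4, h5, h3]
  by_cases hm : Even m
  · rw [if_pos hm]
    have h7 : (-1 : ℝ) ^ (m + 1) = -1 := (hm.add_one).neg_one_pow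
    rw [h7]
    obtain ⟨j, hj⟩ := hm
    have h8 : m / 2 = j := by (clear * - hj; omega)
    rw [h8, Complex.real_smul]
    subst hj
    push_cast
    rw [← pow_mul, two_mul]
    ring
  · rw [if_neg hm]
    have h7 : (-1 : ℝ) ^ (m + 1) = 1 := by
      have : Even (m + 1) := by
        rw [Nat.not_even_iff_odd] at hm
        exact hm.add_one
      exact this.neg_one_pow
    rw [h7, Complex.real_smul]
    simp

lemma sph2_expand (v : C3) (m : ℕ) :
    sph (fun u => cdot v u ^ m) = ∑ k ∈ piAntidiag univ m,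
      (Nat.multinomial univ k : ℂ) * sph (fun u => ∏ i, (u i : ℂ) ^ k i) * ∏ i, v i ^ k i := by
  have h1 : ∀ u : R3, cdot v u ^ m = ∑ k ∈ piAntidiag univ m,
      ((Nat.multinomial univ k : ℂ) * ∏ i, v i ^ k i) * ∏ i, (u i : ℂ) ^ k i := by
    intro u
    unfold cdot
    rw [sum_pow_eq_sum_piAntidiag]
    refine Finset.sum_congr rfl fun k _ => ?_
    simp_rw [mul_pow]
    rw [Finset.prod_mul_distrib]
    ring
  simp_rw [h1]
  rw [sph2_sum]
  · refine Finset.sum_congr rfl fun k _ => ?_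
    rw [sph2_const_mul]
    ring
  · intro k _
    fun_prop

/-- moments of linear forms -/
theorem sph_pow (v : C3) (m : ℕ) :
    sph (fun u => cdot v u ^ m) = if Even m then cc v v ^ (m / 2) / (m + 1) else 0 := by
  set p : MvPolynomial (Fin 3) ℂ := ∑ k ∈ piAntidiag univ m,
    MvPolynomial.C ((Nat.multinomial univ k : ℂ) * sph (fun u => ∏ i, (u i : ℂ) ^ k i)) *
      ∏ i, MvPolynomial.X i ^ k i with hp
  set q : MvPolynomial (Fin 3) ℂ := if Even m then
    MvPolynomial.C (1 / ((m : ℂ) + 1)) * (∑ i, MvPolynomial.X i * MvPolynomial.X i) ^ (m / 2)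
      else 0 with hq
  have hpe : ∀ v : C3, MvPolynomial.eval v p = sph (fun u => cdot v u ^ m) := by
    intro v
    rw [sph2_expand, hp, map_sum]
    refine Finset.sum_congr rfl fun k _ => ?_
    rw [map_mul, MvPolynomial.eval_C, map_prod]
    simp only [map_pow, MvPolynomial.eval_X]
  have hqe : ∀ v : C3, MvPolynomial.eval v q =
      if Even m then cc v v ^ (m / 2) / (m + 1) else 0 := by
    intro v
    rw [hq]
    by_cases hm : Even m
    · rw [if_pos hm, if_pos hm, map_mul, MvPolynomial.eval_C, map_pow, map_sum]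
      simp only [map_mul, MvPolynomial.eval_X]
      unfold cc
      ring
    · rw [if_neg hm, if_neg hm, map_zero]
  have hpq : p = q := by
    apply MvPolynomial.funext_set (fun _ => Set.range (fun t : ℝ => (t : ℂ)))
    · intro _
      exact Set.infinite_range_of_injective Complex.ofReal_injective
    · intro x hx
      have hx' : ∀ i, ∃ t : ℝ, (t : ℂ) = x i := fun i => hx i (Set.mem_univ i)
      choose w hw using hx'
      have h2 : x = fun k => ((WithLp.toLp 2 w : R3) k : ℂ) := by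
        funext k; exact (hw k).symm
      rw [hpe, hqe, h2]
      exact sph2_pow_real (WithLp.toLp 2 w) m
  rw [← hpe, hpq, hqe]

/-- a linear functional on homogeneous polynomials vanishes if it vanishes on powers of real
linear forms -/
theorem lin_ext {E : Type} [AddCommGroup E] [Module ℝ E] (m : ℕ) (L : Poly3 →ₗ[ℝ] E)
    (h : ∀ v : Fin 3 → ℝ, L ((∑ k, MvPolynomial.C (v k) * MvPolynomial.X k) ^ m) = 0)
    (P : Poly3) (hP : P.IsHomogeneous m) : L P = 0 := by
  rw [← Module.forall_dual_apply_eq_zero_iff ℝ]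
  intro φ
  have key : ∀ k ∈ piAntidiag (univ : Finset (Fin 3)) m,
      φ (L (∏ i, MvPolynomial.X i ^ k i)) = 0 := by
    set Q : Poly3 := ∑ k ∈ piAntidiag univ m,
      MvPolynomial.C ((Nat.multinomial univ k : ℝ) * φ (L (∏ i, MvPolynomial.X i ^ k i))) *
        ∏ i, MvPolynomial.X i ^ k i with hQ
    have hQe : ∀ v : Fin 3 → ℝ, MvPolynomial.eval v Q = 0 := by
      intro v
      have h1 : (∑ k, MvPolynomial.C (v k) * MvPolynomial.X k : Poly3) ^ m =
          ∑ k ∈ piAntidiag univ m, ((Nat.multinomial univ k : ℝ) * ∏ i, v i ^ k i) •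
            (∏ i, MvPolynomial.X i ^ k i : Poly3) := by
        rw [sum_pow_eq_sum_piAntidiag]
        refine Finset.sum_congr rfl fun k _ => ?_
        simp_rw [mul_pow]
        rw [Finset.prod_mul_distrib, MvPolynomial.smul_eq_C_mul, map_mul, map_prod]
        simp only [map_pow, map_natCast]
        ring
      have h2 := h v
      rw [h1, map_sum] at h2
      have h3 := congrArg φ h2
      rw [map_sum, map_zero] at h3
      rw [hQ, map_sum, ← h3]
      refine Finset.sum_congr rfl fun k _ => ?_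
      have h8 : MvPolynomial.eval v (∏ i, MvPolynomial.X i ^ k i) = ∏ i, v i ^ k i := by
        rw [map_prod]
        simp only [map_pow, MvPolynomial.eval_X]
      rw [map_mul, MvPolynomial.eval_C, h8, map_smul, map_smul, smul_eq_mul]
      ring
    have hQ0 : Q = 0 := MvPolynomial.funext (fun v => by rw [hQe, map_zero])
    intro k hk
    have h4 := congrArg (MvPolynomial.coeff (Finsupp.equivFunOnFinite.symm k)) hQ0
    rw [hQ, MvPolynomial.coeff_sum, MvPolynomial.coeff_zero] at h4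
    have h5 : ∀ j : Fin 3 → ℕ, (∏ i, MvPolynomial.X i ^ j i : Poly3) =
        MvPolynomial.monomial (Finsupp.equivFunOnFinite.symm j) 1 := by
      intro j
      rw [MvPolynomial.monomial_eq, map_one, one_mul, Finsupp.prod_fintype]
      · rfl
      · intro i; exact pow_zero _
    rw [Finset.sum_eq_single k] at h4
    · rw [h5 k, MvPolynomial.coeff_C_mul, MvPolynomial.coeff_monomial, if_pos rfl, mul_one] at h4
      have h6 : (Nat.multinomial univ k : ℝ) ≠ 0 := by
        exact_mod_cast (Nat.multinomial_pos univ k).ne'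
      rw [h5 k]
      exact (mul_eq_zero.mp h4).resolve_left h6
    · intro j _ hjk
      rw [h5 j, MvPolynomial.coeff_C_mul, MvPolynomial.coeff_monomial, if_neg, mul_zero]
      intro h7
      exact hjk (Finsupp.equivFunOnFinite.symm.injective h7)
    · intro h7; exact absurd hk h7
  rw [P.as_sum, map_sum, map_sum]
  refine Finset.sum_eq_zero fun d hd => ?_
  have hdeg : ∑ i, d i = m := by
    have h1 := hP (MvPolynomial.mem_support_iff.mp hd)
    rw [Finsupp.weight_apply, Finsupp.sum_fintype] at h1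
    · simpa only [Pi.one_apply, smul_eq_mul, mul_one] using h1
    · intro i; simp
  have h2 : MvPolynomial.monomial d (MvPolynomial.coeff d P) =
      (MvPolynomial.coeff d P) • (∏ i, MvPolynomial.X i ^ d i : Poly3) := by
    rw [MvPolynomial.monomial_eq, MvPolynomial.smul_eq_C_mul, Finsupp.prod_fintype]
    intro i; exact pow_zero _
  rw [h2, map_smul, map_smul, key (fun i => d i), smul_zero]
  rw [mem_piAntidiag]
  exact ⟨hdeg, fun i _ => mem_univ i⟩

lemma sph2_pe_cont (P : Poly3) : Continuous (fun u : R3 => pe P u) := by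
  unfold pe
  have h1 : Continuous (fun u : R3 => (fun i => u i : Fin 3 → ℝ)) := by fun_prop
  exact (MvPolynomial.continuous_eval P).comp h1

lemma sph2_cross (c : C3) (hc : cc c c = 0) (v : C3) (m : ℕ) :
    sph (fun u => cdot c u ^ m * cdot v u ^ m) = (Am m : ℂ) * cc v c ^ m := by
  set p : Polynomial ℂ := ∑ j ∈ range (2 * m + 1),
    Polynomial.C (((2 * m).choose j : ℂ) * sph (fun u => cdot v u ^ j * cdot c u ^ (2 * m - j))) *
      Polynomial.X ^ j with hp
  set q : Polynomial ℂ := (Polynomial.C (2 * cc v c) + Polynomial.C (cc v v) * Polynomial.X) ^ m *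
    Polynomial.C (1 / (2 * (m : ℂ) + 1)) * Polynomial.X ^ m with hq
  have hpq : p = q := by
    apply Polynomial.funext
    intro t
    have h1 : sph (fun u => cdot (t • v + c) u ^ (2 * m)) = Polynomial.eval t p := by
      have h2 : ∀ u : R3, cdot (t • v + c) u ^ (2 * m) = ∑ j ∈ range (2 * m + 1),
          (((2 * m).choose j : ℂ) * t ^ j) * (cdot v u ^ j * cdot c u ^ (2 * m - j)) := by
        intro u
        have h3 : cdot (t • v + c) u = t * cdot v u + cdot c u := by
          unfold cdot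
          rw [Finset.mul_sum, ← Finset.sum_add_distrib]
          refine Finset.sum_congr rfl fun k _ => ?_
          simp only [Pi.add_apply, Pi.smul_apply, smul_eq_mul]
          ring
        rw [h3, add_pow]
        refine Finset.sum_congr rfl fun j _ => ?_
        rw [mul_pow]; ring
      simp_rw [h2]
      rw [sph2_sum]
      · rw [hp, Polynomial.eval_finsetSum]
        refine Finset.sum_congr rfl fun j _ => ?_
        rw [sph2_const_mul]
        simp only [Polynomial.eval_mul, Polynomial.eval_C, Polynomial.eval_pow, Polynomial.eval_X]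
        ring
      · intro j _
        exact continuous_const.mul (((sph2_cdot_cont v).pow j).mul ((sph2_cdot_cont c).pow _))
    have h4 : cc (t • v + c) (t • v + c) = t * (2 * cc v c + cc v v * t) := by
      have h5 : cc (t • v + c) (t • v + c) = t ^ 2 * cc v v + 2 * t * cc v c + cc c c := by
        unfold cc
        rw [Finset.mul_sum, Finset.mul_sum, ← Finset.sum_add_distrib, ← Finset.sum_add_distrib]
        refine Finset.sum_congr rfl fun k _ => ?_
        simp only [Pi.add_apply, Pi.smul_apply, smul_eq_mul]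
        ring
      rw [h5, hc]; ring
    rw [← h1, sph_pow, if_pos (even_two_mul m), h4, Nat.mul_div_cancel_left m (by norm_num), hq,
      mul_pow]
    simp only [Polynomial.eval_mul, Polynomial.eval_C, Polynomial.eval_pow, Polynomial.eval_X,
      Polynomial.eval_add]
    push_cast
    ring
  have h6 : Polynomial.coeff p m = Polynomial.coeff q m := by rw [hpq]
  have h7 : Polynomial.coeff p m = ((2 * m).choose m : ℂ) *
      sph (fun u => cdot v u ^ m * cdot c u ^ m) := by
    rw [hp, Polynomial.finsetSum_coeff, Finset.sum_eq_single m]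
    · rw [Polynomial.coeff_C_mul, Polynomial.coeff_X_pow, if_pos rfl, mul_one]
      congr 3; funext u; congr 2; omega
    · intro j _ hj
      rw [Polynomial.coeff_C_mul, Polynomial.coeff_X_pow, if_neg (Ne.symm hj), mul_zero]
    · intro h8
      exfalso; apply h8; rw [mem_range]; omega
  have h8 : Polynomial.coeff q m = (2 * cc v c) ^ m * (1 / (2 * (m : ℂ) + 1)) := by
    rw [hq]
    have h9 := Polynomial.coeff_mul_X_pow
      ((Polynomial.C (2 * cc v c) + Polynomial.C (cc v v) * Polynomial.X) ^ m *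
        Polynomial.C (1 / (2 * (m : ℂ) + 1))) m 0
    rw [zero_add] at h9
    rw [h9, Polynomial.coeff_zero_eq_eval_zero]
    simp only [map_mul, one_div, Polynomial.eval_mul, Polynomial.eval_pow, Polynomial.eval_add, Polynomial.eval_C, Polynomial.eval_X, mul_zero, add_zero]
  rw [h7, h8] at h6
  have h10 : sph (fun u => cdot c u ^ m * cdot v u ^ m) =
      sph (fun u => cdot v u ^ m * cdot c u ^ m) := by
    congr 1; funext u; ring
  rw [h10]
  have h11 : ((2 * m).choose m : ℂ) ≠ 0 := by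
    exact_mod_cast (Nat.choose_pos (by omega)).ne'
  have h12 : ((2 * m).choose m : ℂ) * ((m.factorial : ℂ) * (m.factorial : ℂ)) =
      ((2 * m).factorial : ℂ) := by
    have h13 := Nat.choose_mul_factorial_mul_factorial (show m ≤ 2 * m by omega)
    rw [show 2 * m - m = m by omega] at h13
    rw [← mul_assoc]
    exact_mod_cast h13
  have h14 : (2 * (m : ℂ) + 1) ≠ 0 := by exact_mod_cast (Nat.succ_ne_zero (2 * m))
  have h15 : ((2 * m + 1).factorial : ℂ) = (2 * (m : ℂ) + 1) * ((2 * m).factorial : ℂ) := by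
    rw [Nat.factorial_succ]; push_cast; ring
  apply mul_left_cancel₀ h11
  rw [h6]
  unfold Am
  push_cast
  rw [h15, ← h12]
  have h16 : (m.factorial : ℂ) ≠ 0 := by exact_mod_cast m.factorial_ne_zero
  field_simp
  ring

/-- evaluation formula: the null power `(c·u)^m` reproduces the value at `c` -/
theorem sph_eval (c : C3) (hc : cc c c = 0) (m : ℕ) (P : Poly3) (hP : P.IsHomogeneous m) :
    sph (fun u => cdot c u ^ m * (pe P u : ℂ)) = (Am m : ℂ) * pc P c := by
  have hpeadd : ∀ P Q : Poly3, ∀ u, pe (P + Q) u = pe P u + pe Q u := fun P Q u => by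
    unfold pe; rw [map_add]
  have hpesmul : ∀ (r : ℝ) (P : Poly3), ∀ u, pe (r • P) u = r * pe P u := fun r P u => by
    unfold pe; rw [MvPolynomial.smul_eval]
  have hcont : ∀ P : Poly3, Continuous (fun u : R3 => cdot c u ^ m * (pe P u : ℂ)) := fun P =>
    ((sph2_cdot_cont c).pow m).mul (Complex.continuous_ofReal.comp (sph2_pe_cont P))
  let L : Poly3 →ₗ[ℝ] ℂ :=
    { toFun := fun P => sph (fun u => cdot c u ^ m * (pe P u : ℂ)) - (Am m : ℂ) * pc P c
      map_add' := by
        intro P Q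
        have h1 : sph (fun u => cdot c u ^ m * (pe (P + Q) u : ℂ)) =
            sph (fun u => cdot c u ^ m * (pe P u : ℂ)) +
              sph (fun u => cdot c u ^ m * (pe Q u : ℂ)) := by
          rw [← sph_add (hcont P).continuousOn (hcont Q).continuousOn]
          congr 1; funext u
          rw [hpeadd]; push_cast; ring
        have h2 : pc (P + Q) c = pc P c + pc Q c := by
          unfold pc; exact MvPolynomial.eval₂_add _ _
        rw [h1, h2]; ring
      map_smul' := by
        intro r P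
        have h1 : sph (fun u => cdot c u ^ m * (pe (r • P) u : ℂ)) =
            (r : ℂ) * sph (fun u => cdot c u ^ m * (pe P u : ℂ)) := by
          rw [← sph2_const_mul]
          congr 1; funext u
          rw [hpesmul]; push_cast; ring
        have h2 : pc (r • P) c = (r : ℂ) * pc P c := by
          unfold pc
          rw [MvPolynomial.smul_eq_C_mul, MvPolynomial.eval₂_mul, MvPolynomial.eval₂_C]
          rfl
        rw [h1, h2, RingHom.id_apply, Complex.real_smul]; ring }
  have hL : L P = 0 := by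
    apply lin_ext m L _ P hP
    intro v
    show sph (fun u => cdot c u ^ m *
      (pe ((∑ k, MvPolynomial.C (v k) * MvPolynomial.X k) ^ m) u : ℂ)) -
        (Am m : ℂ) * pc ((∑ k, MvPolynomial.C (v k) * MvPolynomial.X k) ^ m) c = 0
    have h1 : ∀ u : R3, (pe ((∑ k, MvPolynomial.C (v k) * MvPolynomial.X k) ^ m) u : ℂ) =
        cdot (fun k => (v k : ℂ)) u ^ m := by
      intro u
      unfold pe cdot
      rw [map_pow, map_sum]
      simp only [map_mul, MvPolynomial.eval_C, MvPolynomial.eval_X]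
      push_cast
      rfl
    have h2 : pc ((∑ k, MvPolynomial.C (v k) * MvPolynomial.X k) ^ m) c =
        cc (fun k => (v k : ℂ)) c ^ m := by
      unfold pc cc
      rw [MvPolynomial.eval₂_pow, MvPolynomial.eval₂_sum]
      simp only [MvPolynomial.eval₂_mul, MvPolynomial.eval₂_C, MvPolynomial.eval₂_X]
      rfl
    simp_rw [h1]
    rw [h2, sph2_cross c hc, sub_self]
  exact sub_eq_zero.mp hL

/-- triple product of null powers -/
theorem sph_triple (a b c : C3) (ha : cc a a = 0) (hb : cc b b = 0) (hc : cc c c = 0)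
    (l q : ℕ) (hq : q ≤ l) :
    sph (fun u => cdot a u ^ l * cdot b u ^ l * cdot c u ^ (2 * q)) =
      (2 ^ (l + q) * ((l + q).factorial : ℂ) * (l.factorial : ℂ) ^ 2 * ((2 * q).factorial : ℂ) /
        (((2 * l + 2 * q + 1).factorial : ℂ) * ((l - q).factorial : ℂ) * (q.factorial : ℂ) ^ 2)) *
        (cc a b ^ (l - q) * cc a c ^ q * cc b c ^ q) := by
  have hpt : ∀ u : R3, cdot a u ^ l * cdot b u ^ l * cdot c u ^ (2 * q) =
      GC.mon a b c l l (2 * q) u := by
    intro u
    unfold GC.mon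
    rw [cdot_eq_lf, cdot_eq_lf, cdot_eq_lf]
  have hint : Integrable (fun x : R3 => GC.mon a b c l l (2 * q) x *
      ((Real.exp (-‖x‖ ^ 2) : ℝ) : ℂ)) := GC.integrable_mon_gauss a b c l l (2 * q)
  have h1 := polar_sph _ hint
  have h2 := GC.integral_mon_radial a b c ha hb hc (l - q) q q
    (fun r => ((Real.exp (-r ^ 2) : ℝ) : ℂ))
  have e1 : l - q + q = l := by omega
  have e2 : q + q = 2 * q := by omega
  rw [e1, e2] at h2
  have h3 : ∫ r in Set.Ioi (0 : ℝ), (4 * Real.pi * r ^ 2) • sph (fun u : R3 =>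
      GC.mon a b c l l (2 * q) (r • u) * ((Real.exp (-‖r • u‖ ^ 2) : ℝ) : ℂ)) =
      (4 * (Real.pi : ℂ)) * sph (fun u => cdot a u ^ l * cdot b u ^ l * cdot c u ^ (2 * q)) *
        ∫ r in Set.Ioi (0 : ℝ), (r : ℂ) ^ (2 * (l + q) + 2) * ((Real.exp (-r ^ 2) : ℝ) : ℂ) := by
    rw [← integral_const_mul]
    refine setIntegral_congr_fun measurableSet_Ioi fun r hr => ?_
    have hr0 : (0 : ℝ) < r := hr
    have h4 : sph (fun u : R3 =>
        GC.mon a b c l l (2 * q) (r • u) * ((Real.exp (-‖r • u‖ ^ 2) : ℝ) : ℂ)) =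
        ((r : ℂ) ^ (2 * (l + q)) * ((Real.exp (-r ^ 2) : ℝ) : ℂ)) *
          sph (fun u => cdot a u ^ l * cdot b u ^ l * cdot c u ^ (2 * q)) := by
      rw [← sph2_const_mul]
      apply sph_congr
      intro u hu
      rw [GC.mon_smul, hpt, norm_smul, hu, mul_one, Real.norm_eq_abs, abs_of_pos hr0,
        show l + l + 2 * q = 2 * (l + q) by ring]
      ring
    rw [h4, Complex.real_smul]
    push_cast
    ring
  rw [h3, h2] at h1
  have hne : ∫ r in Set.Ioi (0 : ℝ), (r : ℂ) ^ (2 * (l + q) + 2) *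
      ((Real.exp (-r ^ 2) : ℝ) : ℂ) ≠ 0 := by
    have h5 : ∫ r in Set.Ioi (0 : ℝ), (r : ℂ) ^ (2 * (l + q) + 2) *
        ((Real.exp (-r ^ 2) : ℝ) : ℂ) =
        ((∫ r in Set.Ioi (0 : ℝ), r ^ (2 * (l + q) + 2) * Real.exp (-r ^ 2) : ℝ) : ℂ) := by
      rw [← integral_complex_ofReal]
      refine setIntegral_congr_fun measurableSet_Ioi fun r _ => ?_
      push_cast
      rfl
    rw [h5, GC.integral_pow_mul_exp_neg_sq]
    have h6 : (0 : ℝ) < Real.sqrt Real.pi / 4 * (((2 * (l + q) + 1).factorial : ℕ) : ℝ) /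
        (4 ^ (l + q) * ((l + q).factorial : ℝ)) := by
      have := Real.pi_pos
      positivity
    exact_mod_cast h6.ne'
  have h7 := mul_right_cancel₀ hne h1
  have hpi : (4 * (Real.pi : ℂ)) ≠ 0 := by
    have := Real.pi_ne_zero
    exact_mod_cast mul_ne_zero (by norm_num) this
  apply mul_left_cancel₀ hpi
  rw [← h7]
  unfold GC.sph
  rw [e1, e2, show 2 * l + 2 * q + 1 = 2 * (l + q) + 1 by ring, cc_eq, cc_eq, cc_eq]
  push_cast
  have f1 : ((2 * (l + q) + 1).factorial : ℂ) ≠ 0 := by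
    exact_mod_cast (2 * (l + q) + 1).factorial_ne_zero
  have f2 : ((l - q).factorial : ℂ) ≠ 0 := by exact_mod_cast (l - q).factorial_ne_zero
  have f3 : (q.factorial : ℂ) ≠ 0 := by exact_mod_cast q.factorial_ne_zero
  (clear * - f3 f2 f1; field_simp)

end Vale.Agent.P370.Q
end

section

/-!
Overlaps of the site orbitals.
-/

namespace Vale.Agent.P370.Q

open MeasureTheory Finset ComplexConjugate

theorem fsite_eq (n : ℕ) (α : ℝ) (x : R3) :
    fsite n α x = GC.fr (n - 1) α x * Real.exp (-(‖x‖ / n)) := by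
  unfold fsite GC.fr
  rw [cdot_eq_lf, av_eq]

theorem site_ov_aux (n : ℕ) (hn : 2 ≤ n) (α β : ℝ) :
    ov (fsite n α) (fsite n β) =
      nf n * (((1 + Real.cos (α - β)) / 2) ^ (n - 1) + ((1 - Real.cos (α - β)) / 2) ^ (n - 1)) := by
  obtain ⟨l, rfl⟩ : ∃ l, n = l + 1 := ⟨n - 1, by (clear * - hn; omega)⟩
  have h := GC.integral_two l α β (fun r => Real.exp (-(2 / ((l : ℝ) + 1)) * r))
  rw [GC.integral_pow_mul_exp_neg_mul (2 * l + 2) (by (clear * -; positivity) : (0 : ℝ) < 2 / ((l : ℝ) + 1))]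
    at h
  have e : ov (fsite (l + 1) α) (fsite (l + 1) β) =
      ∫ x : R3, GC.fr l α x * GC.fr l β x * Real.exp (-(2 / ((l : ℝ) + 1)) * ‖x‖) := by
    unfold ov
    refine integral_congr_ae (.of_forall fun x => ?_)
    simp only [fsite_eq, Nat.add_sub_cancel]
    have e2 : Real.exp (-(2 / ((l : ℝ) + 1)) * ‖x‖) =
        Real.exp (-(‖x‖ / ((l + 1 : ℕ) : ℝ))) * Real.exp (-(‖x‖ / ((l + 1 : ℕ) : ℝ))) := by
      rw [← Real.exp_add]
      congr 1
      push_cast
      ring
    rw [e2]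
    ring
  rw [e, h, Nat.add_sub_cancel]
  have e3 : GC.c2 l * (((2 * l + 2).factorial : ℝ) / (2 / ((l : ℝ) + 1)) ^ (2 * l + 2 + 1)) =
      nf (l + 1) := by
    have e1 : nf (l + 1) = Real.pi / 2 * ((l : ℝ) + 1) ^ (2 * l + 4) * (l.factorial : ℝ) ^ 2 := by
      unfold nf
      rw [Nat.add_sub_cancel]
      push_cast
      ring
    have e2 : ((2 * l + 2).factorial : ℝ) = (2 * ((l : ℝ) + 1)) *
        ((2 * l + 1).factorial : ℝ) := by
      rw [show 2 * l + 2 = (2 * l + 1) + 1 by ring, Nat.factorial_succ, Nat.cast_mul]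
      congr 1
      push_cast
      ring
    have e3 : (2 : ℝ) ^ (2 * l + 2 + 1) = 8 * 4 ^ l := by
      rw [pow_succ, pow_add, pow_mul]
      norm_num
      ring
    unfold GC.c2
    rw [e1, e2, div_pow, e3]
    have hF : (((2 * l + 1).factorial : ℕ) : ℝ) ≠ 0 := by
      exact_mod_cast (2 * l + 1).factorial_ne_zero
    generalize (((2 * l + 1).factorial : ℕ) : ℝ) = F at hF ⊢
    have h4 : (4 : ℝ) ^ l ≠ 0 := by positivity
    field_simp
    ring
  rw [← e3]
  ring

theorem nf_pos' (n : ℕ) (hn : 1 ≤ n) : 0 < nf n := by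
  have : (0 : ℝ) < n := by exact_mod_cast hn
  unfold nf
  positivity

theorem ov_fh (n : ℕ) (hn : 2 ≤ n) (α β : ℝ) :
    ov (fh n α) (fh n β) =
      ((1 + Real.cos (α - β)) / 2) ^ (n - 1) + ((1 - Real.cos (α - β)) / 2) ^ (n - 1) := by
  have h := site_ov_aux n hn α β
  have hnf := nf_pos' n (by omega)
  have e : ov (fh n α) (fh n β) = ov (fsite n α) (fsite n β) / nf n := by
    unfold ov
    rw [← integral_div]
    refine integral_congr_ae (.of_forall fun x => ?_)
    simp only [fh]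
    rw [div_mul_div_comm, Real.mul_self_sqrt hnf.le]
  rw [e, h, mul_comm, mul_div_assoc, div_self hnf.ne', mul_one]

theorem ov_fh_self (n : ℕ) (hn : 2 ≤ n) (α : ℝ) : ov (fh n α) (fh n α) = 1 := by
  rw [ov_fh n hn]
  simp only [sub_self, Real.cos_zero, add_self_div_two, one_pow, zero_div, add_eq_left, pow_eq_zero_iff', ne_eq, true_and]
  omega

end Vale.Agent.P370.Q
end

section

/-!
Geometry of the great circle regions.
-/

namespace Vale.Agent.P370.GC

open MeasureTheory Set Metric Module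
open scoped ENNReal

theorem abs_nu_le (α : ℝ) (x : V3) : |nu α x| ≤ ‖x‖ := by
  refine abs_le_of_sq_le_sq ?_ (norm_nonneg x)
  have := norm_sq_eq_add α x
  nlinarith only [this]

theorem abs_ta_le (α : ℝ) (x : V3) : |ta α x| ≤ ‖x‖ := by
  refine abs_le_of_sq_le_sq ?_ (norm_nonneg x)
  have h1 := norm_sq_eq_add α x
  have h2 := normSq_lf_av' α x
  nlinarith only [h1, h2]

theorem nu_sub (α : ℝ) (x y : V3) : nu α (x - y) = nu α x - nu α y := by
  simp only [nu, Fin.isValue, PiLp.sub_apply, neg_mul]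
  ring

theorem ta_sub (α : ℝ) (x y : V3) : ta α (x - y) = ta α x - ta α y := by
  simp only [ta, Fin.isValue, PiLp.sub_apply]
  ring

theorem abs_nu_sub_le (α : ℝ) (x y : V3) : |nu α x - nu α y| ≤ dist x y := by
  rw [← nu_sub, dist_eq_norm]
  exact abs_nu_le _ _

theorem abs_ta_sub_le (α : ℝ) (x y : V3) : |ta α x - ta α y| ≤ dist x y := by
  rw [← ta_sub, dist_eq_norm]
  exact abs_ta_le _ _

theorem nu_change (α β : ℝ) (z : V3) :
    nu β z = Real.cos (α - β) * nu α z + Real.sin (α - β) * ta α z := by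
  have h1 : Real.sin (α - β - α) = Real.sin (α - β) * Real.cos α - Real.cos (α - β) * Real.sin α :=
    Real.sin_sub _ _
  have h2 : Real.cos (α - β - α) = Real.cos (α - β) * Real.cos α + Real.sin (α - β) * Real.sin α :=
    Real.cos_sub _ _
  rw [show α - β - α = -β by ring] at h1 h2
  rw [Real.sin_neg] at h1
  rw [Real.cos_neg] at h2
  simp only [nu, ta]
  linear_combination (z 0) * h1 + (z 1) * h2

/-- region of ball centres -/
def rgR (α T t0 : ℝ) : Set V3 := {z | |nu α z| ≤ 3 * t0 ∧ T / 8 ≤ |ta α z| ∧ ‖z‖ ≤ 9 * T}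

/-- core of the density -/
def rgA (α T t0 : ℝ) : Set V3 := {z | |nu α z| ≤ t0 ∧ T / 4 ≤ |ta α z| ∧ ‖z‖ ≤ 8 * T}

theorem measurableSet_rgR (α T t0 : ℝ) : MeasurableSet (rgR α T t0) := by
  refine MeasurableSet.inter (measurableSet_le (continuous_nu α).measurable.abs measurable_const)
    (MeasurableSet.inter (measurableSet_le measurable_const (continuous_ta α).measurable.abs)
      (measurableSet_le measurable_norm measurable_const))

theorem measurableSet_rgA (α T t0 : ℝ) : MeasurableSet (rgA α T t0) := by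
  refine MeasurableSet.inter (measurableSet_le (continuous_nu α).measurable.abs measurable_const)
    (MeasurableSet.inter (measurableSet_le measurable_const (continuous_ta α).measurable.abs)
      (measurableSet_le measurable_norm measurable_const))

theorem rgA_rgR (α : ℝ) {T t0 : ℝ} (hT : 2 * t0 ≤ T / 8) (hT0 : 0 ≤ T) {x z : V3}
    (hx : x ∈ rgA α T t0) (hz : dist z x < 2 * t0) : z ∈ rgR α T t0 := by
  obtain ⟨h1, h2, h3⟩ := hx
  have a1 := abs_nu_sub_le α z x
  have a2 := abs_ta_sub_le α z x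
  rw [abs_sub_comm] at a2
  have b1 := abs_sub_abs_le_abs_sub (nu α z) (nu α x)
  have b2 := abs_sub_abs_le_abs_sub (ta α x) (ta α z)
  have b3 : ‖z‖ ≤ ‖x‖ + dist z x := by
    rw [dist_eq_norm]
    calc ‖z‖ = ‖x + (z - x)‖ := by rw [add_sub_cancel]
      _ ≤ _ := norm_add_le _ _
  exact ⟨by linarith only [hz, h1, a1, b1], by linarith only [hT, hz, h2, a2, b2], by linarith⟩

theorem rgR_far (α β : ℝ) {K T t0 : ℝ} (hK : 0 < K) (ht0 : t0 = T / (64 * K)) (hT0 : 0 ≤ T)
    (hs : 2 / K ≤ |Real.sin (α - β)|) {x z : V3} (hz : z ∈ rgR α T t0)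
    (hzx : dist z x < 2 * t0) : T / (8 * K) ≤ |nu β x| := by
  obtain ⟨h1, h2, h3⟩ := hz
  have a1 := abs_nu_sub_le β z x
  have b1 := abs_sub_abs_le_abs_sub (nu β z) (nu β x)
  have h4 : |Real.sin (α - β) * ta α z| - |Real.cos (α - β) * nu α z| ≤ |nu β z| := by
    rw [nu_change α β z]
    have := abs_sub_abs_le_abs_sub (Real.sin (α - β) * ta α z) (-(Real.cos (α - β) * nu α z))
    rw [abs_neg, sub_neg_eq_add] at this
    rw [add_comm]
    exact this
  have h5 : 2 / K * (T / 8) ≤ |Real.sin (α - β) * ta α z| := by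
    rw [abs_mul]
    (clear * - hs h2 hT0; gcongr)
  have h6 : |Real.cos (α - β) * nu α z| ≤ 3 * t0 := by
    rw [abs_mul]
    calc |Real.cos (α - β)| * |nu α z| ≤ 1 * |nu α z| :=
          mul_le_mul_of_nonneg_right (Real.abs_cos_le_one _) (abs_nonneg _)
      _ ≤ _ := by linarith only [h1]
  have e1 : 2 / K * (T / 8) = 16 * t0 := by
    rw [ht0]
    field_simp
    ring
  have e2 : T / (8 * K) = 8 * t0 := by
    rw [ht0]
    field_simp
    ring
  have ht0' : 0 ≤ t0 := by rw [ht0]; (clear * - hT0 hK; positivity)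
  rw [e2]
  linarith only [hzx, a1, b1, h4, h5, h6, e1, ht0']

end Vale.Agent.P370.GC
end

section

/-!
Helper for `DevExact`: potentials of polynomials times radial weights are polynomial on spheres.
-/

namespace Vale.Agent.P370.Q.DevEx

open MeasureTheory Finset ComplexConjugate Vale.Agent.P370 Vale.Agent.P370.Q

theorem pe_add (P Q : Poly3) (x : R3) : pe (P + Q) x = pe P x + pe Q x := by
  unfold pe; simp

theorem pe_mul (P Q : Poly3) (x : R3) : pe (P * Q) x = pe P x * pe Q x := by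
  unfold pe; simp

theorem pe_pow (P : Poly3) (n : ℕ) (x : R3) : pe (P ^ n) x = pe P x ^ n := by
  unfold pe; simp

theorem pe_sub (P Q : Poly3) (x : R3) : pe (P - Q) x = pe P x - pe Q x := by
  unfold pe; simp

theorem pe_C (c : ℝ) (x : R3) : pe (MvPolynomial.C c) x = c := by
  unfold pe; simp only [MvPolynomial.eval_C]

theorem pe_smul (c : ℝ) (P : Poly3) (x : R3) : pe (c • P) x = c * pe P x := by
  unfold pe; simp only [MvPolynomial.smul_eval]

theorem pe_X (i : Fin 3) (x : R3) : pe (MvPolynomial.X i) x = x i := by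
  unfold pe; simp

theorem pe_zero (x : R3) : pe 0 x = 0 := by
  unfold pe; simp

theorem pe_sum {ι : Type} (s : Finset ι) (f : ι → Poly3) (x : R3) :
    pe (∑ i ∈ s, f i) x = ∑ i ∈ s, pe (f i) x := by
  unfold pe; simp only [map_sum]

theorem continuous_pe (P : Poly3) : Continuous (pe P) := by
  unfold pe
  refine (MvPolynomial.continuous_eval P).comp ?_
  fun_prop

/-- the linear form with coefficients `a` -/
noncomputable def lf (a : Fin 3 → ℝ) : Poly3 := ∑ k, MvPolynomial.C (a k) * MvPolynomial.X k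

theorem pe_lf (a : Fin 3 → ℝ) (x : R3) : pe (lf a) x = inner ℝ (WithLp.toLp 2 a : R3) x := by
  unfold lf
  rw [pe_sum]
  simp only [pe_mul, pe_C, pe_X]
  simp only [PiLp.inner_apply, RCLike.inner_apply, Real.ringHom_apply, mul_comm]

theorem totalDegree_lf (a : Fin 3 → ℝ) : (lf a).totalDegree ≤ 1 := by
  unfold lf
  refine (MvPolynomial.totalDegree_finsetSum _ _).trans ?_
  refine Finset.sup_le fun k _ => ?_
  refine (MvPolynomial.totalDegree_mul _ _).trans ?_
  simp

/-- frames adapted to a unit vector `u` and a second vector `a` -/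
theorem exists_frame (a u : R3) (hu : ‖u‖ = 1) (b : ℝ)
    (hb : b ^ 2 = ‖a‖ ^ 2 - (inner ℝ a u) ^ 2) :
    ∃ g : R3 ≃ₗᵢ[ℝ] R3, g (EuclideanSpace.single 2 1) = u ∧
      a = (inner ℝ a u : ℝ) • u + b • g (EuclideanSpace.single 0 1) := by
  set w : R3 := a - (inner ℝ a u : ℝ) • u with hw
  have huu : inner ℝ u u = (1 : ℝ) := by rw [real_inner_self_eq_norm_sq, hu]; norm_num
  have hwu : inner ℝ w u = (0 : ℝ) := by
    rw [hw, inner_sub_left, inner_smul_left, huu]; simp
  have hww : ‖w‖ ^ 2 = b ^ 2 := by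
    rw [hb, ← real_inner_self_eq_norm_sq w]
    nth_rewrite 2 [hw]
    rw [inner_sub_right, inner_smul_right, hwu, mul_zero, sub_zero, hw, inner_sub_left,
      inner_smul_left, real_inner_self_eq_norm_sq, real_inner_comm u a]
    simp
    ring
  have hfr : Module.finrank ℝ R3 = Fintype.card (Fin 3) := by simp
  obtain ⟨e, he1, he2, he3⟩ : ∃ e : R3, ‖e‖ = 1 ∧ inner ℝ e u = (0 : ℝ) ∧ w = b • e := by
    by_cases hb0 : b = 0
    · have hw0 : w = 0 := by
        have : ‖w‖ ^ 2 = 0 := by rw [hww, hb0]; norm_num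
        simpa using this
      obtain ⟨B, hB⟩ := Orthonormal.exists_orthonormalBasis_extension_of_card_eq hfr
        (v := fun _ : Fin 3 => u) (s := {2}) (by
          refine ⟨fun i => by simpa using hu, ?_⟩
          rintro ⟨i, hi⟩ ⟨j, hj⟩ hij
          exact absurd (Subtype.ext (hi.trans hj.symm)) hij)
      have h2 : B 2 = u := hB 2 rfl
      refine ⟨B 0, B.orthonormal.1 0, ?_, by rw [hw0, hb0]; simp⟩
      rw [← h2]
      exact B.orthonormal.2 (by decide)
    · refine ⟨b⁻¹ • w, ?_, ?_, ?_⟩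
      · rw [norm_smul, Real.norm_eq_abs, abs_inv]
        have h1 : ‖w‖ = |b| := by
          rw [← abs_of_nonneg (norm_nonneg w)]
          exact (sq_eq_sq_iff_abs_eq_abs _ _).1 hww
        rw [h1]
        exact inv_mul_cancel₀ (abs_ne_zero.2 hb0)
      · rw [inner_smul_left, hwu]; simp
      · rw [smul_smul, mul_inv_cancel₀ hb0, one_smul]
  obtain ⟨B, hB⟩ := Orthonormal.exists_orthonormalBasis_extension_of_card_eq hfr
    (v := ![e, 0, u]) (s := {0, 2}) (by
      have heu : inner ℝ u e = (0 : ℝ) := by rw [real_inner_comm]; exact he2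
      refine ⟨?_, ?_⟩
      · rintro ⟨i, hi⟩
        rcases hi with hi | hi <;> subst hi <;> simp [he1, hu]
      · rintro ⟨i, hi⟩ ⟨j, hj⟩ hij
        rcases hi with hi | hi <;> rcases hj with hj | hj <;> subst hi <;> subst hj
        · exact absurd rfl hij
        · simpa using he2
        · simpa using heu
        · exact absurd rfl hij)
  have h0 : B 0 = e := hB 0 (by simp)
  have h2 : B 2 = u := hB 2 (by simp)
  refine ⟨B.repr.symm, ?_, ?_⟩
  · rw [← h2]; exact B.repr_symm_single 2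
  · have : B.repr.symm (EuclideanSpace.single 0 1) = e := by
      rw [← h0]; exact B.repr_symm_single 0
    rw [this, ← he3, hw]
    simp

/-- potential of a polynomial times a radial weight -/
noncomputable def Jf (G : ℝ → ℝ) (ρ : ℝ) (P : Poly3) : R3 → ℝ :=
  fun u => ∫ x, pe P x * G ‖x‖ / dist x (ρ • u)

/-- admissible weights -/
def GInt (G : ℝ → ℝ) : Prop :=
  ∀ (P : Poly3) (y : R3), Integrable (fun x => pe P x * G ‖x‖ / dist x y)

noncomputable def ck (G : ℝ → ℝ) (ρ : ℝ) (m k : ℕ) : ℝ :=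
  ∫ y : R3, (y 2) ^ k * (y 0) ^ (m - k) * G ‖y‖ / dist y (ρ • EuclideanSpace.single 2 1)

theorem Jf_frame {G : ℝ → ℝ} (hG : GInt G) (ρ : ℝ) (m : ℕ) (a : Fin 3 → ℝ) (u : R3)
    (hu : ‖u‖ = 1) (b : ℝ)
    (hb : b ^ 2 = ‖(WithLp.toLp 2 a : R3)‖ ^ 2 - (inner ℝ (WithLp.toLp 2 a : R3) u) ^ 2) :
    Jf G ρ (lf a ^ m) u = ∑ k ∈ range (m + 1),
      (m.choose k : ℝ) * (pe (lf a) u) ^ k * b ^ (m - k) * ck G ρ m k := by
  obtain ⟨g, hg1, hg2⟩ := exists_frame (WithLp.toLp 2 a : R3) u hu b hb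
  unfold Jf
  have hmp := g.measurePreserving
  have h1 : (∫ x, pe (lf a ^ m) x * G ‖x‖ / dist x (ρ • u)) =
      ∫ y, pe (lf a ^ m) (g y) * G ‖g y‖ / dist (g y) (ρ • u) :=
    (hmp.integral_comp (g.toHomeomorph.measurableEmbedding)
      (fun x => pe (lf a ^ m) x * G ‖x‖ / dist x (ρ • u))).symm
  rw [h1]
  have h2 : ∀ y : R3, pe (lf a ^ m) (g y) * G ‖g y‖ / dist (g y) (ρ • u) =
      ∑ k ∈ range (m + 1), (m.choose k : ℝ) * (pe (lf a) u) ^ k * b ^ (m - k) *
        ((y 2) ^ k * (y 0) ^ (m - k) * G ‖y‖ / dist y (ρ • EuclideanSpace.single 2 1)) := by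
    intro y
    have e1 : dist (g y) (ρ • u) = dist y (ρ • EuclideanSpace.single 2 1) := by
      rw [← hg1, ← map_smul, g.dist_map]
    have e2 : pe (lf a) (g y) = pe (lf a) u * y 2 + b * y 0 := by
      rw [pe_lf, pe_lf]
      nth_rewrite 1 [hg2]
      rw [inner_add_left, inner_smul_left, inner_smul_left]
      nth_rewrite 2 [← hg1]
      rw [g.inner_map_map, g.inner_map_map]
      simp only [Real.ringHom_apply, Fin.isValue, EuclideanSpace.inner_single_left, one_mul]
    rw [e1, g.norm_map, pe_pow, e2, add_pow, Finset.sum_mul, Finset.sum_div]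
    refine Finset.sum_congr rfl fun k _ => ?_
    rw [mul_pow, mul_pow]
    ring
  simp only [h2]
  rw [integral_finsetSum]
  · refine Finset.sum_congr rfl fun k _ => ?_
    rw [integral_const_mul]; rfl
  · intro k _
    refine Integrable.const_mul ?_ _
    have := hG (MvPolynomial.X 2 ^ k * MvPolynomial.X 0 ^ (m - k))
      (ρ • EuclideanSpace.single 2 1)
    simpa only [pe_mul, pe_pow, pe_X] using this

/-- polynomial representing `Jf` of the power of a linear form -/
noncomputable def Rp (G : ℝ → ℝ) (ρ : ℝ) (m : ℕ) (a : Fin 3 → ℝ) : Poly3 :=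
  ∑ k ∈ range (m + 1), MvPolynomial.C ((m.choose k : ℝ) * ck G ρ m k) *
    (lf a ^ k * (if Even (m - k) then
      (MvPolynomial.C (‖(WithLp.toLp 2 a : R3)‖ ^ 2) - lf a ^ 2) ^ ((m - k) / 2) else 0))

theorem Rp_degree (G : ℝ → ℝ) (ρ : ℝ) (m : ℕ) (a : Fin 3 → ℝ) :
    (Rp G ρ m a).totalDegree ≤ m := by
  unfold Rp
  refine (MvPolynomial.totalDegree_finsetSum _ _).trans ?_
  refine Finset.sup_le fun k hk => ?_
  have hk' : k ≤ m := by simpa only [mem_range, Order.lt_add_one_iff] using hk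
  refine (MvPolynomial.totalDegree_mul _ _).trans ?_
  rw [MvPolynomial.totalDegree_C, zero_add]
  refine (MvPolynomial.totalDegree_mul _ _).trans ?_
  have h1 : (lf a ^ k).totalDegree ≤ k := by
    refine (MvPolynomial.totalDegree_pow _ _).trans ?_
    calc k * (lf a).totalDegree ≤ k * 1 := Nat.mul_le_mul_left _ (totalDegree_lf a)
      _ = k := mul_one k
  have h2 : (if Even (m - k) then
      (MvPolynomial.C (‖(WithLp.toLp 2 a : R3)‖ ^ 2) - lf a ^ 2) ^ ((m - k) / 2)
      else (0 : Poly3)).totalDegree ≤ m - k := by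
    split_ifs with h
    · refine (MvPolynomial.totalDegree_pow _ _).trans ?_
      have h3 : (MvPolynomial.C (‖(WithLp.toLp 2 a : R3)‖ ^ 2) - lf a ^ 2 : Poly3).totalDegree
          ≤ 2 := by
        refine (MvPolynomial.totalDegree_sub _ _).trans ?_
        rw [MvPolynomial.totalDegree_C]
        refine max_le (by norm_num) ((MvPolynomial.totalDegree_pow _ _).trans ?_)
        calc 2 * (lf a).totalDegree ≤ 2 * 1 := Nat.mul_le_mul_left _ (totalDegree_lf a)
          _ = 2 := by norm_num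
      calc (m - k) / 2 * _ ≤ (m - k) / 2 * 2 := Nat.mul_le_mul_left _ h3
        _ ≤ m - k := Nat.div_mul_le_self _ _
    · simp only [MvPolynomial.totalDegree_zero, zero_le]
  (clear * - hk' h1 h2; omega)

theorem Jf_pow {G : ℝ → ℝ} (hG : GInt G) (ρ : ℝ) (m : ℕ) (a : Fin 3 → ℝ) (u : R3)
    (hu : ‖u‖ = 1) : Jf G ρ (lf a ^ m) u = pe (Rp G ρ m a) u := by
  set s : ℝ := ‖(WithLp.toLp 2 a : R3)‖ ^ 2 - (inner ℝ (WithLp.toLp 2 a : R3) u) ^ 2 with hs
  have hs0 : 0 ≤ s := by
    have := abs_real_inner_le_norm (WithLp.toLp 2 a : R3) u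
    rw [hu, mul_one] at this
    have h2 := sq_abs (inner ℝ (WithLp.toLp 2 a : R3) u)
    have h3 := abs_nonneg (inner ℝ (WithLp.toLp 2 a : R3) u)
    rw [hs]
    nlinarith only [h2, this, h3]
  have hb1 : (Real.sqrt s) ^ 2 = s := Real.sq_sqrt hs0
  have hb2 : (-Real.sqrt s) ^ 2 = s := by rw [neg_sq]; exact hb1
  have e1 := Jf_frame hG ρ m a u hu _ hb1
  have e2 := Jf_frame hG ρ m a u hu _ hb2
  have e3 : Jf G ρ (lf a ^ m) u = (Jf G ρ (lf a ^ m) u + Jf G ρ (lf a ^ m) u) / 2 := by ring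
  rw [e3]
  nth_rewrite 1 [e1]
  rw [e2, ← Finset.sum_add_distrib, Finset.sum_div]
  unfold Rp
  rw [pe_sum]
  refine Finset.sum_congr rfl fun k _ => ?_
  rw [pe_mul, pe_mul, pe_C, pe_pow]
  split_ifs with h
  · rw [pe_pow, pe_sub, pe_C, pe_pow, pe_lf, ← hs, h.neg_pow]
    obtain ⟨j, hj⟩ := h
    have hj2 : m - k = 2 * j := by omega
    rw [hj2, Nat.mul_div_cancel_left _ (by norm_num), pow_mul, hb1]
    ring
  · rw [Nat.not_even_iff_odd] at h
    rw [h.neg_pow, pe_zero]
    ring

/-- functions that agree on the unit sphere with a polynomial of degree at most `m` -/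
noncomputable def Wm (m : ℕ) : Submodule ℝ (R3 → ℝ) where
  carrier := {f | ∃ R : Poly3, R.totalDegree ≤ m ∧ ∀ u, ‖u‖ = 1 → f u = pe R u}
  add_mem' := by
    rintro f g ⟨R, hR, hf⟩ ⟨S, hS, hg⟩
    refine ⟨R + S, (MvPolynomial.totalDegree_add _ _).trans (max_le hR hS), fun u hu => ?_⟩
    rw [Pi.add_apply, hf u hu, hg u hu, pe_add]
  zero_mem' := ⟨0, by simp, fun u _ => by rw [pe_zero]; rfl⟩
  smul_mem' := by
    rintro c f ⟨R, hR, hf⟩
    refine ⟨c • R, (MvPolynomial.totalDegree_smul_le _ _).trans hR, fun u hu => ?_⟩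
    rw [Pi.smul_apply, hf u hu, pe_smul, smul_eq_mul]

theorem mem_Wm {m : ℕ} {f : R3 → ℝ} :
    f ∈ Wm m ↔ ∃ R : Poly3, R.totalDegree ≤ m ∧ ∀ u, ‖u‖ = 1 → f u = pe R u := Iff.rfl

/-- `Jf` as a linear map -/
noncomputable def JL {G : ℝ → ℝ} (hG : GInt G) (ρ : ℝ) : Poly3 →ₗ[ℝ] (R3 → ℝ) where
  toFun := Jf G ρ
  map_add' P Q := by
    funext u
    rw [Pi.add_apply]
    unfold Jf
    rw [← integral_add (hG P _) (hG Q _)]
    refine integral_congr_ae (Filter.Eventually.of_forall fun x => ?_)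
    simp only [pe_add]
    ring
  map_smul' c P := by
    funext u
    rw [Pi.smul_apply]
    unfold Jf
    simp only [RingHom.id_apply, smul_eq_mul]
    rw [← integral_const_mul]
    refine integral_congr_ae (Filter.Eventually.of_forall fun x => ?_)
    simp only [pe_smul]
    ring

theorem Jf_hom {G : ℝ → ℝ} (hG : GInt G) (ρ : ℝ) (m : ℕ) (P : Poly3) (hP : P.IsHomogeneous m) :
    Jf G ρ P ∈ Wm m := by
  have := lin_ext m ((Wm m).mkQ ∘ₗ JL hG ρ) (fun v => by
    rw [LinearMap.comp_apply, Submodule.mkQ_apply, Submodule.Quotient.mk_eq_zero]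
    exact ⟨Rp G ρ m v, Rp_degree G ρ m v, fun u hu => Jf_pow hG ρ m v u hu⟩) P hP
  rwa [LinearMap.comp_apply, Submodule.mkQ_apply, Submodule.Quotient.mk_eq_zero] at this

theorem Wm_mono {m m' : ℕ} (h : m ≤ m') : Wm m ≤ Wm m' := by
  rintro f ⟨R, hR, hf⟩
  exact ⟨R, hR.trans h, hf⟩

theorem Jf_mem {G : ℝ → ℝ} (hG : GInt G) (ρ : ℝ) (m : ℕ) (P : Poly3) (hP : P.totalDegree ≤ m) :
    Jf G ρ P ∈ Wm m := by
  have h1 : Jf G ρ P = JL hG ρ P := rfl
  rw [h1, ← MvPolynomial.sum_homogeneousComponent P, map_sum]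
  refine Submodule.sum_mem _ fun i hi => ?_
  have hi' : i ≤ m := by
    have := Finset.mem_range.1 hi
    omega
  exact Wm_mono hi' (Jf_hom hG ρ i _ (MvPolynomial.homogeneousComponent_isHomogeneous i P))

end Vale.Agent.P370.Q.DevEx
end
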