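import Vale.Agent.P370.MathlibUsed
import Vale.Agent.P370.Bdl.B3
import Vale.Agent.Lib.PolyTime.Official
import Vale.Agent.Lib.PolyTime.TM2
import Vale.Agent.P370.Bdl.B2
import Vale.Agent.Lib.PolyTime.OfTM2
import Vale.Agent.P370.Core
import Vale.Agent.P370.Bdl.B1

set_option linter.all false

section

set_option exponentiation.threshold 10000

namespace Vale.Agent.P370.Chains

open Finset

/-! ### Interactions in coordinates -/

variable {n B : ℕ} (A : Fin n → Fin (n ^ 2) → ℤ)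

/-- number of marks at site `m` of chain `i` -/
def mu (B : ℕ) (i : Fin n) (m : ℕ) : ℕ :=
  ∑ e, ((if A i e = 1 ∧ m = Kx B * (e.val + 1) then 1 else 0) +
    (if A i e = -1 ∧ m + 1 = Kx B * (e.val + 1) then 1 else 0))

def chH (B : ℕ) (i : Fin n) (m : ℕ) : ℕ := cH B + (i.val + 1) ^ 3 * mu A B i m

noncomputable def cc (B : ℕ) (i i' : Fin n) (m m' : ℕ) : ℝ :=
  FF ((2 * (cg B : ℝ) * ((m : ℝ) - m')) ^ 2 + ((cK B : ℝ) * ((i.val : ℝ) - i'.val)) ^ 2)
    (chH A B i m) (chH A B i' m')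

noncomputable def ce (B : ℕ) (i : Fin n) (e : Fin (n ^ 2)) (m : ℕ) : ℝ :=
  FF (((cg B : ℝ) * (2 * (m : ℝ) + 1 - 2 * ((Kx B : ℝ) * ((e.val : ℝ) + 1)))) ^ 2 +
    ((cK B : ℝ) * ((i.val : ℝ) + 1)) ^ 2) (chH A B i m) (cV B)

noncomputable def ee (n B : ℕ) (e e' : Fin (n ^ 2)) : ℝ :=
  FF ((2 * (cg B : ℝ) * ((Kx B : ℝ) * ((e.val : ℝ) - e'.val))) ^ 2) (cV B) (cV B)

theorem J_inl_inl (i i' : Fin n) (m m' : Fin (CL n B)) :
    J A (Sum.inl (i, m) : Site n B) (Sum.inl (i', m')) =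
      if i = i' ∧ m = m' then 0 else cc A B i i' m.val m'.val := by
  unfold J
  by_cases h : i = i' ∧ m = m'
  · rw [if_pos h, if_pos (by rw [h.1, h.2])]
  · rw [if_neg h, if_neg (fun h' => h (by simpa using h'))]
    unfold cc FF
    have e1 : ((px (Sum.inl (i, m) : Site n B) : ℝ) - px (Sum.inl (i', m') : Site n B)) ^ 2 +
        ((py (Sum.inl (i, m) : Site n B) : ℝ) - py (Sum.inl (i', m') : Site n B)) ^ 2 =
        (2 * (cg B : ℝ) * ((m.val : ℝ) - m'.val)) ^ 2 +
        ((cK B : ℝ) * ((i.val : ℝ) - i'.val)) ^ 2 := by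
      simp only [px_inl, px_inr, py_inl, py_inr]; push_cast; ring
    rw [e1]
    rfl

theorem J_inl_inr (i : Fin n) (e : Fin (n ^ 2)) (m : Fin (CL n B)) :
    J A (Sum.inl (i, m) : Site n B) (Sum.inr e) = ce A B i e m.val := by
  unfold J
  rw [if_neg (by simp)]
  unfold ce FF
  have e1 : ((px (Sum.inl (i, m) : Site n B) : ℝ) - px (Sum.inr e : Site n B)) ^ 2 +
      ((py (Sum.inl (i, m) : Site n B) : ℝ) - py (Sum.inr e : Site n B)) ^ 2 =
      ((cg B : ℝ) * (2 * (m.val : ℝ) + 1 - 2 * ((Kx B : ℝ) * ((e.val : ℝ) + 1)))) ^ 2 +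
    ((cK B : ℝ) * ((i.val : ℝ) + 1)) ^ 2 := by
    simp only [px_inl, px_inr, py_inl, py_inr]; push_cast; ring
  rw [e1]
  rfl

theorem J_symm (a b : Site n B) : J A a b = J A b a := by
  unfold J
  by_cases h : a = b
  · rw [if_pos h, if_pos h.symm]
  · rw [if_neg h, if_neg (fun h' => h h'.symm)]
    have e1 : ((px a : ℝ) - px b) ^ 2 = ((px b : ℝ) - px a) ^ 2 := by ring
    have e2 : ((py a : ℝ) - py b) ^ 2 = ((py b : ℝ) - py a) ^ 2 := by ring
    have e3 : ((hgt A a : ℝ) - hgt A b) ^ 2 = ((hgt A b : ℝ) - hgt A a) ^ 2 := by ring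
    have e4 : ((hgt A a : ℝ) + hgt A b) ^ 2 = ((hgt A b : ℝ) + hgt A a) ^ 2 := by ring
    rw [e1, e2, e3, e4]

theorem J_inr_inl (i : Fin n) (e : Fin (n ^ 2)) (m : Fin (CL n B)) :
    J A (Sum.inr e) (Sum.inl (i, m) : Site n B) = ce A B i e m.val := by
  rw [J_symm, J_inl_inr]

theorem J_inr_inr (e e' : Fin (n ^ 2)) :
    J A (Sum.inr e : Site n B) (Sum.inr e') = if e = e' then 0 else ee n B e e' := by
  unfold J
  by_cases h : e = e'
  · rw [if_pos h, if_pos (by rw [h])]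
  · rw [if_neg h, if_neg (fun h' => h (by simpa using h'))]
    unfold ee FF
    have e1 : ((px (Sum.inr e : Site n B) : ℝ) - px (Sum.inr e' : Site n B)) ^ 2 +
        ((py (Sum.inr e : Site n B) : ℝ) - py (Sum.inr e' : Site n B)) ^ 2 =
        (2 * (cg B : ℝ) * ((Kx B : ℝ) * ((e.val : ℝ) - e'.val))) ^ 2 := by
      simp only [px_inl, px_inr, py_inl, py_inr]; push_cast; ring
    rw [e1]
    rfl

/-- splitting a double sum over sites -/
theorem double_sum_split (f : Site n B → Site n B → ℝ) :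
    ∑ a, ∑ b, f a b =
      (∑ i : Fin n, ∑ i' : Fin n, ∑ m : Fin (CL n B), ∑ m' : Fin (CL n B),
        f (Sum.inl (i, m)) (Sum.inl (i', m'))) +
      (∑ i : Fin n, ∑ e : Fin (n ^ 2), ∑ m : Fin (CL n B), f (Sum.inl (i, m)) (Sum.inr e)) +
      (∑ i : Fin n, ∑ e : Fin (n ^ 2), ∑ m : Fin (CL n B), f (Sum.inr e) (Sum.inl (i, m))) +
      (∑ e : Fin (n ^ 2), ∑ e' : Fin (n ^ 2), f (Sum.inr e) (Sum.inr e')) := by
  have h1 : ∀ g : Site n B → ℝ, ∑ a, g a = (∑ i : Fin n, ∑ m : Fin (CL n B), g (Sum.inl (i, m))) +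
      ∑ e : Fin (n ^ 2), g (Sum.inr e) := by
    intro g
    rw [Fintype.sum_sum_type, Fintype.sum_prod_type]
  rw [h1]
  simp only [h1]
  simp only [sum_add_distrib]
  have e1 : (∑ i : Fin n, ∑ m : Fin (CL n B), ∑ i' : Fin n, ∑ m' : Fin (CL n B),
      f (Sum.inl (i, m)) (Sum.inl (i', m'))) =
      ∑ i : Fin n, ∑ i' : Fin n, ∑ m : Fin (CL n B), ∑ m' : Fin (CL n B),
        f (Sum.inl (i, m)) (Sum.inl (i', m')) := by
    refine sum_congr rfl (fun i _ => ?_)
    rw [sum_comm]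
  have e2 : (∑ i : Fin n, ∑ m : Fin (CL n B), ∑ e : Fin (n ^ 2), f (Sum.inl (i, m)) (Sum.inr e)) =
      ∑ i : Fin n, ∑ e : Fin (n ^ 2), ∑ m : Fin (CL n B), f (Sum.inl (i, m)) (Sum.inr e) := by
    refine sum_congr rfl (fun i _ => ?_)
    rw [sum_comm]
  have e3 : (∑ e : Fin (n ^ 2), ∑ i : Fin n, ∑ m : Fin (CL n B), f (Sum.inr e) (Sum.inl (i, m))) =
      ∑ i : Fin n, ∑ e : Fin (n ^ 2), ∑ m : Fin (CL n B), f (Sum.inr e) (Sum.inl (i, m)) := by
    rw [sum_comm]
  rw [e1, e2, e3]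
  ring

/-! ### Sizes of the heights -/

variable {A}

theorem Good.one_le (hG : Good n B A) : 1 ≤ B := le_trans (by norm_num) hG.big

theorem Good.sq_le (hG : Good n B A) : n ^ 2 + 2 ≤ B := by
  have := hG.nB
  nlinarith [Nat.zero_le n, Nat.zero_le (n ^ 2), Nat.zero_le (n ^ 3), Nat.zero_le (n ^ 4)]

theorem Good.cube_le (hG : Good n B A) : n ^ 3 ≤ B := by
  have := hG.nB
  nlinarith [Nat.zero_le n, Nat.zero_le (n ^ 2), Nat.zero_le (n ^ 3), Nat.zero_le (n ^ 4)]

theorem Good.four_le (hG : Good n B A) : n ^ 4 ≤ B := by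
  have := hG.nB
  (clear * - this; nlinarith [Nat.zero_le n, Nat.zero_le (n ^ 2), Nat.zero_le (n ^ 3), Nat.zero_le (n ^ 4)])

theorem Good.succ_le (hG : Good n B A) : n + 1 ≤ B := by
  have := hG.nB
  nlinarith [Nat.zero_le n, Nat.zero_le (n ^ 2), Nat.zero_le (n ^ 3), Nat.zero_le (n ^ 4)]

theorem Kx_even (hG : Good n B A) : Even (Kx B) := by
  unfold Kx
  exact Nat.even_pow.mpr ⟨hG.even, by norm_num⟩

theorem Kx_pos (hG : Good n B A) : 2 ≤ Kx B := by
  unfold Kx
  have : 2 ≤ B := le_trans (by norm_num) hG.big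
  exact this.trans (Nat.le_self_pow (by norm_num) B)

theorem mu_split (i : Fin n) (m : ℕ) : mu A B i m =
    (∑ e, (if A i e = 1 ∧ m = Kx B * (e.val + 1) then 1 else 0)) +
    (∑ e, (if A i e = -1 ∧ m + 1 = Kx B * (e.val + 1) then 1 else 0)) := by
  unfold mu
  rw [sum_add_distrib]

theorem sum_ind_le_one {α : Type*} [Fintype α] (P : α → Prop) [DecidablePred P]
    (h : ∀ x y, P x → P y → x = y) : (∑ x, if P x then 1 else 0) ≤ 1 := by
  rw [← sum_filter, sum_const, smul_eq_mul, mul_one]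
  rw [card_le_one]
  intro x hx y hy
  simp only [mem_filter, mem_univ, true_and] at hx hy
  exact h x y hx hy

theorem mu_le (hG : Good n B A) (i : Fin n) (m : ℕ) : mu A B i m ≤ 2 := by
  rw [mu_split]
  have hK := Kx_pos hG
  have h1 := sum_ind_le_one (fun e : Fin (n ^ 2) => A i e = 1 ∧ m = Kx B * (e.val + 1)) (by
    intro x y hx hy
    have h := hx.2.symm.trans hy.2
    have := Nat.eq_of_mul_eq_mul_left (by omega) h
    exact Fin.ext (by omega))
  have h2 := sum_ind_le_one (fun e : Fin (n ^ 2) => A i e = -1 ∧ m + 1 = Kx B * (e.val + 1)) (by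
    intro x y hx hy
    have h := hx.2.symm.trans hy.2
    have := Nat.eq_of_mul_eq_mul_left (by omega) h
    exact Fin.ext (by omega))
  omega

theorem cH_le_chH (i : Fin n) (m : ℕ) : B ^ 2 ≤ chH A B i m := Nat.le_add_right _ _

theorem chH_le (hG : Good n B A) (i : Fin n) (m : ℕ) : chH A B i m ≤ B ^ 2 + 2 * B := by
  unfold chH cH
  have h1 := mu_le hG i m
  have h2 : (i.val + 1) ^ 3 ≤ B := le_trans (Nat.pow_le_pow_left (by omega) 3) hG.cube_le
  have : (i.val + 1) ^ 3 * mu A B i m ≤ B * 2 := Nat.mul_le_mul h2 h1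
  omega

/-- real version -/
theorem chH_le' (hG : Good n B A) (i : Fin n) (m : ℕ) :
    (chH A B i m : ℝ) ≤ 1.001 * (B : ℝ) ^ 2 := by
  have h := chH_le hG i m
  have h2 : (chH A B i m : ℝ) ≤ (B : ℝ) ^ 2 + 2 * B := by exact_mod_cast h
  have hB : (2 : ℝ) ^ 20 ≤ B := by exact_mod_cast hG.big
  nlinarith only [h2, hB]

theorem chH_ge' (i : Fin n) (m : ℕ) : (B : ℝ) ^ 2 ≤ (chH A B i m : ℝ) := by
  exact_mod_cast cH_le_chH (A := A) i m

theorem CL_le (hG : Good n B A) : CL n B ≤ B ^ 62 := by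
  unfold CL Kx
  calc B ^ 61 * (n ^ 2 + 2) ≤ B ^ 61 * B := Nat.mul_le_mul_left _ hG.sq_le
    _ = B ^ 62 := by ring

end Vale.Agent.P370.Chains
end

section

set_option exponentiation.threshold 10000

namespace Vale.Agent.P370.Chains

open Finset

/-! ### A lemma on alternating chains -/

theorem wall_sum (u : ℕ → ℝ) (hu : ∀ m, u m = 1 ∨ u m = -1) (m k : ℕ) :
    1 - u m * u (m + k) ≤ ∑ p ∈ Ico m (m + k), (1 - u p * u (p + 1)) := by
  induction k with
  | zero =>
    simp only [add_zero, Ico_self, sum_empty]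
    rcases hu m with h | h <;> rw [h] <;> norm_num
  | succ k ih =>
    rw [← add_assoc, sum_Ico_succ_top (by (clear * -; omega))]
    have h1 := hu m
    have h2 := hu (m + k)
    have h3 := hu (m + k + 1)
    rcases h1 with h1 | h1 <;> rcases h2 with h2 | h2 <;> rcases h3 with h3 | h3 <;>
      rw [h1, h2] at ih <;> rw [h1, h2, h3] <;> linarith only [ih]

theorem wall_nonneg (u : ℕ → ℝ) (hu : ∀ m, u m = 1 ∨ u m = -1) (p : ℕ) :
    0 ≤ 1 - u p * u (p + 1) := by
  rcases hu p with h | h <;> rcases hu (p + 1) with h' | h' <;> rw [h, h'] <;> norm_num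

theorem uu_bound {x y : ℝ} (hx : x = 1 ∨ x = -1) (hy : y = 1 ∨ y = -1) (k : ℕ) :
    -(1 - x * y) ≤ (-1) ^ k * (x * y - 1) := by
  rcases neg_one_pow_eq_or ℝ k with h | h <;> rcases hx with hx | hx <;>
    rcases hy with hy | hy <;> rw [h, hx, hy] <;> norm_num

theorem seq_lemma (L : ℕ) (c : ℕ → ℕ → ℝ) (hc : ∀ m m', 0 ≤ c m m') (u : ℕ → ℝ)
    (hu : ∀ m, u m = 1 ∨ u m = -1) :
    ∑ p ∈ range (L - 1), (1 - u p * u (p + 1)) * (c p (p + 1) -
      ∑ m ∈ range (p + 1), ∑ m' ∈ Ico (p + 1) L, (if m + 2 ≤ m' then c m m' else 0)) ≤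
    ∑ m ∈ range L, ∑ m' ∈ range L,
      (if m < m' then c m m' * ((-1) ^ (m + m') * (u m * u m' - 1)) else 0) := by
  have hsplit : ∑ m ∈ range L, ∑ m' ∈ range L,
      (if m < m' then c m m' * ((-1) ^ (m + m') * (u m * u m' - 1)) else 0) =
      (∑ m ∈ range L, ∑ m' ∈ range L, if m' = m + 1 then c m m' * (1 - u m * u m') else 0) +
      ∑ m ∈ range L, ∑ m' ∈ range L,
        (if m + 2 ≤ m' then c m m' * ((-1) ^ (m + m') * (u m * u m' - 1)) else 0) := by
    rw [← sum_add_distrib]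
    refine sum_congr rfl (fun m _ => ?_)
    rw [← sum_add_distrib]
    refine sum_congr rfl (fun m' _ => ?_)
    by_cases h1 : m < m'
    · by_cases h2 : m' = m + 1
      · subst h2
        rw [if_pos h1, if_pos rfl, if_neg (by omega)]
        have : (-1 : ℝ) ^ (m + (m + 1)) = -1 := by
          rw [show m + (m + 1) = 2 * m + 1 by ring, pow_succ, pow_mul]
          simp only [even_two, Even.neg_pow, one_pow, mul_neg, mul_one]
        rw [this]; ring
      · rw [if_pos h1, if_neg h2, if_pos (by omega), zero_add]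
    · rw [if_neg h1, if_neg (by omega), if_neg (by omega), add_zero]
  have hfirst : (∑ m ∈ range L, ∑ m' ∈ range L,
      if m' = m + 1 then c m m' * (1 - u m * u m') else 0) =
      ∑ p ∈ range (L - 1), c p (p + 1) * (1 - u p * u (p + 1)) := by
    rcases L with _ | L
    · simp
    · rw [show L + 1 - 1 = L by omega, sum_range_succ]
      have hz : (∑ m' ∈ range (L + 1), if m' = L + 1 then c L m' * (1 - u L * u m') else 0) = 0 := by
        refine sum_eq_zero (fun m' hm' => ?_)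
        rw [mem_range] at hm'
        rw [if_neg (by omega)]
      rw [hz, add_zero]
      refine sum_congr rfl (fun m hm => ?_)
      rw [mem_range] at hm
      rw [sum_ite_eq']
      rw [if_pos (mem_range.mpr (by omega))]
  have hsecond : ∑ m ∈ range L, ∑ m' ∈ range L,
        (if m + 2 ≤ m' then c m m' * ((-1) ^ (m + m') * (u m * u m' - 1)) else 0) ≥
      -∑ p ∈ range (L - 1), (1 - u p * u (p + 1)) *
        ∑ m ∈ range (p + 1), ∑ m' ∈ Ico (p + 1) L, (if m + 2 ≤ m' then c m m' else 0) := by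
    have hpt : ∀ m ∈ range L, ∀ m' ∈ range L,
        -(∑ p ∈ range (L - 1), (1 - u p * u (p + 1)) *
          (if m ≤ p ∧ p < m' ∧ m + 2 ≤ m' then c m m' else 0)) ≤
        (if m + 2 ≤ m' then c m m' * ((-1) ^ (m + m') * (u m * u m' - 1)) else 0) := by
      intro m hm m' hm'
      rw [mem_range] at hm hm'
      by_cases h : m + 2 ≤ m'
      · rw [if_pos h]
        have e1 : (∑ p ∈ range (L - 1), (1 - u p * u (p + 1)) *
          (if m ≤ p ∧ p < m' ∧ m + 2 ≤ m' then c m m' else 0)) =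
          c m m' * ∑ p ∈ Ico m m', (1 - u p * u (p + 1)) := by
          rw [mul_sum]
          have : Ico m m' = (range (L - 1)).filter (fun p => m ≤ p ∧ p < m') := by
            ext p
            simp only [mem_Ico, mem_filter, mem_range]
            omega
          rw [this, sum_filter]
          refine sum_congr rfl (fun p _ => ?_)
          by_cases hp : m ≤ p ∧ p < m'
          · rw [if_pos ⟨hp.1, hp.2, h⟩, if_pos hp]; ring
          · rw [if_neg (fun h' => hp ⟨h'.1, h'.2.1⟩), if_neg hp, mul_zero]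
        rw [e1]
        obtain ⟨k, rfl⟩ : ∃ k, m' = m + k := ⟨m' - m, by omega⟩
        have h1 := wall_sum u hu m k
        have h2 := uu_bound (hu m) (hu (m + k)) (m + (m + k))
        have h3 := hc m (m + k)
        calc -(c m (m + k) * ∑ p ∈ Ico m (m + k), (1 - u p * u (p + 1)))
            ≤ -(c m (m + k) * (1 - u m * u (m + k))) :=
              neg_le_neg (mul_le_mul_of_nonneg_left h1 h3)
          _ = c m (m + k) * (-(1 - u m * u (m + k))) := by ring
          _ ≤ _ := mul_le_mul_of_nonneg_left h2 h3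
      · rw [if_neg h]
        have : (∑ p ∈ range (L - 1), (1 - u p * u (p + 1)) *
          (if m ≤ p ∧ p < m' ∧ m + 2 ≤ m' then c m m' else 0)) = 0 := by
          refine sum_eq_zero (fun p _ => ?_)
          rw [if_neg (fun h' => h h'.2.2), mul_zero]
        rw [this, neg_zero]
    refine ge_iff_le.mpr (le_trans (le_of_eq ?_)
      (sum_le_sum (fun m hm => sum_le_sum (fun m' hm' => hpt m hm m' hm'))))
    simp only [sum_neg_distrib]
    congr 1
    have hswap : ∑ m ∈ range L, ∑ m' ∈ range L, ∑ p ∈ range (L - 1), (1 - u p * u (p + 1)) *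
          (if m ≤ p ∧ p < m' ∧ m + 2 ≤ m' then c m m' else 0) =
        ∑ p ∈ range (L - 1), ∑ m ∈ range L, ∑ m' ∈ range L, (1 - u p * u (p + 1)) *
          (if m ≤ p ∧ p < m' ∧ m + 2 ≤ m' then c m m' else 0) := by
      have e1 : ∀ m ∈ range L, ∑ m' ∈ range L, ∑ p ∈ range (L - 1), (1 - u p * u (p + 1)) *
          (if m ≤ p ∧ p < m' ∧ m + 2 ≤ m' then c m m' else 0) =
          ∑ p ∈ range (L - 1), ∑ m' ∈ range L, (1 - u p * u (p + 1)) *
          (if m ≤ p ∧ p < m' ∧ m + 2 ≤ m' then c m m' else 0) := fun m _ => sum_comm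
      rw [sum_congr rfl e1, sum_comm]
    rw [hswap]
    refine sum_congr rfl (fun p hp => ?_)
    rw [mem_range] at hp
    rw [mul_sum]
    have hsub : range (p + 1) ⊆ range L := range_subset_range.mpr (by (clear * - hp; omega))
    rw [← sum_subset hsub]
    · refine sum_congr rfl (fun m hm => ?_)
      rw [mem_range] at hm
      rw [← mul_sum]
      congr 1
      have : Ico (p + 1) L = (range L).filter (fun m' => p < m') := by
        ext m'
        simp only [mem_Ico, mem_filter, mem_range]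
        omega
      rw [this, sum_filter]
      refine sum_congr rfl (fun m' _ => ?_)
      by_cases h1 : p < m'
      · by_cases h2 : m + 2 ≤ m'
        · rw [if_pos h1, if_pos h2, if_pos ⟨by omega, h1, h2⟩]
        · rw [if_pos h1, if_neg h2, if_neg (fun h => h2 h.2.2)]
      · rw [if_neg h1, if_neg (fun h => h1 h.2.1)]
    · intro m hm hm'
      rw [mem_range] at hm hm'
      refine sum_eq_zero (fun m' _ => ?_)
      rw [if_neg (fun h => hm' (by omega)), mul_zero]
  rw [hsplit, hfirst]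
  have hrw : ∑ p ∈ range (L - 1), (1 - u p * u (p + 1)) * (c p (p + 1) -
      ∑ m ∈ range (p + 1), ∑ m' ∈ Ico (p + 1) L, (if m + 2 ≤ m' then c m m' else 0)) =
      (∑ p ∈ range (L - 1), c p (p + 1) * (1 - u p * u (p + 1))) -
      ∑ p ∈ range (L - 1), (1 - u p * u (p + 1)) *
        ∑ m ∈ range (p + 1), ∑ m' ∈ Ico (p + 1) L, (if m + 2 ≤ m' then c m m' else 0) := by
    rw [← sum_sub_distrib]
    refine sum_congr rfl (fun p _ => ?_)
    ring
  rw [hrw]
  linarith only [hsecond]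

/-! ### Numerical bounds -/

variable {n B : ℕ} {A : Fin n → Fin (n ^ 2) → ℤ}

theorem hgR (B : ℕ) : (cg B : ℝ) = (B : ℝ) ^ 200 := by unfold cg; push_cast; rfl
theorem hKR (B : ℕ) : (cK B : ℝ) = (B : ℝ) ^ 236 := by unfold cK; push_cast; rfl
theorem hVR (B : ℕ) : (cV B : ℝ) = (B : ℝ) ^ 70 := by unfold cV; push_cast; rfl
theorem hKxR (B : ℕ) : (Kx B : ℝ) = (B : ℝ) ^ 61 := by unfold Kx; push_cast; rfl

theorem Good.bR (hG : Good n B A) : (2 : ℝ) ^ 20 ≤ B := by exact_mod_cast hG.big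
theorem Good.pos (hG : Good n B A) : (0 : ℝ) < B := by have := hG.bR; (clear * - this; positivity)
theorem Good.one (hG : Good n B A) : (1 : ℝ) ≤ B := by have := hG.bR; linarith only [this]

theorem pow_ge_self_of (hG : Good n B A) {k : ℕ} (hk : 1 ≤ k) : (2 : ℝ) ^ 20 ≤ (B : ℝ) ^ k :=
  hG.bR.trans (le_self_pow₀ hG.one (by omega))

theorem nn_lower (hG : Good n B A) (i : Fin n) (p : ℕ) :
    0.99 * ((B : ℝ) ^ 4 / (8 * (cg B : ℝ) ^ 3)) ≤ cc A B i i p (p + 1) := by
  have hB := hG.pos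
  have hg : (2 : ℝ) ^ 20 ≤ (cg B : ℝ) := by rw [hgR]; exact pow_ge_self_of hG (by norm_num)
  have hg0 : (0 : ℝ) < cg B := by linarith only [hg]
  have h1 := chH_le' hG i p
  have h2 := chH_le' hG i (p + 1)
  have h3 := chH_ge' (A := A) (B := B) i p
  have h4 := chH_ge' (A := A) (B := B) i (p + 1)
  have hx : (2 * (cg B : ℝ) * ((p : ℝ) - ((p + 1 : ℕ) : ℝ))) ^ 2 +
      ((cK B : ℝ) * ((i.val : ℝ) - i.val)) ^ 2 = (2 * (cg B : ℝ)) ^ 2 := by
    push_cast; ring
  unfold cc
  rw [hx]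
  have hsq : ((chH A B i p : ℝ) + (chH A B i (p + 1) : ℝ)) ^ 2 ≤ 4 * (cg B : ℝ) + 1 := by
    have e1 : ((chH A B i p : ℝ) + (chH A B i (p + 1) : ℝ)) ^ 2 ≤ (2.002 * (B : ℝ) ^ 2) ^ 2 := by
      apply pow_le_pow_left₀ (by (clear * -; positivity)); linarith only [h1, h2]
    have e2 : (2.002 * (B : ℝ) ^ 2) ^ 2 ≤ 2 ^ 20 * (B : ℝ) ^ 4 := by
      have : (2.002 * (B : ℝ) ^ 2) ^ 2 = 4.008004 * (B : ℝ) ^ 4 := by ring
      rw [this]
      have := pow_pos hB 4
      linarith only [this]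
    have e3 : 2 ^ 20 * (B : ℝ) ^ 4 ≤ (B : ℝ) ^ 200 := by
      calc 2 ^ 20 * (B : ℝ) ^ 4 ≤ B * (B : ℝ) ^ 4 := by
            apply mul_le_mul_of_nonneg_right hG.bR (by positivity)
        _ = (B : ℝ) ^ 5 := by ring
        _ ≤ (B : ℝ) ^ 200 := pow_le_pow_right₀ hG.one (by norm_num)
    rw [hgR]
    have := pow_pos hB 200
    linarith only [e1, e3, this]
  refine le_trans ?_ (le_FF (S := 2 * (cg B : ℝ) + 1) (by (clear * - hg; positivity)) (by positivity)
    (by linarith only [hsq]) (by (clear * -; positivity)) (by (clear * -; positivity)))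
  have hhh : (B : ℝ) ^ 4 ≤ (chH A B i p : ℝ) * (chH A B i (p + 1) : ℝ) := by
    calc (B : ℝ) ^ 4 = (B : ℝ) ^ 2 * (B : ℝ) ^ 2 := by ring
      _ ≤ _ := mul_le_mul h3 h4 (by positivity) (by (clear * -; positivity))
  calc 0.99 * ((B : ℝ) ^ 4 / (8 * (cg B : ℝ) ^ 3))
      ≤ (B : ℝ) ^ 4 / (2 * (cg B : ℝ) + 1) ^ 3 := by
        rw [mul_div_assoc', div_le_div_iff₀ (by positivity) (by positivity)]
        have : 0.99 * (2 * (cg B : ℝ) + 1) ^ 3 ≤ 8 * (cg B : ℝ) ^ 3 := by
          have q1 : (0 : ℝ) ≤ (cg B : ℝ) ^ 2 := by (clear * - hg; positivity)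
          linarith only [hg, mul_le_mul_of_nonneg_right hg q1, mul_le_mul_of_nonneg_right hg hg0.le]
        have h4 := pow_pos hB 4
        linarith only [mul_nonneg_of_nonpos_of_nonpos (Mathlib.Tactic.Linarith.sub_nonpos_of_le this) (le_of_lt (Mathlib.Tactic.Linarith.sub_neg_of_lt h4))]
    _ ≤ _ := by (clear * - hhh hg; gcongr)

theorem cc_nonneg (hG : Good n B A) (i i' : Fin n) (m m' : ℕ) (h : i ≠ i' ∨ m ≠ m') :
    0 ≤ cc A B i i' m m' := by
  unfold cc
  have hB := hG.pos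
  refine FF_nonneg ?_ (by (clear * -; positivity)) (by (clear * -; positivity))
  rcases h with h | h
  · have h1 : ((i.val : ℝ) - i'.val) ≠ 0 := by
      intro h0
      apply h
      have : (i.val : ℝ) = i'.val := by linarith only [h0]
      exact Fin.ext (by exact_mod_cast this)
    have hK : (cK B : ℝ) ≠ 0 := by rw [hKR]; (clear * - hB; positivity)
    have : 0 < ((cK B : ℝ) * ((i.val : ℝ) - i'.val)) ^ 2 := by positivity
    (clear * - hK h1; positivity)
  · have h1 : ((m : ℝ) - m') ≠ 0 := by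
      intro h0
      apply h
      have : (m : ℝ) = m' := by linarith only [h0]
      exact_mod_cast this
    have hK : (cg B : ℝ) ≠ 0 := by rw [hgR]; positivity
    have : 0 < (2 * (cg B : ℝ) * ((m : ℝ) - m')) ^ 2 := by (clear * - hK h1; positivity)
    (clear * - hK h1; positivity)

theorem cc_far (hG : Good n B A) (i : Fin n) {m m' : ℕ} (h : m < m') :
    cc A B i i m m' ≤ 1.0021 * ((B : ℝ) ^ 4 / (8 * (cg B : ℝ) ^ 3)) * (1 / ((m' : ℝ) - m) ^ 3) := by
  have hB := hG.pos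
  have hg0 : (0 : ℝ) < cg B := by rw [hgR]; positivity
  have h1 := chH_le' hG i m
  have h2 := chH_le' hG i m'
  have hd : (0 : ℝ) < (m' : ℝ) - m := by
    have : (m : ℝ) < m' := by exact_mod_cast h
    linarith only [this]
  unfold cc
  have hx : (2 * (cg B : ℝ) * ((m : ℝ) - m')) ^ 2 +
      ((cK B : ℝ) * ((i.val : ℝ) - i.val)) ^ 2 = (2 * (cg B : ℝ) * ((m' : ℝ) - m)) ^ 2 := by
    ring
  rw [hx]
  refine (FF_le_cube (R := 2 * (cg B : ℝ) * ((m' : ℝ) - m)) (by (clear * - hg0 hd; positivity)) le_rfl (by (clear * -; positivity))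
    (by (clear * -; positivity))).trans ?_
  have hhh : (chH A B i m : ℝ) * (chH A B i m' : ℝ) ≤ 1.0021 * (B : ℝ) ^ 4 := by
    calc _ ≤ (1.001 * (B : ℝ) ^ 2) * (1.001 * (B : ℝ) ^ 2) :=
          mul_le_mul h1 h2 (by (clear * -; positivity)) (by positivity)
      _ = 1.002001 * (B : ℝ) ^ 4 := by ring
      _ ≤ _ := by have := pow_pos hB 4; linarith only [this]
  calc _ ≤ (1.0021 * (B : ℝ) ^ 4) / (2 * (cg B : ℝ) * ((m' : ℝ) - m)) ^ 3 := by (clear * - hhh hg0 hd; gcongr)
    _ = _ := by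
      rw [mul_pow, mul_pow]
      field_simp
      ring

/-- net cost of a wall -/
theorem wall_cost (hG : Good n B A) (i : Fin n) (p L : ℕ) :
    0.2 * ((B : ℝ) ^ 4 / (8 * (cg B : ℝ) ^ 3)) ≤ cc A B i i p (p + 1) -
      ∑ m ∈ range (p + 1), ∑ m' ∈ Ico (p + 1) L, (if m + 2 ≤ m' then cc A B i i m m' else 0) := by
  have h1 := nn_lower hG i p
  have hB := hG.pos
  have hg0 : (0 : ℝ) < cg B := by rw [hgR]; (clear * - hB; positivity)
  set Q := (B : ℝ) ^ 4 / (8 * (cg B : ℝ) ^ 3) with hQ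
  have hQ0 : 0 < Q := by positivity
  have h2 : ∑ m ∈ range (p + 1), ∑ m' ∈ Ico (p + 1) L,
      (if m + 2 ≤ m' then cc A B i i m m' else 0) ≤
      1.0021 * Q * ∑ m ∈ range (p + 1), ∑ m' ∈ Ico (p + 1) L,
      (if m + 2 ≤ m' then 1 / ((m' : ℝ) - m) ^ 3 else 0) := by
    rw [mul_sum]
    refine sum_le_sum (fun m _ => ?_)
    rw [mul_sum]
    refine sum_le_sum (fun m' _ => ?_)
    by_cases h : m + 2 ≤ m'
    · rw [if_pos h, if_pos h]
      exact cc_far hG i (by omega)
    · rw [if_neg h, if_neg h, mul_zero]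
  have h3 := straddle_sum p L
  have h4 : 1.0021 * Q * ∑ m ∈ range (p + 1), ∑ m' ∈ Ico (p + 1) L,
      (if m + 2 ≤ m' then 1 / ((m' : ℝ) - m) ^ 3 else 0) ≤ 1.0021 * Q * (3 / 4) :=
    mul_le_mul_of_nonneg_left h3 (by positivity)
  linarith

/-! ### Cross couplings -/

/-- distance index from a centre lying between `c - 1` and `c` -/
def kk (c m : ℕ) : ℕ := if c ≤ m then m - c else c - 1 - m

theorem sum_kk {a K : ℝ} (ha : 0 < a) (hK : 0 < K) (c L : ℕ) :
    ∑ m ∈ range L, 1 / (a * (kk c m : ℕ) + K) ^ 2 ≤ 2 * (1 / K ^ 2 + 1 / (a * K)) := by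
  rw [← sum_filter_add_sum_filter_not (range L) (fun m => c ≤ m)]
  have h1 : ∑ m ∈ (range L).filter (fun m => c ≤ m), 1 / (a * (kk c m : ℕ) + K) ^ 2 ≤
      1 / K ^ 2 + 1 / (a * K) := by
    calc _ = ∑ m ∈ (range L).filter (fun m => c ≤ m), 1 / (a * ((m - c : ℕ) : ℝ) + K) ^ 2 := by
          refine sum_congr rfl (fun m hm => ?_)
          rw [mem_filter] at hm
          unfold kk
          rw [if_pos hm.2]
      _ = ∑ k ∈ ((range L).filter (fun m => c ≤ m)).image (fun m => m - c),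
            1 / (a * (k : ℝ) + K) ^ 2 := by
          rw [sum_image]
          intro x hx y hy hxy
          rw [mem_coe, mem_filter] at hx hy
          simp only at hxy
          omega
      _ ≤ ∑ k ∈ range L, 1 / (a * (k : ℝ) + K) ^ 2 := by
          refine sum_le_sum_of_subset_of_nonneg ?_ (fun _ _ _ => by (clear * - ha hK; positivity))
          intro k hk
          rw [mem_image] at hk
          obtain ⟨m, hm, rfl⟩ := hk
          rw [mem_filter, mem_range] at hm
          rw [mem_range]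
          omega
      _ ≤ _ := decay_sum ha hK L
  have h2 : ∑ m ∈ (range L).filter (fun m => ¬ c ≤ m), 1 / (a * (kk c m : ℕ) + K) ^ 2 ≤
      1 / K ^ 2 + 1 / (a * K) := by
    calc _ = ∑ m ∈ (range L).filter (fun m => ¬ c ≤ m),
            1 / (a * ((c - 1 - m : ℕ) : ℝ) + K) ^ 2 := by
          refine sum_congr rfl (fun m hm => ?_)
          rw [mem_filter] at hm
          unfold kk
          rw [if_neg hm.2]
      _ = ∑ k ∈ ((range L).filter (fun m => ¬ c ≤ m)).image (fun m => c - 1 - m),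
            1 / (a * (k : ℝ) + K) ^ 2 := by
          rw [sum_image]
          intro x hx y hy hxy
          rw [mem_coe, mem_filter] at hx hy
          simp only at hxy
          omega
      _ ≤ ∑ k ∈ range c, 1 / (a * (k : ℝ) + K) ^ 2 := by
          refine sum_le_sum_of_subset_of_nonneg ?_ (fun _ _ _ => by positivity)
          intro k hk
          rw [mem_image] at hk
          obtain ⟨m, hm, rfl⟩ := hk
          rw [mem_filter, mem_range] at hm
          rw [mem_range]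
          omega
      _ ≤ _ := decay_sum ha hK c
  linarith only [h1, h2]

theorem kk_le_abs (c m : ℕ) : (kk c m : ℝ) ≤ |(m : ℝ) - c| := by
  unfold kk
  by_cases h : c ≤ m
  · rw [if_pos h, Nat.cast_sub h]
    exact le_abs_self _
  · rw [if_neg h]
    have h1 : ((c - 1 - m : ℕ) : ℝ) = (c : ℝ) - 1 - m := by
      have : c - 1 - m + 1 + m = c := by omega
      have h2 : ((c - 1 - m + 1 + m : ℕ) : ℝ) = (c : ℝ) := by rw [this]
      push_cast at h2
      linarith only [h2]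
    rw [h1, abs_sub_comm]
    have := le_abs_self ((c : ℝ) - m)
    linarith only [this]

theorem kk_le_abs' (c m : ℕ) : 2 * (kk c m : ℝ) ≤ |2 * (m : ℝ) + 1 - 2 * c| := by
  unfold kk
  by_cases h : c ≤ m
  · rw [if_pos h, Nat.cast_sub h]
    have := le_abs_self (2 * (m : ℝ) + 1 - 2 * c)
    linarith only [this]
  · rw [if_neg h]
    have h1 : ((c - 1 - m : ℕ) : ℝ) = (c : ℝ) - 1 - m := by
      have : c - 1 - m + 1 + m = c := by omega
      have h2 : ((c - 1 - m + 1 + m : ℕ) : ℝ) = (c : ℝ) := by rw [this]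
      push_cast at h2
      linarith only [h2]
    rw [h1]
    have := neg_abs_le (2 * (m : ℝ) + 1 - 2 * c)
    linarith only [this]

/-- pointwise bound at planar distance with horizontal part `≥ a k` and vertical part `≥ K` -/
theorem FF_decay {x h h' a k K H : ℝ} (ha : 0 ≤ a) (hk : 0 ≤ k) (hK : 0 < K)
    (hx : (a * k) ^ 2 + K ^ 2 ≤ x) (hh : 0 ≤ h) (hh' : 0 ≤ h') (hH : h * h' ≤ H) :
    FF x h h' ≤ (2 * H / K) * (1 / (a * k + K) ^ 2) := by
  have hxK : K ^ 2 ≤ x := by linarith only [hx, sq_nonneg (a * k)]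
  have hx0 : 0 < x := lt_of_lt_of_le (by positivity) hxK
  have hak : 0 ≤ a * k := mul_nonneg ha hk
  refine (FF_le hK hxK hh hh').trans ?_
  have h1 : (a * k + K) ^ 2 ≤ 2 * x := by linarith only [hx, sq_nonneg (a * k - K)]
  have hH0 : 0 ≤ H := le_trans (by (clear * - hh hh'; positivity)) hH
  have e : (2 * H / K) * (1 / (a * k + K) ^ 2) = 2 * H / (K * (a * k + K) ^ 2) := by
    rw [div_mul_div_comm, mul_one]
  rw [e, div_le_div_iff₀ (by positivity) (by positivity)]
  calc h * h' * (K * (a * k + K) ^ 2) ≤ H * (K * (2 * x)) := by gcongr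
    _ = 2 * H * (x * K) := by ring

theorem two_g_le_K (hG : Good n B A) : 2 * (cg B : ℝ) ≤ (cK B : ℝ) := by
  rw [hgR, hKR]
  have hB := hG.pos
  calc 2 * (B : ℝ) ^ 200 ≤ B * (B : ℝ) ^ 200 := by
        apply mul_le_mul_of_nonneg_right _ (by positivity)
        have := hG.bR
        linarith
    _ = (B : ℝ) ^ 201 := by ring
    _ ≤ (B : ℝ) ^ 236 := pow_le_pow_right₀ hG.one (by norm_num)

theorem sum_kk_le (hG : Good n B A) (c L : ℕ) :
    ∑ m ∈ range L, 1 / (2 * (cg B : ℝ) * (kk c m : ℕ) + (cK B : ℝ)) ^ 2 ≤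
      2 / ((cg B : ℝ) * (cK B : ℝ)) := by
  have hB := hG.pos
  have hg0 : (0 : ℝ) < cg B := by rw [hgR]; positivity
  have hK0 : (0 : ℝ) < cK B := by rw [hKR]; positivity
  refine (sum_kk (by positivity) hK0 c L).trans ?_
  have h := two_g_le_K hG
  have h1 : 1 / (cK B : ℝ) ^ 2 ≤ 1 / (2 * (cg B : ℝ) * (cK B : ℝ)) := by
    apply one_div_le_one_div_of_le (by positivity)
    linarith only [mul_nonneg_of_nonpos_of_nonpos (Mathlib.Tactic.Linarith.sub_nonpos_of_le (Mathlib.Tactic.Linarith.natCast_nonneg ℝ (Vale.Agent.P370.Chains.cK B))) (Mathlib.Tactic.Linarith.sub_nonpos_of_le h)]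
  have h2 : 2 / ((cg B : ℝ) * (cK B : ℝ)) = 2 * (2 * (1 / (2 * (cg B : ℝ) * (cK B : ℝ)))) := by
    (clear * - hK0 hg0; field_simp)
  rw [h2]
  linarith only [h1]

theorem cc_row (hG : Good n B A) {i i' : Fin n} (hi : i ≠ i') (m L : ℕ) :
    ∑ m' ∈ range L, cc A B i i' m m' ≤ 5 * (B : ℝ) ^ 4 / ((cg B : ℝ) * (cK B : ℝ) ^ 2) := by
  have hB := hG.pos
  have hg0 : (0 : ℝ) < cg B := by rw [hgR]; (clear * - hB; positivity)
  have hK0 : (0 : ℝ) < cK B := by rw [hKR]; (clear * - hB; positivity)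
  have hii : (1 : ℝ) ≤ |(i.val : ℝ) - i'.val| := by
    have h1 : (1 : ℤ) ≤ |(i.val : ℤ) - i'.val| :=
      Int.one_le_abs (by have : i.val ≠ i'.val := fun h => hi (Fin.ext h); omega)
    have h2 : ((1 : ℤ) : ℝ) ≤ ((|(i.val : ℤ) - i'.val| : ℤ) : ℝ) := by exact_mod_cast h1
    simpa only [ge_iff_le, Int.cast_one, Int.cast_abs, Int.cast_sub, Int.cast_natCast] using h2
  have hpt : ∀ m' ∈ range L, cc A B i i' m m' ≤ (2 * (1.01 * (B : ℝ) ^ 4) / (cK B : ℝ)) *
      (1 / (2 * (cg B : ℝ) * (kk m m' : ℕ) + (cK B : ℝ)) ^ 2) := by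
    intro m' _
    unfold cc
    refine FF_decay (by (clear * - hg0; positivity)) (by (clear * -; positivity)) hK0 ?_ (by (clear * -; positivity)) (by (clear * -; positivity)) ?_
    · have h1 := kk_le_abs m m'
      have e1 : (2 * (cg B : ℝ) * (kk m m' : ℕ)) ^ 2 ≤ (2 * (cg B : ℝ) * ((m : ℝ) - m')) ^ 2 := by
        rw [mul_pow, mul_pow (2 * (cg B : ℝ)) ((m : ℝ) - m')]
        apply mul_le_mul_of_nonneg_left _ (by positivity)
        rw [← sq_abs ((m : ℝ) - m'), abs_sub_comm]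
        exact pow_le_pow_left₀ (by (clear * -; positivity)) h1 2
      have e2 : (cK B : ℝ) ^ 2 ≤ ((cK B : ℝ) * ((i.val : ℝ) - i'.val)) ^ 2 := by
        rw [mul_pow, ← sq_abs ((i.val : ℝ) - i'.val)]
        have : (1 : ℝ) ≤ |(i.val : ℝ) - i'.val| ^ 2 := one_le_pow₀ hii
        nlinarith only [this]
      linarith only [e1, e2]
    · calc _ ≤ (1.001 * (B : ℝ) ^ 2) * (1.001 * (B : ℝ) ^ 2) :=
            mul_le_mul (chH_le' hG i m) (chH_le' hG i' m') (by (clear * -; positivity)) (by positivity)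
        _ = 1.002001 * (B : ℝ) ^ 4 := by ring
        _ ≤ _ := by have := pow_pos hB 4; linarith only [this]
  refine (sum_le_sum hpt).trans ?_
  rw [← mul_sum]
  refine (mul_le_mul_of_nonneg_left (sum_kk_le hG m L) (by (clear * - hB hK0; positivity))).trans ?_
  have e : 2 * (1.01 * (B : ℝ) ^ 4) / (cK B : ℝ) * (2 / ((cg B : ℝ) * (cK B : ℝ))) =
      4.04 * ((B : ℝ) ^ 4 / ((cg B : ℝ) * (cK B : ℝ) ^ 2)) := by
    field_simp
    ring
  have e2 : 5 * (B : ℝ) ^ 4 / ((cg B : ℝ) * (cK B : ℝ) ^ 2) =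
      5 * ((B : ℝ) ^ 4 / ((cg B : ℝ) * (cK B : ℝ) ^ 2)) := by ring
  rw [e, e2]
  have : 0 < (B : ℝ) ^ 4 / ((cg B : ℝ) * (cK B : ℝ) ^ 2) := by (clear * - hB hg0 hK0; positivity)
  linarith only [this]

theorem ce_nonneg (hG : Good n B A) (i : Fin n) (e : Fin (n ^ 2)) (m : ℕ) : 0 ≤ ce A B i e m := by
  unfold ce
  have hB := hG.pos
  have hK0 : (0 : ℝ) < cK B := by rw [hKR]; positivity
  exact FF_nonneg (by positivity) (by (clear * -; positivity)) (by (clear * -; positivity))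

theorem ce_row (hG : Good n B A) (i : Fin n) (e : Fin (n ^ 2)) (L : ℕ) :
    ∑ m ∈ range L, ce A B i e m ≤ 5 * (B : ℝ) ^ 72 / ((cg B : ℝ) * (cK B : ℝ) ^ 2) := by
  have hB := hG.pos
  have hg0 : (0 : ℝ) < cg B := by rw [hgR]; positivity
  have hK0 : (0 : ℝ) < cK B := by rw [hKR]; positivity
  have hpt : ∀ m ∈ range L, ce A B i e m ≤ (2 * (1.01 * (B : ℝ) ^ 72) / (cK B : ℝ)) *
      (1 / (2 * (cg B : ℝ) * (kk (Kx B * (e.val + 1)) m : ℕ) + (cK B : ℝ)) ^ 2) := by
    intro m _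
    unfold ce
    refine FF_decay (by positivity) (by (clear * -; positivity)) hK0 ?_ (by (clear * -; positivity)) (by (clear * -; positivity)) ?_
    · have h1 := kk_le_abs' (Kx B * (e.val + 1)) m
      have e1 : (2 * (cg B : ℝ) * (kk (Kx B * (e.val + 1)) m : ℕ)) ^ 2 ≤
          ((cg B : ℝ) * (2 * (m : ℝ) + 1 - 2 * ((Kx B : ℝ) * ((e.val : ℝ) + 1)))) ^ 2 := by
        have e0 : (2 * (cg B : ℝ) * (kk (Kx B * (e.val + 1)) m : ℕ)) =
          (cg B : ℝ) * (2 * (kk (Kx B * (e.val + 1)) m : ℕ)) := by ring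
        rw [e0, mul_pow, mul_pow (cg B : ℝ)]
        apply mul_le_mul_of_nonneg_left _ (by (clear * - hg0; positivity))
        rw [← sq_abs (2 * (m : ℝ) + 1 - 2 * ((Kx B : ℝ) * ((e.val : ℝ) + 1)))]
        push_cast at h1
        exact pow_le_pow_left₀ (by (clear * -; positivity)) h1 2
      have e2 : (cK B : ℝ) ^ 2 ≤ ((cK B : ℝ) * ((i.val : ℝ) + 1)) ^ 2 := by
        apply pow_le_pow_left₀ hK0.le
        have : (0 : ℝ) ≤ i.val := Nat.cast_nonneg _
        nlinarith only []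
      linarith only [e1, e2]
    · rw [hVR]
      calc _ ≤ (1.001 * (B : ℝ) ^ 2) * (B : ℝ) ^ 70 :=
            mul_le_mul_of_nonneg_right (chH_le' hG i m) (by positivity)
        _ = 1.001 * (B : ℝ) ^ 72 := by ring
        _ ≤ _ := by have := pow_pos hB 72; linarith only [this]
  refine (sum_le_sum hpt).trans ?_
  rw [← mul_sum]
  refine (mul_le_mul_of_nonneg_left (sum_kk_le hG _ L) (by (clear * - hB hK0; positivity))).trans ?_
  have e : 2 * (1.01 * (B : ℝ) ^ 72) / (cK B : ℝ) * (2 / ((cg B : ℝ) * (cK B : ℝ))) =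
      4.04 * ((B : ℝ) ^ 72 / ((cg B : ℝ) * (cK B : ℝ) ^ 2)) := by
    field_simp
    ring
  have e2 : 5 * (B : ℝ) ^ 72 / ((cg B : ℝ) * (cK B : ℝ) ^ 2) =
      5 * ((B : ℝ) ^ 72 / ((cg B : ℝ) * (cK B : ℝ) ^ 2)) := by ring
  rw [e, e2]
  have : 0 < (B : ℝ) ^ 72 / ((cg B : ℝ) * (cK B : ℝ) ^ 2) := by positivity
  linarith only [this]

end Vale.Agent.P370.Chains
end

section

set_option exponentiation.threshold 10000

namespace Vale.Agent.P370.Chains

open Finset

variable {n B : ℕ} {A : Fin n → Fin (n ^ 2) → ℤ}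

theorem sum_symm_half (L : ℕ) (f : ℕ → ℕ → ℝ) (hs : ∀ m m', f m m' = f m' m)
    (h0 : ∀ m, f m m = 0) :
    ∑ m ∈ range L, ∑ m' ∈ range L, f m m' =
      2 * ∑ m ∈ range L, ∑ m' ∈ range L, (if m < m' then f m m' else 0) := by
  have h1 : ∀ m m', f m m' = (if m < m' then f m m' else 0) + (if m' < m then f m' m else 0) := by
    intro m m'
    rcases lt_trichotomy m m' with h | h | h
    · rw [if_pos h, if_neg (by omega), add_zero]
    · subst h
      simp [h0]
    · rw [if_neg (by omega), if_pos h, zero_add, hs]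
  have h2 : ∑ m ∈ range L, ∑ m' ∈ range L, f m m' =
      (∑ m ∈ range L, ∑ m' ∈ range L, (if m < m' then f m m' else 0)) +
      ∑ m ∈ range L, ∑ m' ∈ range L, (if m' < m then f m' m else 0) := by
    rw [← sum_add_distrib]
    refine sum_congr rfl (fun m _ => ?_)
    rw [← sum_add_distrib]
    exact sum_congr rfl (fun m' _ => h1 m m')
  rw [h2]
  have h3 : ∑ m ∈ range L, ∑ m' ∈ range L, (if m' < m then f m' m else 0) =
      ∑ m ∈ range L, ∑ m' ∈ range L, (if m < m' then f m m' else 0) := by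
    rw [sum_comm]
  rw [h3]
  ring

theorem CL_pos (hG : Good n B A) : 0 < CL n B := by
  unfold CL
  have := Kx_pos hG
  positivity

theorem pm_mul_self {x : ℝ} (h : x = 1 ∨ x = -1) : x * x = 1 := by
  rcases h with h | h <;> rw [h] <;> norm_num

theorem pm_mul {x y : ℝ} (hx : x = 1 ∨ x = -1) (hy : y = 1 ∨ y = -1) :
    x * y = 1 ∨ x * y = -1 := by
  rcases hx with hx | hx <;> rcases hy with hy | hy <;> rw [hx, hy] <;> norm_num

theorem pm_sub_bound {x y z w : ℝ} (hx : x = 1 ∨ x = -1) (hy : y = 1 ∨ y = -1)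
    (hz : z = 1 ∨ z = -1) (hw : w = 1 ∨ w = -1) : -2 ≤ x * y - z * w := by
  rcases hx with hx | hx <;> rcases hy with hy | hy <;> rcases hz with hz | hz <;>
    rcases hw with hw | hw <;> rw [hx, hy, hz, hw] <;> norm_num

theorem cc_symm (i : Fin n) (m m' : ℕ) : cc A B i i m m' = cc A B i i m' m := by
  unfold cc
  rw [FF_comm]
  congr 1
  ring

/-- TASK B3: every configuration is beaten by a rigid one. -/
theorem rigid (hG : Good n B A) (s : Site n B → ℝ)
    (hs : ∀ a, s a = 1 ∨ s a = -1) :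
    ∃ t : Fin n ⊕ Fin (n ^ 2) → ℝ, (∀ w, t w = 1 ∨ t w = -1) ∧
      isingE A (fun a : Site n B => t (wire a) * sg a) ≤ isingE A s := by
  classical
  have hL := CL_pos hG
  have hB := hG.pos
  have hg0 : (0 : ℝ) < cg B := by rw [hgR]; positivity
  have hK0 : (0 : ℝ) < cK B := by rw [hKR]; positivity
  set t : Fin n ⊕ Fin (n ^ 2) → ℝ := Sum.elim (fun i => s (Sum.inl (i, ⟨0, hL⟩)))
    (fun e => s (Sum.inr e)) with ht
  have ht1 : ∀ w, t w = 1 ∨ t w = -1 := by
    rintro (i | e)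
    · exact hs _
    · exact hs _
  refine ⟨t, ht1, ?_⟩
  set r : Site n B → ℝ := fun a => t (wire a) * sg a with hr
  have hsg1 : ∀ m : ℕ, ((-1 : ℝ) ^ m = 1 ∨ (-1 : ℝ) ^ m = -1) := fun m => neg_one_pow_eq_or ℝ m
  have hr1 : ∀ a, r a = 1 ∨ r a = -1 := by
    rintro (⟨i, m⟩ | e)
    · exact pm_mul (ht1 _) (hsg1 _)
    · exact pm_mul (ht1 _) (Or.inl rfl)
  -- normalised chain variables
  set u : Fin n → ℕ → ℝ := fun i m =>
    if h : m < CL n B then s (Sum.inl (i, ⟨m, h⟩)) * ((-1) ^ m * t (Sum.inl i)) else 1 with hu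
  have hu1 : ∀ i m, u i m = 1 ∨ u i m = -1 := by
    intro i m
    simp only [hu]
    split_ifs with h
    · exact pm_mul (hs _) (pm_mul (hsg1 _) (ht1 _))
    · left; rfl
  have hsu : ∀ (i : Fin n) (m : Fin (CL n B)),
      s (Sum.inl (i, m)) = u i m.val * (t (Sum.inl i) * (-1) ^ m.val) := by
    intro i m
    simp only [hu, m.isLt, dif_pos]
    have h1 := pm_mul_self (hsg1 m.val)
    have h2 := pm_mul_self (ht1 (Sum.inl i))
    calc s (Sum.inl (i, m)) = s (Sum.inl (i, m)) * ((-1) ^ m.val * (-1) ^ m.val) *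
          (t (Sum.inl i) * t (Sum.inl i)) := by rw [h1, h2]; ring
      _ = _ := by ring
  have hru : ∀ (i : Fin n) (m : Fin (CL n B)),
      r (Sum.inl (i, m)) = t (Sum.inl i) * (-1) ^ m.val := fun i m => rfl
  have hcell : ∀ e : Fin (n ^ 2), r (Sum.inr e) = s (Sum.inr e) := by
    intro e
    exact mul_one (s (Sum.inr e))
  have hu0 : ∀ i, u i 0 = 1 := by
    intro i
    simp only [hu, hL, dif_pos, pow_zero, one_mul]
    exact pm_mul_self (hs _)
  set W : ℝ := ∑ i : Fin n, ∑ p ∈ range (CL n B - 1), (1 - u i p * u i (p + 1)) with hW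
  have hWterm : ∀ i p, (1 - u i p * u i (p + 1)) = 0 ∨ (1 - u i p * u i (p + 1)) = 2 := by
    intro i p
    rcases hu1 i p with h | h <;> rcases hu1 i (p + 1) with h' | h' <;> rw [h, h'] <;> norm_num
  -- dichotomy
  by_cases hall : ∀ i, ∀ p ∈ range (CL n B - 1), (1 - u i p * u i (p + 1)) = 0
  · -- no wall at all: `s = r`
    have hconst : ∀ i m, m < CL n B → u i m = 1 := by
      intro i m
      induction m with
      | zero => intro _; exact hu0 i
      | succ m ih =>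
        intro hm
        have h1 := ih (by omega)
        have h2 := hall i m (mem_range.mpr (by omega))
        rw [h1] at h2
        linarith only [h2]
    have hsr : s = r := by
      funext a
      rcases a with ⟨i, m⟩ | e
      · rw [hsu, hru, hconst i m.val m.isLt, one_mul]
      · rw [hcell]
    rw [← hsr]
  · push Not at hall
    obtain ⟨i0, p0, hp0, hne⟩ := hall
    have hW2 : 2 ≤ W := by
      have h2 : (1 - u i0 p0 * u i0 (p0 + 1)) = 2 := (hWterm i0 p0).resolve_left hne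
      have hnn : ∀ i p, 0 ≤ (1 - u i p * u i (p + 1)) := fun i p => wall_nonneg (u i) (hu1 i) p
      calc (2 : ℝ) = (1 - u i0 p0 * u i0 (p0 + 1)) := h2.symm
        _ ≤ ∑ p ∈ range (CL n B - 1), (1 - u i0 p * u i0 (p + 1)) :=
            single_le_sum (f := fun p => (1 - u i0 p * u i0 (p + 1))) (fun p _ => hnn i0 p) hp0
        _ ≤ W := single_le_sum (f := fun i => ∑ p ∈ range (CL n B - 1), (1 - u i p * u i (p + 1)))
            (fun i _ => sum_nonneg (fun p _ => hnn i p)) (mem_univ i0)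
    -- energy difference
    set κ : ℝ := 0.2 * ((B : ℝ) ^ 4 / (8 * (cg B : ℝ) ^ 3)) with hκ
    set bc : ℝ := 5 * (B : ℝ) ^ 4 / ((cg B : ℝ) * (cK B : ℝ) ^ 2) with hbc
    set be : ℝ := 5 * (B : ℝ) ^ 72 / ((cg B : ℝ) * (cK B : ℝ) ^ 2) with hbe
    have hκ0 : 0 < κ := by (clear * - hB hg0; positivity)
    have hbc0 : 0 < bc := by (clear * - hB hg0 hK0; positivity)
    have hbe0 : 0 < be := by (clear * - hB hg0 hK0; positivity)
    have hdiff : isingE A s - isingE A r = (1 / 2) * ∑ a : Site n B, ∑ b,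
        J A a b * (s a * s b - r a * r b) := by
      unfold isingE
      rw [← mul_sub, ← sum_sub_distrib]
      congr 1
      refine sum_congr rfl (fun a _ => ?_)
      rw [← sum_sub_distrib]
      refine sum_congr rfl (fun b _ => ?_)
      ring
    rw [double_sum_split] at hdiff
    -- part 4 vanishes
    have h4 : (∑ e : Fin (n ^ 2), ∑ e' : Fin (n ^ 2), J A (Sum.inr e : Site n B) (Sum.inr e') *
        (s (Sum.inr e) * s (Sum.inr e') - r (Sum.inr e) * r (Sum.inr e'))) = 0 := by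
      refine sum_eq_zero (fun e _ => sum_eq_zero (fun e' _ => ?_))
      rw [hcell, hcell, sub_self, mul_zero]
    -- parts 2 and 3
    have h2 : -(2 * ((n : ℝ) * ((n : ℝ) ^ 2 * be))) ≤ (∑ i : Fin n, ∑ e : Fin (n ^ 2),
        ∑ m : Fin (CL n B), J A (Sum.inl (i, m) : Site n B) (Sum.inr e) *
        (s (Sum.inl (i, m)) * s (Sum.inr e) - r (Sum.inl (i, m)) * r (Sum.inr e))) := by
      have hin : ∀ (i : Fin n) (e : Fin (n ^ 2)), -(2 * be) ≤
          ∑ m : Fin (CL n B), J A (Sum.inl (i, m) : Site n B) (Sum.inr e) *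
        (s (Sum.inl (i, m)) * s (Sum.inr e) - r (Sum.inl (i, m)) * r (Sum.inr e)) := by
        intro i e
        have h1 : ∀ m : Fin (CL n B), -2 * ce A B i e m.val ≤
            J A (Sum.inl (i, m) : Site n B) (Sum.inr e) *
            (s (Sum.inl (i, m)) * s (Sum.inr e) - r (Sum.inl (i, m)) * r (Sum.inr e)) := by
          intro m
          rw [J_inl_inr]
          have := pm_sub_bound (hs (Sum.inl (i, m))) (hs (Sum.inr e)) (hr1 (Sum.inl (i, m)))
            (hr1 (Sum.inr e))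
          have h0 := ce_nonneg hG i e m.val
          nlinarith only [this, h0]
        have h3 : ∑ m : Fin (CL n B), ce A B i e m.val ≤ be := by
          rw [Fin.sum_univ_eq_sum_range (fun m => ce A B i e m) (CL n B)]
          exact ce_row hG i e (CL n B)
        calc -(2 * be) ≤ -2 * ∑ m : Fin (CL n B), ce A B i e m.val := by linarith only [h3]
          _ = ∑ m : Fin (CL n B), -2 * ce A B i e m.val := by rw [mul_sum]
          _ ≤ _ := sum_le_sum (fun m _ => h1 m)
      calc -(2 * ((n : ℝ) * ((n : ℝ) ^ 2 * be))) =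
            ∑ i : Fin n, ∑ e : Fin (n ^ 2), -(2 * be) := by
            simp only [sum_neg_distrib, sum_const, card_univ, Fintype.card_fin, nsmul_eq_mul, Nat.cast_pow, neg_inj]; ring
        _ ≤ _ := sum_le_sum (fun i _ => sum_le_sum (fun e _ => hin i e))
    have h3 : -(2 * ((n : ℝ) * ((n : ℝ) ^ 2 * be))) ≤ (∑ i : Fin n, ∑ e : Fin (n ^ 2),
        ∑ m : Fin (CL n B), J A (Sum.inr e) (Sum.inl (i, m) : Site n B) *
        (s (Sum.inr e) * s (Sum.inl (i, m)) - r (Sum.inr e) * r (Sum.inl (i, m)))) := by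
      refine h2.trans (le_of_eq ?_)
      refine sum_congr rfl (fun i _ => sum_congr rfl (fun e _ => sum_congr rfl (fun m _ => ?_)))
      rw [J_symm]
      ring
    -- part 1
    have h1 : 2 * κ * W - 2 * ((n : ℝ) * ((n : ℝ) * ((CL n B : ℝ) * bc))) ≤
        (∑ i : Fin n, ∑ i' : Fin n, ∑ m : Fin (CL n B), ∑ m' : Fin (CL n B),
        J A (Sum.inl (i, m) : Site n B) (Sum.inl (i', m')) *
        (s (Sum.inl (i, m)) * s (Sum.inl (i', m')) -
          r (Sum.inl (i, m)) * r (Sum.inl (i', m')))) := by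
      have hoff : ∀ i i' : Fin n, i ≠ i' → -(2 * ((CL n B : ℝ) * bc)) ≤
          ∑ m : Fin (CL n B), ∑ m' : Fin (CL n B),
          J A (Sum.inl (i, m) : Site n B) (Sum.inl (i', m')) *
          (s (Sum.inl (i, m)) * s (Sum.inl (i', m')) -
          r (Sum.inl (i, m)) * r (Sum.inl (i', m'))) := by
        intro i i' hii
        have hin : ∀ m : Fin (CL n B), -(2 * bc) ≤ ∑ m' : Fin (CL n B),
          J A (Sum.inl (i, m) : Site n B) (Sum.inl (i', m')) *
          (s (Sum.inl (i, m)) * s (Sum.inl (i', m')) -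
          r (Sum.inl (i, m)) * r (Sum.inl (i', m'))) := by
          intro m
          have h1 : ∀ m' : Fin (CL n B), -2 * cc A B i i' m.val m'.val ≤
              J A (Sum.inl (i, m) : Site n B) (Sum.inl (i', m')) *
              (s (Sum.inl (i, m)) * s (Sum.inl (i', m')) -
              r (Sum.inl (i, m)) * r (Sum.inl (i', m'))) := by
            intro m'
            rw [J_inl_inl, if_neg (fun h => hii h.1)]
            have := pm_sub_bound (hs (Sum.inl (i, m))) (hs (Sum.inl (i', m')))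
              (hr1 (Sum.inl (i, m))) (hr1 (Sum.inl (i', m')))
            have h0 := cc_nonneg hG i i' m.val m'.val (Or.inl hii)
            linarith only [mul_nonneg_of_nonpos_of_nonpos (Mathlib.Tactic.Linarith.sub_nonpos_of_le this) (Mathlib.Tactic.Linarith.sub_nonpos_of_le h0)]
          have h3 : ∑ m' : Fin (CL n B), cc A B i i' m.val m'.val ≤ bc := by
            rw [Fin.sum_univ_eq_sum_range (fun m' => cc A B i i' m.val m') (CL n B)]
            exact cc_row hG hii m.val (CL n B)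
          calc -(2 * bc) ≤ -2 * ∑ m' : Fin (CL n B), cc A B i i' m.val m'.val := by linarith only [h3]
            _ = ∑ m' : Fin (CL n B), -2 * cc A B i i' m.val m'.val := by rw [mul_sum]
            _ ≤ _ := sum_le_sum (fun m' _ => h1 m')
        calc -(2 * ((CL n B : ℝ) * bc)) = ∑ m : Fin (CL n B), -(2 * bc) := by simp only [sum_neg_distrib, sum_const, card_univ, Fintype.card_fin, nsmul_eq_mul, neg_inj]; ring
          _ ≤ _ := sum_le_sum (fun m _ => hin m)
      have hdiag : ∀ i : Fin n,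
          2 * κ * ∑ p ∈ range (CL n B - 1), (1 - u i p * u i (p + 1)) ≤
          ∑ m : Fin (CL n B), ∑ m' : Fin (CL n B),
          J A (Sum.inl (i, m) : Site n B) (Sum.inl (i, m')) *
          (s (Sum.inl (i, m)) * s (Sum.inl (i, m')) -
          r (Sum.inl (i, m)) * r (Sum.inl (i, m'))) := by
        intro i
        -- rewrite in terms of naturals
        set f : ℕ → ℕ → ℝ := fun m m' => if m = m' then 0 else
          cc A B i i m m' * ((-1) ^ (m + m') * (u i m * u i m' - 1)) with hf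
        have e1 : ∑ m : Fin (CL n B), ∑ m' : Fin (CL n B),
          J A (Sum.inl (i, m) : Site n B) (Sum.inl (i, m')) *
          (s (Sum.inl (i, m)) * s (Sum.inl (i, m')) -
          r (Sum.inl (i, m)) * r (Sum.inl (i, m'))) =
          ∑ m ∈ range (CL n B), ∑ m' ∈ range (CL n B), f m m' := by
          rw [← Fin.sum_univ_eq_sum_range (fun m => ∑ m' ∈ range (CL n B), f m m') (CL n B)]
          refine sum_congr rfl (fun m _ => ?_)
          rw [← Fin.sum_univ_eq_sum_range (fun m' => f m.val m') (CL n B)]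
          refine sum_congr rfl (fun m' _ => ?_)
          rw [J_inl_inl]
          by_cases hmm : m = m'
          · subst hmm
            simp only [and_self, ↓reduceIte, zero_mul, hf]
          · have hmv : m.val ≠ m'.val := fun h => hmm (Fin.ext h)
            simp only [hf]
            rw [if_neg (fun h => hmm h.2), if_neg hmv, hsu, hsu, hru, hru]
            have ht2 := pm_mul_self (ht1 (Sum.inl i))
            have e : u i m.val * (t (Sum.inl i) * (-1) ^ m.val) *
                (u i m'.val * (t (Sum.inl i) * (-1) ^ m'.val)) -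
                t (Sum.inl i) * (-1) ^ m.val * (t (Sum.inl i) * (-1) ^ m'.val) =
                (t (Sum.inl i) * t (Sum.inl i)) *
                ((-1) ^ (m.val + m'.val) * (u i m.val * u i m'.val - 1)) := by
              rw [pow_add]; ring
            rw [e, ht2, one_mul]
        rw [e1, sum_symm_half (CL n B) f (by
          intro m m'
          simp only [hf]
          by_cases h : m = m'
          · rw [if_pos h, if_pos h.symm]
          · rw [if_neg h, if_neg (fun h' => h h'.symm), cc_symm, add_comm m m',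
              mul_comm (u i m) (u i m')]) (by intro m; simp only [hf, ↓reduceIte])]
        have e2 : ∑ m ∈ range (CL n B), ∑ m' ∈ range (CL n B), (if m < m' then f m m' else 0) =
            ∑ m ∈ range (CL n B), ∑ m' ∈ range (CL n B), (if m < m' then
              (if m = m' then 0 else cc A B i i m m') *
                ((-1) ^ (m + m') * (u i m * u i m' - 1)) else 0) := by
          refine sum_congr rfl (fun m _ => sum_congr rfl (fun m' _ => ?_))
          by_cases h : m < m'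
          · rw [if_pos h, if_pos h]
            simp only [hf]
            rw [if_neg (by (clear * - h; omega)), if_neg (by omega)]
          · rw [if_neg h, if_neg h]
        rw [e2]
        have h5 := seq_lemma (CL n B) (fun m m' => if m = m' then 0 else cc A B i i m m') (by
          intro m m'
          by_cases h : m = m'
          · simp [h]
          · simp only [h, if_false]
            exact cc_nonneg hG i i m m' (Or.inr h)) (u i) (hu1 i)
        refine le_trans ?_ (mul_le_mul_of_nonneg_left h5 (by norm_num : (0 : ℝ) ≤ 2))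
        rw [mul_assoc]
        refine mul_le_mul_of_nonneg_left ?_ (by norm_num)
        rw [mul_sum]
        refine sum_le_sum (fun p _ => ?_)
        rw [mul_comm κ]
        refine mul_le_mul_of_nonneg_left ?_ (wall_nonneg (u i) (hu1 i) p)
        have h6 := wall_cost hG i p (CL n B)
        rw [← hκ] at h6
        refine h6.trans (le_of_eq ?_)
        have e7 : (if p = p + 1 then (0 : ℝ) else cc A B i i p (p + 1)) = cc A B i i p (p + 1) :=
          if_neg (by (clear * -; omega))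
        rw [e7]
        congr 1
        refine sum_congr rfl (fun m _ => sum_congr rfl (fun m' _ => ?_))
        by_cases h : m + 2 ≤ m'
        · rw [if_pos h, if_pos h, if_neg (by (clear * - h; omega))]
        · rw [if_neg h, if_neg h]
      -- combine
      have hrow : ∀ i : Fin n, 2 * κ * (∑ p ∈ range (CL n B - 1), (1 - u i p * u i (p + 1))) -
          2 * ((n : ℝ) * ((CL n B : ℝ) * bc)) ≤
          ∑ i' : Fin n, ∑ m : Fin (CL n B), ∑ m' : Fin (CL n B),
          J A (Sum.inl (i, m) : Site n B) (Sum.inl (i', m')) *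
          (s (Sum.inl (i, m)) * s (Sum.inl (i', m')) -
          r (Sum.inl (i, m)) * r (Sum.inl (i', m'))) := by
        intro i
        rw [← add_sum_erase univ _ (mem_univ i)]
        have h7 : -(2 * ((n : ℝ) * ((CL n B : ℝ) * bc))) ≤
            ∑ i' ∈ univ.erase i, ∑ m : Fin (CL n B), ∑ m' : Fin (CL n B),
          J A (Sum.inl (i, m) : Site n B) (Sum.inl (i', m')) *
          (s (Sum.inl (i, m)) * s (Sum.inl (i', m')) -
          r (Sum.inl (i, m)) * r (Sum.inl (i', m'))) := by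
          calc -(2 * ((n : ℝ) * ((CL n B : ℝ) * bc)))
              ≤ ∑ i' ∈ univ.erase i, -(2 * ((CL n B : ℝ) * bc)) := by
                rw [sum_const, card_erase_of_mem (mem_univ i), card_univ, Fintype.card_fin,
                  nsmul_eq_mul]
                have hn : ((n - 1 : ℕ) : ℝ) ≤ n := by exact_mod_cast Nat.sub_le n 1
                have hc0 : 0 ≤ (CL n B : ℝ) * bc := by positivity
                linarith only [mul_nonneg_of_nonpos_of_nonpos (Mathlib.Tactic.Linarith.sub_nonpos_of_le hn) (Mathlib.Tactic.Linarith.sub_nonpos_of_le hc0)]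
            _ ≤ _ := sum_le_sum (fun i' hi' => hoff i i' (ne_of_mem_erase hi').symm)
        have h8 := hdiag i
        linarith only [h7, h8]
      calc 2 * κ * W - 2 * ((n : ℝ) * ((n : ℝ) * ((CL n B : ℝ) * bc)))
          = ∑ i : Fin n, (2 * κ * (∑ p ∈ range (CL n B - 1), (1 - u i p * u i (p + 1))) -
          2 * ((n : ℝ) * ((CL n B : ℝ) * bc))) := by
            rw [sum_sub_distrib, ← mul_sum, ← hW]
            simp only [sum_const, card_univ, Fintype.card_fin, nsmul_eq_mul, sub_right_inj]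
            ring
        _ ≤ _ := sum_le_sum (fun i _ => hrow i)
    -- numerics
    have hn2 : (n : ℝ) ^ 2 ≤ B := by
      have h := hG.sq_le
      have : n ^ 2 ≤ B := by omega
      exact_mod_cast this
    have hn3 : (n : ℝ) ^ 3 ≤ B := by exact_mod_cast hG.cube_le
    have hCL : (CL n B : ℝ) ≤ (B : ℝ) ^ 62 := by exact_mod_cast CL_le hG
    have hnum : 2 * ((n : ℝ) * ((n : ℝ) * ((CL n B : ℝ) * bc))) +
        2 * (2 * ((n : ℝ) * ((n : ℝ) ^ 2 * be))) ≤ 4 * κ := by
      have e1 : (n : ℝ) * ((n : ℝ) * ((CL n B : ℝ) * bc)) ≤ B * ((B : ℝ) ^ 62 * bc) := by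
        calc _ = (n : ℝ) ^ 2 * ((CL n B : ℝ) * bc) := by ring
          _ ≤ B * ((B : ℝ) ^ 62 * bc) := by (clear * - hn2 hCL hB hg0 hK0 hL; gcongr)
      have e2 : (n : ℝ) * ((n : ℝ) ^ 2 * be) ≤ B * be := by
        calc _ = (n : ℝ) ^ 3 * be := by ring
          _ ≤ B * be := by (clear * - hn3 hB hg0 hK0; gcongr)
      have e3 : B * ((B : ℝ) ^ 62 * bc) ≤ 5 * (B : ℝ) / (cg B : ℝ) ^ 3 := by
        rw [hbc, hKR, hgR, mul_div_assoc', mul_div_assoc', div_le_div_iff₀ (by (clear * - hB; positivity))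
          (by (clear * - hB; positivity))]
        have : B * ((B : ℝ) ^ 62 * (5 * (B : ℝ) ^ 4)) * ((B : ℝ) ^ 200) ^ 3 =
            5 * (B : ℝ) ^ 667 := by ring
        rw [this]
        have h2 : 5 * (B : ℝ) * ((B : ℝ) ^ 200 * ((B : ℝ) ^ 236) ^ 2) = 5 * (B : ℝ) ^ 673 := by ring
        rw [h2]
        have := pow_le_pow_right₀ hG.one (show 667 ≤ 673 by norm_num)
        linarith only [this]
      have e4 : B * be ≤ 5 * (B : ℝ) / (cg B : ℝ) ^ 3 := by
        rw [hbe, hKR, hgR, mul_div_assoc', div_le_div_iff₀ (by (clear * - hB; positivity)) (by (clear * - hB; positivity))]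
        have : B * (5 * (B : ℝ) ^ 72) * ((B : ℝ) ^ 200) ^ 3 = 5 * (B : ℝ) ^ 673 := by ring
        rw [this]
        have h2 : 5 * (B : ℝ) * ((B : ℝ) ^ 200 * ((B : ℝ) ^ 236) ^ 2) = 5 * (B : ℝ) ^ 673 := by ring
        rw [h2]
      have e5 : 30 * (B : ℝ) / (cg B : ℝ) ^ 3 ≤ 4 * κ := by
        rw [hκ]
        have : 4 * (0.2 * ((B : ℝ) ^ 4 / (8 * (cg B : ℝ) ^ 3))) =
          0.1 * (B : ℝ) ^ 4 / (cg B : ℝ) ^ 3 := by
          field_simp
          norm_num
        rw [this]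
        apply div_le_div_of_nonneg_right _ (by (clear * - hg0; positivity))
        have hb := hG.bR
        have h3 : (2 : ℝ) ^ 20 ≤ (B : ℝ) ^ 3 := pow_ge_self_of hG (by norm_num)
        have : (B : ℝ) ^ 4 = (B : ℝ) ^ 3 * B := by ring
        rw [this]
        nlinarith only [h3]
      have e6 : 2 * (5 * (B : ℝ) / (cg B : ℝ) ^ 3) + 4 * (5 * (B : ℝ) / (cg B : ℝ) ^ 3) =
          30 * (B : ℝ) / (cg B : ℝ) ^ 3 := by ring
      linarith only [e1, e2, e3, e4, e5, e6]
    have hfin : 0 ≤ isingE A s - isingE A r := by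
      rw [hdiff, h4]
      have h9 : 4 * κ ≤ 2 * κ * W := by linarith only [mul_nonneg_of_nonpos_of_nonpos (Mathlib.Tactic.Linarith.sub_nonpos_of_le hW2) (le_of_lt (Mathlib.Tactic.Linarith.sub_neg_of_lt hκ0))]
      linarith only [h2, h3, h1, hnum, h9]
    linarith only [hfin]

end Vale.Agent.P370.Chains
end

section

/-!
From the circuit Hamiltonian to the couplings of the Heisenberg model: definitions (real numbers
and integers).
-/

namespace Vale.Agent.P370.H

section co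

variable {R : Type} [CommRing R]

/-- coefficient of the product of the directions `a` on the qubit `b` and `a'` on the qubit `b'`;
`pv P a` are the coordinates of the Pauli operator `P` in terms of the three directions -/
def co2 (pv : ℕ → ℕ → R) (L : List (Tm R)) (b b' a a' : ℕ) : R :=
  (L.map fun t => if t.P = 0 ∨ t.Q = 0 then 0
    else if t.i = b ∧ t.j = b' then t.c * (pv t.P a * pv t.Q a')
    else if t.i = b' ∧ t.j = b then t.c * (pv t.P a' * pv t.Q a) else 0).sum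

/-- coefficient of the direction `a` on the qubit `b` -/
def co1 (pv : ℕ → ℕ → R) (L : List (Tm R)) (b a : ℕ) : R :=
  (L.map fun t => if t.P ≠ 0 ∧ t.Q = 0 ∧ t.i = b then t.c * pv t.P a else 0).sum

/-- constant term -/
def co0 (L : List (Tm R)) : R := (L.map fun t => if t.P = 0 then t.c else 0).sum

end co

/-- coordinates of `Z` and `X` in terms of the directions `Z`, `-Z/2 + √3/2 X`, `-Z/2 - √3/2 X` -/
noncomputable def pvR (P a : ℕ) : ℝ :=
  if P = 2 then (if a = 0 then 2 / 3 else -(1 / 3))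
  else if P = 1 then (if a = 0 then 0 else if a = 1 then 1 / √3 else -(1 / √3))
  else 0

/-- couplings between blocks -/
noncomputable def tR {n : ℕ} (C : ℝ) (L : List (Tm ℝ)) (b b' : Fin n) (a a' : Fin 3) : ℝ :=
  1 / 2 * (1 - co2 pvR L b b' a a' / C)

/-- couplings in the blocks -/
noncomputable def dR {n : ℕ} (C s : ℝ) (L : List (Tm ℝ)) (b : Fin n) (a : Fin 3) : ℝ :=
  -(s ^ 3 / (12 * C)) * co1 pvR L b a

/-! ### integers; `r` is the size parameter, `s = r ^ 100`, `C = r ^ 66`, unit `r ^ 1000` -/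

/-- coordinates in the unit `3 u` -/
def pvI (u P a : ℕ) : ℤ :=
  if P = 2 then (if a = 0 then 2 * (u : ℤ) else -(u : ℤ))
  else if P = 1 then (if a = 0 then 0 else if a = 1 then (Nat.sqrt (3 * u ^ 2) : ℤ)
    else -(Nat.sqrt (3 * u ^ 2) : ℤ))
  else 0

/-- cosine and sine in the unit `u` -/
def trI (u a : ℕ) : ℤ × ℤ :=
  if a = 1 then ((Nat.sqrt ((2 * u ^ 2 + Nat.sqrt (2 * u ^ 4)) / 4) : ℤ),
    (Nat.sqrt ((2 * u ^ 2 - Nat.sqrt (2 * u ^ 4)) / 4) : ℤ))
  else ((Nat.sqrt (u ^ 2 / 2) : ℤ), (Nat.sqrt (u ^ 2 / 2) : ℤ))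

/-- the Hamiltonian in the unit `r ^ 1000` -/
def hamI (N m : ℕ) (rs : List Rnd) : List (Tm ℤ) :=
  ham N m rs ((rr N rs.length : ℤ) ^ 1000) (trI (rr N rs.length ^ 1000))

/-- coupling between blocks, times `s ^ 6`, rounded -/
def fI (r : ℕ) (L : List (Tm ℤ)) (b b' a a' : ℕ) : ℤ :=
  (r : ℤ) ^ 600 * (9 * (r : ℤ) ^ 3066 - co2 (pvI (r ^ 1000)) L b b' a a') / (18 * (r : ℤ) ^ 3066)

/-- coupling in the blocks, rounded -/
def dI (r : ℕ) (L : List (Tm ℤ)) (b a : ℕ) : ℤ :=
  -((r : ℤ) ^ 300 * co1 (pvI (r ^ 1000)) L b a) / (36 * (r : ℤ) ^ 2066)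

/-- weight of the pair of spins `i`, `j`; the spins of the block `b` are `4 b + g` -/
def wI (r : ℕ) (L : List (Tm ℤ)) (i j : ℕ) : ℤ :=
  if i / 4 = j / 4 then
    (r : ℤ) ^ 1000 + (if i % 4 = 0 ∧ j % 4 ≠ 0 then dI r L (i / 4) (j % 4 - 1) else 0) +
      (if j % 4 = 0 ∧ i % 4 ≠ 0 then dI r L (i / 4) (i % 4 - 1) else 0)
  else if i % 4 ≠ 0 ∧ j % 4 ≠ 0 then fI r L (i / 4) (j / 4) (i % 4 - 1) (j % 4 - 1)
  else if i % 4 = 0 ∧ j % 4 = 0 then (r : ℤ) ^ 700 else 0

/-- the weights -/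
def wN (r : ℕ) (L : List (Tm ℤ)) (i j : ℕ) : ℕ := min (wI r L i j).toNat (2 * r ^ 1000)

/-- threshold -/
def thrI (N m : ℕ) (rs : List Rnd) : ℤ :=
  (864 * (6 * ((rs.length : ℤ) + 1)) * (rr N rs.length : ℤ) ^ 1000 * ((N + tc rs.length : ℕ) : ℤ) +
      27 * (6 * ((rs.length : ℤ) + 1)) * ((rr N rs.length : ℤ) ^ 400 + (rr N rs.length : ℤ) ^ 300) *
        ((N + tc rs.length : ℕ) : ℤ) * (((N + tc rs.length : ℕ) : ℤ) - 1) +
      24 * (rr N rs.length : ℤ) ^ 234 * (6 * ((rs.length : ℤ) + 1)) *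
        co0 (ham N m rs (1 : ℤ) (fun _ => (0, 0))) -
      88 * (rr N rs.length : ℤ) ^ 234) /
    (144 * (6 * ((rs.length : ℤ) + 1)))

/-! ### the output of the reduction -/

/-- the word `1^a 0 1^b 0 ...` of the list `a, b, ...` -/
def wordOf (l : List ℕ) : List Bool := l.flatMap fun v => List.replicate v true ++ [false]

/-- number of real qubits of the circuit -/
def zN (z : List Bool) : ℕ := cQubits z + 1

/-- number of spins -/
def zK (z : List Bool) : ℕ := (zN z + tc (rnds z).length) * 4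

/-- weights -/
def zW (z : List Bool) (i j : ℕ) : ℕ :=
  wN (rr (zN z) (rnds z).length) (hamI (zN z) (cWitness z) (rnds z)) i j

/-- threshold -/
def zA (z : List Bool) : ℕ := (thrI (zN z) (cWitness z) (rnds z)).toNat

/-- the instance of the Heisenberg model -/
def outW (z : List Bool) : List Bool :=
  wordOf ([zK z, zA z] ++ (List.range (zK z * zK z)).map fun t => zW z (t / zK z) (t % zK z))

end Vale.Agent.P370.H
end

section

/-!
Couplings of the Heisenberg model: the real numbers which the integers approximate.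
-/

namespace Vale.Agent.P370.H

/-- `mm` (spins `4 b + g`) approximates the couplings of the circuit -/
def CloseW (N m : ℕ) (rs : List Rnd) (mm : ℕ → ℕ → ℕ) : Prop :=
  ∀ p q : Fin (N + tc rs.length) × Fin 4, p ≠ q →
    |(mm (4 * (p.1 : ℕ) + (p.2 : ℕ)) (4 * (q.1 : ℕ) + (q.2 : ℕ)) : ℝ) -
      jw ((rr N rs.length : ℝ) ^ 100)
        (tR ((rr N rs.length : ℝ) ^ 66) (ham N m rs (1 : ℝ) trR))
        (dR ((rr N rs.length : ℝ) ^ 66) ((rr N rs.length : ℝ) ^ 100) (ham N m rs (1 : ℝ) trR))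
        p q| ≤ 3

/-- minus the middle of the energies of yes and no instances -/
noncomputable def midA (N m : ℕ) (rs : List Rnd) : ℝ :=
  6 * (rr N rs.length : ℝ) ^ 1000 * ((N + tc rs.length : ℕ) : ℝ) +
    3 / 16 * ((rr N rs.length : ℝ) ^ 400 + (rr N rs.length : ℝ) ^ 300) *
      ((N + tc rs.length : ℕ) : ℝ) * (((N + tc rs.length : ℕ) : ℝ) - 1) -
    (rr N rs.length : ℝ) ^ 234 / 6 *
      (11 / (18 * ((rs.length : ℝ) + 1)) - co0 (ham N m rs (1 : ℝ) trR))

end Vale.Agent.P370.H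
end

section
set_option linter.all false

/-!
The integers approximate the real couplings (H10).
-/

namespace Vale.Agent.P370.H

/-! ### square roots -/

theorem apx_sqrt (B : ℕ) (Y : ℝ) (hY : 0 ≤ Y) (h : |(B : ℝ) - Y| ≤ 2) :
    |(Nat.sqrt B : ℝ) - √Y| ≤ 3 := by
  have h1 : (Nat.sqrt B : ℝ) ^ 2 ≤ B := by exact_mod_cast Nat.sqrt_le' B
  have h2 : (B : ℝ) + 1 ≤ ((Nat.sqrt B : ℝ) + 1) ^ 2 := by
    exact_mod_cast Nat.succ_le_succ_sqrt' B
  obtain ⟨h3, h4⟩ := abs_le.1 h
  have h5 : (0 : ℝ) ≤ Nat.sqrt B := Nat.cast_nonneg _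
  rw [abs_le]
  constructor
  · have : √Y ≤ (Nat.sqrt B : ℝ) + 3 := by
      rw [Real.sqrt_le_left (by (clear * -; positivity))]
      linarith
    linarith only [this]
  · have : (Nat.sqrt B : ℝ) - 3 ≤ √Y := by
      by_cases h6 : (Nat.sqrt B : ℝ) ≤ 3
      · linarith only [h6, Real.sqrt_nonneg Y]
      · apply Real.le_sqrt_of_sq_le
        linarith only [h1, h4, h6]
    linarith only [this]

theorem apx_div4 (X : ℕ) : |((X / 4 : ℕ) : ℝ) - (X : ℝ) / 4| ≤ 1 := by
  have h1 : (((X / 4 : ℕ) : ℝ)) * 4 ≤ X := by exact_mod_cast Nat.div_mul_le_self X 4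
  have h2 : (X : ℝ) ≤ ((X / 4 : ℕ) : ℝ) * 4 + 4 := by
    have : X ≤ (X / 4) * 4 + 4 := by (clear * -; omega)
    exact_mod_cast this
  rw [abs_le]
  constructor <;> linarith only [h1, h2]

theorem apx_div2 (X : ℕ) : |((X / 2 : ℕ) : ℝ) - (X : ℝ) / 2| ≤ 1 := by
  have h1 : (((X / 2 : ℕ) : ℝ)) * 2 ≤ X := by exact_mod_cast Nat.div_mul_le_self X 2
  have h2 : (X : ℝ) ≤ ((X / 2 : ℕ) : ℝ) * 2 + 2 := by
    have : X ≤ (X / 2) * 2 + 2 := by omega
    exact_mod_cast this
  rw [abs_le]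
  constructor <;> linarith

theorem apx_s2 (u : ℕ) : |(Nat.sqrt (2 * u ^ 4) : ℝ) - √2 * (u : ℝ) ^ 2| ≤ 3 := by
  have h := apx_sqrt (2 * u ^ 4) (2 * (u : ℝ) ^ 4) (by positivity) (by push_cast; simp)
  have h2 : √(2 * (u : ℝ) ^ 4) = √2 * (u : ℝ) ^ 2 := by
    rw [Real.sqrt_mul (by norm_num), show (u : ℝ) ^ 4 = ((u : ℝ) ^ 2) ^ 2 by ring,
      Real.sqrt_sq (by (clear * -; positivity))]
  rwa [h2] at h

theorem apx_s2_le (u : ℕ) : Nat.sqrt (2 * u ^ 4) ≤ 2 * u ^ 2 := by
  have : 2 * u ^ 4 ≤ (2 * u ^ 2) ^ 2 := by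
    have : 0 ≤ u ^ 4 := Nat.zero_le _
    linarith
  calc Nat.sqrt (2 * u ^ 4) ≤ Nat.sqrt ((2 * u ^ 2) ^ 2) := Nat.sqrt_le_sqrt this
    _ = 2 * u ^ 2 := Nat.sqrt_eq' _

theorem apx_cos (u : ℕ) :
    |(Nat.sqrt ((2 * u ^ 2 + Nat.sqrt (2 * u ^ 4)) / 4) : ℝ) - (u : ℝ) * Real.cos (Real.pi / 8)|
      ≤ 3 := by
  have h0 := abs_le.1 (apx_s2 u)
  have h1 := abs_le.1 (apx_div4 (2 * u ^ 2 + Nat.sqrt (2 * u ^ 4)))
  push_cast at h1
  have h2 : (0 : ℝ) ≤ 2 + √2 := by positivity
  have h := apx_sqrt ((2 * u ^ 2 + Nat.sqrt (2 * u ^ 4)) / 4) ((2 + √2) * ((u : ℝ) / 2) ^ 2)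
    (by (clear * -; (clear * -; positivity))) (by rw [abs_le]; constructor <;> linarith)
  rw [Real.sqrt_mul h2, Real.sqrt_sq (by (clear * -; positivity))] at h
  rw [Real.cos_pi_div_eight]
  rwa [show (u : ℝ) * (√(2 + √2) / 2) = √(2 + √2) * ((u : ℝ) / 2) by ring]

theorem apx_sin (u : ℕ) :
    |(Nat.sqrt ((2 * u ^ 2 - Nat.sqrt (2 * u ^ 4)) / 4) : ℝ) - (u : ℝ) * Real.sin (Real.pi / 8)|
      ≤ 3 := by
  have h0 := abs_le.1 (apx_s2 u)
  have h1 := abs_le.1 (apx_div4 (2 * u ^ 2 - Nat.sqrt (2 * u ^ 4)))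
  rw [Nat.cast_sub (apx_s2_le u)] at h1
  push_cast at h1
  have h3 : √2 ≤ 2 := by
    rw [Real.sqrt_le_left (by norm_num)]; norm_num
  have h2 : (0 : ℝ) ≤ 2 - √2 := by linarith only [h3]
  have h := apx_sqrt ((2 * u ^ 2 - Nat.sqrt (2 * u ^ 4)) / 4) ((2 - √2) * ((u : ℝ) / 2) ^ 2)
    (by (clear * - h3; (clear * - h3; positivity))) (by rw [abs_le]; constructor <;> linarith)
  rw [Real.sqrt_mul h2, Real.sqrt_sq (by (clear * -; positivity))] at h
  rw [Real.sin_pi_div_eight]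
  rwa [show (u : ℝ) * (√(2 - √2) / 2) = √(2 - √2) * ((u : ℝ) / 2) by ring]

theorem apx_half (u : ℕ) : |(Nat.sqrt (u ^ 2 / 2) : ℝ) - (u : ℝ) * (√2 / 2)| ≤ 3 := by
  have h1 := abs_le.1 (apx_div2 (u ^ 2))
  push_cast at h1
  have h := apx_sqrt (u ^ 2 / 2) (2 * ((u : ℝ) / 2) ^ 2)
    (by (clear * -; positivity)) (by rw [abs_le]; constructor <;> linarith)
  rw [Real.sqrt_mul (by norm_num), Real.sqrt_sq (by (clear * -; positivity))] at h
  rwa [show (u : ℝ) * (√2 / 2) = √2 * ((u : ℝ) / 2) by ring]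

theorem apx_tr (u a : ℕ) : |((trI u a).1 : ℝ) - (u : ℝ) * (trR a).1| ≤ 3 ∧
    |((trI u a).2 : ℝ) - (u : ℝ) * (trR a).2| ≤ 3 := by
  unfold trI trR ang
  by_cases h : a = 1
  · rw [if_pos h, if_pos h]
    exact ⟨by simpa only [Int.cast_natCast, Real.cos_pi_div_eight] using apx_cos u, by simpa only [Int.cast_natCast, Real.sin_pi_div_eight] using apx_sin u⟩
  · rw [if_neg h, if_neg h]
    simp only [Real.cos_pi_div_four, Real.sin_pi_div_four]
    exact ⟨by simpa only [Int.cast_natCast] using apx_half u, by simpa only [Int.cast_natCast] using apx_half u⟩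

theorem apx_trZ (a : ℕ) : |(((0 : ℤ)) : ℝ) - ((1 : ℤ) : ℝ) * (trR a).1| ≤ 3 ∧
    |(((0 : ℤ)) : ℝ) - ((1 : ℤ) : ℝ) * (trR a).2| ≤ 3 := by
  unfold trR
  have h1 := Real.abs_cos_le_one (ang a)
  have h2 := Real.abs_sin_le_one (ang a)
  constructor
  · simp only [Int.cast_zero, Int.cast_one, one_mul, zero_sub, abs_neg]
    (clear * - h1; linarith)
  · simp only [Int.cast_zero, Int.cast_one, one_mul, zero_sub, abs_neg]
    linarith only [h2]

/-! ### the coordinates of the Pauli operators -/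

theorem apx_s3 (u : ℕ) : |(Nat.sqrt (3 * u ^ 2) : ℝ) - 3 * (u : ℝ) * (1 / √3)| ≤ 3 := by
  have h := apx_sqrt (3 * u ^ 2) (3 * (u : ℝ) ^ 2) (by (clear * -; positivity)) (by push_cast; simp only [sub_self, abs_zero, Nat.ofNat_nonneg])
  have h3 : √3 * √3 = 3 := Real.mul_self_sqrt (by norm_num)
  have h4 : √3 ≠ 0 := by positivity
  have h2 : √(3 * (u : ℝ) ^ 2) = 3 * (u : ℝ) * (1 / √3) := by
    rw [Real.sqrt_mul (by norm_num), Real.sqrt_sq (by (clear * -; (clear * -; positivity)))]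
    field_simp
    linear_combination (u : ℝ) * h3
  rwa [h2] at h

theorem apx_s3_le (u : ℕ) : Nat.sqrt (3 * u ^ 2) ≤ 2 * u := by
  have : 3 * u ^ 2 ≤ (2 * u) ^ 2 := by
    have : 0 ≤ u ^ 2 := Nat.zero_le _
    nlinarith
  calc Nat.sqrt (3 * u ^ 2) ≤ Nat.sqrt ((2 * u) ^ 2) := Nat.sqrt_le_sqrt this
    _ = 2 * u := Nat.sqrt_eq' _

theorem apx_inv3 : 1 / √3 ≤ 2 / 3 := by
  have h : (3 : ℝ) / 2 ≤ √3 := by
    apply Real.le_sqrt_of_sq_le; (clear * -; norm_num)
  rw [div_le_div_iff₀ (by positivity) (by (clear * -; norm_num))]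
  linarith only [h]

theorem apx_pvR_abs (P a : ℕ) : |pvR P a| ≤ 2 / 3 := by
  have h := apx_inv3
  have h0 : 0 ≤ 1 / √3 := by (clear * -; positivity)
  unfold pvR
  split_ifs <;> rw [abs_le] <;> constructor <;> linarith

theorem apx_pvI_abs (u P a : ℕ) : |(pvI u P a : ℝ)| ≤ 2 * u := by
  have h : (Nat.sqrt (3 * u ^ 2) : ℝ) ≤ 2 * u := by exact_mod_cast apx_s3_le u
  have h0 : (0 : ℝ) ≤ (Nat.sqrt (3 * u ^ 2) : ℝ) := Nat.cast_nonneg _
  have hu : (0 : ℝ) ≤ (u : ℝ) := Nat.cast_nonneg _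
  unfold pvI
  split_ifs <;> rw [abs_le] <;> push_cast <;> constructor <;> linarith

theorem apx_pv (u P a : ℕ) : |(pvI u P a : ℝ) - 3 * u * pvR P a| ≤ 3 := by
  have h := apx_s3 u
  obtain ⟨h1, h2⟩ := abs_le.1 h
  unfold pvI pvR
  split_ifs <;> rw [abs_le] <;> push_cast <;> constructor <;> linarith


/-! ### the relation between the two Hamiltonians -/

/-- relation of a term with integer coefficient (unit `u`, error `K`) and a real term -/
def apxG (u K : ℝ) (x : Tm ℤ) (y : Tm ℝ) : Prop :=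
  x.P = y.P ∧ x.i = y.i ∧ x.Q = y.Q ∧ x.j = y.j ∧ |(x.c : ℝ) - u * y.c| ≤ K ∧
    (x.P = 0 → (x.c : ℝ) = u * y.c ∧ 0 ≤ x.c)

theorem apx_gE {u K : ℝ} (hK : 0 ≤ K) {c : ℤ} {c' : ℝ} (P i Q j : ℕ) (hc : (c : ℝ) = u * c')
    (h0 : P = 0 → 0 ≤ c) : apxG u K ⟨c, P, i, Q, j⟩ ⟨c', P, i, Q, j⟩ := by
  refine ⟨rfl, rfl, rfl, rfl, ?_, fun h => ⟨hc, h0 h⟩⟩
  simp only [hc, sub_self, abs_zero]
  exact hK

theorem apx_flatMap {α β γ : Type} {ρ : β → γ → Prop} (l : List α) (f : α → List β)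
    (g : α → List γ) (h : ∀ a, List.Forall₂ ρ (f a) (g a)) :
    List.Forall₂ ρ (l.flatMap f) (l.flatMap g) := by
  induction l with
  | nil => simp only [List.flatMap_nil]; exact List.Forall₂.nil
  | cons a l ih =>
    simp only [List.flatMap_cons]
    exact List.rel_append (h a) ih

theorem apx_projT {u K : ℝ} (hK : 0 ≤ K) (N Tc : ℕ) {c : ℤ} {c' : ℝ} (hc : (c : ℝ) = u * c')
    (h0 : 0 ≤ c) (t : ℕ) : List.Forall₂ (apxG u K) (projT N Tc c t) (projT N Tc c' t) := by
  have hn : ((-c : ℤ) : ℝ) = u * (-c') := by push_cast; rw [hc]; ring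
  unfold projT
  split_ifs
  · exact .cons (apx_gE hK _ _ _ _ hc fun _ => h0) (.cons (apx_gE hK _ _ _ _ hc (by simp only [OfNat.ofNat_ne_zero, IsEmpty.forall_iff])) .nil)
  · exact .cons (apx_gE hK _ _ _ _ hc fun _ => h0) (.cons (apx_gE hK _ _ _ _ hn (by simp only [OfNat.ofNat_ne_zero, Int.neg_nonneg, IsEmpty.forall_iff])) .nil)
  · exact .cons (apx_gE hK _ _ _ _ hc (by simp only [OfNat.ofNat_ne_zero, IsEmpty.forall_iff])) (.cons (apx_gE hK _ _ _ _ hn (by simp only [OfNat.ofNat_ne_zero, Int.neg_nonneg, IsEmpty.forall_iff])) .nil)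

theorem apx_hClock {u K : ℝ} (hK : 0 ≤ K) (N Tc : ℕ) {J : ℤ} {J' : ℝ} (hJ : (J : ℝ) = u * J')
    (h0 : 0 ≤ J) : List.Forall₂ (apxG u K) (hClock N Tc J) (hClock N Tc J') := by
  have h1 : ((2 * J : ℤ) : ℝ) = u * (2 * J') := by push_cast; rw [hJ]; ring
  have h2 : ((-(2 * J) : ℤ) : ℝ) = u * (-(2 * J')) := by push_cast; rw [hJ]; ring
  unfold hClock
  apply apx_flatMap
  intro t
  exact .cons (apx_gE hK _ _ _ _ h1 fun _ => by linarith only [h0]) (.cons (apx_gE hK _ _ _ _ h1 (by simp only [OfNat.ofNat_ne_zero, Order.lt_two_iff, zero_le_one, mul_nonneg_iff_of_pos_left, IsEmpty.forall_iff]))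
    (.cons (apx_gE hK _ _ _ _ h2 (by simp only [OfNat.ofNat_ne_zero, Int.neg_nonneg, IsEmpty.forall_iff])) (.cons (apx_gE hK _ _ _ _ h2 (by simp only [OfNat.ofNat_ne_zero, Int.neg_nonneg, IsEmpty.forall_iff])) .nil)))

theorem apx_hIn {u K : ℝ} (hK : 0 ≤ K) (N m : ℕ) {J : ℤ} {J' : ℝ} (hJ : (J : ℝ) = u * J')
    (h0 : 0 ≤ J) : List.Forall₂ (apxG u K) (hIn N m J) (hIn N m J') := by
  have h1 : ((2 * J : ℤ) : ℝ) = u * (2 * J') := by push_cast; rw [hJ]; ring
  have h2 : ((-(2 * J) : ℤ) : ℝ) = u * (-(2 * J')) := by push_cast; rw [hJ]; ring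
  unfold hIn
  apply apx_flatMap
  intro t
  exact .cons (apx_gE hK _ _ _ _ h1 fun _ => by linarith only [h0]) (.cons (apx_gE hK _ _ _ _ h2 (by simp only [OfNat.ofNat_ne_zero, Int.neg_nonneg, IsEmpty.forall_iff]))
    (.cons (apx_gE hK _ _ _ _ h1 (by simp only [OfNat.ofNat_ne_zero, Order.lt_two_iff, zero_le_one, mul_nonneg_iff_of_pos_left, IsEmpty.forall_iff])) (.cons (apx_gE hK _ _ _ _ h2 (by simp only [OfNat.ofNat_ne_zero, Int.neg_nonneg, IsEmpty.forall_iff])) .nil)))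

theorem apx_hOut {u K : ℝ} (hK : 0 ≤ K) (N Tc : ℕ) {J : ℤ} {J' : ℝ} (hJ : (J : ℝ) = u * J')
    (h0 : 0 ≤ J) : List.Forall₂ (apxG u K) (hOut N Tc J) (hOut N Tc J') := by
  have h1 : ((2 * J : ℤ) : ℝ) = u * (2 * J') := by push_cast; rw [hJ]; ring
  have h2 : ((-(2 * J) : ℤ) : ℝ) = u * (-(2 * J')) := by push_cast; rw [hJ]; ring
  unfold hOut
  exact .cons (apx_gE hK _ _ _ _ h1 fun _ => by linarith only [h0]) (.cons (apx_gE hK _ _ _ _ h1 (by simp only [OfNat.ofNat_ne_zero, Order.lt_two_iff, zero_le_one, mul_nonneg_iff_of_pos_left, IsEmpty.forall_iff]))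
    (.cons (apx_gE hK _ _ _ _ h2 (by simp only [OfNat.ofNat_ne_zero, Int.neg_nonneg, IsEmpty.forall_iff])) (.cons (apx_gE hK _ _ _ _ h2 (by simp only [OfNat.ofNat_ne_zero, Int.neg_nonneg, IsEmpty.forall_iff])) .nil)))

theorem apx_hCz {u K : ℝ} (hK : 0 ≤ K) (N : ℕ) (rs : List Rnd) {J : ℤ} {J' : ℝ}
    (hJ : (J : ℝ) = u * J') (h0 : 0 ≤ J) :
    List.Forall₂ (apxG u K) (hCz N rs J) (hCz N rs J') := by
  have h1 : ((-(4 * J) : ℤ) : ℝ) = u * (-(4 * J')) := by push_cast; rw [hJ]; ring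
  have h2 : ((-(6 * J) : ℤ) : ℝ) = u * (-(6 * J')) := by push_cast; rw [hJ]; ring
  have h3 : ((2 * J : ℤ) : ℝ) = u * (2 * J') := by push_cast; rw [hJ]; ring
  have h4 : ((4 * J : ℤ) : ℝ) = u * (4 * J') := by push_cast; rw [hJ]; ring
  have h5 : (0 : ℤ) ≤ 4 * J := by linarith only [h0]
  unfold hCz
  apply apx_flatMap
  intro l
  refine List.rel_append (List.rel_append (List.rel_append ?_ ?_) ?_) ?_
  · exact .cons (apx_gE hK _ _ _ _ h1 (by simp only [one_ne_zero, Int.neg_nonneg, IsEmpty.forall_iff])) (.cons (apx_gE hK _ _ _ _ h2 (by simp only [OfNat.ofNat_ne_zero, Int.neg_nonneg, IsEmpty.forall_iff]))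
      (.cons (apx_gE hK _ _ _ _ h2 (by simp only [OfNat.ofNat_ne_zero, Int.neg_nonneg, IsEmpty.forall_iff])) .nil))
  · exact apx_projT hK _ _ h4 h5 _
  · exact apx_projT hK _ _ h4 h5 _
  · exact .cons (apx_gE hK _ _ _ _ hJ (by simp only [one_ne_zero, IsEmpty.forall_iff])) (.cons (apx_gE hK _ _ _ _ hJ (by simp only [one_ne_zero, IsEmpty.forall_iff]))
      (.cons (apx_gE hK _ _ _ _ h3 (by simp)) (.cons (apx_gE hK _ _ _ _ hJ (by simp only [one_ne_zero, IsEmpty.forall_iff]))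
      (.cons (apx_gE hK _ _ _ _ hJ (by simp only [one_ne_zero, IsEmpty.forall_iff])) (.cons (apx_gE hK _ _ _ _ h3 (by simp only [one_ne_zero, Order.lt_two_iff, zero_le_one, mul_nonneg_iff_of_pos_left, IsEmpty.forall_iff])) .nil)))))

theorem apx_fineG (rs : List Rnd) (w : ℤ) (tr : ℕ → ℤ × ℤ)
    (htr : ∀ a, |((tr a).1 : ℝ) - (w : ℝ) * (trR a).1| ≤ 3 ∧
      |((tr a).2 : ℝ) - (w : ℝ) * (trR a).2| ≤ 3) (t : ℕ) :
    List.Forall₂ (fun (g : ℤ × ℕ × ℕ) (g' : ℝ × ℕ × ℕ) =>
      g.2 = g'.2 ∧ |(g.1 : ℝ) - (w : ℝ) * g'.1| ≤ 3) (fineG rs w tr t)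
      (fineG rs (1 : ℝ) trR t) := by
  have hw : |((w : ℤ) : ℝ) - (w : ℝ) * 1| ≤ 3 := by
    rw [mul_one, sub_self, abs_zero]; norm_num
  have ite' : ∀ {c : Prop} [Decidable c] {a b : List (ℤ × ℕ × ℕ)} {a' b' : List (ℝ × ℕ × ℕ)},
      List.Forall₂ (fun (g : ℤ × ℕ × ℕ) (g' : ℝ × ℕ × ℕ) =>
        g.2 = g'.2 ∧ |(g.1 : ℝ) - (w : ℝ) * g'.1| ≤ 3) a a' →
      List.Forall₂ (fun (g : ℤ × ℕ × ℕ) (g' : ℝ × ℕ × ℕ) =>
        g.2 = g'.2 ∧ |(g.1 : ℝ) - (w : ℝ) * g'.1| ≤ 3) b b' →
      List.Forall₂ (fun (g : ℤ × ℕ × ℕ) (g' : ℝ × ℕ × ℕ) =>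
        g.2 = g'.2 ∧ |(g.1 : ℝ) - (w : ℝ) * g'.1| ≤ 3) (if c then a else b) (if c then a' else b') := by
    intro c _ a b a' b' h1 h2
    by_cases hc : c
    · rw [if_pos hc, if_pos hc]; exact h1
    · rw [if_neg hc, if_neg hc]; exact h2
  have one : ∀ p : ℕ × ℕ, List.Forall₂ (fun (g : ℤ × ℕ × ℕ) (g' : ℝ × ℕ × ℕ) =>
      g.2 = g'.2 ∧ |(g.1 : ℝ) - (w : ℝ) * g'.1| ≤ 3) [(w, p)] [((1 : ℝ), p)] :=
    fun p => .cons ⟨rfl, hw⟩ .nil
  unfold fineG
  exact ite' (ite' (one _) (one _)) (ite' (ite' (one _) (one _)) (ite' (ite'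
    (.cons ⟨rfl, (htr _).1⟩ (.cons ⟨rfl, (htr _).2⟩ .nil)) (one _))
    (ite' (ite' (one _) (one _)) (ite' (one _) (one _)))))

theorem apx_hFine (N : ℕ) (rs : List Rnd) (w : ℤ) (hw : 0 ≤ w) (tr : ℕ → ℤ × ℤ)
    (htr : ∀ a, |((tr a).1 : ℝ) - (w : ℝ) * (trR a).1| ≤ 3 ∧
      |((tr a).2 : ℝ) - (w : ℝ) * (trR a).2| ≤ 3) (J : ℕ) :
    List.Forall₂ (apxG w (12 * J)) (hFine N rs w tr (J : ℤ)) (hFine N rs (1 : ℝ) trR (J : ℝ)) := by
  have hJ : (0 : ℝ) ≤ (J : ℝ) := Nat.cast_nonneg _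
  have hK : (0 : ℝ) ≤ 12 * (J : ℝ) := by (clear * -; positivity)
  have h1 : ((2 * (J : ℤ) * w : ℤ) : ℝ) = (w : ℝ) * (2 * (J : ℝ) * 1) := by push_cast; ring
  have h2 : 0 ≤ 2 * (J : ℤ) * w := by (clear * - hw; (clear * - hw; positivity))
  unfold hFine
  apply apx_flatMap
  intro t
  split_ifs with h3
  · exact .nil
  · refine List.rel_append (List.rel_append (apx_projT hK _ _ h1 h2 _)
      (apx_projT hK _ _ h1 h2 _)) ?_
    rw [List.forall₂_map_left_iff, List.forall₂_map_right_iff]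
    refine List.Forall₂.imp ?_ (apx_fineG rs w tr htr (t + 1))
    rintro ⟨g, P, i⟩ ⟨g', P', i'⟩ ⟨hg1, hg2⟩
    obtain ⟨rfl, rfl⟩ := Prod.mk.inj hg1
    have h4 : |((-(4 * (J : ℤ) * g) : ℤ) : ℝ) - (w : ℝ) * (-(4 * (J : ℝ) * g'))| ≤ 12 * J := by
      have : ((-(4 * (J : ℤ) * g) : ℤ) : ℝ) - (w : ℝ) * (-(4 * (J : ℝ) * g')) =
          -(4 * J) * ((g : ℝ) - w * g') := by push_cast; ring
      rw [this, abs_mul, abs_neg, abs_of_nonneg (by (clear * -; (clear * -; positivity)))]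
      nlinarith only [hg2]
    by_cases h5 : P = 0
    · simp only [h5, if_true]
      exact ⟨rfl, rfl, rfl, rfl, h4, fun h => absurd h one_ne_zero⟩
    · simp only [h5, if_false]
      exact ⟨rfl, rfl, rfl, rfl, h4, fun h => absurd h h5⟩

theorem apx_ham (N m : ℕ) (rs : List Rnd) (w : ℤ) (hw : 0 ≤ w) (tr : ℕ → ℤ × ℤ)
    (htr : ∀ a, |((tr a).1 : ℝ) - (w : ℝ) * (trR a).1| ≤ 3 ∧
      |((tr a).2 : ℝ) - (w : ℝ) * (trR a).2| ≤ 3) :
    List.Forall₂ (apxG w (12 * (rr N rs.length : ℝ) ^ 24)) (ham N m rs w tr)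
      (ham N m rs (1 : ℝ) trR) := by
  have hK : (0 : ℝ) ≤ 12 * (rr N rs.length : ℝ) ^ 24 := by (clear * -; positivity)
  unfold ham
  refine List.rel_append (List.rel_append (List.rel_append (List.rel_append ?_ ?_) ?_) ?_) ?_
  · exact apx_hClock hK _ _ (by push_cast; ring) (by (clear * - hw; positivity))
  · have := apx_hFine N rs w hw tr htr (rr N rs.length ^ 24)
    push_cast at this
    exact this
  · exact apx_hCz hK _ _ (by push_cast; ring) (by (clear * - hw; positivity))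
  · exact apx_hIn hK _ _ (by push_cast; ring) (by (clear * - hw; positivity))
  · exact apx_hOut hK _ _ (by push_cast; ring) (by positivity)

/-! ### the number of terms -/

theorem apx_len_flatMap {α β : Type} (l : List α) (f : α → List β) (k : ℕ)
    (h : ∀ a, (f a).length ≤ k) : (l.flatMap f).length ≤ l.length * k := by
  induction l with
  | nil => simp
  | cons a l ih =>
    simp only [List.flatMap_cons, List.length_append, List.length_cons]
    have := h a
    linarith only [ih, this]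

theorem apx_len_projT {R : Type} [CommRing R] (N Tc : ℕ) (c : R) (t : ℕ) :
    (projT N Tc c t).length ≤ 2 := by
  unfold projT
  split_ifs <;> simp only [List.length_cons, List.length_nil, zero_add, Nat.reduceAdd, Std.le_refl]

theorem apx_len_fineG {R : Type} [CommRing R] (rs : List Rnd) (w : R) (tr : ℕ → R × R) (t : ℕ) :
    (fineG rs w tr t).length ≤ 2 := by
  have ite' : ∀ {c : Prop} [Decidable c] {a b : List (R × ℕ × ℕ)}, a.length ≤ 2 →
      b.length ≤ 2 → (if c then a else b).length ≤ 2 := by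
    intro c _ a b h1 h2
    by_cases hc : c
    · rw [if_pos hc]; exact h1
    · rw [if_neg hc]; exact h2
  have one : ∀ x : R × ℕ × ℕ, [x].length ≤ 2 := fun x => Nat.le_succ 1
  unfold fineG
  exact ite' (ite' (one _) (one _)) (ite' (ite' (one _) (one _)) (ite' (ite'
    (le_refl 2) (one _)) (ite' (ite' (one _) (one _)) (ite' (one _) (one _)))))

theorem apx_len {R : Type} [CommRing R] (N m : ℕ) (rs : List Rnd) (w : R) (tr : ℕ → R × R) :
    (ham N m rs w tr).length ≤ 100 * rr N rs.length := by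
  have h1 : (hClock N (tc rs.length) ((rr N rs.length : R) ^ 64 * w)).length ≤
      (tc rs.length - 1) * 4 := by
    unfold hClock
    refine (apx_len_flatMap _ _ 4 fun t => by simp only [List.length_cons, List.length_nil, zero_add, Nat.reduceAdd, Std.le_refl]).trans (by simp only [List.length_range, Std.le_refl])
  have h2 : (hFine N rs w tr ((rr N rs.length : R) ^ 24)).length ≤ tc rs.length * 6 := by
    unfold hFine
    refine (apx_len_flatMap _ _ 6 fun t => ?_).trans (by simp)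
    split_ifs
    · simp only [List.length_nil, zero_le]
    · simp only [List.length_append, List.length_map]
      have a1 := apx_len_projT N (tc rs.length) (2 * (rr N rs.length : R) ^ 24 * w) (t + 1)
      have a2 := apx_len_projT N (tc rs.length) (2 * (rr N rs.length : R) ^ 24 * w) t
      have a3 := apx_len_fineG rs w tr (t + 1)
      omega
  have h3 : (hCz N rs ((rr N rs.length : R) ^ 8 * w)).length ≤ rs.length * 13 := by
    unfold hCz
    refine (apx_len_flatMap _ _ 13 fun l => ?_).trans (by simp)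
    simp only [List.length_append, List.length_cons, List.length_nil]
    have a1 := apx_len_projT N (tc rs.length) (4 * ((rr N rs.length : R) ^ 8 * w)) (6 * (l + 1))
    have a2 := apx_len_projT N (tc rs.length) (4 * ((rr N rs.length : R) ^ 8 * w))
      (6 * (l + 1) - 1)
    (clear * - a1 a2; omega)
  have h4 : (hIn N m (1000 * w)).length ≤ (N - 1 - m) * 4 := by
    unfold hIn
    refine (apx_len_flatMap _ _ 4 fun t => by simp only [List.length_cons, List.length_nil, zero_add, Nat.reduceAdd, Std.le_refl]).trans (by simp only [List.length_range, Std.le_refl])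
  have h5 : (hOut N (tc rs.length) w).length = 4 := by
    unfold hOut; simp
  unfold ham
  simp only [List.length_append]
  have h6 : tc rs.length = 6 * rs.length + 5 := rfl
  have h7 : rr N rs.length = N + rs.length + 1000 := rfl
  (clear * - h1 h2 h3 h4 h5 h6 h7; omega)


/-! ### the coefficients -/

theorem apx_tabs_nonneg (L : List (Tm ℝ)) : 0 ≤ tabs L := by
  unfold tabs
  induction L with
  | nil => simp
  | cons y L ih =>
    simp only [List.map_cons, List.sum_cons]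
    (clear * - ih; positivity)

/-- generic estimate of a weighted sum -/
theorem apx_sum {u K A : ℝ} (L : List (Tm ℤ)) (L' : List (Tm ℝ))
    (h : List.Forall₂ (apxG u K) L L') (f : Tm ℤ → ℤ) (g : Tm ℝ → ℝ)
    (hfg : ∀ x y, apxG u K x y → |(f x : ℝ) - g y| ≤ A * (K + |y.c|)) :
    |((L.map f).sum : ℝ) - (L'.map g).sum| ≤ A * (K * L.length + tabs L') := by
  unfold tabs
  induction h with
  | nil => simp
  | @cons x y L L' hxy hL ih =>
    simp only [List.map_cons, List.sum_cons, List.length_cons]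
    push_cast at ih ⊢
    have h1 := abs_le.1 (hfg x y hxy)
    have h2 := abs_le.1 ih
    rw [abs_le]
    constructor
    · linarith only [h1.1, h2.1]
    · linarith only [h1.2, h2.2]

theorem apx_co2 (u : ℕ) {K : ℝ} (hu : (1 : ℝ) ≤ (u : ℝ)) (hK : 0 ≤ K) (L : List (Tm ℤ))
    (L' : List (Tm ℝ)) (h : List.Forall₂ (apxG u K) L L') (b b' a a' : ℕ) :
    |((co2 (pvI u) L b b' a a' : ℤ) : ℝ) - 9 * (u : ℝ) ^ 3 * co2 pvR L' b b' a a'| ≤
      12 * (u : ℝ) ^ 2 * (K * L.length + tabs L') := by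
  have key : ∀ (x : Tm ℤ) (y : Tm ℝ), apxG u K x y → ∀ P Q a a' : ℕ,
      |((x.c * (pvI u P a * pvI u Q a') : ℤ) : ℝ) -
        9 * (u : ℝ) ^ 3 * (y.c * (pvR P a * pvR Q a'))| ≤ 12 * (u : ℝ) ^ 2 * (K + |y.c|) := by
    intro x y hxy P Q a a'
    have hc := hxy.2.2.2.2.1
    have p1 := apx_pv u P a
    have p2 := apx_pv u Q a'
    have q1 := apx_pvI_abs u P a
    have q2 := apx_pvI_abs u Q a'
    have r1 : |3 * (u : ℝ) * pvR P a| ≤ 2 * u := by
      rw [abs_mul, abs_of_nonneg (by (clear * - hu; positivity))]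
      linarith only [mul_nonneg_of_nonpos_of_nonpos (Mathlib.Tactic.Linarith.sub_nonpos_of_le (Mathlib.Tactic.Linarith.natCast_nonneg ℝ u)) (Mathlib.Tactic.Linarith.sub_nonpos_of_le (Vale.Agent.P370.H.apx_pvR_abs P a))]
    have e1 : |(pvI u P a : ℝ) * pvI u Q a' - 3 * u * pvR P a * (3 * u * pvR Q a')| ≤ 12 * u := by
      have : (pvI u P a : ℝ) * pvI u Q a' - 3 * u * pvR P a * (3 * u * pvR Q a') =
          ((pvI u P a : ℝ) - 3 * u * pvR P a) * pvI u Q a' +
            (3 * u * pvR P a) * ((pvI u Q a' : ℝ) - 3 * u * pvR Q a') := by ring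
      rw [this]
      refine (abs_add_le _ _).trans ?_
      rw [abs_mul, abs_mul]
      have s1 : |(pvI u P a : ℝ) - 3 * u * pvR P a| * |(pvI u Q a' : ℝ)| ≤ 3 * (2 * u) :=
        mul_le_mul p1 q2 (abs_nonneg _) (by norm_num)
      have s2 : |3 * (u : ℝ) * pvR P a| * |(pvI u Q a' : ℝ) - 3 * u * pvR Q a'| ≤ (2 * u) * 3 :=
        mul_le_mul r1 p2 (abs_nonneg _) (by (clear * - hu; positivity))
      linarith only [s1, s2]
    have e2 : |(pvI u P a : ℝ) * pvI u Q a'| ≤ 2 * u * (2 * u) := by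
      rw [abs_mul]
      exact mul_le_mul q1 q2 (abs_nonneg _) (by (clear * - hu; positivity))
    have : ((x.c * (pvI u P a * pvI u Q a') : ℤ) : ℝ) -
        9 * (u : ℝ) ^ 3 * (y.c * (pvR P a * pvR Q a')) =
        ((x.c : ℝ) - u * y.c) * ((pvI u P a : ℝ) * pvI u Q a') +
          (u * y.c) * ((pvI u P a : ℝ) * pvI u Q a' - 3 * u * pvR P a * (3 * u * pvR Q a')) := by
      push_cast; ring
    rw [this]
    refine (abs_add_le _ _).trans ?_
    rw [abs_mul ((x.c : ℝ) - u * y.c), abs_mul ((u : ℝ) * y.c), abs_mul (u : ℝ) y.c,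
      abs_of_nonneg (show (0 : ℝ) ≤ (u : ℝ) by (clear * - hu; positivity))]
    have s1 : |(x.c : ℝ) - u * y.c| * |(pvI u P a : ℝ) * pvI u Q a'| ≤ K * (2 * u * (2 * u)) :=
      mul_le_mul hc e2 (abs_nonneg _) hK
    have s2 : (u : ℝ) * |y.c| *
        |(pvI u P a : ℝ) * pvI u Q a' - 3 * u * pvR P a * (3 * u * pvR Q a')| ≤
        (u : ℝ) * |y.c| * (12 * u) :=
      mul_le_mul_of_nonneg_left e1 (by (clear * - hu; positivity))
    linarith only [s1, s2, mul_nonneg hK (sq_nonneg (u : ℝ))]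
  have h9 : 9 * (u : ℝ) ^ 3 * co2 pvR L' b b' a a' =
      (L'.map fun t => 9 * (u : ℝ) ^ 3 * (if t.P = 0 ∨ t.Q = 0 then 0
        else if t.i = b ∧ t.j = b' then t.c * (pvR t.P a * pvR t.Q a')
        else if t.i = b' ∧ t.j = b then t.c * (pvR t.P a' * pvR t.Q a) else 0)).sum := by
    unfold co2
    rw [List.sum_map_mul_left]
  rw [h9]
  unfold co2
  have h10 := apx_sum (A := 12 * (u : ℝ) ^ 2) L L' h
    (fun t => if t.P = 0 ∨ t.Q = 0 then 0
      else if t.i = b ∧ t.j = b' then t.c * (pvI u t.P a * pvI u t.Q a')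
      else if t.i = b' ∧ t.j = b then t.c * (pvI u t.P a' * pvI u t.Q a) else 0)
    (fun t => 9 * (u : ℝ) ^ 3 * (if t.P = 0 ∨ t.Q = 0 then 0
        else if t.i = b ∧ t.j = b' then t.c * (pvR t.P a * pvR t.Q a')
        else if t.i = b' ∧ t.j = b then t.c * (pvR t.P a' * pvR t.Q a) else 0)) ?_
  · exact h10
  · intro x y hxy
    have hz : |((0 : ℤ) : ℝ) - 9 * (u : ℝ) ^ 3 * 0| ≤ 12 * (u : ℝ) ^ 2 * (K + |y.c|) := by
      simp only [Int.cast_zero, mul_zero, sub_zero, abs_zero]; (clear * - hu hK; (clear * - hu hK; positivity))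
    obtain ⟨hP, hi, hQ, hj, -⟩ := id hxy
    simp only [hP, hi, hQ, hj]
    split_ifs
    · exact hz
    · exact key x y hxy _ _ _ _
    · exact key x y hxy _ _ _ _
    · exact hz

theorem apx_co1 (u : ℕ) {K : ℝ} (hu : (1 : ℝ) ≤ (u : ℝ)) (hK : 0 ≤ K) (L : List (Tm ℤ))
    (L' : List (Tm ℝ)) (h : List.Forall₂ (apxG u K) L L') (b a : ℕ) :
    |((co1 (pvI u) L b a : ℤ) : ℝ) - 3 * (u : ℝ) ^ 2 * co1 pvR L' b a| ≤
      3 * (u : ℝ) * (K * L.length + tabs L') := by
  have key : ∀ (x : Tm ℤ) (y : Tm ℝ), apxG u K x y → ∀ P a : ℕ,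
      |((x.c * pvI u P a : ℤ) : ℝ) - 3 * (u : ℝ) ^ 2 * (y.c * pvR P a)| ≤
        3 * (u : ℝ) * (K + |y.c|) := by
    intro x y hxy P a
    have hc := hxy.2.2.2.2.1
    have p1 := apx_pv u P a
    have q1 := apx_pvI_abs u P a
    have : ((x.c * pvI u P a : ℤ) : ℝ) - 3 * (u : ℝ) ^ 2 * (y.c * pvR P a) =
        ((x.c : ℝ) - u * y.c) * (pvI u P a : ℝ) +
          (u * y.c) * ((pvI u P a : ℝ) - 3 * u * pvR P a) := by
      push_cast; ring
    rw [this]
    refine (abs_add_le _ _).trans ?_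
    rw [abs_mul, abs_mul, abs_mul, abs_of_nonneg (show (0 : ℝ) ≤ (u : ℝ) by (clear * - hu; positivity))]
    have s1 : |(x.c : ℝ) - u * y.c| * |(pvI u P a : ℝ)| ≤ K * (2 * u) :=
      mul_le_mul hc q1 (abs_nonneg _) hK
    have s2 : (u : ℝ) * |y.c| * |(pvI u P a : ℝ) - 3 * u * pvR P a| ≤ (u : ℝ) * |y.c| * 3 :=
      mul_le_mul_of_nonneg_left p1 (by (clear * - hu; positivity))
    linarith only [s1, s2, mul_nonneg hK (show (0 : ℝ) ≤ (u : ℝ) by positivity)]
  have h9 : 3 * (u : ℝ) ^ 2 * co1 pvR L' b a =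
      (L'.map fun t => 3 * (u : ℝ) ^ 2 *
        (if t.P ≠ 0 ∧ t.Q = 0 ∧ t.i = b then t.c * pvR t.P a else 0)).sum := by
    unfold co1
    rw [List.sum_map_mul_left]
  rw [h9]
  unfold co1
  have h10 := apx_sum (A := 3 * (u : ℝ)) L L' h
    (fun t => if t.P ≠ 0 ∧ t.Q = 0 ∧ t.i = b then t.c * pvI u t.P a else 0)
    (fun t => 3 * (u : ℝ) ^ 2 *
        (if t.P ≠ 0 ∧ t.Q = 0 ∧ t.i = b then t.c * pvR t.P a else 0)) ?_
  · exact h10
  · intro x y hxy
    have hz : |((0 : ℤ) : ℝ) - 3 * (u : ℝ) ^ 2 * 0| ≤ 3 * (u : ℝ) * (K + |y.c|) := by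
      simp only [Int.cast_zero, mul_zero, sub_zero, abs_zero]; (clear * - hu hK; (clear * - hu hK; positivity))
    obtain ⟨hP, hi, hQ, hj, -⟩ := id hxy
    simp only [hP, hi, hQ, hj]
    split_ifs
    · exact key x y hxy _ _
    · exact hz

theorem apx_co2_abs (L : List (Tm ℝ)) (b b' a a' : ℕ) : |co2 pvR L b b' a a'| ≤ tabs L := by
  unfold co2 tabs
  induction L with
  | nil => simp
  | cons y L ih =>
    simp only [List.map_cons, List.sum_cons]
    refine (abs_add_le _ _).trans (add_le_add ?_ ih)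
    have key : ∀ P Q a a' : ℕ, |y.c * (pvR P a * pvR Q a')| ≤ |y.c| := by
      intro P Q a a'
      rw [abs_mul, abs_mul]
      have h1 := apx_pvR_abs P a
      have h2 := apx_pvR_abs Q a'
      have h3 : |pvR P a| * |pvR Q a'| ≤ 1 := by
        linarith only [mul_nonneg_of_nonpos_of_nonpos (Mathlib.Tactic.Linarith.sub_nonpos_of_le h1) (Mathlib.Tactic.Linarith.sub_nonpos_of_le (abs_nonneg (Vale.Agent.P370.H.pvR Q a'))), h2]
      nlinarith only [h3, abs_nonneg y.c]
    split_ifs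
    · simp only [abs_zero, abs_nonneg]
    · exact key _ _ _ _
    · exact key _ _ _ _
    · simp only [abs_zero, abs_nonneg]

theorem apx_co1_abs (L : List (Tm ℝ)) (b a : ℕ) : |co1 pvR L b a| ≤ tabs L := by
  unfold co1 tabs
  induction L with
  | nil => simp
  | cons y L ih =>
    simp only [List.map_cons, List.sum_cons]
    refine (abs_add_le _ _).trans (add_le_add ?_ ih)
    split_ifs
    · rw [abs_mul]
      have h1 := apx_pvR_abs y.P a
      linarith only [mul_nonneg_of_nonpos_of_nonpos (Mathlib.Tactic.Linarith.sub_nonpos_of_le h1) (Mathlib.Tactic.Linarith.sub_nonpos_of_le (abs_nonneg y.c)), abs_nonneg y.c]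
    · simp

theorem apx_tR (n : ℕ) (L : List (Tm ℝ)) (C : ℝ) (hC : 0 < C) (hL : tabs L ≤ C)
    (b b' : Fin n) (a a' : Fin 3) : 0 ≤ tR C L b b' a a' ∧ tR C L b b' a a' ≤ 1 := by
  have h := abs_le.1 ((apx_co2_abs L b b' a a').trans hL)
  have h1 : co2 pvR L b b' a a' / C ≤ 1 := by rw [div_le_one hC]; exact h.2
  have h2 : -1 ≤ co2 pvR L b b' a a' / C := by rw [le_div_iff₀ hC]; linarith only [h.1]
  unfold tR
  constructor <;> linarith

theorem apx_dR (n : ℕ) (L : List (Tm ℝ)) (C s : ℝ) (hC : 0 < C) (hs : 0 ≤ s) (hL : tabs L ≤ C)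
    (b : Fin n) (a : Fin 3) : |dR C s L b a| ≤ s ^ 3 := by
  have h := (apx_co1_abs L b a).trans hL
  unfold dR
  rw [abs_mul, abs_neg, abs_of_nonneg (by (clear * - hs hC; positivity))]
  calc s ^ 3 / (12 * C) * |co1 pvR L b a| ≤ s ^ 3 / (12 * C) * C :=
        mul_le_mul_of_nonneg_left h (by (clear * - hs hC; positivity))
    _ = s ^ 3 / 12 := by field_simp
    _ ≤ s ^ 3 := by linarith only [pow_nonneg hs 3]

/-! ### rounding -/

/-- integer division -/
theorem apx_floor (x : ℤ) (y : ℤ) (hy : 0 < y) : |((x / y : ℤ) : ℝ) - (x : ℝ) / y| ≤ 1 := by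
  have h1 : (((x / y : ℤ)) : ℝ) * y ≤ x := by exact_mod_cast Int.ediv_mul_le x hy.ne'
  have h2 : (x : ℝ) ≤ ((x / y : ℤ) + 1) * y := by
    exact_mod_cast (Int.lt_ediv_add_one_mul_self x hy).le
  have hy' : (0 : ℝ) < y := by exact_mod_cast hy
  have h3 : ((x / y : ℤ) : ℝ) ≤ (x : ℝ) / y := by rw [le_div_iff₀ hy']; exact h1
  have h4 : (x : ℝ) / y ≤ ((x / y : ℤ) : ℝ) + 1 := by rw [div_le_iff₀ hy']; exact h2
  rw [abs_le]
  constructor <;> linarith only [h3, h4]

theorem apx_clamp (z : ℤ) (M : ℕ) (x : ℝ) (h0 : 0 ≤ x) (h1 : x ≤ M) (h : |(z : ℝ) - x| ≤ 3) :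
    |((min z.toNat M : ℕ) : ℝ) - x| ≤ 3 := by
  obtain ⟨h2, h3⟩ := abs_le.1 h
  have h4 : ((z.toNat : ℕ) : ℝ) = max (z : ℝ) 0 := by
    have : ((z.toNat : ℤ)) = max z 0 := Int.toNat_eq_max z ▸ rfl
    have h5 : (((z.toNat : ℤ)) : ℝ) = ((max z 0 : ℤ) : ℝ) := by rw [this]
    push_cast at h5
    exact h5
  rw [Nat.cast_min, h4, abs_le]
  constructor
  · have : x - 3 ≤ min (max (z : ℝ) 0) (M : ℝ) := by
      rw [le_min_iff]
      exact ⟨le_max_of_le_left (by linarith only [h2]), by linarith only [h1]⟩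
    linarith only [this]
  · have : min (max (z : ℝ) 0) (M : ℝ) ≤ x + 3 := by
      apply min_le_of_left_le
      rw [max_le_iff]
      exact ⟨by linarith only [h3], by linarith only [h0]⟩
    linarith only [this]


theorem apx_fI (r : ℕ) (hr : 1000 ≤ r) (L : List (Tm ℤ)) (b b' a a' : ℕ) (x : ℝ)
    (h : |((co2 (pvI (r ^ 1000)) L b b' a a' : ℤ) : ℝ) - 9 * ((r : ℝ) ^ 1000) ^ 3 * x| ≤
      24 * ((r : ℝ) ^ 1000) ^ 2 * (r : ℝ) ^ 66) :
    |(fI r L b b' a a' : ℝ) - ((r : ℝ) ^ 100) ^ 6 * (1 / 2 * (1 - x / (r : ℝ) ^ 66))| ≤ 2 := by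
  have hr' : (1000 : ℝ) ≤ r := by exact_mod_cast hr
  have hr0 : (0 : ℝ) < r := by linarith only [hr']
  have hz : (0 : ℤ) < r := by exact_mod_cast (show 0 < r by omega)
  have h1 := apx_floor ((r : ℤ) ^ 600 * (9 * (r : ℤ) ^ 3066 -
    co2 (pvI (r ^ 1000)) L b b' a a')) (18 * (r : ℤ) ^ 3066) (by (clear * - hr; positivity))
  unfold fI
  rw [show ((r : ℝ) ^ 100) ^ 6 = (r : ℝ) ^ 600 by rw [← pow_mul]]
  generalize co2 (pvI (r ^ 1000)) L b b' a a' = c at h h1 ⊢
  have h5 : 2 * (r : ℝ) ^ 600 ≤ (r : ℝ) ^ 1000 := by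
    rw [show (r : ℝ) ^ 1000 = (r : ℝ) ^ 400 * (r : ℝ) ^ 600 by rw [← pow_add]]
    have : (2 : ℝ) ≤ (r : ℝ) ^ 400 :=
      le_trans (by linarith only [hr']) (le_self_pow₀ (by linarith only [hr'] : (1 : ℝ) ≤ r) (by norm_num))
    exact mul_le_mul_of_nonneg_right this (by (clear * - hr; positivity))
  have e1 : (r : ℝ) ^ 3066 = ((r : ℝ) ^ 1000) ^ 3 * (r : ℝ) ^ 66 := by
    rw [← pow_mul, ← pow_add]
  generalize ((r : ℤ) ^ 600 * (9 * (r : ℤ) ^ 3066 - c)) / (18 * (r : ℤ) ^ 3066) = z at h1 ⊢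
  push_cast at h1
  rw [e1] at h1
  have hU : (0 : ℝ) < (r : ℝ) ^ 1000 := by (clear * - hr; positivity)
  have hC : (0 : ℝ) < (r : ℝ) ^ 66 := by positivity
  have hS : (0 : ℝ) < (r : ℝ) ^ 600 := by positivity
  generalize (r : ℝ) ^ 1000 = U at *
  generalize (r : ℝ) ^ 66 = C at *
  generalize (r : ℝ) ^ 600 = S at *
  have e2 : S * (9 * (U ^ 3 * C) - (c : ℝ)) / (18 * (U ^ 3 * C)) - S * (1 / 2 * (1 - x / C)) =
      -(S * ((c : ℝ) - 9 * U ^ 3 * x) / (18 * (U ^ 3 * C))) := by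
    field_simp
    ring
  have e3 : |S * (9 * (U ^ 3 * C) - (c : ℝ)) / (18 * (U ^ 3 * C)) - S * (1 / 2 * (1 - x / C))| ≤
      1 := by
    rw [e2, abs_neg, abs_div, abs_mul, abs_of_pos hS,
      abs_of_pos (show 0 < 18 * (U ^ 3 * C) by (clear * - hU hC; positivity)), div_le_one (by positivity)]
    calc S * |(c : ℝ) - 9 * U ^ 3 * x| ≤ S * (24 * U ^ 2 * C) :=
          mul_le_mul_of_nonneg_left h hS.le
      _ = (12 * U ^ 2 * C) * (2 * S) := by ring
      _ ≤ (12 * U ^ 2 * C) * U := mul_le_mul_of_nonneg_left h5 (by positivity)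
      _ = 12 * (U ^ 3 * C) := by ring
      _ ≤ 18 * (U ^ 3 * C) := by
        have : 0 < U ^ 3 * C := by (clear * - hU hC; positivity)
        linarith only [this]
  have := abs_le.1 h1
  have := abs_le.1 e3
  rw [abs_le]
  constructor <;> (clear r hr L b b' a a' hr' hr0 hz e1; linarith)

theorem apx_dI (r : ℕ) (hr : 1000 ≤ r) (L : List (Tm ℤ)) (b a : ℕ) (x : ℝ)
    (h : |((co1 (pvI (r ^ 1000)) L b a : ℤ) : ℝ) - 3 * ((r : ℝ) ^ 1000) ^ 2 * x| ≤
      6 * ((r : ℝ) ^ 1000) * (r : ℝ) ^ 66) :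
    |(dI r L b a : ℝ) - -(((r : ℝ) ^ 100) ^ 3 / (12 * (r : ℝ) ^ 66)) * x| ≤ 2 := by
  have hr' : (1000 : ℝ) ≤ r := by exact_mod_cast hr
  have hr0 : (0 : ℝ) < r := by linarith only [hr']
  have hz : (0 : ℤ) < r := by exact_mod_cast (show 0 < r by omega)
  have h1 := apx_floor (-((r : ℤ) ^ 300 * co1 (pvI (r ^ 1000)) L b a)) (36 * (r : ℤ) ^ 2066)
    (by (clear * - hr; positivity))
  unfold dI
  rw [show ((r : ℝ) ^ 100) ^ 3 = (r : ℝ) ^ 300 by rw [← pow_mul]]
  generalize co1 (pvI (r ^ 1000)) L b a = c at h h1 ⊢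
  have h5 : (r : ℝ) ^ 300 ≤ (r : ℝ) ^ 1000 :=
    pow_le_pow_right₀ (by linarith only [hr']) (by norm_num)
  have e1 : (r : ℝ) ^ 2066 = ((r : ℝ) ^ 1000) ^ 2 * (r : ℝ) ^ 66 := by
    rw [← pow_mul, ← pow_add]
  generalize -((r : ℤ) ^ 300 * c) / (36 * (r : ℤ) ^ 2066) = z at h1 ⊢
  push_cast at h1
  rw [e1] at h1
  have hU : (0 : ℝ) < (r : ℝ) ^ 1000 := by (clear * - hr; positivity)
  have hC : (0 : ℝ) < (r : ℝ) ^ 66 := by positivity
  have hS : (0 : ℝ) < (r : ℝ) ^ 300 := by positivity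
  generalize (r : ℝ) ^ 1000 = U at *
  generalize (r : ℝ) ^ 66 = C at *
  generalize (r : ℝ) ^ 300 = S at *
  have e2 : -(S * (c : ℝ)) / (36 * (U ^ 2 * C)) - -(S / (12 * C)) * x =
      -(S * ((c : ℝ) - 3 * U ^ 2 * x) / (36 * (U ^ 2 * C))) := by
    field_simp
    ring
  have e3 : |-(S * (c : ℝ)) / (36 * (U ^ 2 * C)) - -(S / (12 * C)) * x| ≤ 1 := by
    rw [e2, abs_neg, abs_div, abs_mul, abs_of_pos hS,
      abs_of_pos (show 0 < 36 * (U ^ 2 * C) by (clear * - hU hC; positivity)), div_le_one (by (clear * - hU hC; positivity))]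
    calc S * |(c : ℝ) - 3 * U ^ 2 * x| ≤ S * (6 * U * C) :=
          mul_le_mul_of_nonneg_left h hS.le
      _ = (6 * U * C) * S := by ring
      _ ≤ (6 * U * C) * U := mul_le_mul_of_nonneg_left h5 (by positivity)
      _ = 6 * (U ^ 2 * C) := by ring
      _ ≤ 36 * (U ^ 2 * C) := by
        have : 0 < U ^ 2 * C := by positivity
        linarith only [this]
  have := abs_le.1 h1
  have := abs_le.1 e3
  rw [abs_le]
  constructor <;> (clear r hr L b a hr' hr0 hz e1; linarith)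

theorem apx_jw (n r : ℕ) (L : List (Tm ℤ)) (L' : List (Tm ℝ)) (s C : ℝ) (hs1 : 1 ≤ s)
    (ht : ∀ (b b' : Fin n) (a a' : Fin 3), 0 ≤ tR C L' b b' a a' ∧ tR C L' b b' a a' ≤ 1)
    (hdd : ∀ (b : Fin n) (a : Fin 3), |dR C s L' b a| ≤ s ^ 3)
    (ef : ∀ (b b' : Fin n) (a a' : Fin 3),
      |(fI r L b b' a a' : ℝ) - s ^ 6 * tR C L' b b' a a'| ≤ 2)
    (ed : ∀ (b : Fin n) (a : Fin 3), |(dI r L b a : ℝ) - dR C s L' b a| ≤ 2)
    (hU : (((r : ℤ) ^ 1000 : ℤ) : ℝ) = s ^ 10) (hV : (((r : ℤ) ^ 700 : ℤ) : ℝ) = s ^ 7)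
    (p q : Fin n × Fin 4) (hpq : p ≠ q) :
    0 ≤ jw s (tR C L') (dR C s L') p q ∧ jw s (tR C L') (dR C s L') p q ≤ 2 * s ^ 10 ∧
      |(wI r L (4 * (p.1 : ℕ) + (p.2 : ℕ)) (4 * (q.1 : ℕ) + (q.2 : ℕ)) : ℝ) -
        jw s (tR C L') (dR C s L') p q| ≤ 2 := by
  have p3 : s ^ 3 ≤ s ^ 10 := pow_le_pow_right₀ hs1 (by norm_num)
  have p6 : s ^ 6 ≤ s ^ 10 := pow_le_pow_right₀ hs1 (by norm_num)
  have p7 : s ^ 7 ≤ s ^ 10 := pow_le_pow_right₀ hs1 (by norm_num)
  have q6 : 0 < s ^ 6 := by (clear * - hs1; positivity)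
  have q7 : 0 < s ^ 7 := by positivity
  have q10 : 0 < s ^ 10 := by positivity
  obtain ⟨b, g⟩ := p
  obtain ⟨b', g'⟩ := q
  have hb : (4 * (b : ℕ) + (g : ℕ)) / 4 = b := by have := g.isLt; omega
  have hg : (4 * (b : ℕ) + (g : ℕ)) % 4 = g := by have := g.isLt; (clear * - hb; omega)
  have hb' : (4 * (b' : ℕ) + (g' : ℕ)) / 4 = b' := by have := g'.isLt; omega
  have hg' : (4 * (b' : ℕ) + (g' : ℕ)) % 4 = g' := by have := g'.isLt; (clear * - hb'; omega)
  have hz : ∀ x : Fin 4, x ≠ 0 → (x : ℕ) ≠ 0 := fun x hx h => hx (Fin.ext h)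
  unfold jw wI
  simp only [hb, hg, hb', hg']
  by_cases hbb : b = b'
  · subst hbb
    rw [if_pos rfl, if_pos rfl]
    by_cases h0 : g = 0
    · have h0' : g' ≠ 0 := fun h => hpq (by rw [h0, h])
      subst h0
      have h1 := ed b (g'.pred h0')
      have h2 := abs_le.1 (hdd b (g'.pred h0'))
      rw [Fin.val_pred] at h1
      have h3 := hz _ h0'
      simp only [h0', h3, ne_eq, not_false_eq_true, dif_pos, if_true, not_true_eq_false,
        Fin.val_zero, and_self, dif_neg, add_zero, if_false, and_false, false_and, true_and]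
      rw [Int.cast_add, hU, add_sub_add_left_eq_sub]
      exact ⟨by linarith only [p3, h2], by linarith only [p3, h2], h1⟩
    · have h3 := hz _ h0
      by_cases h0' : g' = 0
      · subst h0'
        have h1 := ed b (g.pred h0)
        have h2 := abs_le.1 (hdd b (g.pred h0))
        rw [Fin.val_pred] at h1
        simp only [h0, h3, ne_eq, not_false_eq_true, dif_pos, if_true, not_true_eq_false,
          Fin.val_zero, and_self, dif_neg, add_zero, if_false, and_false, false_and, true_and]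
        rw [Int.cast_add, hU, add_sub_add_left_eq_sub]
        exact ⟨by linarith only [p3, h2], by linarith only [p3, h2], h1⟩
      · have h3' := hz _ h0'
        simp only [h0, h3, h0', h3', ne_eq, not_false_eq_true, dif_pos, if_true,
          not_true_eq_false, and_self, dif_neg, add_zero, if_false, and_false, false_and, true_and]
        rw [hU, sub_self, abs_zero]
        exact ⟨by linarith only [p6, q6], by linarith only [p6, q6], by norm_num⟩
  · have hbb' : (b : ℕ) ≠ (b' : ℕ) := fun h => hbb (Fin.ext h)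
    rw [if_neg hbb, if_neg hbb']
    by_cases h0 : g = 0
    · subst h0
      by_cases h0' : g' = 0
      · subst h0'
        simp only [ne_eq, not_true_eq_false, Fin.val_zero, and_self, if_false, if_true, dif_neg,
          not_false_eq_true]
        rw [hV, sub_self, abs_zero]
        exact ⟨by linarith only [q7], by linarith only [p6, p7, q6], by norm_num⟩
      · have h3' := hz _ h0'
        simp only [h0', h3', ne_eq, not_true_eq_false, Fin.val_zero, and_self, if_false, if_true,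
          dif_neg, not_false_eq_true, false_and, and_false, true_and]
        exact ⟨le_refl _, by linarith only [p6, q6], by simp⟩
    · have h3 := hz _ h0
      by_cases h0' : g' = 0
      · subst h0'
        simp only [ne_eq, h0, not_false_eq_true, not_true_eq_false, dif_neg, if_true, dif_pos, h3, Fin.val_zero, and_false, false_and, if_false]
        exact ⟨le_refl _, by linarith only [p6, q6], by simp⟩
      · have h3' := hz _ h0'
        have h1 := ef b b' (g.pred h0) (g'.pred h0')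
        rw [Fin.val_pred, Fin.val_pred] at h1
        obtain ⟨t0, t1⟩ := ht b b' (g.pred h0) (g'.pred h0')
        simp only [ne_eq, h0, not_false_eq_true, h0', dif_pos, if_false, h3, h3', and_self, if_true]
        refine ⟨mul_nonneg q6.le t0, ?_, h1⟩
        have := mul_le_mul_of_nonneg_left t1 q6.le
        linarith only [p6, q6, this]

theorem apx_close (n r : ℕ) (hr : 1000 ≤ r) (L : List (Tm ℤ)) (L' : List (Tm ℝ))
    (hF : List.Forall₂ (apxG ((r ^ 1000 : ℕ) : ℝ) (12 * (r : ℝ) ^ 24)) L L')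
    (hlen : (L.length : ℝ) ≤ 100 * (r : ℝ)) (hL : tabs L' ≤ (r : ℝ) ^ 66)
    (p q : Fin n × Fin 4) (hpq : p ≠ q) :
    |(wN r L (4 * (p.1 : ℕ) + (p.2 : ℕ)) (4 * (q.1 : ℕ) + (q.2 : ℕ)) : ℝ) -
      jw ((r : ℝ) ^ 100) (tR ((r : ℝ) ^ 66) L') (dR ((r : ℝ) ^ 66) ((r : ℝ) ^ 100) L') p q| ≤
      3 := by
  have hr' : (1000 : ℝ) ≤ r := by exact_mod_cast hr
  have hr0 : (0 : ℝ) < r := by linarith only [hr']
  have hKl : 12 * (r : ℝ) ^ 24 * L.length + tabs L' ≤ 2 * (r : ℝ) ^ 66 := by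
    have h1 : 12 * (r : ℝ) ^ 24 * L.length ≤ 12 * (r : ℝ) ^ 24 * (100 * r) :=
      mul_le_mul_of_nonneg_left hlen (by (clear * - hr; positivity))
    have h2 : 12 * (r : ℝ) ^ 24 * (100 * r) ≤ (r : ℝ) ^ 66 := by
      have h3 : (1200 : ℝ) ≤ (r : ℝ) ^ 2 := by nlinarith only [hr']
      calc 12 * (r : ℝ) ^ 24 * (100 * r) = 1200 * (r : ℝ) ^ 25 := by ring
        _ ≤ (r : ℝ) ^ 2 * (r : ℝ) ^ 25 := mul_le_mul_of_nonneg_right h3 (by positivity)
        _ = (r : ℝ) ^ 27 := by ring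
        _ ≤ (r : ℝ) ^ 66 := pow_le_pow_right₀ (by linarith only [hr']) (by norm_num)
    linarith only [hL, h1, h2]
  have hU1 : (1 : ℝ) ≤ ((r ^ 1000 : ℕ) : ℝ) := by
    rw [Nat.cast_pow]
    exact one_le_pow₀ (by linarith only [hr'])
  have hK : (0 : ℝ) ≤ 12 * (r : ℝ) ^ 24 := by (clear * - hr; positivity)
  have hC : (0 : ℝ) < (r : ℝ) ^ 66 := by positivity
  have hs1 : (1 : ℝ) ≤ (r : ℝ) ^ 100 := one_le_pow₀ (by linarith only [hr'])
  have hs0 : (0 : ℝ) < (r : ℝ) ^ 100 := by positivity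
  have H := apx_jw n r L L' ((r : ℝ) ^ 100) ((r : ℝ) ^ 66) hs1
    (fun b b' a a' => apx_tR n L' _ hC hL b b' a a')
    (fun b a => apx_dR n L' _ _ hC hs0.le hL b a)
    (by
      intro b b' a a'
      refine apx_fI r hr L b b' a a' (co2 pvR L' b b' a a') ?_
      have := apx_co2 (r ^ 1000) hU1 hK L L' hF b b' a a'
      rw [Nat.cast_pow] at this
      refine this.trans ?_
      calc 12 * ((r : ℝ) ^ 1000) ^ 2 * (12 * (r : ℝ) ^ 24 * L.length + tabs L') ≤
            12 * ((r : ℝ) ^ 1000) ^ 2 * (2 * (r : ℝ) ^ 66) :=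
            mul_le_mul_of_nonneg_left hKl (by positivity)
        _ = 24 * ((r : ℝ) ^ 1000) ^ 2 * (r : ℝ) ^ 66 := by ring)
    (by
      intro b a
      refine apx_dI r hr L b a (co1 pvR L' b a) ?_
      have := apx_co1 (r ^ 1000) hU1 hK L L' hF b a
      rw [Nat.cast_pow] at this
      refine this.trans ?_
      calc 3 * ((r : ℝ) ^ 1000) * (12 * (r : ℝ) ^ 24 * L.length + tabs L') ≤
            3 * ((r : ℝ) ^ 1000) * (2 * (r : ℝ) ^ 66) :=
            mul_le_mul_of_nonneg_left hKl (by positivity)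
        _ = 6 * ((r : ℝ) ^ 1000) * (r : ℝ) ^ 66 := by ring)
    (by push_cast; rw [← pow_mul]) (by push_cast; rw [← pow_mul]) p q hpq
  have hW : ((2 * r ^ 1000 : ℕ) : ℝ) = 2 * ((r : ℝ) ^ 100) ^ 10 := by
    push_cast; rw [← pow_mul]
  unfold wN
  exact apx_clamp _ _ _ H.1 (by rw [hW]; exact H.2.1) (H.2.2.trans (by norm_num))

theorem wN_close (N m : ℕ) (hN : 1 ≤ N) (rs : List Rnd) (hok : ∀ r ∈ rs, r.Ok N)
    (hL : tabs (ham N m rs (1 : ℝ) trR) ≤ (rr N rs.length : ℝ) ^ 66)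
    (hT : ∀ t ∈ ham N m rs (1 : ℝ) trR, t.Ok (N + tc rs.length)) :
    CloseW N m rs (wN (rr N rs.length) (hamI N m rs)) := by
  have hr : 1000 ≤ rr N rs.length := by unfold rr; omega
  have hF : List.Forall₂ (apxG ((rr N rs.length ^ 1000 : ℕ) : ℝ)
      (12 * (rr N rs.length : ℝ) ^ 24)) (hamI N m rs) (ham N m rs (1 : ℝ) trR) := by
    have := apx_ham N m rs ((rr N rs.length : ℤ) ^ 1000) (by (clear * - hr; positivity))
      (trI (rr N rs.length ^ 1000)) (fun a => by
        have := apx_tr (rr N rs.length ^ 1000) a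
        push_cast at this ⊢
        exact this)
    unfold hamI
    push_cast at this ⊢
    exact this
  have hlen : ((hamI N m rs).length : ℝ) ≤ 100 * (rr N rs.length : ℝ) := by
    unfold hamI
    exact_mod_cast apx_len N m rs _ _
  unfold CloseW
  intro p q hpq
  exact apx_close _ _ hr _ _ hF hlen hL p q hpq


/-! ### the threshold -/

theorem apx_co0 {K : ℝ} (L : List (Tm ℤ)) (L' : List (Tm ℝ))
    (h : List.Forall₂ (apxG ((1 : ℤ) : ℝ) K) L L') :
    ((co0 L : ℤ) : ℝ) = co0 L' ∧ 0 ≤ co0 L := by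
  unfold co0
  induction h with
  | nil => simp
  | @cons x y L L' hxy hL ih =>
    simp only [List.map_cons, List.sum_cons]
    obtain ⟨hP, -, -, -, -, h0⟩ := hxy
    rw [← hP]
    by_cases hx : x.P = 0
    · obtain ⟨h1, h2⟩ := h0 hx
      rw [if_pos hx, if_pos hx, Int.cast_add, ih.1, h1, Int.cast_one, one_mul]
      exact ⟨rfl, add_nonneg h2 ih.2⟩
    · rw [if_neg hx, if_neg hx, Int.cast_add, ih.1, Int.cast_zero]
      exact ⟨rfl, add_nonneg le_rfl ih.2⟩

theorem thrI_close (N m : ℕ) (hN : 1 ≤ N) (rs : List Rnd) (hok : ∀ r ∈ rs, r.Ok N) :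
    |((thrI N m rs).toNat : ℝ) - midA N m rs| ≤ 1 := by
  have hr : 1000 ≤ rr N rs.length := by unfold rr; omega
  obtain ⟨hc, hc0⟩ := apx_co0 _ _ (apx_ham N m rs (1 : ℤ) (by (clear * -; norm_num)) (fun _ => (0, 0))
    (fun a => apx_trZ a))
  have hK : 1 ≤ N + tc rs.length := by omega
  unfold thrI midA
  rw [← hc]
  generalize co0 (ham N m rs (1 : ℤ) fun _ => (0, 0)) = c at *
  generalize rr N rs.length = r at *
  generalize N + tc rs.length = K at *
  generalize rs.length = M at *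
  have hr1 : (1 : ℤ) ≤ (r : ℤ) := by exact_mod_cast (show 1 ≤ r by omega)
  have hK1 : (1 : ℤ) ≤ (K : ℤ) := by exact_mod_cast hK
  have hM0 : (0 : ℤ) ≤ (M : ℤ) := by (clear * -; positivity)
  have hnum : 0 ≤ 864 * (6 * ((M : ℤ) + 1)) * (r : ℤ) ^ 1000 * (K : ℤ) +
      27 * (6 * ((M : ℤ) + 1)) * ((r : ℤ) ^ 400 + (r : ℤ) ^ 300) * (K : ℤ) * ((K : ℤ) - 1) +
      24 * (r : ℤ) ^ 234 * (6 * ((M : ℤ) + 1)) * c - 88 * (r : ℤ) ^ 234 := by
    have h1 : (r : ℤ) ^ 234 ≤ (r : ℤ) ^ 1000 := pow_le_pow_right₀ hr1 (by norm_num)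
    have h2 : 0 ≤ 27 * (6 * ((M : ℤ) + 1)) * ((r : ℤ) ^ 400 + (r : ℤ) ^ 300) * (K : ℤ) *
        ((K : ℤ) - 1) := mul_nonneg (by (clear * - hr hK; positivity)) (by linarith only [hK])
    have h3 : 0 ≤ 24 * (r : ℤ) ^ 234 * (6 * ((M : ℤ) + 1)) * c := by (clear * - hr hc0; (clear * - hr hc0; positivity))
    have h4 : 1 ≤ ((M : ℤ) + 1) * K := by nlinarith only [hK]
    have h5 : 0 ≤ (r : ℤ) ^ 1000 := by (clear * - hr; positivity)
    have h6 : (r : ℤ) ^ 1000 ≤ ((M : ℤ) + 1) * K * (r : ℤ) ^ 1000 := by exact le_of_not_gt fun hng => by linarith only [mul_nonneg_of_nonpos_of_nonpos (Mathlib.Tactic.Linarith.sub_nonpos_of_le h4) (Mathlib.Tactic.Linarith.sub_nonpos_of_le h5), Int.add_one_le_iff.mpr hng]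
    have h7 : 864 * (6 * ((M : ℤ) + 1)) * (r : ℤ) ^ 1000 * (K : ℤ) =
        5184 * (((M : ℤ) + 1) * K * (r : ℤ) ^ 1000) := by ring
    rw [h7]
    linarith only [h1, h2, h3, h5, h6]
  have hden : (0 : ℤ) < 144 * (6 * ((M : ℤ) + 1)) := by (clear * -; positivity)
  have hfl := apx_floor (864 * (6 * ((M : ℤ) + 1)) * (r : ℤ) ^ 1000 * (K : ℤ) +
      27 * (6 * ((M : ℤ) + 1)) * ((r : ℤ) ^ 400 + (r : ℤ) ^ 300) * (K : ℤ) * ((K : ℤ) - 1) +
      24 * (r : ℤ) ^ 234 * (6 * ((M : ℤ) + 1)) * c - 88 * (r : ℤ) ^ 234) _ hden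
  have hnn := Int.ediv_nonneg hnum hden.le
  generalize (864 * (6 * ((M : ℤ) + 1)) * (r : ℤ) ^ 1000 * (K : ℤ) +
      27 * (6 * ((M : ℤ) + 1)) * ((r : ℤ) ^ 400 + (r : ℤ) ^ 300) * (K : ℤ) * ((K : ℤ) - 1) +
      24 * (r : ℤ) ^ 234 * (6 * ((M : ℤ) + 1)) * c - 88 * (r : ℤ) ^ 234) /
    (144 * (6 * ((M : ℤ) + 1))) = z at hfl hnn ⊢
  have hz : ((z.toNat : ℕ) : ℝ) = (z : ℝ) := by
    have : ((z.toNat : ℕ) : ℤ) = z := Int.toNat_of_nonneg hnn
    exact_mod_cast congrArg (fun t : ℤ => (t : ℝ)) this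
  rw [hz]
  refine le_trans (le_of_eq ?_) hfl
  congr 2
  push_cast
  have hM1 : ((M : ℝ) + 1) ≠ 0 := by (clear * -; (clear * -; positivity))
  generalize (r : ℝ) ^ 1000 = x1
  generalize (r : ℝ) ^ 400 = x2
  generalize (r : ℝ) ^ 300 = x3
  generalize (r : ℝ) ^ 234 = x4
  field_simp
  ring

end Vale.Agent.P370.H
end

section

/-!
The queries are computed in polynomial time.
-/

namespace Vale.Agent.P370.Q.Alg

open Vale.Agent.Lib.PolyTime

variable {A : Set Word} {α : Type*} [Enc α]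

/-! ### parsing -/

theorem blocks_cons (b : Bool) (w : List Bool) :
    blocks (b :: w) = bif b then ((blocks w).headD 0 + 1) :: (blocks w).tail else 0 :: blocks w :=
  rfl

theorem blocks_bound (w : List Bool) : (blocks w).length ≤ w.length + 1 ∧
    (∀ x ∈ blocks w, x ≤ w.length) ∧ (w ≠ [] → (blocks w).length ≤ w.length) := by
  induction w with
  | nil => simp only [blocks, List.headD_eq_head?_getD, List.foldr_nil, List.length_nil, zero_add, zero_le, List.not_mem_nil, nonpos_iff_eq_zero, IsEmpty.forall_iff, implies_true, ne_eq, not_true_eq_false, Std.le_refl, and_self]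
  | cons b w ih =>
    obtain ⟨h1, h2, h3⟩ := ih
    rw [blocks_cons]
    cases b
    · simp only [cond_false, List.length_cons, List.mem_cons]
      refine ⟨by omega, ?_, fun _ => ?_⟩
      · rintro x (rfl | hx)
        · omega
        · have := h2 x hx; omega
      · rcases w with _ | ⟨c, w⟩
        · simp [blocks]
        · have := h3 (by simp); simp at this ⊢; omega
    · simp only [cond_true, List.length_cons, List.mem_cons, List.length_tail]
      have h4 : (blocks w).headD 0 ≤ w.length := by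
        rcases e : blocks w with _ | ⟨x, l⟩
        · simp only [List.headD_eq_head?_getD, List.head?_nil, Option.getD_none, zero_le]
        · simpa only [List.headD_eq_head?_getD, List.head?_cons, Option.getD_some] using h2 x (by rw [e]; simp)
      refine ⟨by omega, ?_, fun _ => ?_⟩
      · rintro x (rfl | hx)
        · omega
        · have := h2 x (List.mem_of_mem_tail hx); omega
      · rcases w with _ | ⟨c, w⟩
        · simp only [blocks, List.headD_eq_head?_getD, List.foldr_nil, List.length_nil, zero_tsub, zero_add, Std.le_refl]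
        · have := h3 (by simp); simp only [List.length_cons, add_le_add_iff_right, tsub_le_iff_right, ge_iff_le] at this ⊢; omega

theorem esize_blocks (w : List Bool) : esize (blocks w) ≤ (w.length + 1) * (2 * w.length + 1) := by
  obtain ⟨h1, h2, -⟩ := blocks_bound w
  refine (esize_list_le (B := w.length) fun x hx => ?_).trans (Nat.mul_le_mul_right _ h1)
  exact (esize_nat_le_self x).trans (h2 x hx)

theorem pt_blocks {w : α → List Bool} (hw : PT A w) : PT A (fun a => blocks (w a)) := by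
  have hwb := PBd.length (A := A) hw
  refine PT.foldr (init := fun _ => ([] : List ℕ))
    (f := fun _ (b : Bool) (l : List ℕ) => bif b then (l.headD 0 + 1) :: l.tail else 0 :: l)
    hw (PT.const []) ?_ (b := fun a => ((w a).length + 1) * (2 * (w a).length + 1))
    (by (clear * - hwb; fun_prop)) fun a i => ?_
  · exact PT.cond PT.snd'.fst (PT.cons ((PT.headD PT.snd'.snd (PT.const 0)).add (PT.const 1))
      (PT.tail PT.snd'.snd)) (PT.cons (PT.const 0) PT.snd'.snd)
  · refine (esize_blocks ((w a).drop i)).trans ?_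
    have : ((w a).drop i).length ≤ (w a).length := by simp only [List.length_drop, tsub_le_iff_right, le_add_iff_nonneg_right, zero_le]
    exact Nat.mul_le_mul (by omega) (by (clear * - this; omega))

theorem pt_hK {w : α → List Bool} (hw : PT A w) : PT A (fun a => hK (w a)) :=
  PT.getD (pt_blocks hw) (PT.const 0) (PT.const 0)

theorem pt_hA {w : α → List Bool} (hw : PT A w) : PT A (fun a => hA (w a)) :=
  PT.getD (pt_blocks hw) (PT.const 1) (PT.const 0)

theorem pt_hM {w : α → List Bool} {i j : α → ℕ} (hw : PT A w) (hi : PT A i) (hj : PT A j) :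
    PT A (fun a => hM (w a) (i a) (j a)) :=
  PT.getD (pt_blocks hw) (((PT.const 2).add (hi.mul (pt_hK hw))).add hj) (PT.const 0)

theorem getD_blocks_le (w : List Bool) (i : ℕ) : (blocks w).getD i 0 ≤ w.length := by
  rcases lt_or_ge i (blocks w).length with h | h
  · rw [List.getD_eq_getElem _ _ h]
    exact (blocks_bound w).2.1 _ (List.getElem_mem _)
  · rw [List.getD_eq_default _ _ h]
    exact Nat.zero_le _

theorem hK_le (w : List Bool) : hK w ≤ w.length := getD_blocks_le w 0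
theorem hA_le (w : List Bool) : hA w ≤ w.length := getD_blocks_le w 1
theorem hM_le (w : List Bool) (i j : ℕ) : hM w i j ≤ w.length := getD_blocks_le w _

theorem pbd_hK {w : α → List Bool} (hw : PT A w) : PBd (fun a => hK (w a)) :=
  (PBd.length (A := A) hw).mono fun a => hK_le _

theorem pt_mSum {w : α → List Bool} (hw : PT A w) : PT A (fun a => mSum (w a)) := by
  refine PT.rangeSumNat (pt_hK hw) (pbd_hK hw) (PT.rangeSumNat (PT.unVal PT.snd')
    PBd.unSnd ?_)
  exact pt_hM (hw.comp PT.fst'.fst) (PT.unVal PT.snd') (PT.unVal PT.fst'.snd)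

theorem pt_mW {w : α → List Bool} {i j : α → ℕ} (hw : PT A w) (hi : PT A i) (hj : PT A j) :
    PT A (fun a => mW (w a) (i a) (j a)) :=
  PT.ite (p := fun a => i a < j a ∧ j a < hK (w a))
    (PT.decide_and (PT.lt hi hj) (PT.lt hj (pt_hK hw))) (pt_hM hw hi hj) (PT.const 0)

/-! ### parameters -/

theorem pt_kk {w : α → List Bool} (hw : PT A w) : PT A (fun a => kk (w a)) :=
  PT.max (PT.const 10) (PT.natSize (PT.length hw))

theorem two_pow_kk (w : List Bool) : 2 ^ kk w ≤ 1024 + 2 * w.length := by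
  unfold kk
  rcases le_total 10 (Nat.size w.length) with h | h
  · rw [max_eq_right h]
    have h1 : 2 ^ (Nat.size w.length - 1) ≤ w.length := by
      by_contra h2
      have h3 := Nat.size_le.2 (not_le.1 h2)
      omega
    have h2 : 2 ^ Nat.size w.length = 2 * 2 ^ (Nat.size w.length - 1) := by
      rw [← pow_succ']; congr 1; omega
    (clear * - h1 h2; omega)
  · rw [max_eq_left h]; (clear * -; omega)

theorem length_lt_two_pow_kk (w : List Bool) : w.length < 2 ^ kk w :=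
  (Nat.size_le.1 le_rfl).trans_le (Nat.pow_le_pow_right two_pos (le_max_right _ _))

theorem pbd_kk {w : α → List Bool} (hw : PT A w) : PBd (fun a => 2 ^ kk (w a)) := by
  have hwb := PBd.length (A := A) hw
  have h : PBd (fun a => 1024 + 2 * (w a).length) := by fun_prop
  exact h.mono fun a => two_pow_kk _

variable {k : α → ℕ}

theorem pt_nB (hk : PT A k) (hK : PBd (fun a => 2 ^ k a)) : PT A (fun a => nB (k a)) :=
  ((PT.const 6000).mul ((pt_an hk hK).powConst 3)).add (PT.const 3)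

theorem pbd_nB (hK : PBd (fun a => 2 ^ k a)) : PBd (fun a => nB (k a)) := by
  have := pbd_an hK
  unfold nB
  fun_prop

theorem pt_nG (hk : PT A k) (hK : PBd (fun a => 2 ^ k a)) : PT A (fun a => nG (k a)) :=
  (((PT.const 4).mul (pt_an hk hK)).mul ((pt_aK hk hK).powConst 6)).add (PT.const 1)

theorem pbd_nG (hK : PBd (fun a => 2 ^ k a)) : PBd (fun a => nG (k a)) := by
  have := pbd_an hK
  have := pbd_aK hK
  unfold nG
  fun_prop

theorem grid_lt (k j : ℕ) : grid k j < 2 ^ (2 * j + 1) := by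
  induction j with
  | zero => simp only [grid, mul_zero, zero_add, pow_one, Order.lt_two_iff, Std.le_refl]
  | succ j ih =>
    rw [grid]
    have h1 : grid k j / aK k ^ 6 ≤ grid k j := Nat.div_le_self _ _
    have h2 : (2 : ℕ) ^ (2 * (j + 1) + 1) = 4 * 2 ^ (2 * j + 1) := by ring
    omega

theorem grid_eq_rec (k j : ℕ) : grid k j = Nat.rec (motive := fun _ => ℕ) 1
    (fun _ x => x + x / aK k ^ 6 + 1) j := by
  induction j with
  | zero => rfl
  | succ j ih => rw [grid, ih]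

theorem pt_grid {j : α → ℕ} (hk : PT A k) (hK : PBd (fun a => 2 ^ k a)) (hj : PT A j)
    (hjb : PBd j) : PT A (fun a => grid (k a) (j a)) := by
  refine (PT.natRec (init := fun _ => 1) (step := fun a _ x => x + x / aK (k a) ^ 6 + 1) hj hjb
    (PT.const 1) ?_ (b := fun a => 2 * j a + 1) (by fun_prop) fun a i hi => ?_).congr fun a => ?_
  · have hx : PT A (fun p : α × ℕ × ℕ => p.2.2) := PT.snd'.snd
    exact (hx.add (hx.div ((pt_aK (hk.comp PT.fst') (hK_fst hK)).powConst 6))).add (PT.const 1)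
  · rw [← grid_eq_rec]
    refine (esize_nat_le (grid_lt _ _)).trans ?_
    omega
  · exact (grid_eq_rec _ _).symm

theorem pt_lo {B : α → ℕ} {ans : α → List Bool} (hB : PT A B) (hBb : PBd B) (ha : PT A ans) :
    PT A (fun a => lo (B a) (ans a)) := by
  have h1 : PT A (fun a => B a - 1) := hB.sub (PT.const 1)
  have h1b : PBd (fun a => B a - 1) := hBb.mono fun _ => Nat.sub_le _ _
  refine (PT.intNeg (PT.twoPowInt h1 h1b)).intAdd (PT.rangeSumInt (PT.length ha)
    (PBd.length (A := A) ha) ?_)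
  have hi : PT A (fun p : α × Un => p.2.v) := PT.unVal PT.snd'
  exact PT.cond (PT.getD (ha.comp PT.fst') hi (PT.const false)) (PT.const 0)
    (PT.twoPowInt ((h1.comp PT.fst').sub hi) (h1b.compFst.mono fun _ => Nat.sub_le _ _))

theorem pt_aJ1 (hk : PT A k) (hK : PBd (fun a => 2 ^ k a)) : PT A (fun a => aJ1 (k a)) := by
  have hnb := pbd_an hK
  have h : PBd (fun a => 2000 * an (k a) ^ 3) := by (clear * - hnb; fun_prop)
  exact PT.twoPow (((PT.const 2000).mul ((pt_an hk hK).powConst 3)).sub ((PT.const 4352).mul hk))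
    (h.mono fun _ => Nat.sub_le _ _)

theorem pt_firstYes {ans : α → List Bool} {d : α → ℕ} (hk : PT A k)
    (hK : PBd (fun a => 2 ^ k a)) (ha : PT A ans) (hd : PT A d) :
    PT A (fun a => firstYes (k a) (ans a) (d a)) := by
  have hG := pt_nG hk hK
  have hGb := pbd_nG hK
  have hi : PT A (fun p : α × Un => p.2.v) := PT.unVal PT.snd'
  have h1 : PT A (fun a => (((List.range (nG (k a))).map Un.mk).filter (fun u =>
      (ans a).getD (nB (k a) + (d a - 1) * nG (k a) + u.v) false)).map Un.v) :=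
    PT.map (f := fun _ (u : Un) => u.v) (PT.filter (PT.rangeUn hG hGb)
      (PT.getD (ha.comp PT.fst') ((((pt_nB hk hK).comp PT.fst').add
        (((hd.comp PT.fst').sub (PT.const 1)).mul (hG.comp PT.fst'))).add hi) (PT.const false)))
      (PT.unVal PT.snd')
  refine (PT.headD h1 hG).congr fun a => ?_
  rw [firstYes, List.filter_map, List.map_map]
  congr 1
  exact List.map_id'' (fun _ => rfl) _

theorem firstYes_le (k : ℕ) (ans : List Bool) (d : ℕ) : firstYes k ans d ≤ nG k := by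
  unfold firstYes
  rcases e : (List.range (nG k)).filter
    (fun j => ans.getD (nB k + (d - 1) * nG k + j) false) with _ | ⟨x, l⟩
  · simp
  · have : x ∈ (List.range (nG k)).filter
        (fun j => ans.getD (nB k + (d - 1) * nG k + j) false) := by rw [e]; simp
    simpa only [List.headD_eq_head?_getD, List.head?_cons, Option.getD_some, ge_iff_le] using     (List.mem_range.1 (List.mem_of_mem_filter this)).le

theorem pt_xcal {ans : α → List Bool} {d : α → ℕ} (hk : PT A k)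
    (hK : PBd (fun a => 2 ^ k a)) (ha : PT A ans) (hd : PT A d) :
    PT A (fun a => xcal (k a) (ans a) (d a)) :=
  pt_grid hk hK (pt_firstYes hk hK ha hd) ((pbd_nG hK).mono fun _ => firstYes_le _ _ _)

theorem pt_single {d x : α → ℕ} (hd : PT A d) (hdb : PBd d) (hx : PT A x) :
    PT A (fun a => single (d a) (x a)) :=
  (PT.replicate hd hdb (PT.const 0)).append (PT.cons hx (PT.const []))

/-- final parameters, with a general calibration function -/
theorem pt_sfin {x : α → ℕ → ℕ} {w : α → List Bool} (hk : PT A k)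
    (hK : PBd (fun a => 2 ^ k a)) (hx : PT A (fun p : α × Un => x p.1 p.2.v)) (hw : PT A w) :
    PT A (fun a => sfin (k a) (x a) (w a)) := by
  have hKK := pt_aK hk hK
  have hKb := pbd_aK hK
  have hi : PT A (fun p : α × Un => p.2.v) := PT.unVal PT.snd'
  have hib : PBd (fun p : α × Un => p.2.v) := PBd.unSnd
  have hK' : PT A (fun p : α × Un => aK (k p.1)) := hKK.comp PT.fst'
  have h1 := hi.mod hK'
  have h2 := hi.div hK'
  have h3 : PT A (fun p : α × Un => Un.mk (p.2.v % aK (k p.1) - p.2.v / aK (k p.1))) :=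
    PT.mkUn (h1.sub h2) (hib.mono fun _ => (Nat.sub_le _ _).trans (Nat.mod_le _ _))
  have h4 : PT A (fun p : α × Un => x p.1 (p.2.v % aK (k p.1) - p.2.v / aK (k p.1))) :=
    hx.comp (PT.fst'.pair h3)
  exact PT.rangeMap (hKK.mul hKK) (hKb.mul hKb)
    (PT.natSqrt (((h4.powConst 2).mul (pt_mW (hw.comp PT.fst') h2 h1)).div hK'))

theorem pt_offs {w : α → List Bool} (hk : PT A k) (hK : PBd (fun a => 2 ^ k a)) (hw : PT A w) :
    PT A (fun a => offs (k a) (w a)) := by
  have hnb := pbd_an hK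
  have h : PBd (fun a => 2000 * an (k a) ^ 3) := by fun_prop
  exact (((PT.const 2).intMul ((PT.natCast (pt_mSum hw)).intAdd
    (PT.natCast (pt_hA hw)))).intSub (PT.const 1)).intMul
    (PT.twoPowInt ((((PT.const 2000).mul ((pt_an hk hK).powConst 3)).sub
      ((PT.const 4353).mul hk)).sub (PT.const 2))
      (h.mono fun _ => (Nat.sub_le _ _).trans (Nat.sub_le _ _)))

theorem pt_nQ (hk : PT A k) (hK : PBd (fun a => 2 ^ k a)) : PT A (fun a => nQ (k a)) :=
  (pt_nB hk hK).add (((pt_aK hk hK).sub (PT.const 1)).mul (pt_nG hk hK))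

theorem pbd_nQ (hK : PBd (fun a => 2 ^ k a)) : PBd (fun a => nQ (k a)) := by
  have h := (pbd_nB hK).add ((pbd_aK hK).mul (pbd_nG hK))
  exact h.mono fun a => Nat.add_le_add_left (Nat.mul_le_mul_right _ (Nat.sub_le _ _)) _

/-- **The queries are computed in polynomial time.** -/
theorem pt_query {w ans : α → List Bool} (hw : PT A w) (ha : PT A ans) :
    PT A (fun a => query (w a) (ans a)) := by
  have hk := pt_kk hw
  have hK := pbd_kk hw
  have hB := pt_nB hk hK
  have hBb := pbd_nB hK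
  have hl := PT.length ha
  have hlb := PBd.length (A := A) ha
  have hG := pt_nG hk hK
  have htk := pt_lo hB hBb (PT.take ha hB)
  refine PT.ite (PT.lt hl hB) ?_ (PT.ite (PT.lt hl (pt_nQ hk hK)) ?_ ?_)
  · exact pt_build hk hK (PT.const []) ((pt_lo hB hBb ha).intAdd
      (PT.twoPowInt ((hB.sub (PT.const 1)).sub hl)
        (hBb.mono fun _ => (Nat.sub_le _ _).trans (Nat.sub_le _ _))))
  · refine pt_build hk hK (pt_single (((hl.sub hB).div hG).add (PT.const 1)) ?_
      (pt_grid hk hK ((hl.sub hB).mod hG) ?_)) (htk.intSub ((PT.const 2).intMul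
        (PT.natCast (pt_aJ1 hk hK))))
    · exact (hlb.mono fun _ => (Nat.div_le_self _ _).trans (Nat.sub_le _ _)).add (PBd.const 1)
    · exact hlb.mono fun _ => (Nat.mod_le _ _).trans (Nat.sub_le _ _)
  · refine pt_build hk hK (pt_sfin hk hK ?_ hw) (htk.intSub (pt_offs hk hK hw))
    exact pt_xcal (hk.comp PT.fst') (hK_fst hK) (ha.comp PT.fst') (PT.unVal PT.snd')

theorem pt_output {w ans : α → List Bool} (hw : PT A w) (ha : PT A ans) :
    PT A (fun a => output (w a) (ans a)) :=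
  PT.cons (PT.getD ha (pt_nQ (pt_kk hw) (pbd_kk hw)) (PT.const false)) (PT.const [])

/-! ### from typed functions to machines -/

theorem pairW_eq (x y : List Bool) : pairW x y = pr x y := by
  induction x with
  | nil => rfl
  | cons b x ih =>
    show true :: b :: pairW x y = true :: b :: pr x y
    rw [ih]

/-- functions on words from the typed layer -/
theorem polyTimeFn_of_pt {f : List Bool → List Bool}
    (hf : PT ∅ (fun x : Raw => f x.w)) : PolyTimeFn f := by
  obtain ⟨g, hg, hg'⟩ := PT.rawOfList hf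
  refine exists_tm2_of_polyTimeFun id id f g (polyTimeFun_iff.2 hg) fun a => ?_
  exact hg' ⟨a⟩

theorem polyTimeFn_pair {f : List Bool → List Bool → List Bool}
    (hf : PT ∅ (fun p : List Bool × List Bool => f p.1 p.2)) :
    PolyTimeFn (fun z => f (fstW z) (sndW z)) := by
  refine polyTimeFn_of_pt ?_
  have h1 : PT ∅ (fun x : Raw => Raw.mk (fstW x.w)) := ⟨_, FP.fst, fun _ => rfl⟩
  have h2 : PT ∅ (fun x : Raw => Raw.mk (sndW x.w)) := ⟨_, FP.snd, fun _ => rfl⟩
  exact hf.comp ((PT.listOfRaw h1).pair (PT.listOfRaw h2))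

theorem polyTimeFn_query : PolyTimeFn (fun z => query (fstW z) (sndW z)) :=
  polyTimeFn_pair (pt_query PT.fst' PT.snd')

theorem polyTimeFn_output : PolyTimeFn (fun z => output (fstW z) (sndW z)) :=
  polyTimeFn_pair (pt_output PT.fst' PT.snd')

/-- the number of queries is bounded by a polynomial -/
theorem exists_steps : ∃ T : Polynomial ℕ, ∀ w : List Bool, nQ (kk w) < T.eval w.length := by
  have h : PBd (fun w : Raw => nQ (kk w.w)) :=
    pbd_nQ (pbd_kk (A := ∅) (PT.listOfRaw (f := fun w : Raw => w) PT.id))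
  obtain ⟨c, hc⟩ := h
  obtain ⟨q, hq⟩ := (PB.pb c).exists_polynomial
  refine ⟨q + 1, fun w => ?_⟩
  have h1 := hc ⟨w⟩
  have h2 := hq w.length
  rw [Polynomial.eval_add, Polynomial.eval_one]
  have h3 : esize (Raw.mk w) = w.length := rfl
  rw [h3] at h1
  simp only at h1
  omega

end Vale.Agent.P370.Q.Alg
end

section

set_option linter.all false

/-!
Composition of reductions (H12).
-/

namespace Vale.Agent.P370.H

open Vale.Agent.Lib.PolyTime

theorem fp_of_polyTimeFn {f : List Bool → List Bool} (hf : PolyTimeFn f) : FP ∅ f := by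
  obtain ⟨M, _⟩ := hf
  exact OfTM2.FP_of_tm2 M

theorem polyTimeFn_of_fp {f : List Bool → List Bool} (hf : FP ∅ f) : PolyTimeFn f :=
  exists_tm2_of_polyTimeFun id id f f (polyTimeFun_iff.2 hf) fun _ => rfl

theorem PolyTimeFn.comp {f g : List Bool → List Bool} (hf : PolyTimeFn f) (hg : PolyTimeFn g) :
    PolyTimeFn (fun w => f (g w)) :=
  polyTimeFn_of_fp ((fp_of_polyTimeFn hf).comp (fp_of_polyTimeFn hg))

theorem karp_trans {A B C : PromiseProblem} (h1 : KarpReduces A B) (h2 : KarpReduces B C) :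
    KarpReduces A C := by
  obtain ⟨f, hf, hf1, hf2⟩ := h1
  obtain ⟨g, hg, hg1, hg2⟩ := h2
  exact ⟨fun w => g (f w), PolyTimeFn.comp hg hf, fun w hw => hg1 _ (hf1 w hw),
    fun w hw => hg2 _ (hf2 w hw)⟩

theorem karp_turing {A B C : PromiseProblem} (h1 : KarpReduces A B) (h2 : TuringReduces B C) :
    TuringReduces A C := by
  obtain ⟨f, hf, hf1, hf2⟩ := h1
  obtain ⟨q, out, T, hq, hout, H⟩ := h2
  have hf' := fp_of_polyTimeFn hf
  have hff : FP ∅ (fun z : List Bool => f (fstW z)) := hf'.comp FP.fst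
  obtain ⟨u, hu, hul⟩ := FP.unary hff T
  obtain ⟨S, hS, hSm, hSb⟩ := hf'.length_le
  obtain ⟨P, hP⟩ := hS.exists_polynomial
  have hlen : ∀ w : List Bool, T.eval (f w).length ≤ (T.comp P).eval w.length := by
    intro w
    rw [Polynomial.eval_comp]
    exact eval_mono T ((hSb w).trans (hP _))
  refine ⟨fun z => q (pr (f (fstW z)) (sndW z)),
    fun z => out (pr (f (fstW z)) ((sndW z).take (u z).length)), T.comp P,
    polyTimeFn_of_fp ((fp_of_polyTimeFn hq).comp (hff.pair FP.snd)),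
    polyTimeFn_of_fp ((fp_of_polyTimeFn hout).comp (hff.pair (hu.takeL FP.snd))), ?_⟩
  intro w ans hans hcorr
  have hle : T.eval (f w).length ≤ ans.length := by
    rw [hans]
    exact hlen w
  have h3 := H (f w) (ans.take (T.eval (f w).length)) (by
    rw [List.length_take, min_eq_left hle]) (by
    intro t ht
    have ht' : t < T.eval (f w).length := by
      rw [List.length_take, min_eq_left hle] at ht
      exact ht
    have h4 := hcorr t (ht'.trans_le hle)
    beta_reduce at h4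
    rw [Q.Alg.pairW_eq, fstW_pr, sndW_pr, ← Q.Alg.pairW_eq] at h4
    rw [List.take_take, min_eq_left ht'.le, List.getElem_take]
    exact h4)
  have h5 : out (pr (f (fstW (pairW w ans))) ((sndW (pairW w ans)).take (u (pairW w ans)).length)) =
      out (pairW (f w) (ans.take (T.eval (f w).length))) := by
    rw [hul, Q.Alg.pairW_eq, fstW_pr, sndW_pr, Q.Alg.pairW_eq]
  refine ⟨fun hw => ?_, fun hw => ?_⟩
  · exact h5.trans (h3.1 (hf1 w hw))
  · exact h5.trans (h3.2 (hf2 w hw))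

end Vale.Agent.P370.H
end

section

/-!
Zonal harmonics: the solid Legendre polynomials, values on null vectors.
-/

namespace Vale.Agent.P370.KC

open MeasureTheory Finset ComplexConjugate MvPolynomial Vale.Agent.P370.Q Vale.Agent.P370.Hyd

/-- the linear form of the vector `y` -/
noncomputable def ylin (y : R3) : Pl := ∑ k, C (y k) * X k

/-- solid Legendre polynomials -/
noncomputable def zonP (y : R3) : ℕ → Pl
  | 0 => 1
  | 1 => ylin y
  | (n + 2) => C (1 / ((n : ℝ) + 2)) * (C (2 * (n : ℝ) + 3) * (ylin y * zonP y (n + 1)) -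
      C (((n : ℝ) + 1) * ‖y‖ ^ 2) * (nsq * zonP y n))

theorem zonP_zero (y : R3) : zonP y 0 = 1 := by rw [zonP]
theorem zonP_one (y : R3) : zonP y 1 = ylin y := by rw [zonP]

theorem zonP_succ (y : R3) (n : ℕ) : zonP y (n + 2) =
    C (1 / ((n : ℝ) + 2)) * (C (2 * (n : ℝ) + 3) * (ylin y * zonP y (n + 1)) -
      C (((n : ℝ) + 1) * ‖y‖ ^ 2) * (nsq * zonP y n)) := by rw [zonP]

/-- value of the solid Legendre polynomial -/
noncomputable def zon (l : ℕ) (x y : R3) : ℝ :=
  ‖x‖ ^ l * ‖y‖ ^ l * S3.lp l (inner ℝ x y / (‖x‖ * ‖y‖))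

theorem ev_ylin (y x : R3) : ev (ylin y) x = inner ℝ x y := by
  unfold ev ylin
  rw [map_sum, PiLp.inner_apply]
  refine Finset.sum_congr rfl fun k _ => ?_
  simp

theorem ev_zonP (y x : R3) (l : ℕ) : ev (zonP y l) x = zon l x y := by
  have ht : inner ℝ x y / (‖x‖ * ‖y‖) * (‖x‖ * ‖y‖) = inner ℝ x y := by
    by_cases h : ‖x‖ * ‖y‖ = 0
    · rw [h, mul_zero]
      have h1 := abs_real_inner_le_norm x y
      rw [h] at h1
      exact (abs_nonpos_iff.1 h1).symm
    · exact div_mul_cancel₀ _ h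
  induction l using Nat.twoStepInduction with
  | zero =>
    rw [zonP_zero]
    unfold zon ev
    rw [show S3.lp 0 (inner ℝ x y / (‖x‖ * ‖y‖)) = 1 from rfl]
    simp
  | one =>
    rw [zonP_one, ev_ylin]
    unfold zon
    rw [pow_one, pow_one, show S3.lp 1 (inner ℝ x y / (‖x‖ * ‖y‖)) = inner ℝ x y / (‖x‖ * ‖y‖)
      from rfl]
    (clear * - ht; linarith)
  | more n ih0 ih1 =>
    have hsub : ∀ P Q : Pl, ev (P - Q) x = ev P x - ev Q x := fun P Q => by
      unfold ev; rw [map_sub]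
    rw [zonP_succ, ev_mul, ev_C, hsub, ev_mul, ev_C, ev_mul, ev_mul, ev_C, ev_mul, ev_ylin, ih0,
      ih1, ev_nsq]
    unfold zon
    have h2 := S3.lp_succ n (inner ℝ x y / (‖x‖ * ‖y‖))
    generalize hg : inner ℝ x y / (‖x‖ * ‖y‖) = t at h2 ht ⊢
    have h3 : ((n : ℝ) + 2) ≠ 0 := by (clear * -; positivity)
    rw [← ht, one_div, inv_mul_eq_iff_eq_mul₀ h3]
    have h4 : ((n : ℝ) + 2) * (‖x‖ ^ (n + 2) * ‖y‖ ^ (n + 2) * S3.lp (n + 2) t) =
        ‖x‖ ^ (n + 2) * ‖y‖ ^ (n + 2) * (((n : ℝ) + 2) * S3.lp (n + 2) t) := by ring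
    rw [h4, h2]
    ring

theorem ylin_hom (y : R3) : (ylin y).IsHomogeneous 1 := by
  refine IsHomogeneous.sum _ _ _ fun k _ => ?_
  have := (isHomogeneous_C (Fin 3) (y k)).mul (isHomogeneous_X ℝ k)
  rwa [zero_add] at this

theorem zonP_hom (y : R3) (l : ℕ) : (zonP y l).IsHomogeneous l := by
  induction l using Nat.twoStepInduction with
  | zero => rw [zonP_zero]; exact isHomogeneous_one _ _
  | one => rw [zonP_one]; exact ylin_hom y
  | more n ih0 ih1 =>
    rw [zonP_succ]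
    refine IsHomogeneous.C_mul ?_ _
    refine IsHomogeneous.sub (IsHomogeneous.C_mul ?_ _) (IsHomogeneous.C_mul ?_ _)
    · have := (ylin_hom y).mul ih1
      rwa [show 1 + (n + 1) = n + 2 by ring] at this
    · have := isHomogeneous_nsq.mul ih0
      rwa [add_comm 2 n] at this

/-- directional derivative -/
noncomputable def yd (y : R3) (P : Pl) : Pl := ∑ k, C (y k) * pderiv k P

theorem pderiv_ylin (y : R3) (k : Fin 3) : pderiv k (ylin y) = C (y k) := by
  unfold ylin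
  rw [map_sum, Finset.sum_eq_single k]
  · rw [Derivation.leibniz, pderiv_C, pderiv_X_self]
    simp only [smul_eq_mul, mul_one, mul_zero, add_zero]
  · intro j _ hj
    rw [Derivation.leibniz, pderiv_C, pderiv_X_of_ne hj]
    simp only [smul_eq_mul, mul_zero, add_zero]
  · intro h
    exact absurd (Finset.mem_univ k) h

theorem sum_C_sq (y : R3) : ∑ k, (C (y k) * C (y k) : Pl) = C (‖y‖ ^ 2) := by
  rw [EuclideanSpace.norm_sq_eq, map_sum]
  refine Finset.sum_congr rfl fun k _ => ?_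
  rw [← C_mul]
  congr 1
  rw [Real.norm_eq_abs, sq_abs, pow_two]

theorem yd_add (y : R3) (P Q : Pl) : yd y (P + Q) = yd y P + yd y Q := by
  unfold yd
  rw [← Finset.sum_add_distrib]
  refine Finset.sum_congr rfl fun k _ => ?_
  rw [map_add, mul_add]

theorem yd_sub (y : R3) (P Q : Pl) : yd y (P - Q) = yd y P - yd y Q := by
  unfold yd
  rw [← Finset.sum_sub_distrib]
  refine Finset.sum_congr rfl fun k _ => ?_
  rw [map_sub, mul_sub]

theorem yd_mul (y : R3) (P Q : Pl) : yd y (P * Q) = P * yd y Q + Q * yd y P := by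
  unfold yd
  rw [Finset.mul_sum, Finset.mul_sum, ← Finset.sum_add_distrib]
  refine Finset.sum_congr rfl fun k _ => ?_
  rw [Derivation.leibniz]
  simp only [smul_eq_mul]
  ring

theorem yd_C (y : R3) (a : ℝ) : yd y (C a) = 0 := by
  unfold yd
  refine Finset.sum_eq_zero fun k _ => ?_
  rw [pderiv_C, mul_zero]

theorem yd_ylin (y : R3) : yd y (ylin y) = C (‖y‖ ^ 2) := by
  unfold yd
  rw [← sum_C_sq]
  refine Finset.sum_congr rfl fun k _ => ?_
  rw [pderiv_ylin]

theorem yd_nsq (y : R3) : yd y nsq = C 2 * ylin y := by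
  unfold yd ylin
  rw [Finset.mul_sum]
  refine Finset.sum_congr rfl fun k _ => ?_
  rw [pderiv_nsq]
  ring

theorem yd_zonP (y : R3) (l : ℕ) :
    yd y (zonP y (l + 1)) = C (((l : ℝ) + 1) * ‖y‖ ^ 2) * zonP y l := by
  induction l using Nat.twoStepInduction with
  | zero =>
    rw [zonP_one, zonP_zero, yd_ylin]
    simp
  | one =>
    rw [zonP_succ, zonP_one, zonP_zero, yd_mul, yd_C, yd_sub, yd_mul, yd_mul, yd_mul, yd_mul,
      yd_C, yd_C, yd_ylin, yd_nsq, show (1 : Pl) = C 1 by rw [C_1], yd_C]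
    have h1 : (C (1 / (((0 : ℕ) : ℝ) + 2)) : Pl) * C 2 = 1 := by
      rw [← C_mul, ← C_1]
      congr 1
      norm_num
    have h2 : (C (2 * (((0 : ℕ) : ℝ)) + 3) : Pl) = 3 := by
      rw [show (2 * (((0 : ℕ) : ℝ)) + 3) = ((3 : ℕ) : ℝ) by norm_num, map_natCast]
      norm_num
    have h3 : (C ((((0 : ℕ) : ℝ) + 1) * ‖y‖ ^ 2) : Pl) = C (‖y‖ ^ 2) := by
      congr 1
      simp
    have h4 : (C ((((1 : ℕ) : ℝ) + 1) * ‖y‖ ^ 2) : Pl) = C 2 * C (‖y‖ ^ 2) := by
      rw [← C_mul]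
      congr 1
      norm_num
    have h5 : (C 2 : Pl) = 2 := by
      rw [show (2 : ℝ) = ((2 : ℕ) : ℝ) by norm_num, map_natCast]
      norm_num
    rw [h2, h3, h4]
    rw [h5] at h1 ⊢
    simp only [C_1]
    linear_combination (2 * C (‖y‖ ^ 2) * ylin y) * h1
  | more n ih0 ih1 =>
    have e1 : zonP y (n + 2 + 1) = C (1 / (((n + 1 : ℕ) : ℝ) + 2)) *
        (C (2 * ((n + 1 : ℕ) : ℝ) + 3) * (ylin y * zonP y (n + 2)) -
        C ((((n + 1 : ℕ) : ℝ) + 1) * ‖y‖ ^ 2) * (nsq * zonP y (n + 1))) := zonP_succ y (n + 1)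
    rw [e1, yd_mul, yd_C, yd_sub, yd_mul, yd_mul, yd_mul, yd_mul, yd_C, yd_C, yd_ylin, yd_nsq,
      ih1, ih0]
    -- constants
    have h0 : ((n : ℝ) + 2) ≠ 0 := by (clear * -; positivity)
    have hz := zonP_succ y n
    have hN : ∀ m : ℕ, (C (m : ℝ) : Pl) = (m : Pl) := fun m => map_natCast C m
    have h2 : (C 2 : Pl) = 2 := by
      rw [show (2 : ℝ) = ((2 : ℕ) : ℝ) by norm_num, map_natCast]; norm_num
    have hc1 : (C (1 / (((n + 1 : ℕ) : ℝ) + 2)) : Pl) * ((n : Pl) + 3) = 1 := by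
      rw [← hN n, show (3 : Pl) = C 3 by
        rw [show (3 : ℝ) = ((3 : ℕ) : ℝ) by norm_num, map_natCast]; norm_num, ← C_add, ← C_mul,
        ← C_1]
      congr 1
      have : ((n : ℝ) + 1 + 2) ≠ 0 := by (clear * -; positivity)
      push_cast
      field_simp
      ring
    have hc2 : (C (1 / ((n : ℝ) + 2)) : Pl) * ((n : Pl) + 2) = 1 := by
      rw [← hN n, ← h2, ← C_add, ← C_mul, ← C_1]
      congr 1
      (clear * - h0; field_simp)
    have hc3 : (C (2 * ((n + 1 : ℕ) : ℝ) + 3) : Pl) = 2 * (n : Pl) + 5 := by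
      rw [show (2 * ((n + 1 : ℕ) : ℝ) + 3) = ((2 * n + 5 : ℕ) : ℝ) by push_cast; ring, hN]
      push_cast
      ring
    have hc4 : (C (2 * (n : ℝ) + 3) : Pl) = 2 * (n : Pl) + 3 := by
      rw [show (2 * (n : ℝ) + 3) = ((2 * n + 3 : ℕ) : ℝ) by push_cast; ring, hN]
      push_cast
      ring
    have hc5 : (C ((((n + 1 : ℕ) : ℝ) + 1) * ‖y‖ ^ 2) : Pl) = ((n : Pl) + 2) * C (‖y‖ ^ 2) := by
      rw [C_mul, show (((n + 1 : ℕ) : ℝ) + 1) = ((n + 2 : ℕ) : ℝ) by push_cast; ring, hN]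
      push_cast
      ring
    have hc6 : (C (((n : ℝ) + 1) * ‖y‖ ^ 2) : Pl) = ((n : Pl) + 1) * C (‖y‖ ^ 2) := by
      rw [C_mul, show ((n : ℝ) + 1) = ((n + 1 : ℕ) : ℝ) by push_cast; ring, hN]
      push_cast
      ring
    have hc7 : (C ((((n + 2 : ℕ) : ℝ) + 1) * ‖y‖ ^ 2) : Pl) = ((n : Pl) + 3) * C (‖y‖ ^ 2) := by
      rw [C_mul, show (((n + 2 : ℕ) : ℝ) + 1) = ((n + 3 : ℕ) : ℝ) by push_cast; ring, hN]
      push_cast
      ring
    rw [hc4, hc6] at hz
    rw [hc3, hc5, hc6, hc7, h2]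
    have hz2 : ((n : Pl) + 2) * zonP y (n + 2) = (2 * (n : Pl) + 3) * (ylin y * zonP y (n + 1)) -
        ((n : Pl) + 1) * C (‖y‖ ^ 2) * (nsq * zonP y n) := by
      rw [hz]
      linear_combination ((2 * (n : Pl) + 3) * (ylin y * zonP y (n + 1)) -
        ((n : Pl) + 1) * C (‖y‖ ^ 2) * (nsq * zonP y n)) * hc2
    have hn3 : ((n : Pl) + 3) ≠ 0 := by
      intro h
      rw [h, mul_zero] at hc1
      exact zero_ne_one hc1
    refine mul_left_cancel₀ hn3 ?_
    linear_combination (exp := 1)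
      ((2 * (n : Pl) + 5) * (ylin y * (((n : Pl) + 2) * C (‖y‖ ^ 2) * zonP y (n + 1)) +
        zonP y (n + 2) * C (‖y‖ ^ 2)) - ((n : Pl) + 2) * C (‖y‖ ^ 2) *
        (nsq * (((n : Pl) + 1) * C (‖y‖ ^ 2) * zonP y n) + zonP y (n + 1) * (2 * ylin y))) * hc1 -
        ((n : Pl) + 2) * C (‖y‖ ^ 2) * hz2 

end Vale.Agent.P370.KC
end

section

/-!
Correctness of the calibration: the scan over the grid.
-/

namespace Vale.Agent.P370.Q.Alg

open Finset

theorem grid_pos (k j : ℕ) : 1 ≤ grid k j := by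
  cases j with
  | zero => exact le_rfl
  | succ j => rw [grid]; exact Nat.le_add_left 1 _

theorem grid_succ_le (k j : ℕ) : grid k (j + 1) ≤ 3 * grid k j := by
  have h1 := grid_pos k j
  have h2 : grid k j / aK k ^ 6 ≤ grid k j := Nat.div_le_self _ _
  rw [grid]; omega

theorem aK_real (k : ℕ) : (aK k : ℝ) = (pK k : ℝ) := rfl

theorem pK_pos (k : ℕ) : (0 : ℝ) < pK k := by unfold pK; (clear * -; positivity)

theorem grid_succ_ge (k j : ℕ) :
    (grid k j : ℝ) * (1 + 1 / (pK k : ℝ) ^ 6) ≤ grid k (j + 1) := by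
  have hK := pK_pos k
  have h0 : 0 < aK k ^ 6 := by unfold aK; positivity
  have h1 : grid k j < (grid k j / aK k ^ 6 + 1) * aK k ^ 6 := by
    have := Nat.lt_div_mul_add (a := grid k j) h0
    calc _ < _ := this
      _ = _ := by ring
  have h2 : (grid k j : ℝ) / (pK k : ℝ) ^ 6 ≤ ((grid k j / aK k ^ 6 + 1 : ℕ) : ℝ) := by
    rw [div_le_iff₀ (by (clear * - hK; positivity)), ← aK_real]
    exact_mod_cast h1.le
  rw [grid]
  push_cast at h2 ⊢
  rw [mul_add, mul_one, mul_one_div]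
  linarith only [h2]

theorem grid_succ_le' (k j : ℕ) :
    (grid k (j + 1) : ℝ) ≤ (grid k j : ℝ) * (1 + 1 / (pK k : ℝ) ^ 6) + 1 := by
  have hK := pK_pos k
  have h2 : ((grid k j / aK k ^ 6 : ℕ) : ℝ) ≤ (grid k j : ℝ) / (pK k : ℝ) ^ 6 := by
    have := @Nat.cast_div_le ℝ _ _ _ (grid k j) (aK k ^ 6)
    push_cast at this
    rwa [aK_real] at this
  rw [grid]
  push_cast at h2 ⊢
  rw [mul_add, mul_one, mul_one_div]
  (clear * - h2; linarith)

theorem grid_add_ge (k j m : ℕ) :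
    (grid k j : ℝ) * (1 + 1 / (pK k : ℝ) ^ 6) ^ m ≤ grid k (j + m) := by
  have hK := pK_pos k
  induction m with
  | zero => simp only [one_div, pow_zero, mul_one, add_zero, Std.le_refl]
  | succ m ih =>
    rw [pow_succ, ← mul_assoc, ← add_assoc]
    refine le_trans ?_ (grid_succ_ge k (j + m))
    exact mul_le_mul_of_nonneg_right ih (by (clear * - hK; positivity))

theorem grid_double (k j : ℕ) : 2 * (grid k j : ℝ) ≤ grid k (j + aK k ^ 6) := by
  have hK := pK_pos k
  refine le_trans ?_ (grid_add_ge k j (aK k ^ 6))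
  have h1 : (1 : ℝ) + (aK k ^ 6 : ℕ) * (1 / (pK k : ℝ) ^ 6) ≤
      (1 + 1 / (pK k : ℝ) ^ 6) ^ (aK k ^ 6) :=
    one_add_mul_le_pow (by have : (0 : ℝ) ≤ 1 / (pK k : ℝ) ^ 6 := by (clear * - hK; positivity)
                           (clear * - this; linarith)) _
  have h2 : ((aK k ^ 6 : ℕ) : ℝ) * (1 / (pK k : ℝ) ^ 6) = 1 := by
    push_cast
    rw [aK_real]
    (clear * - hK; field_simp)
  rw [h2] at h1
  have h3 : (0 : ℝ) ≤ grid k j := Nat.cast_nonneg _
  nlinarith only [h1]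

theorem grid_last (k : ℕ) : (2 : ℝ) ^ (4 * pn k) ≤ grid k (nG k - 1) := by
  have h : ∀ m : ℕ, (2 : ℝ) ^ m ≤ grid k (m * aK k ^ 6) := by
    intro m
    induction m with
    | zero => simp [grid]
    | succ m ih =>
      rw [pow_succ, add_mul, one_mul]
      have := grid_double k (m * aK k ^ 6)
      linarith only [ih, this]
  exact h _

/-- what is needed from the structure theorem -/
def Key (k : ℕ) (κ : ℕ → ℝ) (Eref : ℝ) : Prop :=
  ∀ s : List ℕ, (∀ i j, i < j → j < pK k → κ (j - i) * (sget k s i j : ℝ) ^ 2 ≤ 16 * pJ k) →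
    ∃ E : ℝ, |E - (Eref - pT k * heisMax (coupl κ (sget k s) (K := pK k)))| ≤
        pT k * pJ k / (pK k : ℝ) ^ 8 ∧
      ∀ (c : ℕ) (th : ℤ), (E ≤ th → build k s th ∈ (electronicStructure c).yes) ∧
        ((th : ℝ) + 1 ≤ E → build k s th ∈ (electronicStructure c).no)

theorem sget_nil (k i j : ℕ) : sget k [] i j = 0 := by simp [sget]

theorem coupl_nil (k : ℕ) (κ : ℕ → ℝ) :
    coupl κ (sget k []) (K := pK k) = fun _ _ => (0 : ℝ) := by
  funext i j
  simp only [coupl, sget_nil, CharP.cast_eq_zero, ne_eq, OfNat.ofNat_ne_zero, not_false_eq_true, zero_pow, mul_zero, ite_self]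

theorem sget_single (k d x i j : ℕ) (hi : i < j) (hj : j < pK k) (hd : d < pK k) :
    sget k (single d x) i j = if i = 0 ∧ j = d then x else 0 := by
  have h1 : ∀ t, (single d x).getD t 0 = if t = d then x else 0 := by
    intro t
    unfold single
    rcases lt_trichotomy t d with h | h | h
    · rw [List.getD_append _ _ _ _ (by simpa using h), if_neg (by omega)]
      simp [List.getD_replicate, h]
    · subst h
      rw [List.getD_append_right _ _ _ _ (by simp)]
      simp only [List.length_replicate, tsub_self, List.getD_eq_getElem?_getD, List.length_cons, List.length_nil, zero_add, Order.lt_one_iff, getElem?_pos, List.getElem_cons_zero, Option.getD_some, ↓reduceIte]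
    · rw [List.getD_append_right _ _ _ _ (by simp; omega), if_neg (by omega)]
      rw [List.getD_eq_default]
      simp only [List.length_cons, List.length_nil, zero_add, List.length_replicate]; omega
  rw [sget, h1]
  have hK : aK k = pK k := rfl
  rw [hK]
  by_cases h : i = 0 ∧ j = d
  · obtain ⟨rfl, rfl⟩ := h
    simp
  · rw [if_neg h, if_neg]
    intro h2
    rcases Nat.eq_zero_or_pos i with h3 | h3
    · subst h3
      exact h ⟨rfl, by omega⟩
    · have : pK k ≤ i * pK k := Nat.le_mul_of_pos_left _ h3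
      omega

theorem coupl_single (k d x : ℕ) (κ : ℕ → ℝ) (hd1 : 1 ≤ d) (hd : d < pK k) :
    coupl κ (sget k (single d x)) (K := pK k) =
      fun i j : Fin (pK k) => if i = ⟨0, by omega⟩ ∧ j = ⟨d, hd⟩ then κ d * (x : ℝ) ^ 2 else 0 := by
  funext i j
  by_cases hij : i < j
  · have hij' : (i : ℕ) < j := hij
    rw [coupl, if_pos hij, sget_single k d x i j hij' j.2 hd]
    by_cases h : (i : ℕ) = 0 ∧ (j : ℕ) = d
    · rw [if_pos h, if_pos ⟨Fin.ext h.1, Fin.ext h.2⟩, h.1, h.2, Nat.sub_zero]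
    · rw [if_neg h, if_neg (fun h' => h ⟨congrArg Fin.val h'.1, congrArg Fin.val h'.2⟩)]
      simp only [CharP.cast_eq_zero, ne_eq, OfNat.ofNat_ne_zero, not_false_eq_true, zero_pow, mul_zero]
  · rw [coupl, if_neg hij, if_neg]
    rintro ⟨h1, h2⟩
    apply hij
    rw [h1, h2]
    exact Fin.mk_lt_mk.2 (by omega)

section scan

variable {k : ℕ} {κ : ℕ → ℝ} {Eref : ℝ}

/-- energy of a single pair -/
theorem key_single (hkey : Key k κ Eref) (d x : ℕ) (hd1 : 1 ≤ d) (hd : d < pK k)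
    (hκ : 0 ≤ κ d) (hx : κ d * (x : ℝ) ^ 2 ≤ 16 * pJ k) :
    ∃ E : ℝ, |E - (Eref - 2 * (pT k * (κ d * (x : ℝ) ^ 2)))| ≤ pT k * pJ k / (pK k : ℝ) ^ 8 ∧
      ∀ (c : ℕ) (th : ℤ), (E ≤ th → build k (single d x) th ∈ (electronicStructure c).yes) ∧
        ((th : ℝ) + 1 ≤ E → build k (single d x) th ∈ (electronicStructure c).no) := by
  obtain ⟨E, hE, h⟩ := hkey (single d x) (by
    intro i j hij hj
    rw [sget_single k d x i j hij hj hd]
    by_cases h : i = 0 ∧ j = d
    · rw [if_pos h, h.1, h.2, Nat.sub_zero]; exact hx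
    · rw [if_neg h]
      have := pJ_pos k
      simp only [CharP.cast_eq_zero, ne_eq, OfNat.ofNat_ne_zero, not_false_eq_true, zero_pow, mul_zero, Nat.ofNat_pos, mul_nonneg_iff_of_pos_left, ge_iff_le]
      (clear * - this; positivity))
  refine ⟨E, ?_, h⟩
  rw [coupl_single k d x κ hd1 hd, heisMax_single _ _ (Fin.mk_lt_mk.2 (by omega)) _
    (by (clear * - hκ; positivity))] at hE
  have e : (pT k : ℝ) * (2 * (κ d * (x : ℝ) ^ 2)) = 2 * (pT k * (κ d * (x : ℝ) ^ 2)) := by ring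
  rwa [e] at hE

/-- energy without couplings -/
theorem key_zero (hkey : Key k κ Eref) :
    ∃ E : ℝ, |E - Eref| ≤ pT k * pJ k / (pK k : ℝ) ^ 8 ∧
      ∀ (c : ℕ) (th : ℤ), (E ≤ th → build k [] th ∈ (electronicStructure c).yes) ∧
        ((th : ℝ) + 1 ≤ E → build k [] th ∈ (electronicStructure c).no) := by
  obtain ⟨E, hE, h⟩ := hkey [] (by
    intro i j _ _
    have := pJ_pos k
    rw [sget_nil]
    simp only [CharP.cast_eq_zero, ne_eq, OfNat.ofNat_ne_zero, not_false_eq_true, zero_pow, mul_zero, Nat.ofNat_pos, mul_nonneg_iff_of_pos_left, ge_iff_le]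
    (clear * - this; positivity))
  refine ⟨E, ?_, h⟩
  rw [coupl_nil, heisMax_zero, mul_zero, sub_zero] at hE
  exact hE

/-- consistency of the answers with the oracle -/
def Cons (c : ℕ) (w ans : List Bool) : Prop :=
  ∀ (t : ℕ), t < ans.length →
    (query w (ans.take t) ∈ (electronicStructure c).yes → ans.getD t false = true) ∧
    (query w (ans.take t) ∈ (electronicStructure c).no → ans.getD t false = false)

/-- the reference energy is found -/
theorem ref_found (c : ℕ) (w ans : List Bool) (hk : k = kk w) (hcons : Cons c w ans)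
    (hlen : nQ k < ans.length) (hkey : Key k κ Eref) (hE1 : -(pT k : ℝ) ^ 3 ≤ Eref)
    (hE2 : Eref ≤ 0) :
    Eref - pT k * pJ k / (pK k : ℝ) ^ 8 - 2 ≤ (lo (nB k) (ans.take (nB k)) : ℝ) ∧
      (lo (nB k) (ans.take (nB k)) : ℝ) ≤ Eref + pT k * pJ k / (pK k : ℝ) ^ 8 := by
  have hk10 : 10 ≤ k := by rw [hk]; exact le_max_left _ _
  obtain ⟨E, hE, hp⟩ := key_zero hkey
  have hBlen : nB k < ans.length := lt_of_le_of_lt (Nat.le_add_right _ _) hlen
  have hTJ : pT k * pJ k / (pK k : ℝ) ^ 8 ≤ (pT k : ℝ) ^ 3 := by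
    have h1 : (1 : ℝ) ≤ pT k := by
      have : 1 ≤ pT k := by unfold pT; exact Nat.one_le_two_pow
      exact_mod_cast this
    have h2 : pJ k ≤ 1 := by
      unfold pJ
      rw [div_le_one (by unfold pn pK; (clear * -; positivity))]
      have a1 : (1 : ℝ) ≤ (pn k : ℝ) ^ 2 := one_le_pow₀ (by
        have : 1 ≤ pn k := by unfold pn; exact Nat.one_le_two_pow
        exact_mod_cast this)
      have a2 : (1 : ℝ) ≤ (pK k : ℝ) ^ 256 := one_le_pow₀ (by
        have := pK_real_ge k hk10; linarith only [this])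
      nlinarith only [a1, a2]
    have h3 : (1 : ℝ) ≤ (pK k : ℝ) ^ 8 := one_le_pow₀ (by have := pK_real_ge k hk10; linarith only [this])
    calc pT k * pJ k / (pK k : ℝ) ^ 8 ≤ pT k * pJ k := by
          refine div_le_self ?_ h3
          have := (pJ_pos k).le; (clear * - h1 this; positivity)
      _ ≤ pT k * 1 := by (clear * - h2 h1; gcongr)
      _ ≤ pT k ^ 3 := by rw [mul_one]; exact le_self_pow₀ h1 (by norm_num)
  have hT3 : (pT k : ℝ) ^ 3 = 2 ^ (6000 * an k ^ 3) := by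
    unfold pT
    push_cast
    rw [← pow_mul]
    congr 1
    show 2000 * an k ^ 3 * 3 = _
    ring
  have hB1 : nB k - 1 = 6000 * an k ^ 3 + 2 := by unfold nB; omega
  have habs := abs_le.1 hE
  have hr1 : -(2 : ℝ) ^ (nB k - 1) ≤ E := by
    rw [hB1, pow_add, ← hT3]
    have : (0 : ℝ) ≤ (pT k : ℝ) ^ 3 := by (clear * -; positivity)
    linarith only [hE1, hTJ, habs]
  have hr2 : E ≤ (2 : ℝ) ^ (nB k - 1) := by
    rw [hB1, pow_add, ← hT3]
    have : (0 : ℝ) ≤ (pT k : ℝ) ^ 3 := by (clear * -; positivity)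
    linarith only [hE2, hTJ, habs]
  have hinv := bs_inv (nB k) ans E hr1 hr2 (by unfold nB; omega) (fun t ht htl => by
    obtain ⟨q1, q2⟩ := hcons t htl
    have hq : query w (ans.take t) = build k [] (lo (nB k) (ans.take t) +
        2 ^ (nB k - 1 - t)) := by
      have h1 : (ans.take t).length = t := by simp only [List.length_take, inf_eq_left]; omega
      unfold query
      rw [← hk, h1, if_pos ht]
    rw [hq] at q1 q2
    exact ⟨fun h => q1 ((hp c _).1 h), fun h => q2 ((hp c _).2 h)⟩) (nB k) le_rfl hBlen.le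
  rw [Nat.sub_self, pow_zero] at hinv
  constructor <;> linarith [hinv.1, hinv.2, habs.1, habs.2]

/-- index of the query `j` in block `d` -/
theorem block_index (k d j : ℕ) (hd1 : 1 ≤ d) (hd : d < pK k) (hj : j < nG k) :
    nB k + (d - 1) * nG k + j < nQ k ∧
      (nB k + (d - 1) * nG k + j - nB k) / nG k + 1 = d ∧
      (nB k + (d - 1) * nG k + j - nB k) % nG k = j := by
  have h0 : 0 < nG k := by unfold nG; omega
  have e : nB k + (d - 1) * nG k + j - nB k = j + nG k * (d - 1) := by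
    rw [mul_comm (nG k)]; omega
  refine ⟨?_, ?_, ?_⟩
  · have h1 : (d - 1) * nG k + nG k ≤ (aK k - 1) * nG k := by
      have : (d - 1) * nG k + nG k = d * nG k := by
        obtain ⟨e, rfl⟩ : ∃ e, d = e + 1 := ⟨d - 1, by omega⟩
        rw [Nat.add_sub_cancel, add_mul, one_mul]
      rw [this]
      exact Nat.mul_le_mul_right _ (by have : aK k = pK k := rfl; omega)
    unfold nQ
    (clear * - hj e h1; omega)
  · rw [e, Nat.add_mul_div_left _ _ h0, Nat.div_eq_of_lt hj]; (clear * - hd1; omega)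
  · rw [e, Nat.add_mul_mod_self_left, Nat.mod_eq_of_lt hj]

/-- meaning of one answer of the scan -/
theorem scan_answer (c : ℕ) (w ans : List Bool) (hk : k = kk w) (hcons : Cons c w ans)
    (hlen : nQ k < ans.length) (hkey : Key k κ Eref)
    (hy1 : Eref - pT k * pJ k / (pK k : ℝ) ^ 8 - 2 ≤ (lo (nB k) (ans.take (nB k)) : ℝ))
    (hy2 : (lo (nB k) (ans.take (nB k)) : ℝ) ≤ Eref + pT k * pJ k / (pK k : ℝ) ^ 8)
    (d j : ℕ) (hd1 : 1 ≤ d) (hd : d < pK k) (hj : j < nG k) (hκ : 0 ≤ κ d)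
    (hx : κ d * (grid k j : ℝ) ^ 2 ≤ 16 * pJ k) :
    (ans.getD (nB k + (d - 1) * nG k + j) false = true →
      pJ k * (1 - 2 / (pK k : ℝ) ^ 8) ≤ κ d * (grid k j : ℝ) ^ 2) ∧
    (ans.getD (nB k + (d - 1) * nG k + j) false = false →
      κ d * (grid k j : ℝ) ^ 2 ≤ pJ k * (1 + 2 / (pK k : ℝ) ^ 8)) := by
  have hk10 : 10 ≤ k := by rw [hk]; exact le_max_left _ _
  obtain ⟨b1, b2, b3⟩ := block_index k d j hd1 hd hj
  obtain ⟨E, hE, hp⟩ := key_single hkey d (grid k j) hd1 hd hκ hx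
  set t := nB k + (d - 1) * nG k + j with ht
  have htl : t < ans.length := b1.trans hlen
  obtain ⟨q1, q2⟩ := hcons t htl
  have hq : query w (ans.take t) = build k (single d (grid k j))
      (lo (nB k) (ans.take (nB k)) - 2 * aJ1 k) := by
    have h1 : (ans.take t).length = t := by simp only [List.length_take, inf_eq_left]; omega
    have h2 : (ans.take t).take (nB k) = ans.take (nB k) := by
      rw [List.take_take]; congr 1; (clear * - b3 h1; omega)
    unfold query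
    rw [← hk, h1, if_neg (by omega), if_pos b1, b2, b3, h2]
  rw [hq] at q1 q2
  obtain ⟨p1, p2⟩ := hp c (lo (nB k) (ans.take (nB k)) - 2 * aJ1 k)
  have habs := abs_le.1 hE
  have hT : (0 : ℝ) < pT k := by unfold pT; (clear * -; positivity)
  have hK := pK_pos k
  have hTJ := TJ_big k (by omega)
  have hTJe := TJ_eq k (by omega)
  have hsmall : 2 ≤ pT k * pJ k / (pK k : ℝ) ^ 8 := by
    rw [le_div_iff₀ (by (clear * - hK; positivity))]
    have h1 : (pK k : ℝ) ^ 8 ≤ (pK k : ℝ) ^ 9 :=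
      pow_le_pow_right₀ (by have := pK_real_ge k hk10; linarith only [this]) (by norm_num)
    linarith only [hTJ, h1, pow_pos hK 8]
  set δ := pT k * pJ k / (pK k : ℝ) ^ 8 with hδ
  have e1 : pT k * (pJ k * (1 - 2 / (pK k : ℝ) ^ 8)) = pT k * pJ k - 2 * δ := by
    rw [hδ]; ring
  have e2 : pT k * (pJ k * (1 + 2 / (pK k : ℝ) ^ 8)) = pT k * pJ k + 2 * δ := by
    rw [hδ]; ring
  constructor
  · intro ha
    by_contra hcon
    rw [not_le] at hcon
    have h1 : pT k * (κ d * (grid k j : ℝ) ^ 2) < pT k * (pJ k * (1 - 2 / (pK k : ℝ) ^ 8)) :=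
      mul_lt_mul_of_pos_left hcon hT
    rw [e1] at h1
    have h2 := q2 (p2 (by push_cast; rw [← hTJe]; linarith only [hy2, hsmall, h1, habs.1]))
    rw [ha] at h2
    exact absurd h2 (by simp)
  · intro ha
    by_contra hcon
    rw [not_le] at hcon
    have h1 : pT k * (pJ k * (1 + 2 / (pK k : ℝ) ^ 8)) < pT k * (κ d * (grid k j : ℝ) ^ 2) :=
      mul_lt_mul_of_pos_left hcon hT
    rw [e2] at h1
    have h2 := q1 (p1 (by push_cast; rw [← hTJe]; linarith only [hy1, hsmall, h1, habs.2]))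
    rw [ha] at h2
    exact absurd h2 (by simp)

end scan

end Vale.Agent.P370.Q.Alg
end

section

/-!
Correctness of the calibration: calibrated parameters and the final query.
-/

namespace Vale.Agent.P370.Q.Alg

open Finset

section final

variable {k : ℕ} {κ : ℕ → ℝ} {Eref : ℝ}

theorem firstYes_spec (k : ℕ) (ans : List Bool) (d : ℕ) :
    (∀ j, j < firstYes k ans d → j < nG k → ans.getD (nB k + (d - 1) * nG k + j) false = false) ∧
    (firstYes k ans d < nG k →
      ans.getD (nB k + (d - 1) * nG k + firstYes k ans d) false = true) := by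
  have key : ∀ (p : ℕ → Bool) (G n : ℕ),
      (∀ j, j < ((List.range n).filter p).headD G → j < n → p j = false) ∧
      (((List.range n).filter p).headD G < n → p (((List.range n).filter p).headD G) = true ∨
        (List.range n).filter p = []) := by
    intro p G n
    induction n with
    | zero => simp
    | succ n ih =>
      rw [List.range_succ, List.filter_append]
      rcases e : (List.range n).filter p with _ | ⟨x, l⟩
      · rw [e] at ih
        simp only [List.headD_nil, List.nil_append] at ih ⊢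
        have hall : ∀ j, j < n → p j = false := by
          intro j hj
          by_contra hp
          have : j ∈ (List.range n).filter p := List.mem_filter.2
            ⟨List.mem_range.2 hj, by simpa using hp⟩
          rw [e] at this
          simp at this
        rcases hn : p n with _ | _
        · rw [List.filter_cons_of_neg (by simp [hn])]
          simp only [List.filter_nil, List.headD_nil]
          refine ⟨fun j _ hj => ?_, fun _ => Or.inr trivial⟩
          rcases Nat.lt_succ_iff_lt_or_eq.1 hj with h | rfl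
          · exact hall j h
          · exact hn
        · rw [List.filter_cons_of_pos (by simp [hn])]
          simp only [List.filter_nil, List.headD_cons]
          exact ⟨fun j hj _ => hall j hj, fun _ => Or.inl hn⟩
      · rw [e] at ih
        simp only [List.headD_cons, List.cons_append] at ih ⊢
        have hx : x ∈ (List.range n).filter p := by rw [e]; simp
        have hxn : x < n := List.mem_range.1 (List.mem_of_mem_filter hx)
        refine ⟨fun j hj _ => ih.1 j hj (by omega), fun _ => Or.inl ?_⟩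
        exact (List.mem_filter.1 hx).2
  obtain ⟨h1, h2⟩ := key (fun j => ans.getD (nB k + (d - 1) * nG k + j) false) (nG k) (nG k)
  refine ⟨fun j hj hj' => h1 j hj hj', fun h => ?_⟩
  rcases h2 h with h3 | h3
  · exact h3
  · exfalso
    unfold firstYes at h
    rw [h3] at h
    simp at h

theorem calib_alg (J δ e A B : ℝ) (hJ : 0 < J) (hδ0 : 0 < δ) (hδ : δ ≤ 1 / 1000) (he0 : 0 ≤ e)
    (he : e ≤ δ * (1 / 1000)) (h1 : J * (1 - e) ≤ A)
    (h2 : A ≤ B * (1 + 2 * δ) ^ 2) (h3 : B ≤ J * (1 + e)) : |A - J| ≤ 6 * J * δ := by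
  have h4 : A ≤ J * (1 + e) * (1 + 2 * δ) ^ 2 :=
    h2.trans (mul_le_mul_of_nonneg_right h3 (by (clear * - hδ0; positivity)))
  rw [abs_le]
  constructor
  · have : J * (1 - δ) ≤ J * (1 - e) :=
      mul_le_mul_of_nonneg_left (by linarith only [hδ0, he]) hJ.le
    linarith only [h1, this, mul_pos hJ hδ0]
  · have h5 : (1 + e) * (1 + 2 * δ) ^ 2 ≤ 1 + 6 * δ := by
      have h6 : (1 + e) * (1 + 2 * δ) ^ 2 ≤ (1 + δ * (1 / 1000)) * (1 + 2 * δ) ^ 2 :=
        mul_le_mul_of_nonneg_right (by linarith only [he]) (by positivity)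
      have h7 : (1 + 2 * δ) ^ 2 ≤ 1 + (4 + 4 / 1000) * δ := by nlinarith only [hδ0, hδ]
      have h8 : (1 + δ * (1 / 1000)) * (1 + 2 * δ) ^ 2 ≤
          (1 + δ * (1 / 1000)) * (1 + (4 + 4 / 1000) * δ) :=
        mul_le_mul_of_nonneg_left h7 (by (clear * - hδ0; positivity))
      linarith only [hδ0, h6, h7, h8]
    have h6 : J * (1 + e) * (1 + 2 * δ) ^ 2 ≤ J * (1 + 6 * δ) := by
      rw [mul_assoc]
      exact mul_le_mul_of_nonneg_left h5 hJ.le
    linarith only [h4, h6]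

theorem calib_small (K : ℝ) (hK : 1024 ≤ K) : 2 / K ^ 8 ≤ 1 / 100 ∧ 1 / K ^ 6 ≤ 1 / 1000 ∧
    2 / K ^ 8 ≤ 1 / K ^ 6 * (1 / 1000) ∧ 1 ≤ K ^ 6 ∧ 1 ≤ K ^ 12 := by
  have hK0 : 0 < K := by linarith only [hK]
  have h6 : (1024 : ℝ) ≤ K ^ 6 := by
    calc (1024 : ℝ) ≤ K := hK
      _ ≤ K ^ 6 := le_self_pow₀ (by linarith only [hK]) (by norm_num)
  have h8 : (1024 : ℝ) ≤ K ^ 8 := by
    calc (1024 : ℝ) ≤ K := hK
      _ ≤ K ^ 8 := le_self_pow₀ (by linarith only [hK]) (by norm_num)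
  refine ⟨?_, ?_, ?_, by linarith only [h6], one_le_pow₀ (by linarith only [hK])⟩
  · rw [div_le_div_iff₀ (by positivity) (by norm_num)]; linarith only [h8]
  · rw [div_le_div_iff₀ (by positivity) (by norm_num)]; linarith only [h6]
  · rw [show (2 : ℝ) / K ^ 8 = 1 / K ^ 6 * (2 / K ^ 2) by field_simp]
    refine mul_le_mul_of_nonneg_left ?_ (by (clear * - hK; positivity))
    rw [div_le_div_iff₀ (by positivity) (by (clear * -; norm_num))]
    nlinarith only [hK]

theorem pJ_le (k : ℕ) (hk : 10 ≤ k) : pJ k ≤ 1 / 32 := by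
  unfold pJ
  have a1 : (1 : ℝ) ≤ (pn k : ℝ) ^ 2 := one_le_pow₀ (by
    have : 1 ≤ pn k := by unfold pn; exact Nat.one_le_two_pow
    exact_mod_cast this)
  have hK := pK_real_ge k hk
  have a2 : (1024 : ℝ) ≤ (pK k : ℝ) ^ 256 := by
    calc (1024 : ℝ) ≤ pK k := hK
      _ ≤ (pK k : ℝ) ^ 256 := le_self_pow₀ (by linarith only [hK]) (by norm_num)
  rw [div_le_div_iff₀ (by (clear * - a1 hK; positivity)) (by norm_num)]
  nlinarith only [a1, a2]

/-- **Calibration.** -/
theorem calibrated (c : ℕ) (w ans : List Bool) (hk : k = kk w) (hcons : Cons c w ans)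
    (hlen : nQ k < ans.length) (hkey : Key k κ Eref)
    (hy1 : Eref - pT k * pJ k / (pK k : ℝ) ^ 8 - 2 ≤ (lo (nB k) (ans.take (nB k)) : ℝ))
    (hy2 : (lo (nB k) (ans.take (nB k)) : ℝ) ≤ Eref + pT k * pJ k / (pK k : ℝ) ^ 8)
    (d : ℕ) (hd1 : 1 ≤ d) (hd : d < pK k) (hκ1 : 1 / 2 ^ (4 * pn k) ≤ κ d)
    (hκ2 : κ d ≤ 1 / 2 ^ pn k) :
    |κ d * (xcal k ans d : ℝ) ^ 2 - pJ k| ≤ 6 * pJ k / (pK k : ℝ) ^ 6 ∧
      6 * (pK k : ℝ) ^ 6 ≤ xcal k ans d := by
  have hk10 : 10 ≤ k := by rw [hk]; exact le_max_left _ _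
  have hκ : 0 ≤ κ d := le_trans (by (clear * -; positivity)) hκ1
  have hJ := pJ_pos k
  have hK := pK_real_ge k hk10
  have hK0 := pK_pos k
  have hbig := pJ_big k (by omega)
  have hn2 : (0 : ℝ) < 2 ^ pn k := by positivity
  -- small numbers
  obtain ⟨hε, hδ, h86, hK61, hK12⟩ := calib_small (pK k) hK
  have hκJ : κ d * (4096 * (pK k : ℝ) ^ 12) ≤ pJ k := by
    refine le_trans ?_ hbig
    rw [div_eq_mul_one_div, mul_comm]
    exact mul_le_mul_of_nonneg_left hκ2 (by (clear * - hK; (clear * - hK; positivity)))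
  have hans : ∀ j, j < nG k → κ d * (grid k j : ℝ) ^ 2 ≤ 16 * pJ k → _ :=
    fun j hj hx => scan_answer c w ans hk hcons hlen hkey hy1 hy2 d j hd1 hd hj hκ hx
  obtain ⟨f1, f2⟩ := firstYes_spec k ans d
  -- all the queries up to the first positive answer are meaningful
  have hall : ∀ j, j ≤ firstYes k ans d → j < nG k → κ d * (grid k j : ℝ) ^ 2 ≤ 16 * pJ k := by
    intro j
    induction j with
    | zero =>
      intro _ _
      have h1 : κ d * ((grid k 0 : ℕ) : ℝ) ^ 2 = κ d := by simp only [grid, Nat.cast_one, one_pow, mul_one]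
      rw [h1]
      have h2 : κ d * 1 ≤ κ d * (4096 * (pK k : ℝ) ^ 12) := by
        refine mul_le_mul_of_nonneg_left ?_ hκ
        linarith only [hK12]
      linarith only [hJ, hκJ, h2]
    | succ j ih =>
      intro h1 h2
      have h3 := ih (by (clear * - h1; omega)) (by omega)
      have h4 := (hans j (by omega) h3).2 (f1 j (by omega) (by omega))
      have h5 : (grid k (j + 1) : ℝ) ≤ 3 * grid k j := by exact_mod_cast grid_succ_le k j
      have h6 : (0 : ℝ) ≤ grid k (j + 1) := Nat.cast_nonneg _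
      have h7 : (grid k (j + 1) : ℝ) ^ 2 ≤ 9 * (grid k j : ℝ) ^ 2 := by linarith only [mul_nonneg_of_nonpos_of_nonpos (Mathlib.Tactic.Linarith.sub_nonpos_of_le (Mathlib.Tactic.Linarith.natCast_nonneg ℝ (Vale.Agent.P370.Q.Alg.grid k j))) (Mathlib.Tactic.Linarith.sub_nonpos_of_le h5), mul_nonneg_of_nonpos_of_nonpos (Mathlib.Tactic.Linarith.sub_nonpos_of_le (Mathlib.Tactic.Linarith.natCast_nonneg ℝ (Vale.Agent.P370.Q.Alg.grid k (j + 1)))) (Mathlib.Tactic.Linarith.sub_nonpos_of_le h5)]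
      have h8 : κ d * (grid k (j + 1) : ℝ) ^ 2 ≤ κ d * (9 * (grid k j : ℝ) ^ 2) :=
        mul_le_mul_of_nonneg_left h7 hκ
      have h9 : pJ k * (1 + 2 / (pK k : ℝ) ^ 8) ≤ pJ k * (1 + 1 / 100) :=
        mul_le_mul_of_nonneg_left (by linarith only [hδ, h86]) hJ.le
      linarith only [hJ, h4, h8, h9]
  -- there is a positive answer
  have hlt : firstYes k ans d < nG k := by
    by_contra hcon
    rw [not_lt] at hcon
    have h0 : 0 < nG k := by unfold nG; omega
    have h1 := hall (nG k - 1) (by omega) (by omega)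
    have h2 := grid_last k
    have h3 : ((2 : ℝ) ^ (4 * pn k)) ^ 2 ≤ (grid k (nG k - 1) : ℝ) ^ 2 := by (clear * - h2; gcongr)
    have h4 : (1 / 2 ^ (4 * pn k)) * ((2 : ℝ) ^ (4 * pn k)) ^ 2 ≤
        κ d * (grid k (nG k - 1) : ℝ) ^ 2 :=
      mul_le_mul hκ1 h3 (by positivity) hκ
    have h5 : (1 / 2 ^ (4 * pn k)) * ((2 : ℝ) ^ (4 * pn k)) ^ 2 = 2 ^ (4 * pn k) := by
      field_simp
    have h6 := pJ_le k hk10
    have h7 : (1 : ℝ) ≤ 2 ^ (4 * pn k) := one_le_pow₀ (by norm_num)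
    rw [h5] at h4
    linarith only [h1, h4, h6, h7]
  set J := firstYes k ans d with hJdef
  have hx : xcal k ans d = grid k J := rfl
  have hA := hall J le_rfl hlt
  have hlow := (hans J hlt hA).1 (f2 hlt)
  rw [hx]
  -- the parameter is large
  have hlow2 : pJ k / 2 ≤ κ d * (grid k J : ℝ) ^ 2 := by
    refine le_trans ?_ hlow
    have : pJ k * (1 / 2) ≤ pJ k * (1 - 2 / (pK k : ℝ) ^ 8) :=
      mul_le_mul_of_nonneg_left (by linarith only [hδ, h86]) hJ.le
    linarith only [this]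
  have hlarge : (18 * (pK k : ℝ) ^ 6) ^ 2 ≤ (grid k J : ℝ) ^ 2 := by
    by_contra hcon
    rw [not_le] at hcon
    have hκ0 : 0 < κ d := lt_of_lt_of_le (by (clear * -; positivity)) hκ1
    have h1 : κ d * (grid k J : ℝ) ^ 2 < κ d * (18 * (pK k : ℝ) ^ 6) ^ 2 :=
      mul_lt_mul_of_pos_left hcon hκ0
    have h2 : κ d * (18 * (pK k : ℝ) ^ 6) ^ 2 = κ d * (4096 * (pK k : ℝ) ^ 12) * (324 / 4096) := by
      ring
    linarith only [hJ, hκJ, hlow2, h1]
  have hg0 : (0 : ℝ) ≤ grid k J := Nat.cast_nonneg _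
  have hlarge' : 18 * (pK k : ℝ) ^ 6 ≤ grid k J :=
    le_of_sq_le_sq hlarge hg0
  have hJ0 : 1 ≤ J := by
    by_contra h
    have h0 : J = 0 := by omega
    rw [h0] at hlarge'
    simp only [grid, Nat.cast_one] at hlarge'
    linarith only [hK61, hlarge']
  obtain ⟨j, hj⟩ : ∃ j, J = j + 1 := ⟨J - 1, by omega⟩
  have hprev := hall j (by omega) (by omega)
  have hup := (hans j (by omega) hprev).2 (f1 j (by omega) (by omega))
  -- previous grid point is large as well
  have hprevlarge : 6 * (pK k : ℝ) ^ 6 ≤ grid k j := by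
    have h5 : (grid k (j + 1) : ℝ) ≤ 3 * grid k j := by exact_mod_cast grid_succ_le k j
    rw [hj] at hlarge'
    linarith only [hlarge', h5]
  have hstep := grid_succ_le' k j
  have hK6 : (0 : ℝ) < (pK k : ℝ) ^ 6 := by (clear * - hK; (clear * - hK; positivity))
  have hstep2 : (grid k (j + 1) : ℝ) ≤ grid k j * (1 + 2 / (pK k : ℝ) ^ 6) := by
    have h1 : (1 : ℝ) ≤ grid k j * (1 / (pK k : ℝ) ^ 6) := by
      rw [mul_one_div, le_div_iff₀ hK6]; linarith only [hprevlarge]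
    calc (grid k (j + 1) : ℝ) ≤ grid k j * (1 + 1 / (pK k : ℝ) ^ 6) + 1 := hstep
      _ ≤ grid k j * (1 + 1 / (pK k : ℝ) ^ 6) + grid k j * (1 / (pK k : ℝ) ^ 6) := by linarith only [h1]
      _ = _ := by ring
  refine ⟨?_, by rw [hj]; exact hprevlarge.trans (by
    have := grid_succ_ge k j
    have h0 : (0 : ℝ) ≤ grid k j := Nat.cast_nonneg _
    have h1 : (0 : ℝ) ≤ grid k j * (1 / (pK k : ℝ) ^ 6) := by (clear * - hK; (clear * - hK; positivity))
    linarith only [this, h1])⟩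
  have e1 : κ d * (grid k J : ℝ) ^ 2 ≤ κ d * (grid k j : ℝ) ^ 2 *
      (1 + 2 * (1 / (pK k : ℝ) ^ 6)) ^ 2 := by
    rw [hj]
    have h0 : (0 : ℝ) ≤ grid k (j + 1) := Nat.cast_nonneg _
    calc κ d * (grid k (j + 1) : ℝ) ^ 2 ≤ κ d * (grid k j * (1 + 2 / (pK k : ℝ) ^ 6)) ^ 2 := by
          (clear * - hstep2 hκ; gcongr)
      _ = _ := by ring
  have e3 : 6 * pJ k / (pK k : ℝ) ^ 6 = 6 * pJ k * (1 / (pK k : ℝ) ^ 6) := by ring
  rw [e3]
  exact calib_alg (pJ k) _ (2 / (pK k : ℝ) ^ 8) _ _ hJ (by (clear * - hK; (clear * - hK; positivity))) hδ (by (clear * - hK; positivity)) h86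
    hlow e1 hup

/-- parameters of the final instance -/
theorem sget_sfin (k : ℕ) (x : ℕ → ℕ) (w : List Bool) (i j : ℕ) (hi : i < aK k) (hj : j < aK k) :
    sget k (sfin k x w) i j = Nat.sqrt (x (j - i) ^ 2 * mW w i j / aK k) := by
  have hK : 0 < aK k := by omega
  have h1 : i * aK k + j < aK k * aK k := by
    calc i * aK k + j < i * aK k + aK k := by omega
      _ = (i + 1) * aK k := by ring
      _ ≤ aK k * aK k := Nat.mul_le_mul_right _ hi
  have h2 : (i * aK k + j) / aK k = i := by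
    rw [mul_comm, Nat.mul_add_div hK, Nat.div_eq_of_lt hj, add_zero]
  have h3 : (i * aK k + j) % aK k = j := by
    rw [mul_comm, Nat.mul_add_mod, Nat.mod_eq_of_lt hj]
  rw [sget, sfin, List.getD_eq_getElem _ _ (by simpa only [List.length_map, List.length_range] using h1), List.getElem_map,
    List.getElem_range, h2, h3]

/-- rounding in the final parameters: general calibration -/
theorem coupl_close (hk10 : 10 ≤ k) (x : ℕ → ℕ) (w : List Bool) (hw : w.length < aK k)
    (hx : ∀ d, 1 ≤ d → d < pK k → |κ d * (x d : ℝ) ^ 2 - pJ k| ≤ 6 * pJ k / (pK k : ℝ) ^ 6 ∧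
      6 * (pK k : ℝ) ^ 6 ≤ x d) (hκ : ∀ d, 1 ≤ d → d < pK k → 0 ≤ κ d)
    (i j : ℕ) (hij : i < j) (hj : j < pK k) :
    |κ (j - i) * (sget k (sfin k x w) i j : ℝ) ^ 2 - pJ k / pK k * mW w i j| ≤
      7 * pJ k / (pK k : ℝ) ^ 6 := by
  have hK := pK_real_ge k hk10
  have hK0 := pK_pos k
  have hJ := pJ_pos k
  obtain ⟨h1, h2⟩ := hx (j - i) (by omega) (by omega)
  have hκ0 := hκ (j - i) (by omega) (by omega)
  rw [sget_sfin k x w i j (lt_trans hij hj) hj]
  set X := x (j - i) with hX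
  set m := mW w i j with hm
  have hmK : m ≤ aK k := by
    rw [hm]; unfold mW
    split_ifs
    · exact (hM_le w i j).trans hw.le
    · exact Nat.zero_le _
  have hmK' : (m : ℝ) ≤ pK k := by rw [← aK_real]; exact_mod_cast hmK
  set a := X ^ 2 * m / aK k with ha
  set s := Nat.sqrt a with hs
  have hKn : 0 < aK k := by unfold aK; (clear * -; positivity)
  have s1 : s ^ 2 ≤ a := Nat.sqrt_le' a
  have s2 : a < (s + 1) ^ 2 := Nat.lt_succ_sqrt' a
  have a1 : (a : ℝ) ≤ (X : ℝ) ^ 2 * m / pK k := by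
    have := @Nat.cast_div_le ℝ _ _ _ (X ^ 2 * m) (aK k)
    rw [← ha] at this
    push_cast at this
    rwa [aK_real] at this
  have a2 : (X : ℝ) ^ 2 * m / pK k < a + 1 := by
    rw [div_lt_iff₀ hK0, ← aK_real]
    have := Nat.lt_div_mul_add (a := X ^ 2 * m) hKn
    rw [← ha] at this
    have h3 : X ^ 2 * m < (a + 1) * aK k := by
      calc _ < _ := this
        _ = _ := by ring
    exact_mod_cast h3
  have s3 : (s : ℝ) ^ 2 ≤ a := by exact_mod_cast s1
  have s4 : (a : ℝ) + 1 ≤ ((s : ℝ) + 1) ^ 2 := by exact_mod_cast s2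
  have hXm : (X : ℝ) ^ 2 * m / pK k ≤ (X : ℝ) ^ 2 := by
    rw [div_le_iff₀ hK0]
    exact mul_le_mul_of_nonneg_left hmK' (by (clear * -; (clear * -; positivity)))
  have hX0 : (0 : ℝ) ≤ X := Nat.cast_nonneg _
  have hs0 : (0 : ℝ) ≤ s := Nat.cast_nonneg _
  have hsX : (s : ℝ) ≤ X := by
    refine le_of_sq_le_sq ?_ hX0
    linarith only [a1, s3, hXm]
  have hXbig : 1 ≤ (X : ℝ) := by
    have : (1 : ℝ) ≤ (pK k : ℝ) ^ 6 := one_le_pow₀ (by linarith only [hK])
    linarith only [h2, this]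
  -- lower bound of s²
  have s5 : (X : ℝ) ^ 2 * m / pK k - 3 * X ≤ (s : ℝ) ^ 2 := by linarith only [a2, s4, hsX, hXbig]
  have hκX : κ (j - i) * (3 * X) ≤ pJ k / (pK k : ℝ) ^ 6 := by
    have h3 : κ (j - i) * (X : ℝ) ^ 2 ≤ 2 * pJ k := by
      have h4 := (abs_le.1 h1).2
      have h5 : 6 * pJ k / (pK k : ℝ) ^ 6 ≤ pJ k := by
        rw [div_le_iff₀ (by (clear * - hKn; (clear * - hKn; positivity)))]
        have : (6 : ℝ) ≤ (pK k : ℝ) ^ 6 := by
          calc (6 : ℝ) ≤ pK k := by linarith only [hK]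
            _ ≤ (pK k : ℝ) ^ 6 := le_self_pow₀ (by linarith only [hK]) (by norm_num)
        nlinarith only [hJ, this]
      linarith only [h4, h5]
    rw [le_div_iff₀ (by (clear * - hKn; positivity))]
    have h4 : κ (j - i) * (3 * X) * (pK k : ℝ) ^ 6 ≤ κ (j - i) * (X : ℝ) ^ 2 / 2 := by
      have : (3 * X) * (pK k : ℝ) ^ 6 ≤ (X : ℝ) ^ 2 / 2 := by linarith only [mul_nonneg_of_nonpos_of_nonpos (Mathlib.Tactic.Linarith.sub_nonpos_of_le (Mathlib.Tactic.Linarith.natCast_nonneg ℝ X)) (Mathlib.Tactic.Linarith.sub_nonpos_of_le h2)]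
      calc _ = κ (j - i) * ((3 * X) * (pK k : ℝ) ^ 6) := by ring
        _ ≤ κ (j - i) * ((X : ℝ) ^ 2 / 2) := mul_le_mul_of_nonneg_left this hκ0
        _ = _ := by ring
    linarith only [h3, h4]
  have hmul : |κ (j - i) * ((X : ℝ) ^ 2 * m / pK k) - pJ k / pK k * m| ≤
      6 * pJ k / (pK k : ℝ) ^ 6 := by
    have e : κ (j - i) * ((X : ℝ) ^ 2 * m / pK k) - pJ k / pK k * m =
        (κ (j - i) * (X : ℝ) ^ 2 - pJ k) * (m / pK k) := by ring
    rw [e, abs_mul]
    have h3 : |(m : ℝ) / pK k| ≤ 1 := by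
      rw [abs_of_nonneg (by (clear * - hKn; positivity)), div_le_one hK0]
      exact hmK'
    calc _ ≤ (6 * pJ k / (pK k : ℝ) ^ 6) * 1 :=
          mul_le_mul h1 h3 (abs_nonneg _) (by (clear * - hJ hKn; positivity))
      _ = _ := mul_one _
  have u1 : κ (j - i) * (s : ℝ) ^ 2 ≤ κ (j - i) * ((X : ℝ) ^ 2 * m / pK k) :=
    mul_le_mul_of_nonneg_left (by linarith only [a1, s3]) hκ0
  have u2 : κ (j - i) * ((X : ℝ) ^ 2 * m / pK k) - κ (j - i) * (3 * X) ≤
      κ (j - i) * (s : ℝ) ^ 2 := by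
    rw [← mul_sub]
    exact mul_le_mul_of_nonneg_left s5 hκ0
  have hm1 := abs_le.1 hmul
  have e6 : 7 * pJ k / (pK k : ℝ) ^ 6 = 6 * pJ k / (pK k : ℝ) ^ 6 + pJ k / (pK k : ℝ) ^ 6 := by
    ring
  rw [e6, abs_le]
  constructor <;> linarith only [hκX, u1, u2, hm1]

theorem sum_pairs_le (K : ℕ) (b : ℝ) (hb : 0 ≤ b) :
    ∑ i : Fin K, ∑ _j ∈ Ioi i, b ≤ (K : ℝ) ^ 2 * b := by
  calc ∑ i : Fin K, ∑ _j ∈ Ioi i, b ≤ ∑ _i : Fin K, (K : ℝ) * b := by
        refine Finset.sum_le_sum fun i _ => ?_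
        rw [Finset.sum_const, nsmul_eq_mul]
        refine mul_le_mul_of_nonneg_right ?_ hb
        have : (Ioi i).card ≤ K := (Finset.card_le_univ _).trans (by simp only [Fintype.card_fin, Std.le_refl])
        exact_mod_cast this
    _ = (K : ℝ) ^ 2 * b := by simp only [sum_const, card_univ, Fintype.card_fin, nsmul_eq_mul]; ring

theorem heisMax_mW (hk10 : 10 ≤ k) (w : List Bool) (hw : w.length < aK k) :
    heisMax (fun i j : Fin (pK k) => (mW w i j : ℝ)) =
      heisMax (fun i j : Fin (hK w) => (hM w i j : ℝ)) := by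
  have h1 : hK w ≤ pK k := (hK_le w).trans hw.le
  rw [heisMax_embed (K := pK k) h1 (fun i j => (mW w i j : ℝ))]
  · have h : ∀ (K : ℕ) (J J' : Fin K → Fin K → ℝ), (∀ i j, i < j → J i j = J' i j) →
        heisMax J = heisMax J' := by
      intro K J J' h
      have h2 := heisMax_lip J J'
      have h3 : ∑ i, ∑ j ∈ Ioi i, |J i j - J' i j| = 0 := by
        refine Finset.sum_eq_zero fun i _ => Finset.sum_eq_zero fun j hj => ?_
        rw [h i j (Finset.mem_Ioi.1 hj), sub_self, abs_zero]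
      rw [h3, mul_zero] at h2
      exact sub_eq_zero.1 (abs_nonpos_iff.1 h2)
    refine h _ _ _ fun i j hij => ?_
    have : (i : ℕ) < j := hij
    rw [mW, if_pos ⟨this, j.2⟩]
  · intro i j h
    rw [mW, if_neg, Nat.cast_zero]
    rintro ⟨h2, h3⟩
    omega

/-- **Final step**, for any calibrated parameters and any good approximation of the reference
energy. -/
theorem final_step (hk10 : 10 ≤ k) (x : ℕ → ℕ) (w : List Bool) (hw : w.length < aK k)
    (hkey : Key k κ Eref)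
    (hx : ∀ d, 1 ≤ d → d < pK k → |κ d * (x d : ℝ) ^ 2 - pJ k| ≤ 6 * pJ k / (pK k : ℝ) ^ 6 ∧
      6 * (pK k : ℝ) ^ 6 ≤ x d) (hκ : ∀ d, 1 ≤ d → d < pK k → 0 ≤ κ d)
    (y : ℤ) (hy : |(y : ℝ) - Eref| ≤ 2 * (pT k * pJ k / (pK k : ℝ) ^ 8)) (c : ℕ) :
    (w ∈ heisenbergAF.yes →
      build k (sfin k x w) (y - offs k w) ∈ (electronicStructure c).yes) ∧
    (w ∈ heisenbergAF.no →
      build k (sfin k x w) (y - offs k w) ∈ (electronicStructure c).no) := by
  have hKr := pK_real_ge k hk10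
  have hK0 := pK_pos k
  have hJ := pJ_pos k
  have hT : (0 : ℝ) < pT k := by unfold pT; (clear * -; positivity)
  have hTJ := TJ_big k (by omega)
  have hcl := coupl_close hk10 x w hw hx hκ
  obtain ⟨E, hE, hp⟩ := hkey (sfin k x w) (by
    intro i j hij hj
    have h1 := (abs_le.1 (hcl i j hij hj)).2
    have h2 : (mW w i j : ℝ) ≤ pK k := by
      have : mW w i j ≤ aK k := by
        unfold mW
        split_ifs
        · exact (hM_le w i j).trans hw.le
        · exact Nat.zero_le _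
      rw [← aK_real]; exact_mod_cast this
    have h3 : pJ k / pK k * mW w i j ≤ pJ k := by
      rw [div_mul_eq_mul_div, div_le_iff₀ hK0]
      exact mul_le_mul_of_nonneg_left h2 hJ.le
    have h4 : 7 * pJ k / (pK k : ℝ) ^ 6 ≤ pJ k := by
      rw [div_le_iff₀ (by (clear * - hKr; (clear * - hKr; positivity)))]
      have : (7 : ℝ) ≤ (pK k : ℝ) ^ 6 := by
        calc (7 : ℝ) ≤ pK k := by linarith only [hKr]
          _ ≤ (pK k : ℝ) ^ 6 := le_self_pow₀ (by linarith only [hKr]) (by norm_num)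
      nlinarith only [hJ, this]
    linarith only [hJ, h1, h3, h4])
  -- the effective Hamiltonian
  have hheis : |heisMax (coupl κ (sget k (sfin k x w)) (K := pK k)) -
      pJ k / pK k * heisMax (fun i j : Fin (hK w) => (hM w i j : ℝ))| ≤
      14 * pJ k / (pK k : ℝ) ^ 4 := by
    rw [← heisMax_mW hk10 w hw, ← heisMax_smul _ (by (clear * - hJ hKr; positivity))]
    refine (heisMax_lip _ _).trans ?_
    have h1 : ∑ i : Fin (pK k), ∑ j ∈ Ioi i, |coupl κ (sget k (sfin k x w)) i j -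
        pJ k / pK k * (mW w i j : ℝ)| ≤
        ∑ i : Fin (pK k), ∑ _j ∈ Ioi i, 7 * pJ k / (pK k : ℝ) ^ 6 := by
      refine Finset.sum_le_sum fun i _ => Finset.sum_le_sum fun j hj => ?_
      have hij : i < j := Finset.mem_Ioi.1 hj
      rw [coupl, if_pos hij]
      exact hcl i j hij j.2
    have h2 := sum_pairs_le (pK k) (7 * pJ k / (pK k : ℝ) ^ 6) (by (clear * - hJ hKr; positivity))
    have h3 : (pK k : ℝ) ^ 2 * (7 * pJ k / (pK k : ℝ) ^ 6) = 7 * pJ k / (pK k : ℝ) ^ 4 := by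
      (clear * - hJ hKr; field_simp)
    rw [h3] at h2
    calc _ ≤ 2 * (7 * pJ k / (pK k : ℝ) ^ 4) := by linarith only [h1, h2]
      _ = _ := by ring
  set Λ := heisMax (fun i j : Fin (hK w) => (hM w i j : ℝ)) with hΛ
  set Θ := heisMax (coupl κ (sget k (sfin k x w)) (K := pK k)) with hΘ
  set δ := pT k * pJ k / (pK k : ℝ) ^ 8 with hδ
  have hoffs := offs_eq k (by omega) w
  set TJ := (pT k : ℝ) * pJ k with hTJdef
  have hTJ0 : 0 < TJ := mul_pos hT hJ
  -- total error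
  have herr : 3 * δ + 14 * TJ / (pK k : ℝ) ^ 4 + 1 ≤ TJ / (4 * pK k) := by
    have h8 : δ ≤ TJ / pK k * (1 / 1024) := by
      rw [hδ, div_mul_div_comm, mul_one]
      refine div_le_div_of_nonneg_left hTJ0.le (by (clear * - hKr; (clear * - hKr; positivity))) ?_
      have h1 : (1024 : ℝ) ≤ (pK k : ℝ) ^ 7 := by
        calc (1024 : ℝ) ≤ pK k := hKr
          _ ≤ (pK k : ℝ) ^ 7 := le_self_pow₀ (by linarith only [hKr]) (by norm_num)
      calc (pK k : ℝ) * 1024 ≤ pK k * (pK k : ℝ) ^ 7 := mul_le_mul_of_nonneg_left h1 hK0.le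
        _ = (pK k : ℝ) ^ 8 := by ring
    have h4 : 14 * TJ / (pK k : ℝ) ^ 4 ≤ TJ / pK k * (1 / 1024) := by
      rw [div_mul_div_comm, mul_one, div_le_div_iff₀ (by (clear * - hKr; positivity)) (by (clear * - hKr; positivity))]
      have h1 : (14 * 1024 : ℝ) ≤ (pK k : ℝ) ^ 3 := by
        calc (14 * 1024 : ℝ) ≤ 1024 ^ 3 := by norm_num
          _ ≤ (pK k : ℝ) ^ 3 := by gcongr
      calc 14 * TJ * (pK k * 1024) = TJ * pK k * (14 * 1024) := by ring
        _ ≤ TJ * pK k * (pK k : ℝ) ^ 3 := mul_le_mul_of_nonneg_left h1 (by (clear * - hT hJ hKr; (clear * - hT hJ hKr; positivity)))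
        _ = TJ * (pK k : ℝ) ^ 4 := by ring
    have h1 : 1 ≤ TJ / pK k * (1 / 1024) := by
      rw [div_mul_div_comm, mul_one, le_div_iff₀ (by (clear * - hKr; positivity)), one_mul]
      have h2 : (pK k : ℝ) ≤ (pK k : ℝ) ^ 9 := le_self_pow₀ (by linarith only [hKr]) (by norm_num)
      linarith only [hTJ, h2]
    have e : TJ / (4 * pK k) = TJ / pK k * (1 / 4) := by (clear * - hKr hTJ0; field_simp)
    rw [e]
    have h0 : 0 < TJ / pK k := by (clear * - hT hJ hKr; positivity)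
    linarith only [h8, h4, h1]
  have hΘ1 := abs_le.1 hheis
  have hTΘ1 : pT k * Θ ≤ TJ / pK k * Λ + 14 * TJ / (pK k : ℝ) ^ 4 := by
    have h1 : Θ ≤ pJ k / pK k * Λ + 14 * pJ k / (pK k : ℝ) ^ 4 := by linarith only [hΘ1.2]
    calc pT k * Θ ≤ pT k * (pJ k / pK k * Λ + 14 * pJ k / (pK k : ℝ) ^ 4) :=
          mul_le_mul_of_nonneg_left h1 hT.le
      _ = _ := by rw [hTJdef]; ring
  have hTΘ2 : TJ / pK k * Λ - 14 * TJ / (pK k : ℝ) ^ 4 ≤ pT k * Θ := by
    have h1 : pJ k / pK k * Λ - 14 * pJ k / (pK k : ℝ) ^ 4 ≤ Θ := by linarith only [hΘ1.1]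
    calc _ = pT k * (pJ k / pK k * Λ - 14 * pJ k / (pK k : ℝ) ^ 4) := by rw [hTJdef]; ring
      _ ≤ pT k * Θ := mul_le_mul_of_nonneg_left h1 hT.le
  have hE1 := abs_le.1 hE
  have hy1 := abs_le.1 hy
  have hq0 : 0 < TJ / pK k := by (clear * - hT hJ hKr; positivity)
  have eoff : (offs k w : ℝ) = TJ / pK k * (((mSum w : ℝ) + hA w) / 2) - TJ / (4 * pK k) := by
    rw [hoffs]; field_simp; ring
  have eoff2 : (offs k w : ℝ) = TJ / pK k * (((mSum w : ℝ) + hA w - 1) / 2) + TJ / (4 * pK k) := by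
    rw [hoffs]; field_simp; ring
  obtain ⟨p1, p2⟩ := hp c (y - offs k w)
  constructor
  · intro hyes
    refine p1 ?_
    have h1 := yes_heisMax w hyes
    have h2 : TJ / pK k * (((mSum w : ℝ) + hA w) / 2) ≤ TJ / pK k * Λ :=
      mul_le_mul_of_nonneg_left h1 hq0.le
    push_cast
    rw [eoff]
    linarith only [herr, hTΘ2, h2, hE1.2, hy1.1]
  · intro hno
    refine p2 ?_
    have h1 := no_heisMax w hno
    have h2 : TJ / pK k * Λ ≤ TJ / pK k * (((mSum w : ℝ) + hA w - 1) / 2) :=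
      mul_le_mul_of_nonneg_left h1 hq0.le
    push_cast
    rw [eoff2]
    linarith only [herr, hTΘ1, h2, hE1.1, hy1.2]

end final

end Vale.Agent.P370.Q.Alg
end
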