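import Vale.Agent.P370.MathlibUsed
import Vale.Agent.P370.Bdl.B2
import Vale.Agent.P370.Bdl.B3
import Vale.Agent.P370.Defs
import Vale.Agent.P370.Bdl.B1

set_option linter.all false

section

namespace Vale.Agent.P370.Chains

open Finset

variable {n B : ℕ} (A : Fin n → Fin (n ^ 2) → ℤ)

noncomputable def Wp (a b : Site n B) : ℝ :=
  1 / √(((px a : ℝ) - px b) ^ 2 + ((py a : ℝ) - py b) ^ 2 + ((hgt A a : ℝ) - hgt A b) ^ 2)

noncomputable def Wm (a b : Site n B) : ℝ :=
  1 / √(((px a : ℝ) - px b) ^ 2 + ((py a : ℝ) - py b) ^ 2 + ((hgt A a : ℝ) + hgt A b) ^ 2)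

noncomputable def cst (n B : ℕ) (A : Fin n → Fin (n ^ 2) → ℤ) : ℝ :=
  (1 / 2) * ∑ a : Site n B, ∑ b, if a = b then 0 else (Wp A a b + Wm A a b) / 2

noncomputable def slf (n B : ℕ) (A : Fin n → Fin (n ^ 2) → ℤ) : ℝ :=
  ∑ a : Site n B, 1 / (2 * (hgt A a : ℝ))

/-- position of a nucleus; the flag `true` means the mirror image below the plane -/
noncomputable def rpos (l : ℝ) (p : Site n B × Bool) : R3 :=
  WithLp.toLp 2 ![l * px p.1, l * py p.1, if p.2 = true then -(l * hgt A p.1) else l * hgt A p.1]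

theorem dist_rpos {l : ℝ} (hl : 0 < l) (p q : Site n B × Bool) :
    dist (rpos A l p) (rpos A l q) = l * √(((px p.1 : ℝ) - px q.1) ^ 2 +
      ((py p.1 : ℝ) - py q.1) ^ 2 + (if p.2 = q.2 then ((hgt A p.1 : ℝ) - hgt A q.1) ^ 2
        else ((hgt A p.1 : ℝ) + hgt A q.1) ^ 2)) := by
  rw [EuclideanSpace.dist_eq, Fin.sum_univ_three]
  have hl2 : l = √(l ^ 2) := by rw [Real.sqrt_sq hl.le]
  conv_rhs => rw [hl2, ← Real.sqrt_mul (sq_nonneg l)]
  congr 1
  simp only [rpos, Real.dist_eq, sq_abs]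
  obtain ⟨a, s⟩ := p
  obtain ⟨b, s'⟩ := q
  cases s <;> cases s' <;> simp <;> ring

theorem inv_dist_ne {l : ℝ} (hl : 0 < l) {p q : Site n B × Bool} :
    1 / dist (rpos A l p) (rpos A l q) =
      (1 / l) * (if p.2 = q.2 then Wp A p.1 q.1 else Wm A p.1 q.1) := by
  rw [dist_rpos A hl]
  unfold Wp Wm
  split_ifs <;> rw [one_div, one_div, one_div, mul_inv]

theorem hgt_pos (hB : 1 ≤ B) (a : Site n B) : 1 ≤ hgt A a := by
  rcases a with ⟨i, m⟩ | e
  · exact le_trans (Nat.one_le_pow _ _ hB) (Nat.le_add_right (cH B) _)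
  · exact Nat.one_le_pow _ _ hB

theorem Wm_self (hB : 1 ≤ B) (a : Site n B) : Wm A a a = 1 / (2 * (hgt A a : ℝ)) := by
  unfold Wm
  have : (0 : ℝ) < hgt A a := by exact_mod_cast hgt_pos A hB a
  congr 1
  have h : ((px a : ℝ) - px a) ^ 2 + ((py a : ℝ) - py a) ^ 2 + ((hgt A a : ℝ) + hgt A a) ^ 2 =
    (2 * (hgt A a : ℝ)) ^ 2 := by ring
  rw [h, Real.sqrt_sq (by (clear * - this; positivity))]

theorem Wp_nonneg (a b : Site n B) : 0 ≤ Wp A a b := by unfold Wp; positivity
theorem Wm_nonneg (a b : Site n B) : 0 ≤ Wm A a b := by unfold Wm; positivity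

/-- sign of a flag -/
def sgn (s : Bool) : ℝ := if s = true then -1 else 1

theorem sgn_mul (s s' : Bool) : sgn s * sgn s' = if s = s' then 1 else -1 := by
  cases s <;> cases s' <;> simp [sgn]

theorem pairEnergy_eq {ι : Type*} [DecidableEq ι] (R : ι → R3) (T : Finset ι) :
    pairEnergy R T = (1 / 2) * ∑ α ∈ T, ∑ β ∈ T, if α = β then 0 else 1 / dist (R α) (R β) := by
  unfold pairEnergy
  congr 1
  refine sum_congr rfl (fun α hα => ?_)
  rw [← sum_erase (a := α) T (by simp)]
  refine sum_congr rfl (fun β hβ => ?_)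
  rw [if_neg (ne_of_mem_erase hβ).symm]

/-- the graph of a choice of flags -/
def gEmb (s : Site n B → Bool) : Site n B ↪ Site n B × Bool :=
  ⟨fun a => (a, s a), fun _ _ h => congrArg Prod.fst h⟩

@[simp] theorem gEmb_apply (s : Site n B → Bool) (a : Site n B) : gEmb s a = (a, s a) := rfl

theorem pairEnergy_graph {l : ℝ} (hl : 0 < l) (s : Site n B → Bool) :
    pairEnergy (rpos A l) (univ.map (gEmb s)) =
      (1 / l) * (cst n B A + isingE A (fun a => sgn (s a))) := by
  rw [pairEnergy_eq]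
  simp only [sum_map]
  unfold cst isingE
  rw [← mul_add, ← mul_assoc, mul_comm (1 / l) (1 / 2), mul_assoc]
  congr 1
  rw [← sum_add_distrib, mul_sum]
  refine sum_congr rfl (fun a _ => ?_)
  rw [← sum_add_distrib, mul_sum]
  refine sum_congr rfl (fun b _ => ?_)
  by_cases hab : a = b
  · subst hab
    simp [J]
  · rw [if_neg (fun h => hab ((gEmb s).injective h)), if_neg hab, inv_dist_ne A hl]
    simp only [gEmb_apply]
    unfold J
    rw [if_neg hab, mul_assoc, sgn_mul]
    have e1 : (1 / √(((px a : ℝ) - px b) ^ 2 + ((py a : ℝ) - py b) ^ 2 +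
        ((hgt A a : ℝ) - hgt A b) ^ 2)) = Wp A a b := rfl
    have e2 : (1 / √(((px a : ℝ) - px b) ^ 2 + ((py a : ℝ) - py b) ^ 2 +
        ((hgt A a : ℝ) + hgt A b) ^ 2)) = Wm A a b := rfl
    rw [e1, e2]
    congr 1
    by_cases hs : s a = s b
    · simp only [hs, if_true]; ring
    · simp only [hs, if_false]; ring

theorem pairEnergy_univ {l : ℝ} (hl : 0 < l) (hB : 1 ≤ B) :
    pairEnergy (rpos A l) (univ : Finset (Site n B × Bool)) =
      (1 / l) * (slf n B A + 4 * cst n B A) := by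
  rw [pairEnergy_eq]
  have h1 : ∀ a : Site n B, ∀ b : Site n B, (∑ s : Bool, ∑ s' : Bool,
      if (a, s) = (b, s') then (0 : ℝ) else 1 / dist (rpos A l (a, s)) (rpos A l (b, s'))) =
      (1 / l) * (2 * (if a = b then 1 / (2 * (hgt A a : ℝ)) else 0) +
        2 * (if a = b then 0 else (Wp A a b + Wm A a b))) := by
    intro a b
    by_cases hab : a = b
    · subst hab
      simp only [Fintype.sum_bool, inv_dist_ne A hl, Wm_self A hB]
      simp only [↓reduceIte, Prod.mk.injEq, Bool.true_eq_false, and_false, one_div, mul_inv_rev, zero_add, Bool.false_eq_true, add_zero, mul_zero]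
      ring
    · simp only [Fintype.sum_bool, inv_dist_ne A hl]
      simp only [Prod.mk.injEq, hab, and_true, ↓reduceIte, one_div, Bool.true_eq_false, and_self, Bool.false_eq_true, mul_zero, zero_add]
      ring
  have h2 : (∑ α : Site n B × Bool, ∑ β : Site n B × Bool,
      if α = β then (0 : ℝ) else 1 / dist (rpos A l α) (rpos A l β)) =
      ∑ a : Site n B, ∑ b : Site n B, (∑ s : Bool, ∑ s' : Bool,
      if (a, s) = (b, s') then (0 : ℝ) else 1 / dist (rpos A l (a, s)) (rpos A l (b, s'))) := by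
    rw [Fintype.sum_prod_type]
    refine sum_congr rfl (fun a _ => ?_)
    rw [sum_comm (s := (univ : Finset (Site n B))) (t := (univ : Finset Bool))]
    refine sum_congr rfl (fun s _ => ?_)
    exact Fintype.sum_prod_type _
  rw [h2]
  simp only [h1]
  simp only [← mul_sum, sum_add_distrib, sum_ite_eq, mem_univ, if_true]
  unfold slf cst
  have h3 : (∑ a : Site n B, ∑ b, if a = b then (0 : ℝ) else (Wp A a b + Wm A a b) / 2) =
      (1 / 2) * ∑ a : Site n B, ∑ b, if a = b then 0 else (Wp A a b + Wm A a b) := by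
    rw [mul_sum]
    refine sum_congr rfl (fun a _ => ?_)
    rw [mul_sum]
    refine sum_congr rfl (fun b _ => ?_)
    split_ifs <;> ring
  rw [h3]
  ring

end Vale.Agent.P370.Chains
end

section

namespace Vale.Agent.P370

/-- unary number -/
def un (n : ℕ) : List Bool := List.replicate n true

@[simp] theorem un_length (n : ℕ) : (un n).length = n := by simp [un]

theorem un_succ (n : ℕ) : un (n + 1) = true :: un n := rfl

theorem un_add (m n : ℕ) : un (m + n) = un m ++ un n := by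
  simp only [un, List.replicate_append_replicate]

/-- `F` is a polynomial-time number-valued function (values in unary) -/
def PN (k : ℕ) (F : (Fin k → List Bool) → ℕ) : Prop := PolyTime k (fun v => un (F v))

theorem PolyTime.congr {k : ℕ} {f g : (Fin k → List Bool) → List Bool} (hf : PolyTime k f)
    (h : ∀ v, f v = g v) : PolyTime k g := by
  have : f = g := funext h
  rwa [← this]

theorem PN.congr {k : ℕ} {F G : (Fin k → List Bool) → ℕ} (hF : PN k F)
    (h : ∀ v, F v = G v) : PN k G := by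
  have : F = G := funext h
  rwa [← this]

/-- composition with a unary function -/
theorem PolyTime.comp1 {k : ℕ} {f : (Fin 1 → List Bool) → List Bool}
    {g : (Fin k → List Bool) → List Bool} (hf : PolyTime 1 f) (hg : PolyTime k g) :
    PolyTime k (fun v => f ![g v]) := by
  have := PolyTime.comp k 1 f (fun _ => g) hf (fun _ => hg)
  refine this.congr (fun v => ?_)
  congr 1
  funext i
  fin_cases i
  rfl

theorem PolyTime.comp2 {k : ℕ} {f : (Fin 2 → List Bool) → List Bool}
    {g h : (Fin k → List Bool) → List Bool} (hf : PolyTime 2 f) (hg : PolyTime k g)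
    (hh : PolyTime k h) :
    PolyTime k (fun v => f ![g v, h v]) := by
  have := PolyTime.comp k 2 f ![g, h] hf (by
    intro i
    fin_cases i
    · exact hg
    · exact hh)
  refine this.congr (fun v => ?_)
  congr 1
  funext i
  fin_cases i <;> rfl

theorem PolyTime.cons' {k : ℕ} (b : Bool) {f : (Fin k → List Bool) → List Bool}
    (hf : PolyTime k f) : PolyTime k (fun v => b :: f v) := by
  have := PolyTime.comp1 (PolyTime.cons b) hf
  simpa using this

theorem PolyTime.tail' {k : ℕ} {f : (Fin k → List Bool) → List Bool}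
    (hf : PolyTime k f) : PolyTime k (fun v => (f v).tail) := by
  have := PolyTime.comp1 PolyTime.tail hf
  simpa using this

theorem PolyTime.const (k : ℕ) (l : List Bool) : PolyTime k (fun _ => l) := by
  induction l with
  | nil => exact PolyTime.nil k
  | cons b l ih => exact PolyTime.cons' b ih

theorem PN.const (k c : ℕ) : PN k (fun _ => c) := PolyTime.const k _

theorem sum_le_bound {k : ℕ} (v : Fin k → List Bool) (i : Fin k) :
    (v i).length ≤ ∑ i, (v i).length :=
  Finset.single_le_sum (f := fun i => (v i).length) (fun _ _ => Nat.zero_le _) (Finset.mem_univ i)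

/-- Recursion on notation of an expression, with the parameters being the context itself. -/
theorem PolyTime.rec' {k : ℕ} {e g : (Fin k → List Bool) → List Bool}
    {h : Bool → (Fin (k + 2) → List Bool) → List Bool}
    (C d : ℕ) (f : List Bool → (Fin k → List Bool) → List Bool)
    (he : PolyTime k e) (hg : PolyTime k g) (hh : ∀ b, PolyTime (k + 2) (h b))
    (h0 : ∀ v, f [] v = g v)
    (h1 : ∀ b y v, f (b :: y) v = h b (Fin.cons y (Fin.cons (f y v) v)))
    (hb : ∀ y v, (f y v).length ≤ C * (1 + y.length + ∑ i, (v i).length) ^ d) :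
    PolyTime k (fun v => f (e v) v) := by
  have h2 := PolyTime.recn k C d g h f hg hh h0 h1 hb
  have h3 := PolyTime.comp k (k + 1) (fun v => f (v 0) (Fin.tail v))
    (Fin.cons e (fun i v => v i)) h2 (by
      intro i
      refine Fin.cases ?_ ?_ i
      · exact he
      · intro j
        exact PolyTime.proj k j)
  refine h3.congr (fun v => ?_)
  simp only [Fin.cons_zero]
  congr 1

/-! ### length bounds -/

theorem PolyTime.length_bound {k : ℕ} {f : (Fin k → List Bool) → List Bool} (hf : PolyTime k f) :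
    ∃ C d : ℕ, ∀ v, (f v).length ≤ C * (1 + ∑ i, (v i).length) ^ d := by
  induction hf with
  | nil k => exact ⟨0, 0, fun v => by simp only [List.length_nil, pow_zero, mul_one, Std.le_refl]⟩
  | cons b => exact ⟨1, 1, fun v => by simp only [Fin.isValue, List.length_cons, Finset.univ_unique, Fin.default_eq_zero, Finset.sum_singleton, pow_one, one_mul, Order.add_one_le_iff, lt_add_iff_pos_left, Order.lt_one_iff] <;> omega⟩
  | tail => exact ⟨1, 1, fun v => by simp only [Fin.isValue, List.length_tail, Finset.univ_unique, Fin.default_eq_zero, Finset.sum_singleton, pow_one, one_mul, tsub_le_iff_right] <;> omega⟩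
  | proj k i =>
    refine ⟨1, 1, fun v => ?_⟩
    have := sum_le_bound v i
    simp only [one_mul, pow_one]
    omega
  | comp k m f g hf hg ihf ihg =>
    obtain ⟨C, d, h⟩ := ihf
    choose C' d' h' using ihg
    -- bound each g i by S * X ^ D
    refine ⟨C * (1 + ∑ i, C' i) ^ d, (∑ i, d' i) * d, fun v => ?_⟩
    set X := 1 + ∑ i, (v i).length with hX
    have hX1 : 1 ≤ X := by omega
    have hs : 1 + ∑ i, (g i v).length ≤ (1 + ∑ i, C' i) * X ^ (∑ i, d' i) := by
      have h5 : ∀ i, (g i v).length ≤ C' i * X ^ (∑ i, d' i) := fun i => by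
        refine (h' i v).trans ?_
        refine Nat.mul_le_mul_left _ ?_
        refine Nat.pow_le_pow_right hX1 ?_
        exact Finset.single_le_sum (f := d') (fun _ _ => Nat.zero_le _) (Finset.mem_univ i)
      calc 1 + ∑ i, (g i v).length ≤ X ^ (∑ i, d' i) + ∑ i, C' i * X ^ (∑ i, d' i) := by
            refine Nat.add_le_add (Nat.one_le_pow _ _ hX1) (Finset.sum_le_sum (fun i _ => h5 i))
        _ = (1 + ∑ i, C' i) * X ^ (∑ i, d' i) := by
            rw [← Finset.sum_mul]; ring
    calc (f fun i => g i v).length ≤ C * (1 + ∑ i, (g i v).length) ^ d := h _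
      _ ≤ C * ((1 + ∑ i, C' i) * X ^ (∑ i, d' i)) ^ d :=
          Nat.mul_le_mul_left _ (Nat.pow_le_pow_left hs d)
      _ = C * (1 + ∑ i, C' i) ^ d * X ^ ((∑ i, d' i) * d) := by
          rw [mul_pow, ← pow_mul]; ring
  | recn k C d g h f hg hh h0 h1 hb ihg ihh =>
    refine ⟨C, d, fun v => ?_⟩
    refine (hb (v 0) (Fin.tail v)).trans ?_
    rw [Fin.sum_univ_succ]
    refine Nat.mul_le_mul_left _ (Nat.pow_le_pow_left ?_ d)
    simp only [Fin.tail]
    omega

theorem pow_bound {C d X Y : ℕ} (hXY : X ≤ Y) (hX : 1 ≤ X) : C * X ^ d ≤ C * Y ^ (d + 1) :=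
  Nat.mul_le_mul_left _ ((Nat.pow_le_pow_left hXY d).trans
    (Nat.pow_le_pow_right (hX.trans hXY) (Nat.le_succ d)))

/-- lifting to a context with two more variables in front -/
theorem PolyTime.lift2 {k : ℕ} {f : (Fin k → List Bool) → List Bool} (hf : PolyTime k f) :
    PolyTime (k + 2) (fun w => f (fun i => w i.succ.succ)) :=
  PolyTime.comp (k + 2) k f (fun i w => w i.succ.succ) hf
    (fun i => PolyTime.proj (k + 2) i.succ.succ)

theorem PolyTime.lift1 {k : ℕ} {f : (Fin k → List Bool) → List Bool} (hf : PolyTime k f) :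
    PolyTime (k + 1) (fun w => f (fun i => w i.succ)) :=
  PolyTime.comp (k + 1) k f (fun i w => w i.succ) hf
    (fun i => PolyTime.proj (k + 1) i.succ)

theorem PN.lift2 {k : ℕ} {F : (Fin k → List Bool) → ℕ} (hF : PN k F) :
    PN (k + 2) (fun w => F (fun i => w i.succ.succ)) := PolyTime.lift2 hF

theorem PN.lift1 {k : ℕ} {F : (Fin k → List Bool) → ℕ} (hF : PN k F) :
    PN (k + 1) (fun w => F (fun i => w i.succ)) := PolyTime.lift1 hF

theorem PolyTime.append {k : ℕ} {f g : (Fin k → List Bool) → List Bool} (hf : PolyTime k f)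
    (hg : PolyTime k g) : PolyTime k (fun v => f v ++ g v) := by
  obtain ⟨C, d, hC⟩ := hg.length_bound
  refine PolyTime.rec' (h := fun b w => b :: w 1) (C + 1) (d + 1) (fun y v => y ++ g v) hf hg
    (fun b => PolyTime.cons' b (PolyTime.proj (k + 2) 1)) (fun v => rfl) (fun b y v => rfl) ?_
  intro y v
  have h1 := hC v
  simp only [List.length_append]
  set S := ∑ i, (v i).length
  have h2 : C * (1 + S) ^ d ≤ C * (1 + y.length + S) ^ (d + 1) := pow_bound (by omega) (by omega)
  have h3 : y.length ≤ (1 + y.length + S) ^ (d + 1) := by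
    calc y.length ≤ 1 + y.length + S := by omega
      _ ≤ (1 + y.length + S) ^ (d + 1) := Nat.le_self_pow (by omega) _
  rw [add_mul, one_mul]
  omega

theorem PN.len {k : ℕ} {f : (Fin k → List Bool) → List Bool} (hf : PolyTime k f) :
    PN k (fun v => (f v).length) := by
  refine PolyTime.rec' (h := fun _ w => true :: w 1) (g := fun _ => []) 1 1
    (fun y _ => un y.length) hf (PolyTime.nil k)
    (fun b => PolyTime.cons' true (PolyTime.proj (k + 2) 1)) (fun v => rfl) (fun b y v => rfl) ?_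
  intro y v
  simp only [un_length, one_mul, pow_one]
  omega

theorem PN.add {k : ℕ} {F G : (Fin k → List Bool) → ℕ} (hF : PN k F) (hG : PN k G) :
    PN k (fun v => F v + G v) := by
  refine (PolyTime.append hF hG).congr (fun v => ?_)
  rw [un_add]

theorem PN.bound {k : ℕ} {F : (Fin k → List Bool) → ℕ} (hF : PN k F) :
    ∃ C d : ℕ, ∀ v, F v ≤ C * (1 + ∑ i, (v i).length) ^ d := by
  obtain ⟨C, d, h⟩ := PolyTime.length_bound hF
  exact ⟨C, d, fun v => by simpa only [un_length] using h v⟩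

/-- Recursion along a unary number. -/
theorem PolyTime.natRec {k : ℕ} {N : (Fin k → List Bool) → ℕ}
    {g : (Fin k → List Bool) → List Bool} {h : (Fin (k + 2) → List Bool) → List Bool}
    (C d : ℕ) (f : ℕ → (Fin k → List Bool) → List Bool)
    (hN : PN k N) (hg : PolyTime k g) (hh : PolyTime (k + 2) h)
    (h0 : ∀ v, f 0 v = g v)
    (h1 : ∀ n v, f (n + 1) v = h (Fin.cons (un n) (Fin.cons (f n v) v)))
    (hb : ∀ n v, (f n v).length ≤ C * (1 + n + ∑ i, (v i).length) ^ d) :
    PolyTime k (fun v => f (N v) v) := by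
  have hh' : PolyTime (k + 2) (fun w => h (Fin.cons (un (w 0).length) (Fin.tail w))) := by
    have := PolyTime.comp (k + 2) (k + 2) h
      (Fin.cons (fun w => un (w 0).length) (fun i w => w i.succ)) hh (by
        intro i
        refine Fin.cases ?_ ?_ i
        · exact PN.len (PolyTime.proj (k + 2) 0)
        · intro j
          exact PolyTime.proj (k + 2) j.succ)
    refine this.congr (fun v => ?_)
    congr 1
    funext i
    refine Fin.cases ?_ ?_ i
    · rfl
    · intro j
      rfl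
  have := PolyTime.rec' (h := fun _ w => h (Fin.cons (un (w 0).length) (Fin.tail w))) C d
    (fun y v => f y.length v) hN hg (fun _ => hh') h0 (fun b y v => h1 y.length v)
    (fun y v => hb y.length v)
  refine this.congr (fun v => ?_)
  simp

theorem PN.mul {k : ℕ} {F G : (Fin k → List Bool) → ℕ} (hF : PN k F) (hG : PN k G) :
    PN k (fun v => F v * G v) := by
  obtain ⟨C, d, hC⟩ := hG.bound
  refine PolyTime.natRec (g := fun _ => [])
    (h := fun w => un (G (fun i => w i.succ.succ)) ++ w 1)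
    C (d + 1) (fun n v => un (n * G v)) hF (PolyTime.nil k)
    (PolyTime.append (PN.lift2 hG) (PolyTime.proj (k + 2) 1)) (fun v => by simp [un])
    (fun n v => ?_) (fun n v => ?_)
  · rw [Nat.succ_mul, add_comm, un_add]
    rfl
  · simp only [un_length]
    have h1 := hC v
    set S := ∑ i, (v i).length
    calc n * G v ≤ (1 + n + S) * (C * (1 + S) ^ d) := Nat.mul_le_mul (by omega) h1
      _ ≤ (1 + n + S) * (C * (1 + n + S) ^ d) :=
          Nat.mul_le_mul_left _ (Nat.mul_le_mul_left _ (Nat.pow_le_pow_left (by omega) d))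
      _ = C * (1 + n + S) ^ (d + 1) := by ring

theorem PN.pow {k : ℕ} {F : (Fin k → List Bool) → ℕ} (hF : PN k F) (e : ℕ) :
    PN k (fun v => F v ^ e) := by
  induction e with
  | zero => exact (PN.const k 1).congr (fun v => by simp)
  | succ e ih => exact (PN.mul ih hF).congr (fun v => by rw [pow_succ])

theorem PolyTime.drop {k : ℕ} {f : (Fin k → List Bool) → List Bool}
    {F : (Fin k → List Bool) → ℕ} (hf : PolyTime k f) (hF : PN k F) :
    PolyTime k (fun v => (f v).drop (F v)) := by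
  obtain ⟨C, d, hC⟩ := hf.length_bound
  refine PolyTime.natRec (g := f) (h := fun w => (w 1).tail)
    C (d + 1) (fun n v => (f v).drop n) hF hf
    (PolyTime.tail' (PolyTime.proj (k + 2) 1)) (fun v => by simp)
    (fun n v => ?_) (fun n v => ?_)
  · simp only [Fin.cons_one, Fin.cons_zero, List.tail_drop]
  · simp only [List.length_drop]
    have h1 := hC v
    set S := ∑ i, (v i).length
    have h2 : C * (1 + S) ^ d ≤ C * (1 + n + S) ^ (d + 1) := pow_bound (by omega) (by omega)
    omega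

theorem PN.sub {k : ℕ} {F G : (Fin k → List Bool) → ℕ} (hF : PN k F) (hG : PN k G) :
    PN k (fun v => F v - G v) := by
  refine (PolyTime.drop hF hG).congr (fun v => ?_)
  simp only [un, List.drop_replicate]

/-- test for emptiness -/
theorem PolyTime.ite_nil {k : ℕ} {f p q : (Fin k → List Bool) → List Bool} (hf : PolyTime k f)
    (hp : PolyTime k p) (hq : PolyTime k q) :
    PolyTime k (fun v => if f v = [] then p v else q v) := by
  obtain ⟨C, d, hC⟩ := hp.length_bound
  obtain ⟨C', d', hC'⟩ := hq.length_bound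
  refine PolyTime.rec' (h := fun _ w => q (fun i => w i.succ.succ)) (g := p) (C + C') (d + d')
    (fun y v => if y = [] then p v else q v) hf hp
    (fun b => PolyTime.lift2 hq) (fun v => by simp) (fun b y v => ?_) ?_
  · simp only [reduceCtorEq, if_false]
    rfl
  · intro y v
    have h1 := hC v
    have h2 := hC' v
    set S := ∑ i, (v i).length
    have h3 : C * (1 + S) ^ d ≤ C * (1 + y.length + S) ^ (d + d') :=
      Nat.mul_le_mul_left _ ((Nat.pow_le_pow_left (by omega) d).trans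
        (Nat.pow_le_pow_right (by omega) (by omega)))
    have h4 : C' * (1 + S) ^ d' ≤ C' * (1 + y.length + S) ^ (d + d') :=
      Nat.mul_le_mul_left _ ((Nat.pow_le_pow_left (by omega) d').trans
        (Nat.pow_le_pow_right (by omega) (by omega)))
    rw [add_mul]
    split_ifs <;> omega

theorem un_eq_nil {n : ℕ} : un n = [] ↔ n = 0 := by
  simp [un]

theorem PolyTime.ite_le {k : ℕ} {F G : (Fin k → List Bool) → ℕ}
    {p q : (Fin k → List Bool) → List Bool} (hF : PN k F) (hG : PN k G)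
    (hp : PolyTime k p) (hq : PolyTime k q) :
    PolyTime k (fun v => if F v ≤ G v then p v else q v) := by
  refine (PolyTime.ite_nil (PN.sub hF hG) hp hq).congr (fun v => ?_)
  simp only [un_eq_nil, Nat.sub_eq_zero_iff_le]

theorem PN.ite_le {k : ℕ} {F G P Q : (Fin k → List Bool) → ℕ} (hF : PN k F) (hG : PN k G)
    (hP : PN k P) (hQ : PN k Q) : PN k (fun v => if F v ≤ G v then P v else Q v) := by
  refine (PolyTime.ite_le hF hG hP hQ).congr (fun v => ?_)
  by_cases h : F v ≤ G v <;> simp only [h, if_true, if_false]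

theorem PolyTime.ite_lt {k : ℕ} {F G : (Fin k → List Bool) → ℕ}
    {p q : (Fin k → List Bool) → List Bool} (hF : PN k F) (hG : PN k G)
    (hp : PolyTime k p) (hq : PolyTime k q) :
    PolyTime k (fun v => if F v < G v then p v else q v) := by
  refine (PolyTime.ite_le hG hF hq hp).congr (fun v => ?_)
  by_cases h : F v < G v
  · rw [if_pos h, if_neg (by omega)]
  · rw [if_neg h, if_pos (by omega)]

theorem PN.ite_lt {k : ℕ} {F G P Q : (Fin k → List Bool) → ℕ} (hF : PN k F) (hG : PN k G)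
    (hP : PN k P) (hQ : PN k Q) : PN k (fun v => if F v < G v then P v else Q v) := by
  refine (PolyTime.ite_lt hF hG hP hQ).congr (fun v => ?_)
  by_cases h : F v < G v <;> simp only [h, if_true, if_false]

theorem PolyTime.ite_eq {k : ℕ} {F G : (Fin k → List Bool) → ℕ}
    {p q : (Fin k → List Bool) → List Bool} (hF : PN k F) (hG : PN k G)
    (hp : PolyTime k p) (hq : PolyTime k q) :
    PolyTime k (fun v => if F v = G v then p v else q v) := by
  refine (PolyTime.ite_le hF hG (PolyTime.ite_le hG hF hp hq) hq).congr (fun v => ?_)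
  by_cases h : F v = G v
  · rw [if_pos h, if_pos h.le, if_pos h.ge]
  · rw [if_neg h]
    split_ifs with h1 h2
    · omega
    · rfl
    · rfl

theorem PN.ite_eq {k : ℕ} {F G P Q : (Fin k → List Bool) → ℕ} (hF : PN k F) (hG : PN k G)
    (hP : PN k P) (hQ : PN k Q) : PN k (fun v => if F v = G v then P v else Q v) := by
  refine (PolyTime.ite_eq hF hG hP hQ).congr (fun v => ?_)
  by_cases h : F v = G v <;> simp only [h, if_true, if_false]

/-- substituting a term for the bound variable -/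
theorem PolyTime.bind {k : ℕ} {f : (Fin (k + 1) → List Bool) → List Bool}
    {e : (Fin k → List Bool) → List Bool} (hf : PolyTime (k + 1) f) (he : PolyTime k e) :
    PolyTime k (fun v => f (Fin.cons (e v) v)) := by
  have := PolyTime.comp k (k + 1) f (Fin.cons e (fun i v => v i)) hf (by
      intro i
      refine Fin.cases ?_ ?_ i
      · exact he
      · intro j
        exact PolyTime.proj k j)
  refine this.congr (fun v => ?_)
  congr 1
  funext i
  refine Fin.cases ?_ ?_ i
  · rfl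
  · intro j
    rfl

/-- context with the recursion value removed -/
theorem PolyTime.skip {k : ℕ} {f : (Fin (k + 1) → List Bool) → List Bool}
    (hf : PolyTime (k + 1) f) :
    PolyTime (k + 2) (fun w => f (Fin.cons (w 0) (fun i => w i.succ.succ))) := by
  have := PolyTime.comp (k + 2) (k + 1) f (Fin.cons (fun w => w 0) (fun i w => w i.succ.succ)) hf
    (by
      intro i
      refine Fin.cases ?_ ?_ i
      · exact PolyTime.proj (k + 2) 0
      · intro j
        exact PolyTime.proj (k + 2) j.succ.succ)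
  refine this.congr (fun v => ?_)
  congr 1
  funext i
  refine Fin.cases ?_ ?_ i
  · rfl
  · intro j
    rfl

/-- bounded concatenation -/
theorem PolyTime.flatMap {k : ℕ} {N : (Fin k → List Bool) → ℕ}
    {f : (Fin (k + 1) → List Bool) → List Bool} (hN : PN k N) (hf : PolyTime (k + 1) f) :
    PolyTime k (fun v => (List.range (N v)).flatMap (fun t => f (Fin.cons (un t) v))) := by
  obtain ⟨C, d, hC⟩ := hf.length_bound
  refine PolyTime.natRec (g := fun _ => [])
    (h := fun w => w 1 ++ f (Fin.cons (w 0) (fun i => w i.succ.succ)))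
    C (d + 1) (fun n v => (List.range n).flatMap (fun t => f (Fin.cons (un t) v))) hN
    (PolyTime.nil k)
    (PolyTime.append (PolyTime.proj (k + 2) 1) (PolyTime.skip hf)) (fun v => by simp)
    (fun n v => ?_) (fun n v => ?_)
  · rw [List.range_succ, List.flatMap_append]
    simp only [List.flatMap_cons, List.flatMap_nil, List.append_nil]
    rfl
  · set S := ∑ i, (v i).length with hS
    have key : ∀ m, m ≤ n →
        ((List.range m).flatMap (fun t => f (Fin.cons (un t) v))).length ≤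
          m * (C * (1 + n + S) ^ d) := by
      intro m hm
      induction m with
      | zero => simp
      | succ m ih =>
        rw [List.range_succ, List.flatMap_append]
        simp only [List.flatMap_cons, List.flatMap_nil, List.append_nil, List.length_append]
        have h1 := ih (by omega)
        have h2 := hC (Fin.cons (un m) v)
        rw [Fin.sum_univ_succ] at h2
        simp only [Fin.cons_zero, Fin.cons_succ, un_length] at h2
        have h3 : C * (1 + (m + ∑ i, (v i).length)) ^ d ≤ C * (1 + n + S) ^ d :=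
          Nat.mul_le_mul_left _ (Nat.pow_le_pow_left (by omega) d)
        rw [Nat.succ_mul]
        (clear * - h1 h2 h3; omega)
    calc _ ≤ n * (C * (1 + n + S) ^ d) := key n le_rfl
      _ ≤ (1 + n + S) * (C * (1 + n + S) ^ d) := Nat.mul_le_mul_right _ (by omega)
      _ = C * (1 + n + S) ^ (d + 1) := by ring

theorem un_sum_range (n : ℕ) (F : ℕ → ℕ) :
    un (∑ t ∈ Finset.range n, F t) = (List.range n).flatMap (fun t => un (F t)) := by
  induction n with
  | zero => simp [un]
  | succ n ih => rw [Finset.sum_range_succ, un_add, ih, List.range_succ]; simp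

/-- bounded sum; the bound variable is the new argument `0`, given in unary -/
theorem PN.sum {k : ℕ} {N : (Fin k → List Bool) → ℕ} {F : (Fin (k + 1) → List Bool) → ℕ}
    (hN : PN k N) (hF : PN (k + 1) F) :
    PN k (fun v => ∑ t ∈ Finset.range (N v), F (Fin.cons (un t) v)) := by
  refine (PolyTime.flatMap hN hF).congr (fun v => ?_)
  rw [un_sum_range]

theorem div_eq_sum (a b : ℕ) : a / b =
    ∑ q ∈ Finset.range a, if b = 0 then 0 else if (q + 1) * b ≤ a then 1 else 0 := by
  rcases Nat.eq_zero_or_pos b with hb | hb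
  · simp [hb]
  · have h1 : ∀ q, (if b = 0 then 0 else if (q + 1) * b ≤ a then 1 else 0) =
        (if q < a / b then 1 else 0) := by
      intro q
      rw [if_neg (by omega)]
      have : (q + 1) * b ≤ a ↔ q < a / b := by
        rw [← Nat.le_div_iff_mul_le hb]
        exact Iff.rfl
      simp only [this]
    simp only [h1]
    rw [← Finset.sum_filter, Finset.sum_const, smul_eq_mul, mul_one]
    have : Finset.filter (fun q => q < a / b) (Finset.range a) = Finset.range (a / b) := by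
      ext q
      simp only [Finset.mem_filter, Finset.mem_range]
      have := Nat.div_le_self a b
      omega
    rw [this, Finset.card_range]

theorem PN.div {k : ℕ} {F G : (Fin k → List Bool) → ℕ} (hF : PN k F) (hG : PN k G) :
    PN k (fun v => F v / G v) := by
  have h1 : PN (k + 1) (fun w => if G (fun i => w i.succ) = 0 then 0 else
      if ((w 0).length + 1) * G (fun i => w i.succ) ≤ F (fun i => w i.succ) then 1 else 0) :=
    PN.ite_eq (PN.lift1 hG) (PN.const _ 0) (PN.const _ 0)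
      (PN.ite_le (PN.mul (PN.add (PN.len (PolyTime.proj (k + 1) 0)) (PN.const _ 1))
        (PN.lift1 hG)) (PN.lift1 hF) (PN.const _ 1) (PN.const _ 0))
  refine (PN.sum hF h1).congr (fun v => ?_)
  rw [div_eq_sum]
  refine Finset.sum_congr rfl (fun t _ => ?_)
  simp only [Fin.cons_zero, Fin.cons_succ, un_length]

theorem PN.mod {k : ℕ} {F G : (Fin k → List Bool) → ℕ} (hF : PN k F) (hG : PN k G) :
    PN k (fun v => F v % G v) := by
  refine (PN.sub hF (PN.mul hG (PN.div hF hG))).congr (fun v => ?_)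
  have := Nat.div_add_mod (F v) (G v)
  omega

theorem sqrt_eq_sum (a : ℕ) : Nat.sqrt a =
    ∑ q ∈ Finset.range a, if (q + 1) * (q + 1) ≤ a then 1 else 0 := by
  have h1 : ∀ q, (if (q + 1) * (q + 1) ≤ a then 1 else 0) =
      (if q < Nat.sqrt a then 1 else 0) := by
    intro q
    have : (q + 1) * (q + 1) ≤ a ↔ q < Nat.sqrt a := by
      rw [← Nat.le_sqrt]
      exact Iff.rfl
    simp only [this]
  simp only [h1]
  rw [← Finset.sum_filter, Finset.sum_const, smul_eq_mul, mul_one]
  have : Finset.filter (fun q => q < Nat.sqrt a) (Finset.range a) = Finset.range (Nat.sqrt a) := by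
    ext q
    simp only [Finset.mem_filter, Finset.mem_range]
    have := Nat.sqrt_le_self a
    omega
  rw [this, Finset.card_range]

theorem PN.sqrt {k : ℕ} {F : (Fin k → List Bool) → ℕ} (hF : PN k F) :
    PN k (fun v => Nat.sqrt (F v)) := by
  have h1 : PN (k + 1) (fun w =>
      if ((w 0).length + 1) * ((w 0).length + 1) ≤ F (fun i => w i.succ) then 1 else 0) := by
    have h2 : PN (k + 1) (fun w => (w 0).length + 1) :=
      PN.add (PN.len (PolyTime.proj (k + 1) 0)) (PN.const _ 1)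
    exact PN.ite_le (PN.mul h2 h2) (PN.lift1 hF) (PN.const _ 1) (PN.const _ 0)
  refine (PN.sum hF h1).congr (fun v => ?_)
  rw [sqrt_eq_sum]
  refine Finset.sum_congr rfl (fun t _ => ?_)
  simp only [Fin.cons_zero, Fin.cons_succ, un_length]

theorem lead_nil : lead [] = 0 := rfl

theorem lead_true (w : List Bool) : Vale.Agent.P370.lead (true :: w) =
    Vale.Agent.P370.lead w + 1 := by
  unfold Vale.Agent.P370.lead
  simp

theorem lead_false (w : List Bool) : Vale.Agent.P370.lead (false :: w) = 0 := by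
  unfold Vale.Agent.P370.lead
  simp

theorem PN.lead {k : ℕ} {f : (Fin k → List Bool) → List Bool} (hf : PolyTime k f) :
    PN k (fun v => Vale.Agent.P370.lead (f v)) := by
  refine PolyTime.rec' (h := fun b w => if b then true :: w 1 else []) (g := fun _ => []) 1 1
    (fun y _ => un (Vale.Agent.P370.lead y)) hf (PolyTime.nil k)
    (fun b => ?_) (fun v => rfl) (fun b y v => ?_) ?_
  · cases b
    · exact PolyTime.nil _
    · exact PolyTime.cons' true (PolyTime.proj (k + 2) 1)
  · cases b <;> rfl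
  · intro y v
    simp only [un_length, one_mul, pow_one]
    have : ∀ y : List Bool, Vale.Agent.P370.lead y ≤ y.length := by
      intro y
      induction y with
      | nil => simp [Vale.Agent.P370.lead_nil]
      | cons b y ih =>
        cases b <;> simp [Vale.Agent.P370.lead_false, Vale.Agent.P370.lead_true]; omega
    have := this y
    omega

theorem PN.headD {k : ℕ} {f : (Fin k → List Bool) → List Bool} (hf : PolyTime k f) :
    PN k (fun v => if (f v).headD false = true then 1 else 0) := by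
  refine PolyTime.rec' (h := fun b _ => if b then [true] else []) (g := fun _ => []) 1 1
    (fun y _ => un (if y.headD false = true then 1 else 0)) hf (PolyTime.nil k)
    (fun b => ?_) (fun v => rfl) (fun b y v => ?_) ?_
  · cases b
    · exact PolyTime.nil _
    · exact PolyTime.const _ [true]
  · cases b <;> rfl
  · intro y v
    simp only [un_length, one_mul, pow_one]
    split_ifs <;> omega

/-- binary increment, least significant bit first -/
def inc : List Bool → List Bool
  | [] => [true]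
  | false :: y => true :: y
  | true :: y => false :: inc y

theorem inc_bits (n : ℕ) : (n + 1).bits = inc n.bits := by
  induction n using Nat.binaryRec' with
  | zero => simp only [zero_add, Nat.one_bits, Nat.zero_bits, inc]
  | bit b n h ih =>
    cases b
    · rw [Nat.bits_append_bit n false h]
      simp only [inc]
      have : Nat.bit false n + 1 = Nat.bit true n := by simp [Nat.bit_val]
      rw [this, Nat.bits_append_bit n true (fun _ => rfl)]
    · rw [Nat.bits_append_bit n true h]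
      simp only [inc]
      have : Nat.bit true n + 1 = Nat.bit false (n + 1) := by simp [Nat.bit_val]; ring
      rw [this, Nat.bits_append_bit (n + 1) false (fun h => by omega), ih]

theorem inc_length (y : List Bool) : (inc y).length ≤ y.length + 1 := by
  induction y with
  | nil => simp only [inc, List.length_cons, List.length_nil, zero_add, Std.le_refl]
  | cons b y ih => cases b <;> simp [inc]; omega

theorem PolyTime.inc' : PolyTime 1 (fun v => inc (v 0)) := by
  have := PolyTime.rec' (k := 1) (e := fun v => v 0)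
    (h := fun b w => if b then false :: w 1 else true :: w 0)
    (g := fun _ => [true]) 1 1 (fun y _ => inc y) (PolyTime.proj 1 0) (PolyTime.const 1 [true])
    (fun b => ?_) (fun v => rfl) (fun b y v => ?_) ?_
  · exact this
  · cases b
    · exact PolyTime.cons' true (PolyTime.proj 3 0)
    · exact PolyTime.cons' false (PolyTime.proj 3 1)
  · cases b <;> rfl
  · intro y v
    have := inc_length y
    simp only [one_mul, pow_one]
    omega

theorem bits_length (n : ℕ) : n.bits.length ≤ n := by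
  induction n with
  | zero => simp
  | succ n ih =>
    rw [inc_bits]
    have := inc_length n.bits
    omega

theorem PolyTime.bits {k : ℕ} {F : (Fin k → List Bool) → ℕ} (hF : PN k F) :
    PolyTime k (fun v => (F v).bits) := by
  refine PolyTime.natRec (g := fun _ => []) (h := fun w => inc (w 1)) 1 1 (fun n _ => n.bits) hF
    (PolyTime.nil k) ?_ (fun v => by simp) (fun n v => ?_) (fun n v => ?_)
  · have := PolyTime.comp1 PolyTime.inc' (PolyTime.proj (k + 2) 1)
    simpa using this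
  · rw [inc_bits]
    rfl
  · have := bits_length n
    simp only [one_mul, pow_one]
    omega

theorem PolyTime.encNat {k : ℕ} {F : (Fin k → List Bool) → ℕ} (hF : PN k F) :
    PolyTime k (fun v => Vale.Agent.P370.encNat (F v)) := by
  refine PolyTime.rec' (h := fun b w => true :: b :: w 1) (g := fun _ => [false]) 2 1
    (fun y _ => y.flatMap (fun b => [true, b]) ++ [false]) (PolyTime.bits hF)
    (PolyTime.const k [false]) (fun b => PolyTime.cons' _ (PolyTime.cons' _ (PolyTime.proj _ 1)))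
    (fun v => by simp) (fun b y v => by simp) ?_
  intro y v
  simp only [pow_one, List.length_append, List.length_flatMap, List.length_cons, List.length_nil]
  simp only [zero_add, Nat.reduceAdd, List.map_const', List.sum_replicate, smul_eq_mul, Order.add_one_le_iff]
  omega

end Vale.Agent.P370
end

section

namespace Vale.Agent.P370

open Red Chains

variable {k : ℕ}

theorem PN.var (i : Fin k) : PN k (fun v => (v i).length) := PN.len (PolyTime.proj k i)

theorem PN.gN {f : (Fin k → List Bool) → List Bool} (hf : PolyTime k f) :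
    PN k (fun v => Vale.Agent.P370.gN (f v)) := PN.lead hf

theorem PN.gK {f : (Fin k → List Bool) → List Bool} (hf : PolyTime k f) :
    PN k (fun v => Vale.Agent.P370.gK (f v)) :=
  PN.lead (PolyTime.drop hf (PN.add (PN.gN hf) (PN.const k 1)))

theorem PN.gBit {f : (Fin k → List Bool) → List Bool} {F : (Fin k → List Bool) → ℕ}
    (hf : PolyTime k f) (hF : PN k F) :
    PN k (fun v => if Vale.Agent.P370.gBit (f v) (F v) = true then 1 else 0) :=
  PN.headD (PolyTime.drop hf (PN.add (PN.add (PN.add (PN.gN hf) (PN.gK hf)) (PN.const k 2)) hF))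

theorem PN.nn {f : (Fin k → List Bool) → List Bool} (hf : PolyTime k f) :
    PN k (fun v => Red.nn (f v)) := PN.add (PN.gN hf) (PN.const k 1)

theorem PN.adjN {f : (Fin k → List Bool) → List Bool} {E : (Fin k → List Bool) → ℕ}
    (hf : PolyTime k f) (hE : PN k E) :
    PN k (fun v => Red.adjN (f v) (E v)) := by
  have hn := PN.nn hf
  have hi := PN.div hE hn
  have hj := PN.mod hE hn
  have h1 := PN.ite_lt hi hj (PN.ite_lt hj (PN.gN hf)
    (PN.gBit hf (PN.add (PN.mul hi (PN.gN hf)) hj)) (PN.const k 0)) (PN.const k 0)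
  refine h1.congr (fun v => ?_)
  simp only [Red.adjN, gAdj, Bool.and_eq_true, decide_eq_true_eq]
  split_ifs <;> first | rfl | (exfalso; (clear hf hE hn hi hj h1; tauto))

theorem PN.BB (j : ℕ) {f : (Fin k → List Bool) → List Bool} (hf : PolyTime k f) :
    PN k (fun v => Red.BB j (f v)) :=
  PN.mul (PN.const k 2) (PN.pow (PN.add (PN.len hf) (PN.const k j)) 4)

variable {n B t t' : (Fin k → List Bool) → ℕ} {f : (Fin k → List Bool) → List Bool}

theorem PN.CL (hn : PN k n) (hB : PN k B) : PN k (fun v => Chains.CL (n v) (B v)) :=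
  PN.mul (PN.pow hB 61) (PN.add (PN.pow hn 2) (PN.const k 2))

theorem PN.NC (hn : PN k n) (hB : PN k B) : PN k (fun v => Red.NC (n v) (B v)) :=
  PN.mul hn (PN.CL hn hB)

theorem PN.NT (hn : PN k n) (hB : PN k B) : PN k (fun v => Red.NT (n v) (B v)) :=
  PN.add (PN.NC hn hB) (PN.pow hn 2)

theorem PN.fX (hn : PN k n) (hB : PN k B) (ht : PN k t) :
    PN k (fun v => Red.fX (n v) (B v) (t v)) :=
  PN.ite_lt ht (PN.NC hn hB)
    (PN.mul (PN.add (PN.mul (PN.const k 2) (PN.mod ht (PN.CL hn hB))) (PN.const k 1))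
      (PN.pow hB 200))
    (PN.mul (PN.mul (PN.const k 2) (PN.pow hB 200)) (PN.mul (PN.pow hB 61)
      (PN.add (PN.sub ht (PN.NC hn hB)) (PN.const k 1))))

theorem PN.fY (hn : PN k n) (hB : PN k B) (ht : PN k t) :
    PN k (fun v => Red.fY (n v) (B v) (t v)) :=
  PN.ite_lt ht (PN.NC hn hB)
    (PN.mul (PN.pow hB 236) (PN.add (PN.div ht (PN.CL hn hB)) (PN.const k 1)))
    (PN.const k 0)

theorem PN.fP (hn : PN k n) (hB : PN k B) (ht : PN k t) :
    PN k (fun v => Red.fP (n v) (B v) (t v)) :=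
  PN.ite_lt ht (PN.NC hn hB)
    (PN.mod (PN.mod ht (PN.CL hn hB)) (PN.const k 2))
    (PN.const k 0)

theorem PN.fH (hf : PolyTime k f) (hn : PN k n) (hB : PN k B) (ht : PN k t) :
    PN k (fun v => Red.fH (f v) (n v) (B v) (t v)) := by
  have hi : PN k (fun v => t v / Chains.CL (n v) (B v)) := PN.div ht (PN.CL hn hB)
  have hm : PN k (fun v => t v % Chains.CL (n v) (B v)) := PN.mod ht (PN.CL hn hB)
  have he : PN (k + 1) (fun w => (w 0).length) := PN.var 0
  have hsum := PN.sum (PN.pow hn 2) (PN.mul (PN.adjN (PolyTime.lift1 hf) he)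
    (PN.add
      (PN.ite_eq (PN.lift1 hi) (PN.div he (PN.lift1 hn))
        (PN.ite_eq (PN.lift1 hm) (PN.mul (PN.lift1 (PN.pow hB 61)) (PN.add he (PN.const _ 1)))
          (PN.const _ 1) (PN.const _ 0)) (PN.const _ 0))
      (PN.ite_eq (PN.lift1 hi) (PN.mod he (PN.lift1 hn))
        (PN.ite_eq (PN.add (PN.lift1 hm) (PN.const _ 1))
          (PN.mul (PN.lift1 (PN.pow hB 61)) (PN.add he (PN.const _ 1)))
          (PN.const _ 1) (PN.const _ 0)) (PN.const _ 0))))
  have h := PN.ite_lt ht (PN.NC hn hB)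
    (PN.add (PN.pow hB 2) (PN.mul (PN.pow (PN.add hi (PN.const k 1)) 3) hsum)) (PN.pow hB 70)
  refine h.congr (fun v => ?_)
  simp only [Fin.cons_zero, Fin.cons_succ, un_length]
  rfl

theorem PN.sq2 {x y : (Fin k → List Bool) → ℕ} (hx : PN k x) (hy : PN k y) :
    PN k (fun v => Red.sq2 (x v) (y v)) :=
  PN.add (PN.pow (PN.sub hx hy) 2) (PN.pow (PN.sub hy hx) 2)

theorem PN.dP (hf : PolyTime k f) (hn : PN k n) (hB : PN k B) (ht : PN k t) (ht' : PN k t') :
    PN k (fun v => Red.dP (f v) (n v) (B v) (t v) (t' v)) :=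
  PN.add (PN.add (PN.sq2 (PN.fX hn hB ht) (PN.fX hn hB ht'))
    (PN.sq2 (PN.fY hn hB ht) (PN.fY hn hB ht')))
    (PN.sq2 (PN.fH hf hn hB ht) (PN.fH hf hn hB ht'))

theorem PN.dM (hf : PolyTime k f) (hn : PN k n) (hB : PN k B) (ht : PN k t) (ht' : PN k t') :
    PN k (fun v => Red.dM (f v) (n v) (B v) (t v) (t' v)) :=
  PN.add (PN.add (PN.sq2 (PN.fX hn hB ht) (PN.fX hn hB ht'))
    (PN.sq2 (PN.fY hn hB ht) (PN.fY hn hB ht')))
    (PN.pow (PN.add (PN.fH hf hn hB ht) (PN.fH hf hn hB ht')) 2)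

theorem PN.isq {Q m : (Fin k → List Bool) → ℕ} (hQ : PN k Q) (hm : PN k m) :
    PN k (fun v => Red.isq (Q v) (m v)) :=
  PN.sqrt (PN.div (PN.pow hQ 2) hm)

theorem PN.Asum (hf : PolyTime k f) (hn : PN k n) (hB : PN k B) :
    PN k (fun v => Red.Asum (f v) (n v) (B v)) := by
  have hf2 := PolyTime.lift1 (PolyTime.lift1 hf)
  have hn2 := PN.lift1 (PN.lift1 hn)
  have hB2 := PN.lift1 (PN.lift1 hB)
  have ht2 : PN (k + 2) (fun w => (w 1).length) := PN.var 1
  have ht2' : PN (k + 2) (fun w => (w 0).length) := PN.var 0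
  have ht1 : PN (k + 1) (fun w => (w 0).length) := PN.var 0
  have h := PN.sum (PN.NT hn hB) (PN.add
    (PN.isq (PN.pow (PN.lift1 hB) 800)
      (PN.pow (PN.mul (PN.const _ 2) (PN.fH (PolyTime.lift1 hf) (PN.lift1 hn) (PN.lift1 hB) ht1)) 2))
    (PN.sum ht1 (PN.mul (PN.const _ 2) (PN.add
      (PN.isq (PN.pow hB2 800) (PN.dP hf2 hn2 hB2 ht2 ht2'))
      (PN.isq (PN.pow hB2 800) (PN.dM hf2 hn2 hB2 ht2 ht2'))))))
  refine h.congr (fun v => ?_)
  simp only [Fin.cons_zero, Fin.cons_succ, Fin.cons_one, un_length]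
  rfl

theorem PN.Psum (hf : PolyTime k f) (hn : PN k n) (hB : PN k B) :
    PN k (fun v => Red.Psum (f v) (n v) (B v)) := by
  have hf2 := PolyTime.lift1 (PolyTime.lift1 hf)
  have hn2 := PN.lift1 (PN.lift1 hn)
  have hB2 := PN.lift1 (PN.lift1 hB)
  have ht2 : PN (k + 2) (fun w => (w 1).length) := PN.var 1
  have ht2' : PN (k + 2) (fun w => (w 0).length) := PN.var 0
  have ht1 : PN (k + 1) (fun w => (w 0).length) := PN.var 0
  have h := PN.sum (PN.NT hn hB) (PN.sum ht1
      (PN.isq (PN.pow hB2 800) (PN.ite_eq (PN.fP hn2 hB2 ht2) (PN.fP hn2 hB2 ht2')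
        (PN.dP hf2 hn2 hB2 ht2 ht2') (PN.dM hf2 hn2 hB2 ht2 ht2'))))
  refine h.congr (fun v => ?_)
  simp only [Fin.cons_zero, Fin.cons_succ, Fin.cons_one, un_length]
  rfl

theorem PN.zA (hf : PolyTime k f) (hn : PN k n) (hB : PN k B) :
    PN k (fun v => Red.zA (f v) (n v) (B v)) :=
  PN.sub (PN.sub (PN.add (PN.add (PN.mul (PN.mul (PN.NT hn hB) (PN.pow hB 2300)) (PN.pow hB 800))
    (PN.mul (PN.const k 2) (PN.Asum hf hn hB))) (PN.mul (PN.mul (PN.const k 4) (PN.gK hf))
      (PN.pow hB 162))) (PN.mul (PN.const k 2) (PN.Psum hf hn hB))) (PN.pow hB 162)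

theorem PN.zB (hf : PolyTime k f) (hn : PN k n) (hB : PN k B) :
    PN k (fun v => Red.zB (f v) (n v) (B v)) :=
  PN.sub (PN.sub (PN.add (PN.add (PN.mul (PN.mul (PN.NT hn hB) (PN.pow hB 2300)) (PN.pow hB 800))
    (PN.mul (PN.const k 2) (PN.Asum hf hn hB))) (PN.mul (PN.mul (PN.const k 4) (PN.gK hf))
      (PN.pow hB 162))) (PN.mul (PN.const k 2) (PN.Psum hf hn hB)))
    (PN.mul (PN.const k 3) (PN.pow hB 162))

theorem PN.cD (hB : PN k B) : PN k (fun v => Red.cD (B v)) :=
  PN.mul (PN.mul (PN.const k 2) (PN.pow hB 2300)) (PN.pow hB 800)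

end Vale.Agent.P370
end

section

set_option exponentiation.threshold 10000

namespace Vale.Agent.P370.Red

open Chains Finset

/-! ### The matrix attached to a graph code -/

/-- the signed incidence matrix -/
def Am (w : List Bool) : Fin (nn w) → Fin (nn w ^ 2) → ℤ := fun i e =>
  if gAdj w (e.val / nn w) (e.val % nn w) = true then
    (if i.val = e.val / nn w then 1 else if i.val = e.val % nn w then -1 else 0) else 0

theorem lead_le (w : List Bool) : lead w ≤ w.length := by
  induction w with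
  | nil => simp [lead_nil]
  | cons b w ih =>
    cases b
    · simp only [lead_false, List.length_cons, le_add_iff_nonneg_left, zero_le]
    · simp only [lead_true, List.length_cons]; omega

theorem gAdj_lt {w : List Bool} {i j : ℕ} (h : gAdj w i j = true) : i < j ∧ j < gN w := by
  unfold gAdj at h
  simp only [Bool.and_eq_true, decide_eq_true_eq] at h
  exact h.1

theorem good_Am {j : ℕ} (hj : 32 ≤ j) (w : List Bool) : Good (nn w) (BB j w) (Am w) := by
  refine ⟨?_, ?_, ?_, ?_, ?_⟩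
  · exact ⟨(w.length + j) ^ 4, by unfold BB; ring⟩
  · unfold BB
    have : 32 ^ 4 ≤ (w.length + j) ^ 4 := Nat.pow_le_pow_left (by omega) 4
    calc 2 ^ 20 ≤ 2 * 32 ^ 4 := by (clear * -; norm_num)
      _ ≤ 2 * (w.length + j) ^ 4 := Nat.mul_le_mul_left _ this
  · unfold BB nn gN
    have h := lead_le w
    have : (lead w + 1 + 2) ^ 4 ≤ (w.length + j) ^ 4 := Nat.pow_le_pow_left (by omega) 4
    (clear * - this; omega)
  · intro i e
    unfold Am
    split_ifs <;> simp
  · intro e
    unfold Am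
    by_cases h : gAdj w (e.val / nn w) (e.val % nn w) = true
    · simp only [h, if_true]
      obtain ⟨h1, h2⟩ := gAdj_lt h
      have hlt : ∀ i : Fin (nn w), (if i.val = e.val / nn w then (1 : ℤ) else
          if i.val = e.val % nn w then -1 else 0) =
          (if i = (⟨e.val / nn w, by unfold nn; unfold nn at h1 h2; omega⟩ : Fin (nn w)) then 1 else 0) -
          (if i = (⟨e.val % nn w, by unfold nn; unfold nn at h1 h2; omega⟩ : Fin (nn w)) then 1 else 0) := by
        intro i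
        simp only [Fin.ext_iff]
        by_cases a1 : i.val = e.val / nn w
        · have a2 : ¬ i.val = e.val % nn w := by omega
          simp only [a1, ↓reduceIte, show ¬e.val / nn w = e.val % nn w by omega, sub_zero]
        · by_cases a2 : i.val = e.val % nn w
          · simp only [a2, show ¬e.val % nn w = e.val / nn w by omega, ↓reduceIte, Int.reduceNeg, zero_sub]
          · simp only [a1, ↓reduceIte, a2, sub_self]
      simp only [hlt, sum_sub_distrib, sum_ite_eq', mem_univ, if_true, sub_self]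
    · simp only [h, Bool.false_eq_true, ↓reduceIte, sum_const_zero]

/-! ### Enumerating sites and nuclei -/

def eqS (n B : ℕ) : Site n B ≃ Fin (NT n B) :=
  (Equiv.sumCongr finProdFinEquiv (Equiv.refl (Fin (n ^ 2)))).trans finSumFinEquiv

theorem eqS_inl {n B : ℕ} (i : Fin n) (m : Fin (CL n B)) :
    (eqS n B (Sum.inl (i, m))).val = m.val + CL n B * i.val := rfl

theorem eqS_inr {n B : ℕ} (e : Fin (n ^ 2)) :
    (eqS n B (Sum.inr e)).val = NC n B + e.val := rfl

theorem inl_lt {n B : ℕ} (i : Fin n) (m : Fin (CL n B)) :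
    m.val + CL n B * i.val < NC n B := by
  unfold NC
  have h1 := i.isLt
  have h2 := m.isLt
  calc m.val + CL n B * i.val < CL n B + CL n B * i.val := by omega
    _ = CL n B * (i.val + 1) := by ring
    _ ≤ CL n B * n := Nat.mul_le_mul_left _ h1
    _ = n * CL n B := by ring

theorem inl_mod {n B : ℕ} (i : Fin n) (m : Fin (CL n B)) :
    (m.val + CL n B * i.val) % CL n B = m.val := by
  rw [Nat.add_mul_mod_self_left, Nat.mod_eq_of_lt m.isLt]

theorem inl_div {n B : ℕ} (i : Fin n) (m : Fin (CL n B)) :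
    (m.val + CL n B * i.val) / CL n B = i.val := by
  have h2 := m.isLt
  rw [Nat.add_mul_div_left _ _ (by omega), Nat.div_eq_of_lt h2, zero_add]

theorem fX_eq {n B : ℕ} (a : Site n B) : fX n B (eqS n B a).val = px a := by
  rcases a with ⟨i, m⟩ | e
  · rw [eqS_inl]
    unfold fX
    rw [if_pos (inl_lt i m), inl_mod]
    rfl
  · rw [eqS_inr]
    unfold fX
    rw [if_neg (by omega), show NC n B + e.val - NC n B = e.val by omega]
    rfl

theorem fY_eq {n B : ℕ} (a : Site n B) : fY n B (eqS n B a).val = py a := by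
  rcases a with ⟨i, m⟩ | e
  · rw [eqS_inl]
    unfold fY
    rw [if_pos (inl_lt i m), inl_div]
    rfl
  · rw [eqS_inr]
    unfold fY
    rw [if_neg (by omega)]
    rfl

theorem fH_eq {w : List Bool} {B : ℕ} (a : Site (nn w) B) :
    fH w (nn w) B (eqS (nn w) B a).val = hgt (Am w) a := by
  rcases a with ⟨i, m⟩ | e
  · rw [eqS_inl]
    unfold fH
    rw [if_pos (inl_lt i m), inl_div, inl_mod]
    rw [hgt_inl]
    rw [← Fin.sum_univ_eq_sum_range (fun e => adjN w e *
      ((if i.val = e / nn w then (if m.val = Kx B * (e + 1) then 1 else 0) else 0) +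
       (if i.val = e % nn w then (if m.val + 1 = Kx B * (e + 1) then 1 else 0) else 0)))]
    congr 2
    refine sum_congr rfl (fun e _ => ?_)
    unfold adjN Am
    by_cases h : gAdj w (e.val / nn w) (e.val % nn w) = true
    · obtain ⟨h1, h2⟩ := gAdj_lt h
      simp only [h, if_true, one_mul]
      by_cases a1 : i.val = e.val / nn w
      · have a2 : ¬ i.val = e.val % nn w := by omega
        have a3 : ¬ ((1 : ℤ) = -1) := by norm_num
        simp only [a1, ↓reduceIte, show ¬e.val / nn w = e.val % nn w by omega, add_zero, true_and, Int.reduceNeg, a3, false_and]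
      · by_cases a2 : i.val = e.val % nn w
        · have a3 : ¬ ((-1 : ℤ) = 1) := by norm_num
          simp only [a2, show ¬e.val % nn w = e.val / nn w by omega, ↓reduceIte, zero_add, Int.reduceNeg, a3, false_and, true_and]
        · simp only [a1, ↓reduceIte, a2, add_zero, zero_ne_one, false_and, Int.reduceNeg, zero_eq_neg, one_ne_zero]
    · simp only [h, Bool.false_eq_true, ↓reduceIte, zero_mul, zero_ne_one, false_and, Int.reduceNeg, zero_eq_neg, one_ne_zero, add_zero]
  · rw [eqS_inr]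
    unfold fH
    rw [if_neg (by omega)]
    rfl

theorem fP_eq {n B : ℕ} (a : Site n B) :
    sg a = (-1 : ℝ) ^ (fP n B (eqS n B a).val) := by
  rcases a with ⟨i, m⟩ | e
  · rw [eqS_inl]
    unfold fP
    rw [if_pos (inl_lt i m), inl_mod]
    rw [sg_inl]
    exact neg_one_pow_eq_pow_mod_two m.val
  · rw [eqS_inr]
    unfold fP
    rw [if_neg (by omega), pow_zero]
    rfl

theorem fP_lt {n B t : ℕ} : fP n B t < 2 := by
  unfold fP
  split_ifs
  · exact Nat.mod_lt _ (by norm_num)
  · norm_num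

def eqM (n B : ℕ) : Site n B × Bool ≃ Fin (2 * NT n B) :=
  ((Equiv.prodCongr (eqS n B) finTwoEquiv.symm).trans finProdFinEquiv).trans
    (finCongr (mul_comm _ _))

theorem eqM_val {n B : ℕ} (a : Site n B) (s : Bool) :
    (eqM n B (a, s)).val = (if s = true then 1 else 0) + 2 * (eqS n B a).val := by
  cases s <;> rfl

theorem eqM_div {n B : ℕ} (a : Site n B) (s : Bool) :
    (eqM n B (a, s)).val / 2 = (eqS n B a).val := by
  rw [eqM_val]; cases s <;> simp; (clear * -; omega)

theorem eqM_mod {n B : ℕ} (a : Site n B) (s : Bool) :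
    (eqM n B (a, s)).val % 2 = (if s = true then 1 else 0) := by
  rw [eqM_val]; cases s <;> simp

/-- positions of the nuclei of the constructed instance -/
noncomputable def posR (j : ℕ) (w : List Bool) (α : Fin (2 * NT (nn w) (BB j w))) : R3 :=
  WithLp.toLp 2 (fun k => ((inst j w).pos α k : ℝ))

theorem posR_eq (j : ℕ) (w : List Bool) (p : Site (nn w) (BB j w) × Bool) :
    posR j w (eqM (nn w) (BB j w) p) = rpos (Am w) (cl (BB j w)) p := by
  obtain ⟨a, s⟩ := p
  unfold posR rpos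
  congr 1
  funext k
  have hd := eqM_div a s
  have hm := eqM_mod a s
  simp only [inst]
  fin_cases k
  · simp only [Fin.mk_zero, Fin.zero_eta, if_true, Matrix.cons_val_zero]
    rw [hd, fX_eq]; push_cast; rfl
  · simp only [Fin.mk_one, one_ne_zero, if_false, if_true, Matrix.cons_val_one]
    rw [hd, fY_eq]; push_cast; rfl
  · simp only [Fin.reduceFinMk, Fin.reduceEq, if_false, Matrix.cons_val]
    rw [hd, hm, fH_eq]
    cases s
    · simp only [Bool.false_eq_true, ↓reduceIte, Nat.cast_mul, Rat.cast_mul, Rat.cast_natCast]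
    · simp only [↓reduceIte, one_ne_zero, Nat.cast_mul, Rat.cast_neg, Rat.cast_mul, Rat.cast_natCast]

end Vale.Agent.P370.Red
end

section

set_option linter.all false

/-!
Algebra of block singlets (H5): spin operators, the interaction between blocks.
-/

namespace Vale.Agent.P370.H

open Finset ComplexConjugate

/-! ### the form `sip` -/

section sipsec

variable {I : Type} [Fintype I] [DecidableEq I]

theorem sip_add_right (Φ Ψ Ω : SSt I) : sip Φ (Ψ + Ω) = sip Φ Ψ + sip Φ Ω := by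
  simp only [sip, Pi.add_apply, mul_add, sum_add_distrib]

theorem sip_add_left (Φ Ψ Ω : SSt I) : sip (Φ + Ψ) Ω = sip Φ Ω + sip Ψ Ω := by
  simp only [sip, Pi.add_apply, map_add, add_mul, sum_add_distrib]

theorem sip_smul_right (c : ℂ) (Φ Ψ : SSt I) : sip Φ (c • Ψ) = c * sip Φ Ψ := by
  simp only [sip, Pi.smul_apply, smul_eq_mul, mul_sum]
  exact sum_congr rfl fun s _ => by ring

theorem sip_smul_left (c : ℂ) (Φ Ψ : SSt I) : sip (c • Φ) Ψ = conj c * sip Φ Ψ := by
  simp only [sip, Pi.smul_apply, smul_eq_mul, map_mul, mul_sum]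
  exact sum_congr rfl fun s _ => by ring

theorem sip_zero_right (Φ : SSt I) : sip Φ 0 = 0 := by simp only [sip, Pi.zero_apply, mul_zero, sum_const_zero]

theorem sip_zero_left (Φ : SSt I) : sip 0 Φ = 0 := by simp only [sip, Pi.zero_apply, map_zero, zero_mul, sum_const_zero]

theorem sip_sub_right (Φ Ψ Ω : SSt I) : sip Φ (Ψ - Ω) = sip Φ Ψ - sip Φ Ω := by
  simp only [sip, Pi.sub_apply, mul_sub, sum_sub_distrib]

theorem sip_sum_right {ι : Type*} (s : Finset ι) (Φ : SSt I) (f : ι → SSt I) :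
    sip Φ (∑ i ∈ s, f i) = ∑ i ∈ s, sip Φ (f i) := by
  classical
  induction s using Finset.induction_on with
  | empty => simp only [sum_empty, sip_zero_right]
  | insert a s ha ih => rw [sum_insert ha, sum_insert ha, sip_add_right, ih]

theorem sip_sum_left {ι : Type*} (s : Finset ι) (Φ : SSt I) (f : ι → SSt I) :
    sip (∑ i ∈ s, f i) Φ = ∑ i ∈ s, sip (f i) Φ := by
  classical
  induction s using Finset.induction_on with
  | empty => simp [sip_zero_left]
  | insert a s ha ih => rw [sum_insert ha, sum_insert ha, sip_add_left, ih]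

theorem sip_self (Φ : SSt I) : sip Φ Φ = (snorm2 Φ : ℂ) := by
  simp only [sip, snorm2, Complex.ofReal_sum]
  exact sum_congr rfl fun s _ => by
    rw [Complex.ofReal_pow, Complex.conj_mul']

theorem snorm2_nonneg (Φ : SSt I) : 0 ≤ snorm2 Φ := sum_nonneg fun _ _ => by (clear * -; positivity)

theorem snorm2_eq_zero (Φ : SSt I) (h : snorm2 Φ = 0) : Φ = 0 := by
  funext s
  have h1 := (sum_eq_zero_iff_of_nonneg (fun s _ => by (clear * -; positivity))).1 h s (mem_univ s)
  simpa only [Pi.zero_apply, ne_eq, OfNat.ofNat_ne_zero, not_false_eq_true, pow_eq_zero_iff, norm_eq_zero] using     h1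

/-! ### spin operators -/

/-- matrix element of a spin operator (`0, 1, 2` stand for `x, y, z`) -/
noncomputable def sco (a : Fin 3) (x : Fin 2) : ℂ :=
  if a = 0 then 1 / 2 else if a = 1 then (if x = 0 then -(Complex.I / 2) else Complex.I / 2)
  else (if x = 0 then 1 / 2 else -(1 / 2))

/-- target of a spin operator -/
def stg (a : Fin 3) (x : Fin 2) : Fin 2 := if a = 2 then x else 1 - x

/-- spin operator -/
noncomputable def Sp (a : Fin 3) (i : I) : Module.End ℂ (SSt I) where
  toFun Φ := fun s => sco a (s i) * Φ (Function.update s i (stg a (s i)))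
  map_add' := by intro x y; funext s; simp only [Pi.add_apply, mul_add]
  map_smul' := by
    intro c x; funext s
    simp only [Pi.smul_apply, smul_eq_mul, RingHom.id_apply]; ring

omit [Fintype I] in
theorem Sp_apply (a : Fin 3) (i : I) (Φ : SSt I) (s : I → Fin 2) :
    Sp a i Φ s = sco a (s i) * Φ (Function.update s i (stg a (s i))) := rfl

theorem stg_stg (a : Fin 3) (x : Fin 2) : stg a (stg a x) = x := by
  revert a x; decide

theorem stg_cyc (a : Fin 3) (x : Fin 2) : stg (a + 1) (stg a x) = stg (a + 2) x := by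
  revert a x; decide

theorem stg_cyc' (a : Fin 3) (x : Fin 2) : stg a (stg (a + 1) x) = stg (a + 2) x := by
  revert a x; decide

theorem sco_sq (a : Fin 3) (x : Fin 2) : sco a x * sco a (stg a x) = 1 / 4 := by
  fin_cases a <;> fin_cases x <;> simp [sco, stg] <;> ring_nf <;> simp only [Complex.I_sq, neg_mul, one_mul, one_div] <;> norm_num

theorem sco_cyc (a : Fin 3) (x : Fin 2) :
    sco a x * sco (a + 1) (stg a x) = Complex.I / 2 * sco (a + 2) x := by
  fin_cases a <;> fin_cases x <;> simp [sco, stg] <;> ring_nf <;> simp [Complex.I_sq] <;> norm_num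

theorem sco_cyc' (a : Fin 3) (x : Fin 2) :
    sco (a + 1) x * sco a (stg (a + 1) x) = -(Complex.I / 2) * sco (a + 2) x := by
  fin_cases a <;> fin_cases x <;> simp [sco, stg] <;> ring_nf <;> simp [Complex.I_sq] <;> norm_num

theorem sco_conj (a : Fin 3) (x : Fin 2) : conj (sco a (stg a x)) = sco a x := by
  have h2 : (starRingEnd ℂ) 2 = 2 := Complex.conj_ofNat 2
  fin_cases a <;> fin_cases x <;> simp [sco, stg, h2] <;> ring

omit [Fintype I] in
theorem Sp_comm (a b : Fin 3) {i j : I} (h : i ≠ j) : Sp a i * Sp b j = Sp b j * Sp a i := by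
  refine LinearMap.ext fun Φ => funext fun s => ?_
  simp only [Module.End.mul_apply, Sp_apply, Function.update_of_ne h, Function.update_of_ne h.symm]
  rw [Function.update_comm h]
  ring

omit [Fintype I] in
theorem Sp_sq (a : Fin 3) (i : I) : Sp a i * Sp a i = (1 / 4 : ℂ) • (1 : Module.End ℂ (SSt I)) := by
  refine LinearMap.ext fun Φ => funext fun s => ?_
  simp only [Module.End.mul_apply, Sp_apply, Function.update_self, Function.update_idem, stg_stg,
    Function.update_eq_self, LinearMap.smul_apply, Module.End.one_apply, Pi.smul_apply, smul_eq_mul]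
  rw [← mul_assoc, sco_sq]

omit [Fintype I] in
theorem Sp_cyc (a : Fin 3) (i : I) : Sp a i * Sp (a + 1) i = (Complex.I / 2) • Sp (a + 2) i := by
  refine LinearMap.ext fun Φ => funext fun s => ?_
  simp only [Module.End.mul_apply, Sp_apply, Function.update_self, Function.update_idem, stg_cyc,
    LinearMap.smul_apply, Pi.smul_apply, smul_eq_mul]
  rw [← mul_assoc, sco_cyc, mul_assoc]

omit [Fintype I] in
theorem Sp_cyc' (a : Fin 3) (i : I) :
    Sp (a + 1) i * Sp a i = (-(Complex.I / 2)) • Sp (a + 2) i := by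
  refine LinearMap.ext fun Φ => funext fun s => ?_
  simp only [Module.End.mul_apply, Sp_apply, Function.update_self, Function.update_idem, stg_cyc',
    LinearMap.smul_apply, Pi.smul_apply, smul_eq_mul]
  rw [← mul_assoc, sco_cyc', mul_assoc]

theorem sip_Sp (a : Fin 3) (i : I) (Φ Ψ : SSt I) : sip Φ (Sp a i Ψ) = sip (Sp a i Φ) Ψ := by
  unfold sip
  have hinv : ∀ s : I → Fin 2, Function.update (Function.update s i (stg a (s i))) i
      (stg a ((Function.update s i (stg a (s i))) i)) = s := by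
    intro s
    simp only [Function.update_self, Function.update_idem, stg_stg, Function.update_eq_self]
  let e : (I → Fin 2) ≃ (I → Fin 2) :=
    { toFun := fun s => Function.update s i (stg a (s i))
      invFun := fun s => Function.update s i (stg a (s i))
      left_inv := hinv
      right_inv := hinv }
  rw [← e.sum_comp]
  refine sum_congr rfl fun s _ => ?_
  have h1 : Sp a i Ψ (e s) = sco a (stg a (s i)) * Ψ s := by
    rw [Sp_apply]
    have : Function.update (e s) i (stg a ((e s) i)) = s := hinv s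
    rw [this]
    simp [e]
  rw [h1, Sp_apply, map_mul]
  have h2 : sco a (stg a (s i)) = conj (sco a (s i)) := by
    rw [← sco_conj a (stg a (s i)), stg_stg]
  rw [h2]
  change conj (Φ (Function.update s i (stg a (s i)))) * _ = _
  ring

omit [Fintype I] in
theorem dotS_eq {i j : I} (h : i ≠ j) (Φ : SSt I) :
    dotS i j Φ = ∑ a : Fin 3, Sp a i (Sp a j Φ) := by
  funext s
  simp only [dotS, Fin.sum_univ_three, Pi.add_apply, Sp_apply, Function.update_of_ne h.symm]
  have hsw : s ∘ Equiv.swap i j = Function.update (Function.update s i (s j)) j (s i) := by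
    funext k
    by_cases h1 : k = i
    · subst h1
      rw [Function.comp_apply, Equiv.swap_apply_left, Function.update_of_ne h, Function.update_self]
    · by_cases h2 : k = j
      · subst h2
        rw [Function.comp_apply, Equiv.swap_apply_right, Function.update_self]
      · rw [Function.comp_apply, Equiv.swap_apply_of_ne_of_ne h1 h2, Function.update_of_ne h2,
          Function.update_of_ne h1]
  have hss : Function.update (Function.update s i (s i)) j (s j) = s := by
    rw [Function.update_eq_self, Function.update_eq_self]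
  have key : ∀ x y : Fin 2, (1 / 2 : ℂ) * Φ (Function.update (Function.update s i y) j x) -
      1 / 4 * Φ (Function.update (Function.update s i x) j y) =
      sco 0 x * (sco 0 y * Φ (Function.update (Function.update s i (stg 0 x)) j (stg 0 y))) +
      sco 1 x * (sco 1 y * Φ (Function.update (Function.update s i (stg 1 x)) j (stg 1 y))) +
      sco 2 x * (sco 2 y * Φ (Function.update (Function.update s i (stg 2 x)) j (stg 2 y))) := by
    intro x y
    fin_cases x <;> fin_cases y <;> simp [sco, stg] <;> ring_nf <;> simp [Complex.I_sq] <;> ring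
  have := key (s i) (s j)
  rw [hss] at this
  rw [hsw]
  exact this

end sipsec

/-! ### blocks -/

variable {B : Type} [Fintype B] [DecidableEq B]

theorem f3a (a : Fin 3) : a + 1 + 2 = a := by revert a; decide

theorem f3b (a : Fin 3) : a + 2 + 1 = a := by revert a; decide

theorem f3c (a : Fin 3) : a + 2 + 2 = a + 1 := by revert a; decide

/-- total spin of a block -/
noncomputable def Tt (a : Fin 3) (b : B) : Module.End ℂ (SSt (B × Fin 4)) :=
  ∑ g : Fin 4, Sp a (b, g)

theorem sip_Tt (a : Fin 3) (b : B) (Φ Ψ : SSt (B × Fin 4)) :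
    sip Φ (Tt a b Ψ) = sip (Tt a b Φ) Ψ := by
  simp only [Tt, LinearMap.sum_apply, sip_sum_right, sip_Sp, sip_sum_left]

omit [Fintype B] in
theorem Sp_sq_apply (a : Fin 3) (i : B × Fin 4) (Φ : SSt (B × Fin 4)) :
    Sp a i (Sp a i Φ) = (1 / 4 : ℂ) • Φ := by
  rw [← Module.End.mul_apply, Sp_sq]; rfl

omit [Fintype B] in
theorem block_eq (b : B) (Φ : SSt (B × Fin 4)) :
    (∑ g : Fin 4, ∑ k : Fin 4, (if g = k then (3 / 4 : ℂ) • Φ else dotS (b, g) (b, k) Φ)) =
      ∑ a : Fin 3, Tt a b (Tt a b Φ) := by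
  have h : ∀ g k : Fin 4, (if g = k then (3 / 4 : ℂ) • Φ else dotS (b, g) (b, k) Φ) =
      ∑ a : Fin 3, Sp a (b, g) (Sp a (b, k) Φ) := by
    intro g k
    split_ifs with h
    · subst h
      simp only [Sp_sq_apply, sum_const, card_univ, Fintype.card_fin]
      rw [← Nat.cast_smul_eq_nsmul ℂ, smul_smul]; norm_num
    · exact dotS_eq (fun h' => h (Prod.ext_iff.1 h').2) Φ
  simp only [h, Tt, LinearMap.sum_apply, map_sum]
  calc _ = ∑ g : Fin 4, ∑ a : Fin 3, ∑ k : Fin 4, Sp a (b, g) (Sp a (b, k) Φ) :=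
        sum_congr rfl fun g _ => sum_comm
    _ = ∑ a : Fin 3, ∑ g : Fin 4, ∑ k : Fin 4, Sp a (b, g) (Sp a (b, k) Φ) := sum_comm
    _ = _ := sum_congr rfl fun a _ => sum_comm

/-- the total spin of the block `b` vanishes -/
def Kl (b : B) (Φ : SSt (B × Fin 4)) : Prop := ∀ a, Tt a b Φ = 0

theorem isBS_iff (Φ : SSt (B × Fin 4)) : IsBS Φ ↔ ∀ b, Kl b Φ := by
  unfold IsBS
  refine forall_congr' fun b => ?_
  rw [block_eq]
  constructor
  · intro h
    have h1 : sip Φ (∑ a : Fin 3, Tt a b (Tt a b Φ)) = 0 := by rw [h, sip_zero_right]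
    rw [sip_sum_right] at h1
    simp only [sip_Tt _ b Φ, sip_self] at h1
    have h2 : ∑ a : Fin 3, snorm2 (Tt a b Φ) = 0 := by exact_mod_cast h1
    intro a
    exact snorm2_eq_zero _ ((sum_eq_zero_iff_of_nonneg fun _ _ => snorm2_nonneg _).1 h2 a
      (mem_univ a))
  · intro h
    refine sum_eq_zero fun a _ => ?_
    rw [h a, map_zero]

omit [Fintype B] in
theorem Tt_comm (c a : Fin 3) {b b' : B} (h : b ≠ b') (k : Fin 4) :
    Tt c b * Sp a (b', k) = Sp a (b', k) * Tt c b := by
  simp only [Tt, sum_mul, mul_sum]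
  exact sum_congr rfl fun g _ => Sp_comm _ _ fun h' => h (Prod.ext_iff.1 h').1

omit [Fintype B] in
theorem Tt_comm_same (c a : Fin 3) (b : B) (g : Fin 4) :
    Tt c b * Sp a (b, g) - Sp a (b, g) * Tt c b =
      Sp c (b, g) * Sp a (b, g) - Sp a (b, g) * Sp c (b, g) := by
  simp only [Tt, sum_mul, mul_sum]
  rw [← sum_sub_distrib]
  refine sum_eq_single g (fun k _ hk => ?_) (fun h => absurd (mem_univ g) h)
  rw [Sp_comm c a (fun h' => hk (Prod.ext_iff.1 h').2), sub_self]

omit [Fintype B] in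
theorem Tt_cyc (a : Fin 3) (b : B) (g : Fin 4) :
    Tt a b * Sp (a + 1) (b, g) - Sp (a + 1) (b, g) * Tt a b = Complex.I • Sp (a + 2) (b, g) := by
  rw [Tt_comm_same, Sp_cyc, Sp_cyc']
  module

omit [Fintype B] in
theorem Tt_cyc' (a : Fin 3) (b : B) (g : Fin 4) :
    Tt (a + 1) b * Sp a (b, g) - Sp a (b, g) * Tt (a + 1) b =
      (-Complex.I) • Sp (a + 2) (b, g) := by
  rw [Tt_comm_same, Sp_cyc, Sp_cyc']
  module

omit [Fintype B] in
theorem Tt_self (a : Fin 3) (b : B) (g : Fin 4) :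
    Tt a b * Sp a (b, g) - Sp a (b, g) * Tt a b = 0 := by
  rw [Tt_comm_same, sub_self]

omit [Fintype B] in
theorem Kl.sp {b b' : B} (h : b ≠ b') {Φ : SSt (B × Fin 4)} (hΦ : Kl b Φ) (a : Fin 3)
    (k : Fin 4) : Kl b (Sp a (b', k) Φ) := by
  intro c
  rw [← Module.End.mul_apply, Tt_comm c a h, Module.End.mul_apply, hΦ c, map_zero]

omit [Fintype B] in
theorem Kl.add {b : B} {Φ Ψ : SSt (B × Fin 4)} (hΦ : Kl b Φ) (hΨ : Kl b Ψ) : Kl b (Φ + Ψ) := by
  intro c; rw [map_add, hΦ c, hΨ c, add_zero]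

omit [Fintype B] in
theorem Kl.smul {b : B} {Φ : SSt (B × Fin 4)} (hΦ : Kl b Φ) (x : ℂ) : Kl b (x • Φ) := by
  intro c; rw [map_smul, hΦ c, smul_zero]

omit [Fintype B] in
theorem Kl.sum {ι : Type*} {b : B} (s : Finset ι) {f : ι → SSt (B × Fin 4)}
    (h : ∀ i ∈ s, Kl b (f i)) : Kl b (∑ i ∈ s, f i) := by
  intro c; rw [map_sum]; exact sum_eq_zero fun i hi => h i hi c

theorem comm_zero {b : B} {Φ Ψ : SSt (B × Fin 4)} (hΨ : Kl b Ψ) (hΦ : Kl b Φ) (c : Fin 3)
    (X : Module.End ℂ (SSt (B × Fin 4))) : sip Ψ ((Tt c b * X - X * Tt c b) Φ) = 0 := by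
  rw [LinearMap.sub_apply, Module.End.mul_apply, Module.End.mul_apply, sip_sub_right, sip_Tt,
    hΨ c, hΦ c, map_zero, sip_zero_left, sip_zero_right, sub_zero]

theorem one_zero {b : B} {Φ Ψ : SSt (B × Fin 4)} (hΨ : Kl b Ψ) (hΦ : Kl b Φ) (a : Fin 3)
    (g : Fin 4) : sip Ψ (Sp a (b, g) Φ) = 0 := by
  have h := comm_zero hΨ hΦ (a + 1) (Sp (a + 1 + 1) (b, g))
  rw [Tt_cyc, f3a, LinearMap.smul_apply, sip_smul_right] at h
  exact (mul_eq_zero.1 h).resolve_left Complex.I_ne_zero

theorem mat3 (M : Fin 3 → Fin 3 → ℂ) (L1 : ∀ c, M (c + 2) (c + 2) = M (c + 1) (c + 1))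
    (L2 : ∀ c, M (c + 2) c = 0) (L3 : ∀ c, M c (c + 2) = 0) (a a' : Fin 3) :
    M a a' = if a = a' then 1 / 3 * ∑ c : Fin 3, M c c else 0 := by
  have a1 : M 2 2 = M 1 1 := L1 0
  have a2 : M 0 0 = M 2 2 := L1 1
  have b0 : M 2 0 = 0 := L2 0
  have b1 : M 0 1 = 0 := L2 1
  have b2 : M 1 2 = 0 := L2 2
  have c0 : M 0 2 = 0 := L3 0
  have c1 : M 1 0 = 0 := L3 1
  have c2 : M 2 1 = 0 := L3 2
  rw [Fin.sum_univ_three, a2, a1]
  fin_cases a <;> fin_cases a' <;> simp [b0, b1, b2, c0, c1, c2, a1, a2] <;> ring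

theorem two_spin {b : B} {Φ Ψ : SSt (B × Fin 4)} (hΨ : Kl b Ψ) (hΦ : Kl b Φ) (g g' : Fin 4)
    (a a' : Fin 3) : sip Ψ (Sp a (b, g) (Sp a' (b, g') Φ)) =
      if a = a' then 1 / 3 * ∑ c : Fin 3, sip Ψ (Sp c (b, g) (Sp c (b, g') Φ)) else 0 := by
  have hM : ∀ c a a' : Fin 3, sip Ψ ((Tt c b * Sp a (b, g) - Sp a (b, g) * Tt c b)
      (Sp a' (b, g') Φ)) + sip Ψ (Sp a (b, g) ((Tt c b * Sp a' (b, g') -
        Sp a' (b, g') * Tt c b) Φ)) = 0 := by
    intro c a a'
    rw [← comm_zero hΨ hΦ c (Sp a (b, g) * Sp a' (b, g')), ← sip_add_right]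
    refine congrArg (sip Ψ) ?_
    simp only [LinearMap.sub_apply, Module.End.mul_apply, map_sub]
    abel
  have I0 := Complex.I_ne_zero
  have L1 : ∀ c : Fin 3, sip Ψ (Sp (c + 2) (b, g) (Sp (c + 2) (b, g') Φ)) =
      sip Ψ (Sp (c + 1) (b, g) (Sp (c + 1) (b, g') Φ)) := by
    intro c
    have h := hM c (c + 1) (c + 2)
    rw [Tt_cyc] at h
    have h3 := Tt_cyc' (c + 2) b g'
    rw [f3b, f3c] at h3
    rw [h3, LinearMap.smul_apply, LinearMap.smul_apply, map_smul, sip_smul_right,
      sip_smul_right] at h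
    have h4 : Complex.I * (sip Ψ (Sp (c + 2) (b, g) (Sp (c + 2) (b, g') Φ)) -
      sip Ψ (Sp (c + 1) (b, g) (Sp (c + 1) (b, g') Φ))) = 0 := by
      linear_combination h
    exact sub_eq_zero.1 ((mul_eq_zero.1 h4).resolve_left I0)
  have L2 : ∀ c : Fin 3, sip Ψ (Sp (c + 2) (b, g) (Sp c (b, g') Φ)) = 0 := by
    intro c
    have h := hM c (c + 1) c
    rw [Tt_cyc, Tt_self, LinearMap.zero_apply, map_zero, sip_zero_right, add_zero,
      LinearMap.smul_apply, sip_smul_right] at h
    exact (mul_eq_zero.1 h).resolve_left I0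
  have L3 : ∀ c : Fin 3, sip Ψ (Sp c (b, g) (Sp (c + 2) (b, g') Φ)) = 0 := by
    intro c
    have h := hM c c (c + 1)
    rw [Tt_cyc, Tt_self, LinearMap.zero_apply, sip_zero_right, zero_add,
      LinearMap.smul_apply, map_smul, sip_smul_right] at h
    exact (mul_eq_zero.1 h).resolve_left I0
  exact mat3 (fun a a' => sip Ψ (Sp a (b, g) (Sp a' (b, g') Φ))) L1 L2 L3 a a'

theorem f3d (a : Fin 3) : a + 1 + 1 = a + 2 := by revert a; decide

theorem sum3 {M : Type*} [AddCommMonoid M] (a : Fin 3) (F : Fin 3 → M) :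
    ∑ c, F c = F a + F (a + 1) + F (a + 2) := by
  rw [Fin.sum_univ_three]
  fin_cases a
  · rfl
  · change F 0 + F 1 + F 2 = F 1 + F 2 + F 0
    abel
  · change F 0 + F 1 + F 2 = F 2 + F 0 + F 1
    abel

omit [Fintype B] in
theorem cas_one {b : B} {Φ : SSt (B × Fin 4)} (hΦ : Kl b Φ) (a : Fin 3) (g : Fin 4) :
    ∑ c : Fin 3, Tt c b (Tt c b (Sp a (b, g) Φ)) = (2 : ℂ) • Sp a (b, g) Φ := by
  have hT : ∀ c a, Tt c b (Sp a (b, g) Φ) = (Tt c b * Sp a (b, g) - Sp a (b, g) * Tt c b) Φ := by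
    intro c a
    rw [LinearMap.sub_apply, Module.End.mul_apply, Module.End.mul_apply, hΦ c, map_zero, sub_zero]
  have h0 : Tt a b (Sp a (b, g) Φ) = 0 := by rw [hT, Tt_self, LinearMap.zero_apply]
  have h1 : Tt (a + 1) b (Tt (a + 1) b (Sp a (b, g) Φ)) = Sp a (b, g) Φ := by
    rw [hT, Tt_cyc', LinearMap.smul_apply, map_smul, ← f3d a, hT, Tt_cyc, f3a,
      LinearMap.smul_apply, smul_smul, neg_mul, Complex.I_mul_I, neg_neg, one_smul]
  have h2 : Tt (a + 2) b (Tt (a + 2) b (Sp a (b, g) Φ)) = Sp a (b, g) Φ := by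
    have e1 : Tt (a + 2) b (Sp a (b, g) Φ) = Complex.I • Sp (a + 1) (b, g) Φ := by
      have := Tt_cyc (a + 2) b g
      rw [f3b, f3c] at this
      rw [hT, this, LinearMap.smul_apply]
    have e2 : Tt (a + 2) b (Sp (a + 1) (b, g) Φ) = (-Complex.I) • Sp a (b, g) Φ := by
      have := Tt_cyc' (a + 1) b g
      rw [f3d, f3a] at this
      rw [hT, this, LinearMap.smul_apply]
    rw [e1, map_smul, e2, smul_smul, mul_neg, Complex.I_mul_I, neg_neg, one_smul]
  rw [sum3 a, h0, map_zero, h1, h2, zero_add, two_smul]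

omit [Fintype B] in
theorem Sp_comm_apply (a b : Fin 3) {i j : B × Fin 4} (h : i ≠ j) (Φ : SSt (B × Fin 4)) :
    Sp a i (Sp b j Φ) = Sp b j (Sp a i Φ) := by
  rw [← Module.End.mul_apply, Sp_comm a b h, Module.End.mul_apply]

omit [Fintype B] [DecidableEq B] in
theorem ne_blk {b b' : B} (h : b ≠ b') (g k : Fin 4) : (b, g) ≠ (b', k) :=
  fun h' => h (Prod.ext_iff.1 h').1

/-- Casimir operator -/
noncomputable def Cas : Module.End ℂ (SSt (B × Fin 4)) :=
  ∑ b : B, (1 / 2 : ℂ) • ∑ a : Fin 3, Tt a b * Tt a b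

theorem casimir_eq (Φ : SSt (B × Fin 4)) : casimir Φ = Cas Φ := by
  simp only [casimir, block_eq, Cas, LinearMap.sum_apply, LinearMap.smul_apply,
    Module.End.mul_apply]

theorem cas_pair {b b' : B} (h : b ≠ b') {Φ : SSt (B × Fin 4)} (hΦ : ∀ d, Kl d Φ) (a : Fin 3)
    (g k : Fin 4) : Cas (Sp a (b, g) (Sp a (b', k) Φ)) =
      (2 : ℂ) • Sp a (b, g) (Sp a (b', k) Φ) := by
  simp only [Cas, LinearMap.sum_apply, LinearMap.smul_apply, Module.End.mul_apply]
  rw [sum_eq_add b b' h]
  · rw [cas_one ((hΦ b).sp h a k) a g, Sp_comm_apply a a (ne_blk h g k),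
      cas_one ((hΦ b').sp h.symm a g) a k, smul_smul, ← add_smul]
    norm_num
  · rintro d - ⟨h1, h2⟩
    have hk := ((hΦ d).sp h2 a k).sp h1 a g
    simp only [hk _, map_zero, sum_const_zero, smul_zero]
  · intro h'; exact absurd (mem_univ _) h'
  · intro h'; exact absurd (mem_univ _) h'

/-- coupling of two blocks -/
noncomputable def Wb (c : B → B → Fin 4 → Fin 4 → ℝ) (b b' : B) (Φ : SSt (B × Fin 4)) :
    SSt (B × Fin 4) :=
  ∑ g : Fin 4, ∑ h : Fin 4, (c b b' g h : ℂ) • ∑ a : Fin 3, Sp a (b, g) (Sp a (b', h) Φ)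

theorem inter_eq (c : B → B → Fin 4 → Fin 4 → ℝ) (Φ : SSt (B × Fin 4)) :
    inter c Φ = (1 / 2 : ℂ) • ∑ b : B, ∑ b' : B, if b = b' then 0 else Wb c b b' Φ := by
  unfold inter
  refine congrArg (HSMul.hSMul (1 / 2 : ℂ)) ?_
  refine sum_congr rfl fun b _ => sum_congr rfl fun b' _ => ?_
  split_ifs with h
  · rfl
  · simp only [Wb, dotS_eq (ne_blk h _ _)]

/-- the interaction has no matrix elements between block singlets -/
theorem inter_bs (c : B → B → Fin 4 → Fin 4 → ℝ) (Φ Ψ : SSt (B × Fin 4)) (hΦ : IsBS Φ)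
    (hΨ : IsBS Ψ) : sip Ψ (inter c Φ) = 0 := by
  rw [isBS_iff] at hΦ hΨ
  rw [inter_eq, sip_smul_right, sip_sum_right]
  have : ∀ b b', sip Ψ (if b = b' then 0 else Wb c b b' Φ) = 0 := by
    intro b b'
    split_ifs with h
    · exact sip_zero_right _
    · simp only [Wb, sip_sum_right, sip_smul_right]
      refine sum_eq_zero fun g _ => sum_eq_zero fun k _ => ?_
      rw [sum_eq_zero fun a _ => one_zero (hΨ b) ((hΦ b).sp h a k) a g, mul_zero]
  simp only [sip_sum_right, this, sum_const_zero, mul_zero]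

/-- it excites exactly two blocks to spin one -/
theorem casimir_inter (c : B → B → Fin 4 → Fin 4 → ℝ) (hc : ∀ b b' g h, c b b' g h = c b' b h g)
    (Φ : SSt (B × Fin 4)) (hΦ : IsBS Φ) :
    casimir (inter c Φ) = (2 : ℂ) • inter c Φ := by
  rw [isBS_iff] at hΦ
  rw [casimir_eq, inter_eq, map_smul, smul_comm]
  refine congrArg (HSMul.hSMul (1 / 2 : ℂ)) ?_
  rw [map_sum, smul_sum]
  refine sum_congr rfl fun b _ => ?_
  rw [map_sum, smul_sum]
  refine sum_congr rfl fun b' _ => ?_
  split_ifs with h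
  · rw [map_zero, smul_zero]
  · simp only [Wb, map_sum, map_smul, smul_sum, cas_pair h hΦ]
    exact sum_congr rfl fun g _ => sum_congr rfl fun k _ => sum_congr rfl fun a _ =>
      smul_comm _ _ _

/-- symmetry and positivity of the block Casimir operator -/
theorem casimir_symm (Φ Ψ : SSt (B × Fin 4)) : sip Ψ (casimir Φ) = sip (casimir Ψ) Φ := by
  simp only [casimir, block_eq, sip_sum_right, sip_sum_left, sip_smul_right, sip_smul_left, sip_Tt]
  refine sum_congr rfl fun b _ => ?_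

  rw [map_div₀, map_one, Complex.conj_ofNat]

theorem casimir_nonneg (Φ : SSt (B × Fin 4)) : 0 ≤ (sip Φ (casimir Φ)).re := by
  simp only [casimir, block_eq, sip_sum_right, sip_smul_right, sip_Tt _ _ Φ, sip_self]
  rw [Complex.re_sum]
  refine sum_nonneg fun b _ => ?_
  rw [← Complex.ofReal_sum, show (1 / 2 : ℂ) = ((1 / 2 : ℝ) : ℂ) by (clear * -; norm_num),
    ← Complex.ofReal_mul, Complex.ofReal_re]
  exact mul_nonneg (by norm_num) (sum_nonneg fun _ _ => snorm2_nonneg _)

theorem casimir_bs (Φ : SSt (B × Fin 4)) (hΦ : IsBS Φ) : casimir Φ = 0 := by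
  unfold casimir
  exact sum_eq_zero fun b _ => by rw [hΦ b, smul_zero]

/-! ### the norm of the excited state -/

omit [Fintype B] in
theorem pair_eq {b : B} {Φ : SSt (B × Fin 4)} (hΦ : Kl b Φ) (c : Fin 3) (g g' l m : Fin 4)
    (h1 : g ≠ g') (h2 : l ≠ m) (h3 : g ≠ l) (h4 : g ≠ m) (h5 : g' ≠ l) (h6 : g' ≠ m)
    (hs : ∀ f : Fin 4 → SSt (B × Fin 4), ∑ k, f k = f g + f g' + (f l + f m)) :
    Sp c (b, g) (Sp c (b, g') Φ) = Sp c (b, l) (Sp c (b, m) Φ) := by
  have hne : ∀ {k k' : Fin 4}, k ≠ k' → (b, k) ≠ (b, k') := fun h h' => h (Prod.ext_iff.1 h').2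
  have h0 : Sp c (b, g) Φ + Sp c (b, g') Φ = -(Sp c (b, l) Φ + Sp c (b, m) Φ) := by
    have := hΦ c
    rw [Tt, LinearMap.sum_apply, hs] at this
    exact eq_neg_of_add_eq_zero_left this
  have e1 : (Sp c (b, g) + Sp c (b, g')) (Sp c (b, g) Φ + Sp c (b, g') Φ) =
      (1 / 2 : ℂ) • Φ + (2 : ℂ) • Sp c (b, g) (Sp c (b, g') Φ) := by
    rw [map_add, LinearMap.add_apply, LinearMap.add_apply, Sp_sq_apply, Sp_sq_apply,
      Sp_comm_apply c c (hne h1.symm)]
    module
  have e2 : (Sp c (b, l) + Sp c (b, m)) (Sp c (b, l) Φ + Sp c (b, m) Φ) =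
      (1 / 2 : ℂ) • Φ + (2 : ℂ) • Sp c (b, l) (Sp c (b, m) Φ) := by
    rw [map_add, LinearMap.add_apply, LinearMap.add_apply, Sp_sq_apply, Sp_sq_apply,
      Sp_comm_apply c c (hne h2.symm)]
    module
  have e3 : (Sp c (b, g) + Sp c (b, g')) (Sp c (b, l) Φ + Sp c (b, m) Φ) =
      (Sp c (b, l) + Sp c (b, m)) (Sp c (b, g) Φ + Sp c (b, g') Φ) := by
    rw [map_add, map_add]
    simp only [LinearMap.add_apply]
    rw [Sp_comm_apply c c (hne h3), Sp_comm_apply c c (hne h4), Sp_comm_apply c c (hne h5),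
      Sp_comm_apply c c (hne h6)]
    abel
  have e4 : (1 / 2 : ℂ) • Φ + (2 : ℂ) • Sp c (b, g) (Sp c (b, g') Φ) =
      (1 / 2 : ℂ) • Φ + (2 : ℂ) • Sp c (b, l) (Sp c (b, m) Φ) := by
    rw [← e1, ← e2, h0, map_neg, e3, h0, map_neg, neg_neg]
  have e5 := add_left_cancel e4
  exact smul_right_injective _ (two_ne_zero) e5

omit [Fintype B] in
theorem Dd_kl {b : B} {Φ : SSt (B × Fin 4)} (hΦ : Kl b Φ) (g g' : Fin 4) :
    ∑ c : Fin 3, Sp c (b, g) (Sp c (b, g') Φ) = hcl b (cls g g') Φ := by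
  have hne : ∀ {k k' : Fin 4}, k ≠ k' → (b, k) ≠ (b, k') := fun h h' => h (Prod.ext_iff.1 h').2
  by_cases h : g = g'
  · subst h
    have h0 : cls g g = 0 := by revert g; decide
    rw [h0, hcl, if_pos rfl]
    simp only [Sp_sq_apply, sum_const, card_univ, Fintype.card_fin]
    rw [← Nat.cast_smul_eq_nsmul ℂ, smul_smul]; norm_num
  · have h0 : cls g g' ≠ 0 := by revert g g'; decide
    rw [hcl, if_neg h0, dotS_eq (hne h0.symm)]
    by_cases hg : g = 0
    · subst hg
      have : cls 0 g' = g' := by revert g'; decide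
      rw [this]
    by_cases hg' : g' = 0
    · subst hg'
      have : cls g 0 = g := by revert g; decide
      rw [this]
      exact sum_congr rfl fun c _ => Sp_comm_apply c c (hne hg) Φ
    refine sum_congr rfl fun c _ => pair_eq hΦ c g g' 0 (cls g g') h h0.symm hg ?_ hg' ?_ ?_
    · revert g g'; (clear * -; decide)
    · revert g g'; decide
    · intro f
      rw [Fin.sum_univ_four]
      have key : ∀ g g' : Fin 4, g ≠ g' → g ≠ 0 → g' ≠ 0 →
          (g = 1 ∧ g' = 2 ∧ cls g g' = 3) ∨ (g = 1 ∧ g' = 3 ∧ cls g g' = 2) ∨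
          (g = 2 ∧ g' = 1 ∧ cls g g' = 3) ∨ (g = 2 ∧ g' = 3 ∧ cls g g' = 1) ∨
          (g = 3 ∧ g' = 1 ∧ cls g g' = 2) ∨ (g = 3 ∧ g' = 2 ∧ cls g g' = 1) := by decide
      rcases key g g' h hg hg' with ⟨a1, a2, a3⟩ | ⟨a1, a2, a3⟩ | ⟨a1, a2, a3⟩ | ⟨a1, a2, a3⟩ |
        ⟨a1, a2, a3⟩ | ⟨a1, a2, a3⟩ <;> rw [a3, a1, a2] <;> abel

omit [Fintype B] in
theorem Kl.hcl {b b' : B} (h : b ≠ b') {Φ : SSt (B × Fin 4)} (hΦ : Kl b Φ) (k : Fin 4) :
    Kl b (hcl b' k Φ) := by
  unfold Vale.Agent.P370.H.hcl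
  split_ifs with hk
  · exact hΦ.smul _
  · rw [dotS_eq (fun h' => hk (Prod.ext_iff.1 h').2.symm)]
    exact Kl.sum _ fun a _ => (hΦ.sp h a k).sp h a 0

theorem W_term {b b' : B} (h : b ≠ b') {Φ : SSt (B × Fin 4)} (hΦ : ∀ d, Kl d Φ)
    (g k g' k' : Fin 4) :
    ∑ a : Fin 3, ∑ a' : Fin 3, sip (Sp a (b, g) (Sp a (b', k) Φ))
      (Sp a' (b, g') (Sp a' (b', k') Φ)) =
      1 / 3 * sip Φ (hcl b (cls g g') (hcl b' (cls k k') Φ)) := by
  have h1 : ∀ a a' : Fin 3, sip (Sp a (b, g) (Sp a (b', k) Φ))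
      (Sp a' (b, g') (Sp a' (b', k') Φ)) =
      if a = a' then 1 / 3 * ∑ c : Fin 3, sip Φ (Sp c (b, g) (Sp c (b, g')
        (Sp a (b', k) (Sp a (b', k') Φ)))) else 0 := by
    intro a a'
    rw [← sip_Sp, two_spin ((hΦ b).sp h a k) ((hΦ b).sp h a' k')]
    split_ifs with haa
    · subst haa
      refine congrArg (HMul.hMul (1 / 3 : ℂ)) ?_
      refine sum_congr rfl fun c _ => ?_
      rw [← sip_Sp, Sp_comm_apply a c (ne_blk h.symm k g), Sp_comm_apply a c (ne_blk h.symm k g')]
    · rfl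
  simp only [h1, sum_ite_eq, mem_univ, if_true]
  rw [← mul_sum, sum_comm]
  refine congrArg (HMul.hMul (1 / 3 : ℂ)) ?_
  simp only [← sip_sum_right, ← map_sum]
  rw [Dd_kl (hΦ b') k k', Dd_kl ((hΦ b).hcl h _) g g']

theorem W_self (c : B → B → Fin 4 → Fin 4 → ℝ) {b b' : B} (h : b ≠ b') {Φ : SSt (B × Fin 4)}
    (hΦ : ∀ d, Kl d Φ) : sip (Wb c b b' Φ) (Wb c b b' Φ) =
      1 / 3 * ∑ g, ∑ k, ∑ g', ∑ k', (c b b' g k * c b b' g' k' : ℝ) *
        sip Φ (hcl b (cls g g') (hcl b' (cls k k') Φ)) := by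
  conv_lhs => rw [Wb, sip_sum_left]
  rw [mul_sum]
  refine sum_congr rfl fun g _ => ?_
  rw [sip_sum_left, mul_sum]
  refine sum_congr rfl fun k _ => ?_
  rw [sip_smul_left, sip_sum_right, mul_sum, mul_sum]
  refine sum_congr rfl fun g' _ => ?_
  rw [sip_sum_right, mul_sum, mul_sum]
  refine sum_congr rfl fun k' _ => ?_
  rw [sip_smul_right, sip_sum_left]
  simp only [sip_sum_right]
  rw [W_term h hΦ, Complex.conj_ofReal]
  push_cast
  ring

omit [Fintype B] in
theorem W_symm (c : B → B → Fin 4 → Fin 4 → ℝ) (hc : ∀ b b' g h, c b b' g h = c b' b h g)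
    {b b' : B} (h : b ≠ b') (Φ : SSt (B × Fin 4)) : Wb c b' b Φ = Wb c b b' Φ := by
  unfold Wb
  rw [sum_comm]
  refine sum_congr rfl fun g _ => sum_congr rfl fun k _ => ?_
  rw [hc b' b k g]
  refine congrArg (HSMul.hSMul ((c b b' g k : ℝ) : ℂ)) ?_
  exact sum_congr rfl fun a _ => Sp_comm_apply a a (ne_blk h.symm k g) Φ

theorem W_zero (c : B → B → Fin 4 → Fin 4 → ℝ) {b b' : B} (h : b ≠ b') {Φ Ψ : SSt (B × Fin 4)}
    (hΦ : ∀ d, Kl d Φ) (hΨ : Kl b Ψ) : sip (Wb c b b' Φ) Ψ = 0 := by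
  simp only [Wb, sip_sum_left, sip_smul_left]
  refine sum_eq_zero fun g _ => sum_eq_zero fun k _ => ?_
  rw [sum_eq_zero fun a _ => ?_, mul_zero]
  rw [← sip_Sp]
  exact one_zero ((hΦ b).sp h a k) hΨ a g

omit [Fintype B] in
theorem Kl.wb (c : B → B → Fin 4 → Fin 4 → ℝ) {b d d' : B} (h : b ≠ d) (h' : b ≠ d')
    {Φ : SSt (B × Fin 4)} (hΦ : Kl b Φ) : Kl b (Wb c d d' Φ) :=
  Kl.sum _ fun _ _ => Kl.sum _ fun _ _ => (Kl.sum _ fun _ _ => (hΦ.sp h' _ _).sp h _ _).smul _

/-- norm of the excited state -/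
theorem snorm2_inter (c : B → B → Fin 4 → Fin 4 → ℝ)
    (hc : ∀ b b' g h, c b b' g h = c b' b h g) (Φ : SSt (B × Fin 4)) (hΦ : IsBS Φ) :
    snorm2 (inter c Φ) = 1 / 6 * ∑ b, ∑ b', if b = b' then 0 else
      ∑ g, ∑ h, ∑ g', ∑ h', c b b' g h * c b b' g' h' *
        (sip Φ (hcl b (cls g g') (hcl b' (cls h h') Φ))).re := by
  rw [isBS_iff] at hΦ
  have hcross : ∀ b b' : B, b ≠ b' →
      sip (Wb c b b' Φ) (∑ d, ∑ d', if d = d' then 0 else Wb c d d' Φ) =
        2 * sip (Wb c b b' Φ) (Wb c b b' Φ) := by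
    intro b b' h
    have hz : ∀ d d' : B, d ≠ d' → ¬ (d = b ∧ d' = b') → ¬ (d = b' ∧ d' = b) →
        sip (Wb c b b' Φ) (Wb c d d' Φ) = 0 := by
      intro d d' hd h1 h2
      by_cases hb : b ≠ d ∧ b ≠ d'
      · exact W_zero c h hΦ ((hΦ b).wb c hb.1 hb.2)
      · have hb' : b' ≠ d ∧ b' ≠ d' := by
          constructor
          · rintro rfl
            by_cases hbd' : b = d'
            · exact h2 ⟨rfl, hbd'.symm⟩
            · exact hb ⟨h, hbd'⟩
          · rintro rfl
            by_cases hbd : b = d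
            · exact h1 ⟨hbd.symm, rfl⟩
            · exact hb ⟨hbd, h⟩
        rw [← W_symm c hc h]
        exact W_zero c h.symm hΦ ((hΦ b').wb c hb'.1 hb'.2)
    rw [sip_sum_right, sum_eq_add b b' h]
    · rw [sip_sum_right, sip_sum_right, sum_eq_single b', sum_eq_single b, if_neg h,
        if_neg h.symm, W_symm c hc h, two_mul]
      · intro d' _ hd'
        split_ifs with h1
        · exact sip_zero_right _
        · exact hz _ _ h1 (fun h2 => h h2.1.symm) (fun h2 => hd' h2.2)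
      · intro h'; exact absurd (mem_univ _) h'
      · intro d' _ hd'
        split_ifs with h1
        · exact sip_zero_right _
        · exact hz _ _ h1 (fun h2 => hd' h2.2) (fun h2 => h h2.1)
      · intro h'; exact absurd (mem_univ _) h'
    · rintro d - ⟨h1, h2⟩
      rw [sip_sum_right]
      refine sum_eq_zero fun d' _ => ?_
      split_ifs with h3
      · exact sip_zero_right _
      · exact hz _ _ h3 (fun h4 => h1 h4.1) (fun h4 => h2 h4.1)
    · intro h'; exact absurd (mem_univ _) h'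
    · intro h'; exact absurd (mem_univ _) h'
  have h1 : sip (inter c Φ) (inter c Φ) = ((1 / 6 : ℝ) : ℂ) * ∑ b, ∑ b', if b = b' then 0 else
      ∑ g, ∑ h, ∑ g', ∑ h', (c b b' g h * c b b' g' h' : ℝ) *
        sip Φ (hcl b (cls g g') (hcl b' (cls h h') Φ)) := by
    rw [inter_eq, sip_smul_left, sip_smul_right, sip_sum_left, mul_sum, mul_sum, mul_sum]
    refine sum_congr rfl fun b _ => ?_
    rw [sip_sum_left, mul_sum, mul_sum, mul_sum]
    refine sum_congr rfl fun b' _ => ?_
    split_ifs with h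
    · rw [sip_zero_left, mul_zero, mul_zero, mul_zero]
    · rw [hcross b b' h, W_self c h hΦ, map_div₀, map_one, Complex.conj_ofNat]
      push_cast
      ring
  rw [sip_self] at h1
  have h2 := congrArg Complex.re h1
  rw [Complex.ofReal_re, Complex.re_ofReal_mul, Complex.re_sum] at h2
  rw [h2]
  refine congrArg (HMul.hMul (1 / 6 : ℝ)) ?_
  refine sum_congr rfl fun b _ => ?_
  rw [Complex.re_sum]
  refine sum_congr rfl fun b' _ => ?_
  split_ifs with h
  · exact Complex.zero_re
  · simp only [Complex.re_sum, Complex.re_ofReal_mul]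

end Vale.Agent.P370.H
end

section

/-!
KC: explicit (rational) evaluation of the constants of the structure theorem. Definitions only.
All functions of this file are nested finite sums of rational expressions in natural numbers and
the cosines `x`.
-/

namespace Vale.Agent.P370.KC

open Finset Vale.Agent.P370.Q

/-! ### Legendre polynomials -/

/-- `½ ∫_{-1}^1 t^m` -/
noncomputable def mom (m : ℕ) : ℝ := if Even m then 1 / ((m : ℝ) + 1) else 0

/-- coefficient of `t ^ m` in the Legendre polynomial `lp l` -/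
noncomputable def lpc (l m : ℕ) : ℝ :=
  if m ≤ l ∧ Even (l - m) then
    (-1) ^ ((l - m) / 2) * ((l + m).factorial : ℝ) /
      (2 ^ l * (((l - m) / 2).factorial : ℝ) * (((l + m) / 2).factorial : ℝ) * (m.factorial : ℝ))
  else 0

/-- `½ ∫_{-1}^1 t^m lp L` -/
noncomputable def mu (m L : ℕ) : ℝ := ∑ i ∈ range (L + 1), lpc L i * mom (m + i)

/-- `½ ∫_{-1}^1 lp a lp b lp c` -/
noncomputable def tri (a b c : ℕ) : ℝ :=
  ∑ i ∈ range (a + 1), ∑ j ∈ range (b + 1), lpc a i * lpc b j * mu (i + j) c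

/-- `½ ∫_{-1}^1 (1 - t²)^(n-1) lp L` -/
noncomputable def zc (n L : ℕ) : ℝ :=
  ∑ i ∈ range n, (-1) ^ i * ((n - 1).choose i : ℝ) * mu (2 * i) L

/-- value of the polynomial `lp l` at `x` by its coefficients -/
noncomputable def lpv (l : ℕ) (x : ℝ) : ℝ := ∑ m ∈ range (l + 1), lpc l m * x ^ m

/-! ### radial integrals -/

/-- `∫_0^∞ r^p e^{-α r} ∫_r^∞ s^q e^{-β s} ds dr` -/
noncomputable def Jf (p q : ℕ) (α β : ℝ) : ℝ :=
  ∑ i ∈ range (q + 1), (q.factorial : ℝ) / (i.factorial : ℝ) * ((p + i).factorial : ℝ) /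
    (β ^ (q + 1 - i) * (α + β) ^ (p + i + 1))

/-- `∫_0^∞ ∫_0^∞ r^a s^b e^{-α r - β s} min(r,s)^L / max(r,s)^(L+1)` -/
noncomputable def Phi (a b L : ℕ) (α β : ℝ) : ℝ :=
  Jf (a + L) (b - L - 1) α β + Jf (b + L) (a - L - 1) β α

/-- decay rate of shell `k + 1` -/
noncomputable def kp (k : ℕ) : ℝ := 1 / ((k : ℝ) + 1)

/-- Laguerre coefficients of the radial functions, as products -/
noncomputable def lag (k l j : ℕ) : ℝ :=
  ∏ i ∈ range j, (2 * (kp k * ((i : ℝ) + l + 1) - 1) / (((i : ℝ) + 1) * ((i : ℝ) + 2 * l + 2)))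

/-- radial normalisation -/
noncomputable def nrm (k l : ℕ) : ℝ :=
  ∑ i ∈ range (k + 1 - l), ∑ j ∈ range (k + 1 - l), lag k l i * lag k l j *
    (((2 * l + 2 + i + j).factorial : ℝ) / (2 * kp k) ^ (2 * l + 3 + i + j))

/-- direct Slater integral of the subshells `(k, l)` and `(k', l')` -/
noncomputable def sld (k l k' l' : ℕ) : ℝ :=
  (∑ i ∈ range (k + 1 - l), ∑ j ∈ range (k + 1 - l), ∑ i' ∈ range (k' + 1 - l'),
    ∑ j' ∈ range (k' + 1 - l'), lag k l i * lag k l j * lag k' l' i' * lag k' l' j' *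
      Phi (2 * l + 2 + i + j) (2 * l' + 2 + i' + j') 0 (2 * kp k) (2 * kp k')) /
    (nrm k l * nrm k' l')

/-- exchange Slater integral of order `L` -/
noncomputable def slx (k l k' l' L : ℕ) : ℝ :=
  (∑ i ∈ range (k + 1 - l), ∑ j ∈ range (k + 1 - l), ∑ i' ∈ range (k' + 1 - l'),
    ∑ j' ∈ range (k' + 1 - l'), lag k l i * lag k l j * lag k' l' i' * lag k' l' j' *
      Phi (l + l' + 2 + i + i') (l + l' + 2 + j + j') L (kp k + kp k') (kp k + kp k')) /
    (nrm k l * nrm k' l')

/-- direct minus exchange energy of two subshells -/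
noncomputable def pe2 (k l k' l' : ℕ) : ℝ :=
  2 * sld k l k' l' - ∑ L ∈ range (l + l' + 1), tri l l' L * slx k l k' l' L

/-- Coulomb energy of the closed shells `1, ..., n - 1` -/
noncomputable def closed3 (n : ℕ) : ℝ :=
  ∑ k ∈ range (n - 1), ∑ l ∈ range (k + 1), ∑ k' ∈ range (n - 1), ∑ l' ∈ range (k' + 1),
    (2 * (l : ℝ) + 1) * (2 * (l' : ℝ) + 1) * pe2 k l k' l'

/-- mean field of the closed shells on the top subspace of shell `n` -/
noncomputable def mf (n : ℕ) : ℝ :=
  ∑ k ∈ range (n - 1), ∑ l ∈ range (k + 1), (2 * (l : ℝ) + 1) * pe2 (n - 1) (n - 1) k l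

/-! ### truncated series for the integrals over the small ball -/

/-- Taylor polynomial of `exp (-x)` -/
noncomputable def eN (N : ℕ) (x : ℝ) : ℝ := ∑ i ∈ range N, (-x) ^ i / (i.factorial : ℝ)

/-- `∫_0^ρ r^a eN N (α r) (1/r - 1/ρ) dr`, `1 ≤ a` -/
noncomputable def ser (N a : ℕ) (α ρ : ℝ) : ℝ :=
  ∑ i ∈ range N, (-α) ^ i / (i.factorial : ℝ) * ρ ^ (a + i) *
    (1 / ((a : ℝ) + i) - 1 / ((a : ℝ) + i + 1))

/-- exact value of `gm` on the subshell `(k, l)`, divided by `2 l + 1` -/
noncomputable def gI (k l : ℕ) (ρ : ℝ) : ℝ :=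
  (∫ r in (0 : ℝ)..ρ, r ^ (2 * l + 2) * Hyd.rad k l r ^ 2 * (1 / r - 1 / ρ)) / Hyd.radN k l

/-- its truncated series -/
noncomputable def gIs (N k l : ℕ) (ρ : ℝ) : ℝ :=
  (∑ i ∈ range (k + 1 - l), ∑ j ∈ range (k + 1 - l), lag k l i * lag k l j *
    ser N (2 * l + 2 + i + j) (2 * kp k) ρ) / nrm k l

/-- truncated series of the trace of `gm` over the closed shells -/
noncomputable def gms (N n : ℕ) (ρ : ℝ) : ℝ :=
  ∑ k ∈ range (n - 1), ∑ l ∈ range (k + 1), (2 * (l : ℝ) + 1) * gIs N k l ρ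

/-- truncated series of `xr` -/
noncomputable def xrs (N n : ℕ) (ρ : ℝ) : ℝ :=
  ser N (2 * n) (2 / n) ρ / (((2 * n).factorial : ℝ) * ((n : ℝ) / 2) ^ (2 * n + 1))

/-! ### the sites -/

/-- Coulomb energy of two axially symmetric rings whose axes have the scalar product `x` -/
noncomputable def W0 (n : ℕ) (x : ℝ) : ℝ :=
  (4 / ((n : ℝ) ^ (2 * n + 2) * ((n - 1).factorial : ℝ) ^ 2)) ^ 2 *
    ∑ L ∈ range (2 * n - 1), zc n L ^ 2 * Phi (2 * n) (2 * n) L (2 / n) (2 / n) * lpv L x

/-- hopping amplitude `hopA n q 0 δ (-δ)` as a function of `x = cos δ` -/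
noncomputable def hopx (n q : ℕ) (x : ℝ) : ℝ :=
  1 / 2 * (((2 * n - 1).factorial : ℝ) * ((n - 1 + q).factorial : ℝ) *
    ((2 * q).factorial : ℝ)) /
    (((2 * n + 2 * q - 1).factorial : ℝ) * ((n - 1 - q).factorial : ℝ) * (q.factorial : ℝ) ^ 2) *
  ((1 - x ^ 2) ^ (n - 1 - q) * ((x - 1) ^ (2 * q) + (x + 1) ^ (2 * q)) +
    (x ^ 2) ^ (n - 1 - q) * (2 * (1 - x ^ 2) ^ q))

/-- exchange coupling at distance `d` as a function of `x = cos (π d / (2 K))` -/
noncomputable def kapx (k q : ℕ) (x : ℝ) : ℝ :=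
  2 * (pη k * hopx (pn k) q x) ^ 2 / (W0 (pn k) 1 - W0 (pn k) (2 * x ^ 2 - 1))

/-- number of terms of the truncated series -/
def pNs (k : ℕ) : ℕ := 32 * pn k

/-- reference energy as a function of `x d = cos (π d / (2 K))` -/
noncomputable def erefx (k : ℕ) (x : ℕ → ℝ) : ℝ :=
  (pT k : ℝ) ^ 2 * (-((pn k : ℝ) - 1) - pK k / (2 * (pn k : ℝ) ^ 2)) +
    pT k * (2 * (pW k * gms (pNs k) (pn k) (pρ k)) + closed3 (pn k) +
      pK k * (pW k * xrs (pNs k) (pn k) (pρ k) + mf (pn k) - pL k * gam (pn k)) +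
      ∑ d ∈ range (pK k), if d = 0 then 0 else
        ((pK k : ℝ) - d) * W0 (pn k) (2 * x d ^ 2 - 1))

end Vale.Agent.P370.KC
end

section

/-!
KC1: algebra of the Legendre polynomials.
-/

namespace Vale.Agent.P370.KC

open Finset MeasureTheory Vale.Agent.P370.Q

theorem lpc_add (m k : ℕ) : lpc (m + 2 * k) m = (-1) ^ k * ((2 * m + 2 * k).factorial : ℝ) /
      (2 ^ (m + 2 * k) * ((k.factorial : ℝ) * ((m + k).factorial : ℝ) * (m.factorial : ℝ))) := by
  unfold lpc
  have h1 : m + 2 * k - m = 2 * k := by omega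
  have h2 : 2 * k / 2 = k := by omega
  have h3 : (m + 2 * k + m) / 2 = m + k := by omega
  have h4 : m + 2 * k + m = 2 * m + 2 * k := by ring
  rw [if_pos ⟨by omega, by rw [h1]; exact even_two_mul k⟩, h1, h2, h3, h4]
  congr 1
  ring

theorem lpc_odd (l m : ℕ) (_h : m ≤ l) (ho : ¬ Even (l - m)) : lpc l m = 0 := by
  unfold lpc
  rw [if_neg (fun h' => ho h'.2)]

theorem lpc_gt (l m : ℕ) (h : l < m) : lpc l m = 0 := by
  unfold lpc
  rw [if_neg (fun h' => absurd h'.1 (by omega))]

theorem lpc_rec_top (n : ℕ) :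
    ((n : ℝ) + 2) * lpc (n + 2) (n + 2) = (2 * (n : ℝ) + 3) * lpc (n + 1) (n + 1) := by
  have h1 := lpc_add (n + 2) 0
  have h2 := lpc_add (n + 1) 0
  simp only [Nat.mul_zero, Nat.add_zero] at h1 h2
  rw [h1, h2]
  have e1 : 2 * (n + 2) = 2 * (n + 1) + 1 + 1 := by ring
  rw [e1, Nat.factorial_succ (2 * (n + 1) + 1), Nat.factorial_succ (2 * (n + 1)),
    Nat.factorial_succ (n + 1)]
  have f1 : ((2 * (n + 1)).factorial : ℝ) ≠ 0 := by exact_mod_cast Nat.factorial_ne_zero _
  have f2 : ((n + 1).factorial : ℝ) ≠ 0 := by exact_mod_cast Nat.factorial_ne_zero _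
  push_cast
  field_simp
  ring

theorem lpc_rec_zero (j : ℕ) :
    ((2 * j : ℕ) + 2 : ℝ) * lpc (2 * j + 2) 0 = - (((2 * j : ℕ) : ℝ) + 1) * lpc (2 * j) 0 := by
  have h1 := lpc_add 0 (j + 1)
  have h2 := lpc_add 0 j
  have e1 : 0 + 2 * (j + 1) = 2 * j + 2 := by ring
  have e2 : 0 + 2 * j = 2 * j := by ring
  rw [e1] at h1
  rw [e2] at h2
  rw [h1, h2]
  have e3 : (2 * j + 2).factorial = (2 * j + 2) * ((2 * j + 1) * (2 * j).factorial) := rfl
  have e5 : 0 + (j + 1) = j + 1 := by ring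
  have e6 : 0 + j = j := by ring
  rw [e3, e5, e6, Nat.factorial_succ j]
  have f1 : ((2 * j).factorial : ℝ) ≠ 0 := by exact_mod_cast Nat.factorial_ne_zero _
  have f2 : (j.factorial : ℝ) ≠ 0 := by exact_mod_cast Nat.factorial_ne_zero _
  have f3 : (Nat.factorial 0 : ℝ) = 1 := by simp only [Nat.factorial_zero, Nat.cast_one]
  rw [f3]
  push_cast
  field_simp
  ring

theorem lpc_rec_pos (p j : ℕ) :
    (((p + 1 + 2 * j : ℕ) : ℝ) + 2) * lpc (p + 1 + 2 * j + 2) (p + 1) =
      (2 * ((p + 1 + 2 * j : ℕ) : ℝ) + 3) * lpc (p + 1 + 2 * j + 1) p -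
      (((p + 1 + 2 * j : ℕ) : ℝ) + 1) * lpc (p + 1 + 2 * j) (p + 1) := by
  have h1 := lpc_add (p + 1) (j + 1)
  have h2 := lpc_add p (j + 1)
  have h3 := lpc_add (p + 1) j
  have e1 : p + 1 + 2 * (j + 1) = p + 1 + 2 * j + 2 := by ring
  have e2 : p + 2 * (j + 1) = p + 1 + 2 * j + 1 := by ring
  rw [e1] at h1
  rw [e2] at h2
  rw [h1, h2, h3]
  have e3 : 2 * (p + 1) + 2 * (j + 1) = 2 * p + 2 * j + 2 + 1 + 1 := by ring
  have e4 : 2 * p + 2 * (j + 1) = 2 * p + 2 * j + 2 := by ring
  have e5 : 2 * (p + 1) + 2 * j = 2 * p + 2 * j + 2 := by ring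
  have e6 : p + 1 + (j + 1) = p + j + 1 + 1 := by ring
  have e7 : p + (j + 1) = p + j + 1 := by ring
  have e8 : p + 1 + j = p + j + 1 := by ring
  rw [e3, e4, e5, e6, e7, e8, Nat.factorial_succ (2 * p + 2 * j + 2 + 1),
    Nat.factorial_succ (2 * p + 2 * j + 2), Nat.factorial_succ (p + j + 1),
    Nat.factorial_succ j, Nat.factorial_succ p]
  have f1 : ((2 * p + 2 * j + 2).factorial : ℝ) ≠ 0 := by exact_mod_cast Nat.factorial_ne_zero _
  have f2 : (j.factorial : ℝ) ≠ 0 := by exact_mod_cast Nat.factorial_ne_zero _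
  have f3 : (p.factorial : ℝ) ≠ 0 := by exact_mod_cast Nat.factorial_ne_zero _
  have f4 : ((p + j + 1).factorial : ℝ) ≠ 0 := by exact_mod_cast Nat.factorial_ne_zero _
  push_cast
  field_simp
  ring

theorem LP_coeff_rec_zero (n : ℕ) :
    ((n : ℝ) + 2) * (LP (n + 2)).coeff 0 = - ((n : ℝ) + 1) * (LP n).coeff 0 := by
  simp only [LP]
  rw [Polynomial.coeff_C_mul, Polynomial.coeff_sub, Polynomial.coeff_C_mul,
    Polynomial.coeff_C_mul]
  have : ((n : ℝ) + 2) ≠ 0 := by positivity
  simp only [Polynomial.mul_coeff_zero, Polynomial.coeff_X_zero]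
  field_simp
  ring

theorem LP_coeff_rec_succ (n m : ℕ) :
    ((n : ℝ) + 2) * (LP (n + 2)).coeff (m + 1) =
      (2 * (n : ℝ) + 3) * (LP (n + 1)).coeff m - ((n : ℝ) + 1) * (LP n).coeff (m + 1) := by
  simp only [LP]
  rw [Polynomial.coeff_C_mul, Polynomial.coeff_sub, Polynomial.coeff_C_mul,
    Polynomial.coeff_C_mul, Polynomial.coeff_X_mul]
  have : ((n : ℝ) + 2) ≠ 0 := by positivity
  (clear * - this; field_simp)

theorem LP_coeff (l : ℕ) : ∀ m, (LP l).coeff m = lpc l m := by
  induction l using Nat.twoStepInduction with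
  | zero =>
    intro m
    rcases Nat.eq_zero_or_pos m with rfl | hm
    · simp only [LP, Polynomial.coeff_one_zero, lpc, Std.le_refl, tsub_self, Even.zero, and_self, ↓reduceIte, Nat.zero_div, pow_zero, add_zero, Nat.factorial_zero, Nat.cast_one, mul_one, ne_eq, one_ne_zero, not_false_eq_true, div_self]
    · rw [lpc_gt 0 m hm]
      simp [LP, Polynomial.coeff_one, hm.ne']
  | one =>
    intro m
    rcases m with _ | _ | m
    · simp only [LP, Polynomial.coeff_X_zero, lpc, zero_le, tsub_zero, Nat.not_even_one, and_false, ↓reduceIte]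
    · have := lpc_add 1 0
      simp only [Nat.mul_zero, Nat.add_zero] at this
      rw [zero_add, this]
      simp only [LP, Polynomial.coeff_X, ↓reduceIte, pow_zero, Nat.factorial, Nat.succ_eq_add_one, Nat.reduceAdd, zero_add, mul_one, Nat.cast_ofNat, one_mul, pow_one, Nat.cast_one, ne_eq, OfNat.ofNat_ne_zero, not_false_eq_true, div_self]
    · rw [lpc_gt 1 (m + 1 + 1) (by omega)]
      simp only [LP, Polynomial.coeff_X, Nat.right_eq_add, Nat.add_eq_zero_iff, one_ne_zero, and_false, ↓reduceIte]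
  | more n ih0 ih1 =>
    intro m
    have hn : ((n : ℝ) + 2) ≠ 0 := by positivity
    apply mul_left_cancel₀ hn
    rcases m with _ | p
    · rw [LP_coeff_rec_zero, ih0]
      rcases Nat.even_or_odd n with ⟨j, hj⟩ | ho
      · have hj' : n = 2 * j := by omega
        subst hj'
        exact (lpc_rec_zero j).symm
      · rw [lpc_odd n 0 (by omega) (by simpa only [tsub_zero, Nat.not_even_iff_odd] using ho),
          lpc_odd (n + 2) 0 (by omega) (by
            rw [Nat.not_even_iff_odd, Nat.sub_zero]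
            exact ho.add_even even_two)]
        simp only [neg_add_rev, mul_zero]
    · rw [LP_coeff_rec_succ, ih0, ih1]
      rcases Nat.lt_or_ge (n + 1) p with h | h
      · rw [lpc_gt _ _ h, lpc_gt n (p + 1) (by omega), lpc_gt (n + 2) (p + 1) (by omega)]
        simp only [mul_zero, sub_self]
      rcases h.eq_or_lt with h | h
      · rw [h, lpc_gt n (n + 1 + 1) (by (clear * -; omega))]
        have := lpc_rec_top n
        rw [this]
        ring
      rcases Nat.lt_or_ge n (p + 1) with h' | h'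
      · have hp : p = n := by omega
        subst hp
        rw [lpc_gt p (p + 1) h', lpc_odd (p + 1) p (by omega) (by simp only [add_tsub_cancel_left, Nat.not_even_one, not_false_eq_true]),
          lpc_odd (p + 2) (p + 1) (by omega) (by
            have : p + 2 - (p + 1) = 1 := by omega
            rw [this]
            exact Nat.not_even_one)]
        simp only [mul_zero, sub_self]
      · obtain ⟨d, hd⟩ := Nat.exists_eq_add_of_le h'
        rcases Nat.even_or_odd' d with ⟨j, hj | hj⟩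
        · subst hd
          subst hj
          exact (lpc_rec_pos p j).symm
        · rw [lpc_odd n (p + 1) h' (by
              have : n - (p + 1) = 2 * j + 1 := by omega
              rw [this, Nat.not_even_iff_odd]
              exact odd_two_mul_add_one j),
            lpc_odd (n + 1) p (by omega) (by
              have : n + 1 - p = 2 * (j + 1) + 1 := by omega
              rw [this, Nat.not_even_iff_odd]
              exact odd_two_mul_add_one _),
            lpc_odd (n + 2) (p + 1) (by omega) (by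
              have : n + 2 - (p + 1) = 2 * (j + 1) + 1 := by omega
              rw [this, Nat.not_even_iff_odd]
              exact odd_two_mul_add_one _)]
          simp only [mul_zero, sub_self]

theorem lpv_eq (l : ℕ) (t : ℝ) : lpv l t = S3.lp l t := by
  rw [← LP_eval, Polynomial.eval_eq_sum_range' (n := l + 1)
    (Nat.lt_succ_of_le (LP_natDegree_le l))]
  unfold lpv
  refine Finset.sum_congr rfl fun m _ => ?_
  rw [LP_coeff]

theorem mom_eq (m : ℕ) : (1 / 2) * ∫ t in (-1 : ℝ)..1, t ^ m = mom m := by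
  rw [integral_pow]
  unfold mom
  have hm : ((m : ℝ) + 1) ≠ 0 := by (clear * -; positivity)
  rcases Nat.even_or_odd m with h | h
  · rw [if_pos h, one_pow, h.add_one.neg_one_pow]
    field_simp
    norm_num
  · rw [if_neg (Nat.not_even_iff_odd.2 h), one_pow, h.add_one.neg_one_pow]
    simp only [one_div, sub_self, zero_div, mul_zero]

theorem mu_eq (m L : ℕ) : (1 / 2) * ∫ t in (-1 : ℝ)..1, t ^ m * S3.lp L t = mu m L := by
  have h : ∀ t : ℝ, t ^ m * S3.lp L t = ∑ i ∈ range (L + 1), lpc L i * t ^ (m + i) := by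
    intro t
    rw [← lpv_eq]
    unfold lpv
    rw [Finset.mul_sum]
    refine Finset.sum_congr rfl fun i _ => ?_
    ring
  simp only [h]
  rw [intervalIntegral.integral_finsetSum (fun i _ =>
    ((continuous_pow (m + i)).const_mul _).intervalIntegrable _ _)]
  unfold mu
  rw [Finset.mul_sum]
  refine Finset.sum_congr rfl fun i _ => ?_
  rw [intervalIntegral.integral_const_mul, ← mom_eq]
  ring

theorem tri_eq (a b c : ℕ) :
    (1 / 2) * ∫ t in (-1 : ℝ)..1, S3.lp a t * S3.lp b t * S3.lp c t = tri a b c := by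
  have h : ∀ t : ℝ, S3.lp a t * S3.lp b t * S3.lp c t =
      ∑ i ∈ range (a + 1), ∑ j ∈ range (b + 1), lpc a i * lpc b j * (t ^ (i + j) * S3.lp c t) := by
    intro t
    rw [← lpv_eq a, ← lpv_eq b]
    unfold lpv
    rw [Finset.sum_mul_sum, Finset.sum_mul]
    refine Finset.sum_congr rfl fun i _ => ?_
    rw [Finset.sum_mul]
    refine Finset.sum_congr rfl fun j _ => ?_
    ring
  have hc : ∀ i j : ℕ, Continuous fun t : ℝ => lpc a i * lpc b j * (t ^ (i + j) * S3.lp c t) :=
    fun i j => ((continuous_pow _).mul (S3.lp_continuous c)).const_mul _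
  simp only [h]
  rw [intervalIntegral.integral_finsetSum (fun i _ =>
    (continuous_finsetSum _ fun j _ => hc i j).intervalIntegrable _ _)]
  unfold tri
  rw [Finset.mul_sum]
  refine Finset.sum_congr rfl fun i _ => ?_
  rw [intervalIntegral.integral_finsetSum (fun j _ => (hc i j).intervalIntegrable _ _),
    Finset.mul_sum]
  refine Finset.sum_congr rfl fun j _ => ?_
  rw [intervalIntegral.integral_const_mul, ← mu_eq]
  ring

theorem zc_eq (n L : ℕ) (hn : 1 ≤ n) :
    (1 / 2) * ∫ t in (-1 : ℝ)..1, (1 - t ^ 2) ^ (n - 1) * S3.lp L t = zc n L := by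
  have h : ∀ t : ℝ, (1 - t ^ 2) ^ (n - 1) * S3.lp L t =
      ∑ i ∈ range n, (-1) ^ i * ((n - 1).choose i : ℝ) * (t ^ (2 * i) * S3.lp L t) := by
    intro t
    have e : (1 - t ^ 2) = -t ^ 2 + 1 := by ring
    rw [e, add_pow, Nat.sub_add_cancel hn, Finset.sum_mul]
    refine Finset.sum_congr rfl fun i _ => ?_
    rw [one_pow, neg_pow, pow_mul]
    ring
  have hc : ∀ i : ℕ, Continuous fun t : ℝ =>
      (-1 : ℝ) ^ i * ((n - 1).choose i : ℝ) * (t ^ (2 * i) * S3.lp L t) :=
    fun i => ((continuous_pow _).mul (S3.lp_continuous L)).const_mul _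
  simp only [h]
  rw [intervalIntegral.integral_finsetSum (fun i _ => (hc i).intervalIntegrable _ _)]
  unfold zc
  rw [Finset.mul_sum]
  refine Finset.sum_congr rfl fun i _ => ?_
  rw [intervalIntegral.integral_const_mul, ← mu_eq]
  ring

theorem lp_mul (a b : ℕ) (t : ℝ) :
    S3.lp a t * S3.lp b t = ∑ L ∈ range (a + b + 1), (2 * (L : ℝ) + 1) * tri a b L * S3.lp L t := by
  have hd : (LP a * LP b).degree < ((a + b + 1 : ℕ) : WithBot ℕ) := by
    refine lt_of_le_of_lt Polynomial.degree_le_natDegree ?_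
    have : (LP a * LP b).natDegree ≤ a + b :=
      Polynomial.natDegree_mul_le.trans (add_le_add (LP_natDegree_le a) (LP_natDegree_le b))
    exact_mod_cast Nat.lt_succ_of_le this
  have h := LP_expand (a + b + 1) (LP a * LP b) hd t
  rw [Polynomial.eval_mul, LP_eval, LP_eval] at h
  rw [h]
  refine Finset.sum_congr rfl fun L _ => ?_
  rw [← tri_eq]
  unfold lc
  simp only [Polynomial.eval_mul, LP_eval]

theorem one_sub_sq_pow (n : ℕ) (hn : 1 ≤ n) (t : ℝ) :
    (1 - t ^ 2) ^ (n - 1) = ∑ L ∈ range (2 * n - 1), (2 * (L : ℝ) + 1) * zc n L * S3.lp L t := by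
  have hd : ((1 - Polynomial.X ^ 2 : Polynomial ℝ) ^ (n - 1)).degree <
      ((2 * n - 1 : ℕ) : WithBot ℕ) := by
    refine lt_of_le_of_lt Polynomial.degree_le_natDegree ?_
    have h2 : (1 - Polynomial.X ^ 2 : Polynomial ℝ).natDegree ≤ 2 := by
      refine (Polynomial.natDegree_sub_le _ _).trans (max_le ?_ ?_)
      · simp only [Polynomial.natDegree_one, zero_le]
      · simp
    have : ((1 - Polynomial.X ^ 2 : Polynomial ℝ) ^ (n - 1)).natDegree ≤ (n - 1) * 2 :=
      Polynomial.natDegree_pow_le.trans (Nat.mul_le_mul_left _ h2)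
    have h3 : ((1 - Polynomial.X ^ 2 : Polynomial ℝ) ^ (n - 1)).natDegree < 2 * n - 1 := by omega
    exact_mod_cast h3
  have h := LP_expand (2 * n - 1) _ hd t
  simp only [Polynomial.eval_pow, Polynomial.eval_sub, Polynomial.eval_one,
    Polynomial.eval_X] at h
  rw [h]
  refine Finset.sum_congr rfl fun L _ => ?_
  rw [← zc_eq n L hn]
  rfl

/-- crude bound -/
theorem lp_abs_le (l : ℕ) (t : ℝ) (ht : t ∈ Set.Icc (-1 : ℝ) 1) : |S3.lp l t| ≤ 3 ^ l := by
  have ha : |t| ≤ 1 := abs_le.2 ht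
  induction l using Nat.twoStepInduction with
  | zero => simp [S3.lp]
  | one =>
    simp only [S3.lp, pow_one]
    linarith only [ha]
  | more n ih0 ih1 =>
    have hn : (0 : ℝ) < (n : ℝ) + 2 := by positivity
    have h := S3.lp_succ n t
    have h1 : |(2 * (n : ℝ) + 3) * t * S3.lp (n + 1) t| ≤ (2 * (n : ℝ) + 3) * 3 ^ (n + 1) := by
      rw [abs_mul, abs_mul, abs_of_pos (by positivity : (0 : ℝ) < 2 * (n : ℝ) + 3)]
      have : (2 * (n : ℝ) + 3) * |t| ≤ (2 * (n : ℝ) + 3) * 1 :=
        mul_le_mul_of_nonneg_left ha (by positivity)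
      calc (2 * (n : ℝ) + 3) * |t| * |S3.lp (n + 1) t|
          ≤ (2 * (n : ℝ) + 3) * 1 * 3 ^ (n + 1) :=
            mul_le_mul this ih1 (abs_nonneg _) (by positivity)
        _ = _ := by ring
    have h2 : |((n : ℝ) + 1) * S3.lp n t| ≤ ((n : ℝ) + 1) * 3 ^ n := by
      rw [abs_mul, abs_of_pos (by (clear * -; positivity) : (0 : ℝ) < (n : ℝ) + 1)]
      exact mul_le_mul_of_nonneg_left ih0 (by positivity)
    have h3 : ((n : ℝ) + 2) * |S3.lp (n + 2) t| ≤ ((n : ℝ) + 2) * 3 ^ (n + 2) := by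
      have : ((n : ℝ) + 2) * |S3.lp (n + 2) t| = |((n : ℝ) + 2) * S3.lp (n + 2) t| := by
        rw [abs_mul, abs_of_pos hn]
      rw [this, h]
      refine (abs_sub _ _).trans ((add_le_add h1 h2).trans ?_)
      have h3 : (0 : ℝ) < 3 ^ n := by positivity
      have e1 : (3 : ℝ) ^ (n + 1) = 3 * 3 ^ n := by ring
      have e2 : (3 : ℝ) ^ (n + 2) = 9 * 3 ^ n := by ring
      rw [e1, e2]
      have hn0 : (0 : ℝ) ≤ n := Nat.cast_nonneg n
      nlinarith only [h3]
    exact le_of_mul_le_mul_left h3 hn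

theorem lq_abs_le (l : ℕ) (t : ℝ) (ht : t ∈ Set.Icc (-1 : ℝ) 1) : |S3.lq l t| ≤ 16 ^ l := by
  have ha : |t| ≤ 1 := abs_le.2 ht
  induction l using Nat.twoStepInduction with
  | zero => simp only [S3.lq, abs_zero, pow_zero, zero_le_one]
  | one =>
    simp only [S3.lq, pow_one]
    norm_num
  | more n ih0 ih1 =>
    have hn : (0 : ℝ) < (n : ℝ) + 2 := by positivity
    have h := S3.lq_succ n t
    have h0 : |S3.lp (n + 1) t| ≤ 16 ^ (n + 1) :=
      (lp_abs_le (n + 1) t ht).trans (pow_le_pow_left₀ (by norm_num) (by norm_num) _)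
    have h00 : |S3.lp (n + 1) t + t * S3.lq (n + 1) t| ≤ 2 * 16 ^ (n + 1) := by
      refine (abs_add_le _ _).trans ?_
      rw [abs_mul]
      have : |t| * |S3.lq (n + 1) t| ≤ 1 * 16 ^ (n + 1) :=
        mul_le_mul ha ih1 (abs_nonneg _) (by norm_num)
      linarith only [h0, this]
    have h1 : |(2 * (n : ℝ) + 3) * (S3.lp (n + 1) t + t * S3.lq (n + 1) t)| ≤
        (2 * (n : ℝ) + 3) * (2 * 16 ^ (n + 1)) := by
      rw [abs_mul, abs_of_pos (by (clear * -; positivity) : (0 : ℝ) < 2 * (n : ℝ) + 3)]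
      exact mul_le_mul_of_nonneg_left h00 (by positivity)
    have h2 : |((n : ℝ) + 1) * S3.lq n t| ≤ ((n : ℝ) + 1) * 16 ^ n := by
      rw [abs_mul, abs_of_pos (by (clear * -; positivity) : (0 : ℝ) < (n : ℝ) + 1)]
      exact mul_le_mul_of_nonneg_left ih0 (by positivity)
    have h3 : ((n : ℝ) + 2) * |S3.lq (n + 2) t| ≤ ((n : ℝ) + 2) * 16 ^ (n + 2) := by
      have : ((n : ℝ) + 2) * |S3.lq (n + 2) t| = |((n : ℝ) + 2) * S3.lq (n + 2) t| := by
        rw [abs_mul, abs_of_pos hn]
      rw [this, h]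
      refine (abs_sub _ _).trans ((add_le_add h1 h2).trans ?_)
      have h3 : (0 : ℝ) < 16 ^ n := by positivity
      have e1 : (16 : ℝ) ^ (n + 1) = 16 * 16 ^ n := by ring
      have e2 : (16 : ℝ) ^ (n + 2) = 256 * 16 ^ n := by ring
      rw [e1, e2]
      have hn0 : (0 : ℝ) ≤ n := Nat.cast_nonneg n
      nlinarith only [h3]
    exact le_of_mul_le_mul_left h3 hn

/-- crude Lipschitz bound -/
theorem lp_lip (l : ℕ) (s t : ℝ) (hs : s ∈ Set.Icc (-1 : ℝ) 1) (ht : t ∈ Set.Icc (-1 : ℝ) 1) :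
    |S3.lp l s - S3.lp l t| ≤ 16 ^ l * |s - t| := by
  have h := (convex_Icc (-1 : ℝ) 1).norm_image_sub_le_of_norm_hasDerivWithin_le
    (f := S3.lp l) (f' := S3.lq l) (C := 16 ^ l)
    (fun x _ => (S3.lp_hasDerivAt l x).hasDerivWithinAt)
    (fun x hx => by rw [Real.norm_eq_abs]; exact lq_abs_le l x hx) ht hs
  simpa only [ge_iff_le, Real.norm_eq_abs] using h

end Vale.Agent.P370.KC
end

section

/-!
Radial integrals: Gamma integral, scalar product of two functions of the top subspace,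
multipole matrix elements.
-/

namespace Vale.Agent.P370.Q

open MeasureTheory Finset ComplexConjugate

theorem rad_integrable (m : ℕ) {c : ℝ} (hc : 0 < c) :
    IntegrableOn (fun r : ℝ => r ^ m * Real.exp (-(c * r))) (Set.Ioi 0) := by
  have hm : (-1 : ℝ) < m := by
    have : (0 : ℝ) ≤ m := Nat.cast_nonneg m
    linarith only []
  have h := integrableOn_rpow_mul_exp_neg_mul_rpow (p := 1) (s := m) (b := c) hm one_pos hc
  refine h.congr_fun (fun r _ => ?_) measurableSet_Ioi
  simp only [Real.rpow_natCast, Real.rpow_one, neg_mul]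

theorem rad_integral (m : ℕ) {c : ℝ} (hc : 0 < c) :
    ∫ r in Set.Ioi (0 : ℝ), r ^ m * Real.exp (-(c * r)) =
      (m.factorial : ℝ) * (1 / c) ^ (m + 1) := by
  have h := Real.integral_rpow_mul_exp_neg_mul_Ioi (a := (m : ℝ) + 1) (r := c) (by positivity) hc
  rw [Real.Gamma_nat_eq_factorial, add_sub_cancel_right, ← Nat.cast_succ, Real.rpow_natCast] at h
  simp only [Real.rpow_natCast] at h
  rw [h, mul_comm]

theorem I0_eq' (n : ℕ) (hn : 1 ≤ n) :
    I0 n = ((2 * n).factorial : ℝ) * ((n : ℝ) / 2) ^ (2 * n + 1) := by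
  have hn0 : (0 : ℝ) < n := by exact_mod_cast hn
  have h := rad_integral (2 * n) (c := 2 / n) (by positivity)
  unfold I0
  rw [one_div_div] at h
  rw [← h]
  congr 1
  funext r
  congr 2
  ring

theorem vfun_ov' (n : ℕ) (hn : 1 ≤ n) {P P' : Poly3} (hP : Harm (n - 1) P)
    (hP' : Harm (n - 1) P') :
    ov (vfun n P) (vfun n P') = 4 * Real.pi * I0 n * sph (fun u => pe P u * pe P' u) := by
  have hn0 : (0 : ℝ) < n := by exact_mod_cast hn
  have hi : Integrable fun x : R3 => vfun n P x * vfun n P' x := by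
    have h := Hyd.integrable_poly_exp (κ := 2 / n) (by (clear * - hn; positivity)) (P * P')
    refine h.congr (Filter.Eventually.of_forall fun x => ?_)
    simp only [vfun, Hyd.ev, pe, map_mul]
    have : Real.exp (-(2 / (n : ℝ)) * ‖x‖) = Real.exp (-(‖x‖ / n)) * Real.exp (-(‖x‖ / n)) := by
      rw [← Real.exp_add]
      congr 1
      ring
    rw [this]
    ring
  have hpt : ∀ r ∈ Set.Ioi (0 : ℝ), (4 * Real.pi * r ^ 2) •
      sph (fun u => vfun n P (r • u) * vfun n P' (r • u)) =
      (4 * Real.pi * sph (fun u => pe P u * pe P' u)) *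
        (r ^ (2 * n) * Real.exp (-(2 * r / n))) := by
    intro r hr
    have hr0 : (0 : ℝ) < r := hr
    have h1 : sph (fun u => vfun n P (r • u) * vfun n P' (r • u)) =
        sph (fun u => (r ^ (2 * (n - 1)) * Real.exp (-(2 * r / n))) • (pe P u * pe P' u)) := by
      refine sph_congr fun u hu => ?_
      have h2 : pe P (r • u) = r ^ (n - 1) * pe P u := Hyd.ev_smul_homog hP.1 r u
      have h3 : pe P' (r • u) = r ^ (n - 1) * pe P' u := Hyd.ev_smul_homog hP'.1 r u
      have h4 : ‖r • u‖ = r := by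
        rw [norm_smul, hu, mul_one, Real.norm_of_nonneg hr0.le]
      have h5 : Real.exp (-(2 * r / n)) = Real.exp (-(r / n)) * Real.exp (-(r / n)) := by
        rw [← Real.exp_add]
        congr 1
        ring
      simp only [vfun]
      rw [h2, h3, h4, h5, smul_eq_mul, two_mul, pow_add]
      ring
    rw [h1, sph_smul, smul_eq_mul, smul_eq_mul]
    have h6 : r ^ (2 * n) = r ^ 2 * r ^ (2 * (n - 1)) := by
      rw [← pow_add]
      congr 1
      (clear * - hn; omega)
    rw [h6]
    ring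
  unfold ov
  rw [polar_sph _ hi, setIntegral_congr_fun measurableSet_Ioi hpt, integral_const_mul]
  unfold I0
  ring

theorem RN_aux (n N : ℕ) (hN2 : N ≤ 2 * n - 2) (hn : 2 ≤ n) (ρ : ℝ) (hρ : 0 < ρ)
    (hρ2 : ρ ≤ 1 / 2) :
    ρ ^ N / (2 * (N : ℝ) + 1) *
        ((∫ r in Set.Ioi (0 : ℝ), r ^ (2 * n - 1 - N) * Real.exp (-(2 / n * r))) - 1 / 2) ≤
      RN n N ρ ∧
    RN n N ρ ≤ ρ ^ N / (2 * (N : ℝ) + 1) *
      ∫ r in Set.Ioi (0 : ℝ), r ^ (2 * n - 1 - N) * Real.exp (-(2 / n * r)) := by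
  have hn0 : (0 : ℝ) < n := by
    have : (2 : ℝ) ≤ n := by exact_mod_cast hn
    linarith only [this]
  obtain ⟨m, hm⟩ : ∃ m, 2 * n = m + (N + 1) := ⟨2 * n - 1 - N, by omega⟩
  have hm' : 2 * n - 1 - N = m := by omega
  rw [hm']
  set g : ℝ → ℝ := fun r => r ^ (2 * n) * Real.exp (-(2 * r / n)) *
    (1 / (2 * (N : ℝ) + 1) * (min r ρ ^ N / max r ρ ^ (N + 1))) with hg
  set f : ℝ → ℝ := fun r => ρ ^ N / (2 * (N : ℝ) + 1) * (r ^ m * Real.exp (-(2 / n * r))) with hf
  have hexp : ∀ r : ℝ, Real.exp (-(2 * r / n)) = Real.exp (-(2 / n * r)) := fun r => by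
    congr 1
    ring
  have hfi : IntegrableOn f (Set.Ioi 0) :=
    (rad_integrable m (c := 2 / n) (by positivity)).const_mul _
  have hle : ∀ r, 0 < r → 0 ≤ g r ∧ g r ≤ f r := by
    intro r hr
    have hmin : 0 < min r ρ := lt_min hr hρ
    have hmax : 0 < max r ρ := lt_max_of_lt_left hr
    refine ⟨by simp only [hg]; (clear * - hr hρ; positivity), ?_⟩
    simp only [hg, hexp, hf]
    have h1 : r ^ (2 * n) * (min r ρ ^ N / max r ρ ^ (N + 1)) ≤ ρ ^ N * r ^ m := by
      rw [hm, pow_add, mul_assoc, mul_comm (ρ ^ N)]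
      refine mul_le_mul_of_nonneg_left ?_ (pow_nonneg hr.le _)
      rw [mul_div_assoc', div_le_iff₀ (pow_pos hmax _), mul_comm (r ^ (N + 1))]
      exact mul_le_mul (pow_le_pow_left₀ hmin.le (min_le_right _ _) _)
        (pow_le_pow_left₀ hr.le (le_max_left _ _) _) (pow_nonneg hr.le _) (pow_nonneg hρ.le _)
    calc r ^ (2 * n) * Real.exp (-(2 / n * r)) *
          (1 / (2 * (N : ℝ) + 1) * (min r ρ ^ N / max r ρ ^ (N + 1)))
        = (Real.exp (-(2 / n * r)) / (2 * (N : ℝ) + 1)) *
          (r ^ (2 * n) * (min r ρ ^ N / max r ρ ^ (N + 1))) := by ring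
      _ ≤ (Real.exp (-(2 / n * r)) / (2 * (N : ℝ) + 1)) * (ρ ^ N * r ^ m) :=
          mul_le_mul_of_nonneg_left h1 (by positivity)
      _ = ρ ^ N / (2 * (N : ℝ) + 1) * (r ^ m * Real.exp (-(2 / n * r))) := by ring
  have heq : ∀ r, ρ ≤ r → g r = f r := by
    intro r hr
    have hr0 : 0 < r := hρ.trans_le hr
    simp only [hg, hexp, hf]
    rw [min_eq_right hr, max_eq_left hr, hm, pow_add r m (N + 1)]
    (clear * - hr0 hρ; field_simp)
  have hgm : AEStronglyMeasurable g (volume.restrict (Set.Ioi 0)) := by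
    apply Measurable.aestronglyMeasurable
    simp only [hg]
    fun_prop
  have hgi : IntegrableOn g (Set.Ioi 0) := by
    refine Integrable.mono' hfi hgm ?_
    rw [ae_restrict_iff' measurableSet_Ioi]
    refine Filter.Eventually.of_forall fun r hr => ?_
    rw [Real.norm_of_nonneg (hle r hr).1]
    exact (hle r hr).2
  have hRN : RN n N ρ = ∫ r in Set.Ioi (0 : ℝ), g r := rfl
  have hfint : ρ ^ N / (2 * (N : ℝ) + 1) *
      ∫ r in Set.Ioi (0 : ℝ), r ^ m * Real.exp (-(2 / n * r)) = ∫ r in Set.Ioi (0 : ℝ), f r := by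
    rw [← integral_const_mul]
  constructor
  · rw [mul_sub, hfint, hRN]
    have hsplit : Set.Ioi (0 : ℝ) = Set.Ioc 0 ρ ∪ Set.Ioi ρ := (Set.Ioc_union_Ioi_eq_Ioi hρ.le).symm
    have h1 : ∫ r in Set.Ioi (0 : ℝ), f r =
        (∫ r in Set.Ioc 0 ρ, f r) + ∫ r in Set.Ioi ρ, f r := by
      rw [← setIntegral_union (Set.Ioc_disjoint_Ioi le_rfl) measurableSet_Ioi
        (hfi.mono_set (by rw [hsplit]; exact Set.subset_union_left))
        (hfi.mono_set (by rw [hsplit]; exact Set.subset_union_right)), ← hsplit]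
    have h2 : ∫ r in Set.Ioi ρ, f r = ∫ r in Set.Ioi ρ, g r :=
      setIntegral_congr_fun measurableSet_Ioi fun r hr => (heq r (le_of_lt hr)).symm
    have h3 : ∫ r in Set.Ioi ρ, g r ≤ ∫ r in Set.Ioi (0 : ℝ), g r := by
      refine setIntegral_mono_set hgi ?_ ?_
      · rw [Filter.EventuallyLE, ae_restrict_iff' measurableSet_Ioi]
        exact Filter.Eventually.of_forall fun r hr => (hle r hr).1
      · exact (Set.Ioi_subset_Ioi hρ.le).eventuallyLE
    have h4 : ∫ r in Set.Ioc 0 ρ, f r ≤ ρ ^ N / (2 * (N : ℝ) + 1) * (1 / 2) := by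
      have h5 : ∫ r in Set.Ioc 0 ρ, f r ≤ ∫ r in Set.Ioc 0 ρ, ρ ^ N / (2 * (N : ℝ) + 1) := by
        refine setIntegral_mono_on (hfi.mono_set (by rw [hsplit]; exact Set.subset_union_left))
          (integrableOn_const (by simp only [Real.volume_Ioc, sub_zero, ne_eq, ENNReal.ofReal_ne_top, not_false_eq_true])) measurableSet_Ioc fun r hr => ?_
        simp only [hf]
        have h6 : r ^ m ≤ 1 := pow_le_one₀ hr.1.le (hr.2.trans (hρ2.trans (by norm_num)))
        have h7 : Real.exp (-(2 / n * r)) ≤ 1 := by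
          rw [Real.exp_le_one_iff]
          have := hr.1
          have : 0 ≤ 2 / (n : ℝ) * r := by (clear * - hn this; positivity)
          linarith only [this]
        have h8 : r ^ m * Real.exp (-(2 / n * r)) ≤ 1 := by
          have := mul_le_mul h6 h7 (Real.exp_pos _).le zero_le_one
          rwa [one_mul] at this
        calc ρ ^ N / (2 * (N : ℝ) + 1) * (r ^ m * Real.exp (-(2 / n * r)))
            ≤ ρ ^ N / (2 * (N : ℝ) + 1) * 1 := mul_le_mul_of_nonneg_left h8 (by (clear * - hρ; positivity))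
          _ = _ := mul_one _
      refine h5.trans ?_
      rw [setIntegral_const, Real.volume_real_Ioc_of_le hρ.le, sub_zero, smul_eq_mul, mul_comm]
      exact mul_le_mul_of_nonneg_left hρ2 (by (clear * - hρ; positivity))
    linarith only [h1, h2, h3, h4]
  · rw [hfint, hRN]
    exact setIntegral_mono_on hgi hfi measurableSet_Ioi fun r hr => (hle r hr).2

theorem Xu_RN' (n N : ℕ) (hn : 2 ≤ n) (hN : 1 ≤ N) (hN2 : N ≤ 2 * n - 2) (ρ : ℝ) (hρ : 0 < ρ)
    (hρ2 : ρ ≤ 1 / 2 ^ (8 * n ^ 2)) :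
    1 / 2 ≤ Xu n N ρ * RN n N ρ / I0 n ∧ Xu n N ρ * RN n N ρ / I0 n ≤ 2 := by
  have hn0 : (0 : ℝ) < n := by
    have : (2 : ℝ) ≤ n := by exact_mod_cast hn
    linarith only [this]
  have hn1 : (1 : ℝ) ≤ (n : ℝ) / 2 := by
    have : (2 : ℝ) ≤ n := by exact_mod_cast hn
    linarith only [this]
  have hρ3 : ρ ≤ 1 / 2 := by
    refine hρ2.trans ?_
    refine one_div_le_one_div_of_le (by norm_num) ?_
    calc (2 : ℝ) = 2 ^ 1 := (pow_one 2).symm
      _ ≤ 2 ^ (8 * n ^ 2) := pow_le_pow_right₀ (by norm_num) (by nlinarith only [hn])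
  obtain ⟨h1, h2⟩ := RN_aux n N hN2 hn ρ hρ hρ3
  rw [rad_integral _ (by positivity), one_div_div] at h1 h2
  obtain ⟨m, hm⟩ : ∃ m, 2 * n = m + (N + 1) := ⟨2 * n - 1 - N, by omega⟩
  have hm' : 2 * n - 1 - N = m := by omega
  rw [hm'] at h1 h2
  set F : ℝ := (m.factorial : ℝ) * ((n : ℝ) / 2) ^ (m + 1) with hF
  have hF1 : 1 ≤ F := by
    have h3 : (1 : ℝ) ≤ m.factorial := by exact_mod_cast Nat.one_le_iff_ne_zero.2 m.factorial_ne_zero
    have h4 : (1 : ℝ) ≤ ((n : ℝ) / 2) ^ (m + 1) := one_le_pow₀ hn1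
    nlinarith only [h3, h4]
  have hI : Xu n N ρ * (ρ ^ N / (2 * (N : ℝ) + 1) * F) = I0 n := by
    rw [I0_eq' n (by omega), Xu, hm', hF]
    have h5 : ((n : ℝ) / 2) ^ (2 * n + 1) = ((n : ℝ) / 2) ^ (N + 1) * ((n : ℝ) / 2) ^ (m + 1) := by
      rw [← pow_add]
      congr 1
      (clear * - hm; omega)
    rw [h5]
    have h6 : (m.factorial : ℝ) ≠ 0 := by exact_mod_cast m.factorial_ne_zero
    have h7 : ρ ^ N ≠ 0 := pow_ne_zero _ hρ.ne'
    have h8 : (2 * (N : ℝ) + 1) ≠ 0 := by (clear * - hN; positivity)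
    rw [one_div, inv_pow]
    field_simp
  have hX : 0 < Xu n N ρ := by
    unfold Xu
    positivity
  have hI0 : 0 < I0 n := by
    rw [← hI]
    positivity
  constructor
  · rw [le_div_iff₀ hI0]
    calc 1 / 2 * I0 n = Xu n N ρ * (ρ ^ N / (2 * (N : ℝ) + 1) * (F / 2)) := by rw [← hI]; ring
      _ ≤ Xu n N ρ * (ρ ^ N / (2 * (N : ℝ) + 1) * (F - 1 / 2)) := by
          refine mul_le_mul_of_nonneg_left ?_ hX.le
          refine mul_le_mul_of_nonneg_left ?_ (by positivity)
          linarith only [hF1]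
      _ ≤ Xu n N ρ * RN n N ρ := mul_le_mul_of_nonneg_left h1 hX.le
  · rw [div_le_iff₀ hI0]
    calc Xu n N ρ * RN n N ρ ≤ Xu n N ρ * (ρ ^ N / (2 * (N : ℝ) + 1) * F) :=
          mul_le_mul_of_nonneg_left h2 hX.le
      _ = I0 n := hI
      _ ≤ 2 * I0 n := by linarith only [hI0]

end Vale.Agent.P370.Q
end

section

/-!
Radial integrals.
-/

namespace Vale.Agent.P370.Q

open MeasureTheory Finset ComplexConjugate

theorem I0_eq (n : ℕ) (hn : 1 ≤ n) :
    I0 n = ((2 * n).factorial : ℝ) * ((n : ℝ) / 2) ^ (2 * n + 1) :=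
  I0_eq' n hn

theorem vfun_ov (n : ℕ) (hn : 1 ≤ n) {P P' : Poly3} (hP : Harm (n - 1) P)
    (hP' : Harm (n - 1) P') :
    ov (vfun n P) (vfun n P') = 4 * Real.pi * I0 n * sph (fun u => pe P u * pe P' u) :=
  vfun_ov' n hn hP hP'

theorem Xu_RN (n N : ℕ) (hn : 2 ≤ n) (hN : 1 ≤ N) (hN2 : N ≤ 2 * n - 2) (ρ : ℝ) (hρ : 0 < ρ)
    (hρ2 : ρ ≤ 1 / 2 ^ (8 * n ^ 2)) :
    1 / 2 ≤ Xu n N ρ * RN n N ρ / I0 n ∧ Xu n N ρ * RN n N ρ / I0 n ≤ 2 :=
  Xu_RN' n N hn hN hN2 ρ hρ hρ2

end Vale.Agent.P370.Q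
end

section

/-!
Double radial integrals with the multipole kernel `min^L / max^(L+1)`.
-/

namespace Vale.Agent.P370.KC

open MeasureTheory Finset Vale.Agent.P370.Q

/-- multipole kernel -/
noncomputable def mk (L : ℕ) (r s : ℝ) : ℝ := min r s ^ L / max r s ^ (L + 1)

/-- radial pairing -/
noncomputable def RL (L : ℕ) (φ ψ : ℝ → ℝ) : ℝ :=
  ∫ s in Set.Ioi (0 : ℝ), (∫ r in Set.Ioi (0 : ℝ), φ r * mk L r s) * ψ s

/-- `∫_0^∞ s^q e^(-βs) ∫_s^∞ r^p e^(-αr)` -/
noncomputable def TT (p q : ℕ) (α β : ℝ) : ℝ :=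
  ∑ t ∈ range (p + 1), ((p.factorial : ℝ) / (t.factorial : ℝ)) * ((q + t).factorial : ℝ) /
    (α ^ (p - t + 1) * (α + β) ^ (q + t + 1))

/-- monomial times exponential -/
noncomputable def me (p : ℕ) (α r : ℝ) : ℝ := r ^ p * Real.exp (-(α * r))

theorem me_int (p : ℕ) {α : ℝ} (hα : 0 < α) : IntegrableOn (me p α) (Set.Ioi 0) :=
  rad_integrable p hα

theorem me_integral (p : ℕ) {α : ℝ} (hα : 0 < α) :
    ∫ r in Set.Ioi (0 : ℝ), me p α r = (p.factorial : ℝ) / α ^ (p + 1) := by
  unfold me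
  rw [rad_integral p hα, one_div, inv_pow]
  rfl

theorem me_cont (p : ℕ) (α : ℝ) : Continuous (me p α) := by
  unfold me
  (clear * -; fun_prop)

theorem me_nonneg (p : ℕ) (α : ℝ) {r : ℝ} (hr : 0 ≤ r) : 0 ≤ me p α r := by
  unfold me
  (clear * - hr; positivity)

/-- incomplete integral -/
theorem me_tail (a : ℕ) {α : ℝ} (hα : 0 < α) (s : ℝ) :
    ∫ r in Set.Ioi s, me a α r =
      ∑ t ∈ range (a + 1), ((a.factorial : ℝ) / (t.factorial : ℝ)) / α ^ (a - t + 1) * me t α s := by
  have h1 : ∫ v in Set.Ioi (0 : ℝ), me a α (v + s) = ∫ r in Set.Ioi s, me a α r := by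
    have h := (measurePreserving_add_right (volume : Measure ℝ) s).setIntegral_preimage_emb
      (MeasurableEquiv.addRight s).measurableEmbedding (me a α) (Set.Ioi s)
    rw [← h]
    congr 1
    congr 1
    ext v
    simp only [Set.mem_Ioi, Set.preimage_add_const_Ioi, sub_self]
  rw [← h1]
  have h2 : ∀ v : ℝ, me a α (v + s) = ∑ t ∈ range (a + 1),
      ((a.choose t : ℝ) * (s ^ t * Real.exp (-(α * s)))) * me (a - t) α v := by
    intro v
    unfold me
    rw [add_comm v s, add_pow, Finset.sum_mul]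
    refine Finset.sum_congr rfl fun t _ => ?_
    rw [show -(α * (s + v)) = -(α * s) + -(α * v) by ring, Real.exp_add]
    ring
  simp only [h2]
  rw [integral_finsetSum _ fun t _ => (me_int (a - t) hα).const_mul _]
  refine Finset.sum_congr rfl fun t ht => ?_
  rw [integral_const_mul, me_integral _ hα]
  have ht' : t ≤ a := by
    rw [Finset.mem_range] at ht
    omega
  have h3 : (a.choose t : ℝ) * ((a - t).factorial : ℝ) = (a.factorial : ℝ) / (t.factorial : ℝ) := by
    rw [Nat.cast_choose ℝ ht']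
    have h4 : (t.factorial : ℝ) ≠ 0 := by positivity
    have h5 : ((a - t).factorial : ℝ) ≠ 0 := by positivity
    field_simp
  rw [← h3]
  unfold me
  ring

theorem rtri_eq (a b : ℕ) {α β : ℝ} (hα : 0 < α) (hβ : 0 < β) :
    ∫ s in Set.Ioi (0 : ℝ), (∫ r in Set.Ioi s, me a α r) * me b β s = TT a b α β := by
  simp only [me_tail a hα, Finset.sum_mul]
  have h1 : ∀ (t : ℕ) (s : ℝ), ((a.factorial : ℝ) / (t.factorial : ℝ)) / α ^ (a - t + 1) *
      me t α s * me b β s = ((a.factorial : ℝ) / (t.factorial : ℝ)) / α ^ (a - t + 1) *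
      me (b + t) (α + β) s := by
    intro t s
    unfold me
    rw [show -((α + β) * s) = -(α * s) + -(β * s) by ring, Real.exp_add]
    ring
  simp only [h1]
  rw [integral_finsetSum _ fun t _ => (me_int (b + t) (add_pos hα hβ)).const_mul _]
  unfold TT
  refine Finset.sum_congr rfl fun t _ => ?_
  rw [integral_const_mul, me_integral _ (add_pos hα hβ), div_mul_div_comm]

theorem mk_nonneg (L : ℕ) {r s : ℝ} (hr : 0 ≤ r) (hs : 0 ≤ s) : 0 ≤ mk L r s := by
  unfold mk
  have := le_min hr hs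
  have := le_max_of_le_left (c := s) hr
  positivity

theorem mk_le (L : ℕ) {r s : ℝ} (hr : 0 < r) (hs : 0 < s) : mk L r s ≤ 1 / r := by
  unfold mk
  have h1 : 0 < max r s := lt_max_of_lt_left hr
  have h2 : 0 ≤ min r s := le_min hr.le hs.le
  have h3 : min r s ≤ max r s := min_le_max
  rw [div_le_div_iff₀ (by positivity) hr, one_mul, pow_succ]
  exact mul_le_mul (pow_le_pow_left₀ h2 h3 L) (le_max_left r s) hr.le (by positivity)

theorem mk_meas (L : ℕ) : Measurable fun q : ℝ × ℝ => mk L q.2 q.1 := by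
  unfold mk
  fun_prop

theorem mk_comm (L : ℕ) (r s : ℝ) : mk L r s = mk L s r := by
  unfold mk
  rw [min_comm, max_comm]

/-- the product measure on the quadrant -/
noncomputable def qm : Measure (ℝ × ℝ) :=
  ((volume : Measure ℝ).restrict (Set.Ioi 0)).prod ((volume : Measure ℝ).restrict (Set.Ioi 0))

theorem qm_pos : ∀ᵐ q ∂qm, 0 < q.1 ∧ 0 < q.2 := by
  have h : qm = ((volume : Measure ℝ).prod volume).restrict (Set.Ioi 0 ×ˢ Set.Ioi 0) := by
    unfold qm
    rw [Measure.prod_restrict]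
  rw [h]
  refine (ae_restrict_iff' (measurableSet_Ioi.prod measurableSet_Ioi)).2
    (Filter.Eventually.of_forall fun q hq => ?_)
  exact ⟨hq.1, hq.2⟩

theorem me_prod_int (a b : ℕ) {α β : ℝ} (hα : 0 < α) (hβ : 0 < β) :
    Integrable (fun q : ℝ × ℝ => me b β q.1 * me a α q.2) qm :=
  (me_int b hβ).mul_prod (me_int a hα)

theorem RL_int (L p q : ℕ) {α β : ℝ} (hα : 0 < α) (hβ : 0 < β) (hp : 1 ≤ p) :
    Integrable (fun z : ℝ × ℝ => me p α z.2 * mk L z.2 z.1 * me q β z.1) qm := by
  refine (me_prod_int (p - 1) q hα hβ).mono' ?_ ?_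
  · refine Measurable.aestronglyMeasurable ?_
    exact (((me_cont p α).measurable.comp measurable_snd).mul (mk_meas L)).mul
      ((me_cont q β).measurable.comp measurable_fst)
  · filter_upwards [qm_pos] with z hz
    have h1 := mk_le L hz.2 hz.1
    have h0 := mk_nonneg L hz.2.le hz.1.le
    have h2 : me p α z.2 = z.2 * me (p - 1) α z.2 := by
      unfold me
      have : z.2 ^ p = z.2 * z.2 ^ (p - 1) := by
        rw [← pow_succ']
        congr 1
        (clear * - hp; omega)
      rw [this]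
      ring
    have h3 := me_nonneg (p - 1) α hz.2.le
    have h4 := me_nonneg q β hz.1.le
    rw [Real.norm_eq_abs, abs_of_nonneg (by rw [h2]; have := hz.2.le; (clear * - this h3 h0 h4; positivity)), h2]
    calc z.2 * me (p - 1) α z.2 * mk L z.2 z.1 * me q β z.1
        = (z.2 * mk L z.2 z.1) * (me (p - 1) α z.2 * me q β z.1) := by ring
      _ ≤ 1 * (me (p - 1) α z.2 * me q β z.1) := by
          refine mul_le_mul_of_nonneg_right ?_ (by (clear * - h3 h4; positivity))
          calc z.2 * mk L z.2 z.1 ≤ z.2 * (1 / z.2) := mul_le_mul_of_nonneg_left h1 hz.2.le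
            _ = 1 := mul_one_div_cancel hz.2.ne'
      _ = me q β z.1 * me (p - 1) α z.2 := by ring

/-- the inner integral is integrable -/
theorem inner_int (L p : ℕ) {α : ℝ} (hα : 0 < α) (hp : 1 ≤ p) {s : ℝ} (hs : 0 < s) :
    IntegrableOn (fun r => me p α r * mk L r s) (Set.Ioi 0) := by
  refine (me_int (p - 1) hα).mono' ?_ ?_
  · refine Measurable.aestronglyMeasurable ?_
    exact (me_cont p α).measurable.mul ((mk_meas L).comp (measurable_const.prodMk measurable_id))
  · refine (ae_restrict_iff' measurableSet_Ioi).2 (Filter.Eventually.of_forall fun r hr => ?_)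
    have hr' : 0 < r := hr
    have h1 := mk_le L hr' hs
    have h0 := mk_nonneg L hr'.le hs.le
    have h2 : me p α r = r * me (p - 1) α r := by
      unfold me
      have : r ^ p = r * r ^ (p - 1) := by
        rw [← pow_succ']
        congr 1
        (clear * - hp; omega)
      rw [this]
      ring
    have h3 := me_nonneg (p - 1) α hr'.le
    rw [Real.norm_eq_abs, abs_of_nonneg (by rw [h2]; (clear * - hr' h3 h0; positivity)), h2]
    calc r * me (p - 1) α r * mk L r s = (r * mk L r s) * me (p - 1) α r := by ring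
      _ ≤ 1 * me (p - 1) α r := by
          refine mul_le_mul_of_nonneg_right ?_ h3
          calc r * mk L r s ≤ r * (1 / r) := mul_le_mul_of_nonneg_left h1 hr'.le
            _ = 1 := mul_one_div_cancel hr'.ne'
      _ = me (p - 1) α r := one_mul _

theorem outer_int (L p q : ℕ) {α β : ℝ} (hα : 0 < α) (hβ : 0 < β) (hp : 1 ≤ p) :
    IntegrableOn (fun s => (∫ r in Set.Ioi (0 : ℝ), me p α r * mk L r s) * me q β s)
      (Set.Ioi 0) := by
  have h := (RL_int L p q hα hβ hp).integral_prod_left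
  refine h.congr (Filter.Eventually.of_forall fun s => ?_)
  show ∫ r in Set.Ioi (0 : ℝ), me p α r * mk L r s * me q β s = _
  rw [integral_mul_const]

/-- splitting of the kernel -/
theorem RL_me (L p q : ℕ) {α β : ℝ} (hα : 0 < α) (hβ : 0 < β) (hp : L + 1 ≤ p)
    (hq : L + 1 ≤ q) :
    RL L (me p α) (me q β) = TT (p - L - 1) (q + L) α β + TT (q - L - 1) (p + L) β α := by
  -- the two triangular parts
  let F1 : ℝ × ℝ → ℝ := Set.indicator {z : ℝ × ℝ | z.1 < z.2}
    (fun z => me (q + L) β z.1 * me (p - L - 1) α z.2)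
  let F2 : ℝ × ℝ → ℝ := Set.indicator {z : ℝ × ℝ | z.2 < z.1}
    (fun z => me (q - L - 1) β z.1 * me (p + L) α z.2)
  have hm1 : MeasurableSet {z : ℝ × ℝ | z.1 < z.2} := measurableSet_lt measurable_fst measurable_snd
  have hm2 : MeasurableSet {z : ℝ × ℝ | z.2 < z.1} := measurableSet_lt measurable_snd measurable_fst
  have hF1 : Integrable F1 qm := (me_prod_int (p - L - 1) (q + L) hα hβ).indicator hm1
  have hF2 : Integrable F2 qm := (me_prod_int (p + L) (q - L - 1) hα hβ).indicator hm2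
  have hdiag : ∀ᵐ z ∂qm, z.1 ≠ z.2 := by
    have h1 : ∀ s : ℝ, ∀ᵐ r ∂((volume : Measure ℝ).restrict (Set.Ioi 0)), s ≠ r := by
      intro s
      refine ae_restrict_of_ae ?_
      have := (measure_singleton (μ := (volume : Measure ℝ)) s)
      rw [ae_iff]
      convert this using 2
      ext r
      simp only [ne_eq, Decidable.not_not, Set.ofPred_eq_eq_singleton', Set.mem_singleton_iff, eq_comm]
    unfold qm
    rw [Measure.ae_prod_iff_ae_ae]
    · exact Filter.Eventually.of_forall h1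
    · exact (measurableSet_eq_fun measurable_fst measurable_snd).compl
  have hsplit : ∀ᵐ z ∂qm, me p α z.2 * mk L z.2 z.1 * me q β z.1 = F1 z + F2 z := by
    filter_upwards [qm_pos, hdiag] with z hz hne
    rcases lt_or_gt_of_ne hne with h | h
    · have e1 : F1 z = me (q + L) β z.1 * me (p - L - 1) α z.2 :=
        Set.indicator_of_mem (s := {z : ℝ × ℝ | z.1 < z.2}) h _
      have e2 : F2 z = 0 := Set.indicator_of_notMem
        (s := {z : ℝ × ℝ | z.2 < z.1}) (show ¬ _ from not_lt.2 h.le) _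
      rw [e1, e2, add_zero]
      unfold mk me
      rw [min_eq_right h.le, max_eq_left h.le]
      have e3 : z.2 ^ p = z.2 ^ (p - L - 1) * z.2 ^ (L + 1) := by
        rw [← pow_add]
        congr 1
        (clear * - hp; omega)
      rw [e3, pow_add z.1 q L]
      have := hz.2.ne'
      (clear * - this; field_simp)
    · have e1 : F2 z = me (q - L - 1) β z.1 * me (p + L) α z.2 :=
        Set.indicator_of_mem (s := {z : ℝ × ℝ | z.2 < z.1}) h _
      have e2 : F1 z = 0 := Set.indicator_of_notMem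
        (s := {z : ℝ × ℝ | z.1 < z.2}) (show ¬ _ from not_lt.2 h.le) _
      rw [e1, e2, zero_add]
      unfold mk me
      rw [min_eq_left h.le, max_eq_right h.le]
      have e3 : z.1 ^ q = z.1 ^ (q - L - 1) * z.1 ^ (L + 1) := by
        rw [← pow_add]
        congr 1
        omega
      rw [e3, pow_add z.2 p L]
      have := hz.1.ne'
      (clear * - this; field_simp)
  have hRL : RL L (me p α) (me q β) = ∫ z, F1 z + F2 z ∂qm := by
    rw [← integral_congr_ae hsplit]
    have h1 := integral_prod (μ := (volume : Measure ℝ).restrict (Set.Ioi 0))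
      (ν := (volume : Measure ℝ).restrict (Set.Ioi 0))
      (fun z : ℝ × ℝ => me p α z.2 * mk L z.2 z.1 * me q β z.1)
      (RL_int L p q hα hβ (by (clear * - hp; omega)))
    unfold RL qm
    rw [h1]
    refine integral_congr_ae (Filter.Eventually.of_forall fun s => ?_)
    simp only
    rw [integral_mul_const]
  rw [hRL, integral_add hF1 hF2]
  congr 1
  · have h1 := integral_prod (μ := (volume : Measure ℝ).restrict (Set.Ioi 0))
      (ν := (volume : Measure ℝ).restrict (Set.Ioi 0)) F1 hF1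
    unfold qm
    rw [h1, ← rtri_eq (p - L - 1) (q + L) hα hβ]
    refine setIntegral_congr_fun measurableSet_Ioi fun s hs => ?_
    have hs' : 0 < s := hs
    have h2 : ∀ r, F1 (s, r) = Set.indicator (Set.Ioi s) (fun r => me (q + L) β s *
        me (p - L - 1) α r) r := by
      intro r
      by_cases h : s < r
      · rw [Set.indicator_of_mem (show r ∈ Set.Ioi s from h)]
        exact Set.indicator_of_mem (s := {z : ℝ × ℝ | z.1 < z.2}) (show s < r from h) _
      · rw [Set.indicator_of_notMem (show r ∉ Set.Ioi s from h)]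
        exact Set.indicator_of_notMem (s := {z : ℝ × ℝ | z.1 < z.2}) (show ¬ s < r from h) _
    simp only [h2]
    rw [setIntegral_indicator measurableSet_Ioi, Set.Ioi_inter_Ioi, max_eq_right hs'.le,
      integral_const_mul, mul_comm]
  · have hsw : Integrable (fun z : ℝ × ℝ => F2 z.swap) qm := by
      unfold qm at hF2 ⊢
      exact hF2.swap
    have h0 : ∫ z, F2 z ∂qm = ∫ z : ℝ × ℝ, F2 z.swap ∂qm := by
      unfold qm
      exact (integral_prod_swap F2).symm
    have h1 := integral_prod (μ := (volume : Measure ℝ).restrict (Set.Ioi 0))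
      (ν := (volume : Measure ℝ).restrict (Set.Ioi 0)) (fun z : ℝ × ℝ => F2 z.swap) hsw
    rw [h0]
    unfold qm
    rw [h1, ← rtri_eq (q - L - 1) (p + L) hβ hα]
    refine setIntegral_congr_fun measurableSet_Ioi fun s hs => ?_
    have hs' : 0 < s := hs
    have h2 : ∀ r, F2 (Prod.swap (s, r)) = Set.indicator (Set.Ioi s) (fun r =>
        me (q - L - 1) β r * me (p + L) α s) r := by
      intro r
      by_cases h : s < r
      · rw [Set.indicator_of_mem (show r ∈ Set.Ioi s from h)]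
        exact Set.indicator_of_mem (s := {z : ℝ × ℝ | z.2 < z.1}) (show s < r from h) _
      · rw [Set.indicator_of_notMem (show r ∉ Set.Ioi s from h)]
        exact Set.indicator_of_notMem (s := {z : ℝ × ℝ | z.2 < z.1}) (show ¬ s < r from h) _
    simp only [h2]
    rw [setIntegral_indicator measurableSet_Ioi, Set.Ioi_inter_Ioi, max_eq_right hs'.le,
      integral_mul_const]

/-- bilinearity -/
theorem RL_sum {ι κ : Type*} (I : Finset ι) (J : Finset κ) (a : ι → ℝ) (b : κ → ℝ) (p : ι → ℕ)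
    (q : κ → ℕ) (L : ℕ) {α β : ℝ} (hα : 0 < α) (hβ : 0 < β) (hp : ∀ i ∈ I, 1 ≤ p i) :
    RL L (fun r => ∑ i ∈ I, a i * me (p i) α r) (fun s => ∑ j ∈ J, b j * me (q j) β s) =
      ∑ i ∈ I, ∑ j ∈ J, a i * b j * RL L (me (p i) α) (me (q j) β) := by
  have h1 : ∀ s ∈ Set.Ioi (0 : ℝ), (∫ r in Set.Ioi (0 : ℝ), (∑ i ∈ I, a i * me (p i) α r) *
      mk L r s) * (∑ j ∈ J, b j * me (q j) β s) = ∑ i ∈ I, ∑ j ∈ J, a i * b j *
      ((∫ r in Set.Ioi (0 : ℝ), me (p i) α r * mk L r s) * me (q j) β s) := by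
    intro s hs
    have h2 : ∫ r in Set.Ioi (0 : ℝ), (∑ i ∈ I, a i * me (p i) α r) * mk L r s =
        ∑ i ∈ I, a i * ∫ r in Set.Ioi (0 : ℝ), me (p i) α r * mk L r s := by
      have h3 : ∀ r, (∑ i ∈ I, a i * me (p i) α r) * mk L r s =
          ∑ i ∈ I, a i * (me (p i) α r * mk L r s) := by
        intro r
        rw [Finset.sum_mul]
        exact Finset.sum_congr rfl fun i _ => by ring
      simp only [h3]
      rw [integral_finsetSum _ fun i hi => (inner_int L (p i) hα (hp i hi) hs).const_mul _]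
      exact Finset.sum_congr rfl fun i _ => integral_const_mul _ _
    rw [h2, Finset.sum_mul_sum]
    exact Finset.sum_congr rfl fun i _ => Finset.sum_congr rfl fun j _ => by ring
  unfold RL
  rw [setIntegral_congr_fun measurableSet_Ioi h1,
    integral_finsetSum _ fun i hi => integrable_finsetSum _ fun j _ =>
      (outer_int L (p i) (q j) hα hβ (hp i hi)).const_mul _]
  refine Finset.sum_congr rfl fun i hi => ?_
  rw [integral_finsetSum _ fun j _ => (outer_int L (p i) (q j) hα hβ (hp i hi)).const_mul _]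
  exact Finset.sum_congr rfl fun j _ => integral_const_mul _ _

theorem RL_congr (L : ℕ) {φ φ' ψ ψ' : ℝ → ℝ} (h : ∀ r, 0 < r → φ r = φ' r)
    (h' : ∀ r, 0 < r → ψ r = ψ' r) : RL L φ ψ = RL L φ' ψ' := by
  unfold RL
  refine setIntegral_congr_fun measurableSet_Ioi fun s hs => ?_
  rw [h' s hs]
  congr 1
  exact setIntegral_congr_fun measurableSet_Ioi fun r hr => by
    rw [h r hr]

end Vale.Agent.P370.KC
end

section

/-!
Quadrature on the sphere: Fejér nodes in the latitude, equidistant in the longitude.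
-/

namespace Vale.Agent.P370.Q

open MeasureTheory Finset ComplexConjugate

/-! ### discrete orthogonality -/

theorem quad_cos_sum (D : ℕ) (hD : 0 < D) (a : ℕ) (ha : 0 < a) (haD : a < 2 * D) :
    ∑ k ∈ range D, Real.cos (a * (Real.pi * (2 * k + 1) / (2 * D))) = 0 := by
  set α : ℝ := a * Real.pi / (2 * D) with hα
  have hDR : (0:ℝ) < D := by exact_mod_cast hD
  have haR : (0:ℝ) < a := by exact_mod_cast ha
  have hs : 0 < Real.sin α := by
    apply Real.sin_pos_of_pos_of_lt_pi
    · (clear * - ha hD; positivity)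
    · rw [hα, div_lt_iff₀ (by positivity)]
      have : (a:ℝ) < 2 * D := by exact_mod_cast haD
      linarith only [mul_pos_of_neg_of_neg (Mathlib.Tactic.Linarith.sub_neg_of_lt this) (Mathlib.Tactic.Linarith.sub_neg_of_lt Real.pi_pos)]
  have h1 : ∀ n : ℕ, 2 * Real.sin α * ∑ k ∈ range n,
      Real.cos (a * (Real.pi * (2 * k + 1) / (2 * D))) = Real.sin (2 * n * α) := by
    intro n
    induction n with
    | zero => simp only [range_zero, sum_empty, mul_zero, CharP.cast_eq_zero, zero_mul, Real.sin_zero]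
    | succ n ih =>
      rw [sum_range_succ, mul_add, ih]
      have e1 : (a:ℝ) * (Real.pi * (2 * n + 1) / (2 * D)) = 2 * n * α + α := by
        rw [hα]; field_simp
      have e2 : 2 * ((n+1 : ℕ) : ℝ) * α = (2 * n * α + α) + α := by push_cast; ring
      have e3 : Real.sin (2 * n * α) = Real.sin ((2*n*α + α) - α) := by congr 1; ring
      rw [e1, e2, Real.sin_add (2*n*α + α) α, e3, Real.sin_sub]
      ring
  have h2 := h1 D
  have h3 : Real.sin (2 * D * α) = 0 := by
    have : 2 * (D:ℝ) * α = a * Real.pi := by rw [hα]; (clear * - hD ha; field_simp)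
    rw [this]; exact Real.sin_nat_mul_pi a
  rw [h3] at h2
  rcases mul_eq_zero.mp h2 with h | h
  · exfalso; linarith only [hs, h]
  · exact h

theorem quad_cos_mul (D : ℕ) (hD : 0 < D) (j p : ℕ) (hj : j ∈ Icc 1 (D / 2))
    (hp : p < D) :
    ∑ k ∈ range D, Real.cos (2 * (j : ℝ) * (Real.pi * (2 * k + 1) / (2 * D))) *
      Real.cos (p * (Real.pi * (2 * k + 1) / (2 * D))) = if 2 * j = p then (D : ℝ) / 2 else 0 := by
  rw [mem_Icc] at hj
  obtain ⟨hj1, hj2⟩ := hj
  have hj3 : 2 * j ≤ D := by omega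
  have key : ∀ x y : ℝ, Real.cos x * Real.cos y = (Real.cos (x + y) + Real.cos (x - y)) / 2 := by
    intro x y; rw [Real.cos_add, Real.cos_sub]; ring
  have e1 : ∀ k ∈ range D, Real.cos (2 * (j : ℝ) * (Real.pi * (2 * k + 1) / (2 * D))) *
      Real.cos (p * (Real.pi * (2 * k + 1) / (2 * D))) =
      Real.cos (((2 * j + p : ℕ) : ℝ) * (Real.pi * (2 * k + 1) / (2 * D))) / 2 +
      Real.cos (((2 * j : ℝ) - p) * (Real.pi * (2 * k + 1) / (2 * D))) / 2 := by
    intro k _
    rw [key]
    push_cast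
    rw [← add_mul, ← sub_mul]
    ring
  rw [sum_congr rfl e1, sum_add_distrib, ← sum_div, ← sum_div,
    quad_cos_sum D hD (2 * j + p) (by (clear * - hj1; omega)) (by omega)]
  by_cases h : 2 * j = p
  · rw [if_pos h]
    have h' : (2 * j : ℝ) - p = 0 := by rw [← h]; push_cast; ring
    rw [h']
    simp only [zero_div, zero_mul, Real.cos_zero, sum_const, card_range, nsmul_eq_mul, mul_one, zero_add]
  · rw [if_neg h]
    have e2 : ∑ k ∈ range D, Real.cos (((2 * j : ℝ) - p) * (Real.pi * (2 * k + 1) / (2 * D))) = 0 := by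
      rcases lt_or_gt_of_ne h with h1 | h1
      · have e3 : ∀ k ∈ range D, Real.cos (((2 * j : ℝ) - p) * (Real.pi * (2 * k + 1) / (2 * D))) =
            Real.cos (((p - 2 * j : ℕ) : ℝ) * (Real.pi * (2 * k + 1) / (2 * D))) := by
          intro k _
          rw [Nat.cast_sub h1.le, ← Real.cos_neg]
          push_cast
          congr 1
          ring
        rw [sum_congr rfl e3]
        exact quad_cos_sum D hD _ (by omega) (by omega)
      · have e3 : ∀ k ∈ range D, Real.cos (((2 * j : ℝ) - p) * (Real.pi * (2 * k + 1) / (2 * D))) =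
            Real.cos (((2 * j - p : ℕ) : ℝ) * (Real.pi * (2 * k + 1) / (2 * D))) := by
          intro k _
          rw [Nat.cast_sub h1.le]
          push_cast
          rfl
        rw [sum_congr rfl e3]
        exact quad_cos_sum D hD _ (by omega) (by (clear * - hj3 h1; omega))
    rw [e2]
    simp only [zero_div, add_zero]

/-- value of the Fejér functional on `cos (p θ)` -/
theorem quad_fej_cos (D : ℕ) (hD : 2 ≤ D) (he : Even D) (p : ℕ) (hp : p < D) :
    ∑ k ∈ range D, fej D k * Real.cos (p * (Real.pi * (2 * k + 1) / (2 * D))) =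
      if Even p then 1 / (1 - (p : ℝ) ^ 2) else 0 := by
  have hD0 : 0 < D := by omega
  have hDR : (0:ℝ) < D := by exact_mod_cast hD0
  have e1 : ∀ k ∈ range D, fej D k * Real.cos (p * (Real.pi * (2 * k + 1) / (2 * D))) =
      (1 / (D : ℝ)) * Real.cos (p * (Real.pi * (2 * k + 1) / (2 * D))) -
      ∑ j ∈ Icc 1 (D / 2), (2 / (D : ℝ)) * (1 / (4 * (j : ℝ) ^ 2 - 1)) *
        (Real.cos (2 * (j : ℝ) * (Real.pi * (2 * k + 1) / (2 * D))) *
        Real.cos (p * (Real.pi * (2 * k + 1) / (2 * D)))) := by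
    intro k _
    unfold fej
    rw [mul_sub, sub_mul, mul_one]
    congr 1
    rw [mul_sum, mul_sum, sum_mul]
    refine sum_congr rfl fun j _ => ?_
    ring
  rw [sum_congr rfl e1, sum_sub_distrib, ← mul_sum, sum_comm]
  have e2 : ∀ j ∈ Icc 1 (D / 2), ∑ k ∈ range D, (2 / (D : ℝ)) * (1 / (4 * (j : ℝ) ^ 2 - 1)) *
        (Real.cos (2 * (j : ℝ) * (Real.pi * (2 * k + 1) / (2 * D))) *
        Real.cos (p * (Real.pi * (2 * k + 1) / (2 * D)))) =
        if 2 * j = p then 1 / ((p : ℝ) ^ 2 - 1) else 0 := by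
    intro j hj
    rw [← mul_sum, quad_cos_mul D hD0 j p hj hp]
    by_cases h : 2 * j = p
    · rw [if_pos h, if_pos h]
      have : (p : ℝ) = 2 * j := by rw [← h]; push_cast; ring
      rw [this]
      field_simp
      ring
    · rw [if_neg h, if_neg h, mul_zero]
  rw [sum_congr rfl e2]
  rcases Nat.eq_zero_or_pos p with rfl | hp0
  · have e3 : ∑ j ∈ Icc 1 (D / 2), (if 2 * j = 0 then 1 / (((0 : ℕ) : ℝ) ^ 2 - 1) else 0) = 0 := by
      refine sum_eq_zero fun j hj => ?_
      rw [mem_Icc] at hj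
      rw [if_neg (by omega)]
    rw [e3]
    simp only [one_div, CharP.cast_eq_zero, zero_mul, Real.cos_zero, sum_const, card_range, nsmul_eq_mul, mul_one, sub_zero, Even.zero, ↓reduceIte, ne_eq, OfNat.ofNat_ne_zero, not_false_eq_true, zero_pow, one_ne_zero, div_self]
    field_simp
  · rw [quad_cos_sum D hD0 p hp0 (by omega)]
    by_cases hpe : Even p
    · obtain ⟨r, hr⟩ := hpe
      have hr' : p = 2 * r := by omega
      have e3 : ∀ j ∈ Icc 1 (D / 2), (if 2 * j = p then 1 / ((p : ℝ) ^ 2 - 1) else 0) =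
          if j = r then 1 / ((p : ℝ) ^ 2 - 1) else 0 := by
        intro j _
        by_cases h : j = r
        · rw [if_pos h, if_pos (by omega)]
        · rw [if_neg h, if_neg (by (clear * - hr h; omega))]
      rw [sum_congr rfl e3, sum_ite_eq' (Icc 1 (D / 2)) r, if_pos (by rw [mem_Icc]; omega),
        if_pos ⟨r, hr⟩]
      have : (1 - (p : ℝ) ^ 2) = - ((p : ℝ) ^ 2 - 1) := by ring
      rw [this, div_neg]
      ring
    · rw [if_neg hpe]
      have e3 : ∑ j ∈ Icc 1 (D / 2), (if 2 * j = p then 1 / ((p : ℝ) ^ 2 - 1) else 0) = 0 := by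
        refine sum_eq_zero fun j hj => ?_
        rw [if_neg]
        intro h
        exact hpe ⟨j, by omega⟩
      rw [e3]
      simp only [one_div, mul_zero, sub_self]

theorem quad_sum_inv (n : ℕ) :
    ∑ j ∈ Icc 1 n, 1 / (4 * (j : ℝ) ^ 2 - 1) = (n : ℝ) / (2 * (n : ℝ) + 1) := by
  induction n with
  | zero => simp only [Order.lt_one_iff, Icc_eq_empty_of_lt, one_div, sum_empty, CharP.cast_eq_zero, mul_zero, zero_add, div_one]
  | succ n ih =>
    rw [sum_Icc_succ_top (by omega), ih]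
    have h1 : (4 * ((n + 1 : ℕ) : ℝ) ^ 2 - 1) = (2 * n + 1) * (2 * n + 3) := by
      push_cast; ring
    rw [h1]
    push_cast
    field_simp
    ring

theorem fej_pos (D : ℕ) (hD : 2 ≤ D) (he : Even D) (k : ℕ) (hk : k < D) :
    1 / (D : ℝ) ^ 3 ≤ fej D k := by
  have hDR : (2:ℝ) ≤ D := by exact_mod_cast hD
  have h1 : ∑ j ∈ Icc 1 (D / 2),
      Real.cos (2 * (j : ℝ) * (Real.pi * (2 * k + 1) / (2 * D))) / (4 * (j : ℝ) ^ 2 - 1) ≤
      ∑ j ∈ Icc 1 (D / 2), 1 / (4 * (j : ℝ) ^ 2 - 1) := by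
    refine sum_le_sum fun j hj => ?_
    rw [mem_Icc] at hj
    have hj1 : (1:ℝ) ≤ j := by exact_mod_cast hj.1
    have : (0:ℝ) ≤ 4 * (j : ℝ) ^ 2 - 1 := by linarith only [mul_nonneg_of_nonpos_of_nonpos (Mathlib.Tactic.Linarith.sub_nonpos_of_le (Mathlib.Tactic.Linarith.natCast_nonneg ℝ j)) (Mathlib.Tactic.Linarith.sub_nonpos_of_le hj1), hj1]
    exact div_le_div_of_nonneg_right (Real.cos_le_one _) this
  rw [quad_sum_inv] at h1
  have h2 : 2 * ((D / 2 : ℕ) : ℝ) = D := by
    obtain ⟨r, hr⟩ := he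
    have : D / 2 = r := by omega
    rw [this, hr]; push_cast; ring
  have h3 : 2 * (((D / 2 : ℕ) : ℝ) / (2 * ((D / 2 : ℕ) : ℝ) + 1)) = D / (D + 1) := by
    rw [← mul_div_assoc, h2]
  unfold fej
  have h4 : 1 - (D : ℝ) / (D + 1) ≤ 1 - 2 * ∑ j ∈ Icc 1 (D / 2),
      Real.cos (2 * (j : ℝ) * (Real.pi * (2 * k + 1) / (2 * D))) / (4 * (j : ℝ) ^ 2 - 1) := by
    rw [← h3]; linarith only [h1]
  have h5 : 1 - (D : ℝ) / (D + 1) = 1 / (D + 1) := by field_simp; ring
  have h6 : 1 / (D : ℝ) ^ 3 ≤ (1 / (D : ℝ)) * (1 / (D + 1)) := by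
    rw [one_div_mul_one_div]
    apply one_div_le_one_div_of_le
    · positivity
    · linarith only [mul_nonneg (by linarith : (0:ℝ) ≤ D) (by nlinarith : (0:ℝ) ≤ (D:ℝ) ^ 2 - D - 1)]
  calc 1 / (D : ℝ) ^ 3 ≤ (1 / (D : ℝ)) * (1 / (D + 1)) := h6
    _ ≤ _ := by
      apply mul_le_mul_of_nonneg_left
      · rw [← h5]; exact h4
      · positivity

theorem fej_sum (D : ℕ) (hD : 2 ≤ D) (he : Even D) : ∑ k ∈ range D, fej D k = 1 := by
  have h := quad_fej_cos D hD he 0 (by omega)
  simpa only [CharP.cast_eq_zero, zero_mul, Real.cos_zero, mul_one, Even.zero, ↓reduceIte, ne_eq,     OfNat.ofNat_ne_zero, not_false_eq_true, zero_pow, sub_zero, one_ne_zero, div_self] using h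

/-! ### exactness in the latitude -/

theorem quad_int_sin (a : ℝ) (ha : a ≠ 0) :
    ∫ θ in (0:ℝ)..Real.pi, Real.sin (a * θ) = (1 - Real.cos (a * Real.pi)) / a := by
  rw [intervalIntegral.integral_comp_mul_left (fun x => Real.sin x) ha, integral_sin]
  simp only [mul_zero, Real.cos_zero, smul_eq_mul]
  (clear * - ha; field_simp)

theorem quad_int_cos (p : ℕ) :
    (1 / 2) * ∫ θ in (0:ℝ)..Real.pi, Real.cos (p * θ) * Real.sin θ =
      if Even p then 1 / (1 - (p : ℝ) ^ 2) else 0 := by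
  have e1 : ∀ θ : ℝ, Real.cos (p * θ) * Real.sin θ =
      (1 / 2) * Real.sin (((p : ℝ) + 1) * θ) - (1 / 2) * Real.sin (((p : ℝ) - 1) * θ) := by
    intro θ
    rw [add_mul, sub_mul, one_mul, Real.sin_add, Real.sin_sub]
    ring
  simp_rw [e1]
  rw [intervalIntegral.integral_sub (by apply Continuous.intervalIntegrable; fun_prop)
    (by apply Continuous.intervalIntegrable; fun_prop),
    intervalIntegral.integral_const_mul, intervalIntegral.integral_const_mul,
    quad_int_sin _ (by positivity)]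
  have c1 : Real.cos (((p : ℝ) + 1) * Real.pi) = - (-1) ^ p := by
    have := Real.cos_nat_mul_pi (p + 1)
    push_cast at this
    rw [this, pow_succ]; ring
  rw [c1]
  by_cases hp : p = 1
  · subst hp
    simp only [one_div, pow_one, neg_neg, sub_self, Nat.cast_one, zero_div, mul_zero, zero_mul, Real.sin_zero, intervalIntegral.integral_zero, Nat.not_even_one, ↓reduceIte]
  · have hp1 : (p : ℝ) - 1 ≠ 0 := by
      intro h
      apply hp
      have : (p : ℝ) = 1 := by linarith only [h]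
      exact_mod_cast this
    have c2 : Real.cos (((p : ℝ) - 1) * Real.pi) = - (-1) ^ p := by
      have : ((p : ℝ) - 1) * Real.pi = (((p : ℝ) + 1) * Real.pi) - 2 * Real.pi := by ring
      rw [this, Real.cos_sub_two_pi, c1]
    rw [quad_int_sin _ hp1, c2]
    by_cases h : Even p
    · rw [if_pos h, h.neg_one_pow]
      have h3 : (1 - (p : ℝ) ^ 2) ≠ 0 := by
        intro h0
        have : ((p : ℝ) - 1) * (p + 1) = 0 := by linarith only [h0]
        rcases mul_eq_zero.mp this with h | h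
        · exact hp1 h
        · have : (0:ℝ) ≤ p := by (clear * -; (clear * -; positivity))
          linarith only [h]
      have h4 : (p : ℝ) + 1 ≠ 0 := by (clear * -; (clear * -; positivity))
      field_simp
      ring
    · rw [if_neg h, (Nat.not_even_iff_odd.mp h).neg_one_pow]
      simp only [one_div, neg_neg, sub_self, zero_div, mul_zero]

theorem quad_fej_pc (D : ℕ) (hD : 2 ≤ D) (he : Even D) (m : ℕ) : ∀ p : ℕ, m + p < D →
    ∑ k ∈ range D, fej D k * (Real.cos (Real.pi * (2 * k + 1) / (2 * D)) ^ m *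
      Real.cos (p * (Real.pi * (2 * k + 1) / (2 * D)))) =
      (1 / 2) * ∫ θ in (0:ℝ)..Real.pi, (Real.cos θ ^ m * Real.cos (p * θ)) * Real.sin θ := by
  induction m with
  | zero =>
    intro p hp
    simp only [pow_zero, one_mul]
    rw [quad_int_cos, quad_fej_cos D hD he p (by (clear * - hp; omega))]
  | succ m ih =>
    intro p hp
    rcases p with _ | p
    · have := ih 1 (by omega)
      simp only [Nat.cast_one, one_mul, Nat.cast_zero, zero_mul, Real.cos_zero, mul_one] at this ⊢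
      simp only [pow_succ]
      exact this
    · have i1 := ih p (by (clear * - hp; omega))
      have i2 := ih (p + 2) (by omega)
      have key : ∀ x : ℝ, Real.cos x ^ (m + 1) * Real.cos (((p + 1 : ℕ) : ℝ) * x) =
          (1 / 2) * (Real.cos x ^ m * Real.cos ((p : ℝ) * x)) +
          (1 / 2) * (Real.cos x ^ m * Real.cos (((p + 2 : ℕ) : ℝ) * x)) := by
        intro x
        have a1 : ((p + 2 : ℕ) : ℝ) * x = ((p + 1 : ℕ) : ℝ) * x + x := by push_cast; ring
        have a2 : (p : ℝ) * x = ((p + 1 : ℕ) : ℝ) * x - x := by push_cast; ring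
        rw [a1, a2, Real.cos_add, Real.cos_sub, pow_succ]
        ring
      simp_rw [key]
      have l1 : ∑ k ∈ range D, fej D k * ((1 / 2) * (Real.cos (Real.pi * (2 * k + 1) / (2 * D)) ^ m *
          Real.cos ((p : ℝ) * (Real.pi * (2 * k + 1) / (2 * D)))) +
          (1 / 2) * (Real.cos (Real.pi * (2 * k + 1) / (2 * D)) ^ m *
          Real.cos (((p + 2 : ℕ) : ℝ) * (Real.pi * (2 * k + 1) / (2 * D))))) =
          (1 / 2) * ∑ k ∈ range D, fej D k * (Real.cos (Real.pi * (2 * k + 1) / (2 * D)) ^ m *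
          Real.cos ((p : ℝ) * (Real.pi * (2 * k + 1) / (2 * D)))) +
          (1 / 2) * ∑ k ∈ range D, fej D k * (Real.cos (Real.pi * (2 * k + 1) / (2 * D)) ^ m *
          Real.cos (((p + 2 : ℕ) : ℝ) * (Real.pi * (2 * k + 1) / (2 * D)))) := by
        rw [mul_sum, mul_sum, ← sum_add_distrib]
        refine sum_congr rfl fun k _ => ?_
        ring
      rw [l1, i1, i2]
      have l2 : ∫ θ in (0:ℝ)..Real.pi, ((1 / 2) * (Real.cos θ ^ m * Real.cos ((p : ℝ) * θ)) +
          (1 / 2) * (Real.cos θ ^ m * Real.cos (((p + 2 : ℕ) : ℝ) * θ))) * Real.sin θ =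
          (1 / 2) * (∫ θ in (0:ℝ)..Real.pi, (Real.cos θ ^ m * Real.cos ((p : ℝ) * θ)) * Real.sin θ) +
          (1 / 2) * ∫ θ in (0:ℝ)..Real.pi,
            (Real.cos θ ^ m * Real.cos (((p + 2 : ℕ) : ℝ) * θ)) * Real.sin θ := by
        rw [← intervalIntegral.integral_const_mul, ← intervalIntegral.integral_const_mul,
          ← intervalIntegral.integral_add (by apply Continuous.intervalIntegrable; (clear * -; fun_prop))
          (by apply Continuous.intervalIntegrable; fun_prop)]
        congr 1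
        funext θ
        ring
      rw [l2]
      ring

theorem quad_fej_pow (D : ℕ) (hD : 2 ≤ D) (he : Even D) (m : ℕ) (hm : m < D) :
    ∑ k ∈ range D, fej D k * Real.cos (Real.pi * (2 * k + 1) / (2 * D)) ^ m =
      (1 / 2) * ∫ θ in (0:ℝ)..Real.pi, Real.cos θ ^ m * Real.sin θ := by
  have h := quad_fej_pc D hD he m 0 (by omega)
  simpa only [one_div, CharP.cast_eq_zero, zero_mul, Real.cos_zero, mul_one] using h

/-- exactness of the latitude rule on polynomials in `cos θ` -/
theorem fej_exact (D : ℕ) (hD : 2 ≤ D) (he : Even D) (m : ℕ) (hm : m < D) :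
    ∑ k ∈ range D, fej D k * Real.cos (Real.pi * (2 * k + 1) / (2 * D)) ^ m =
      (1 / 2) * ∫ t in (-1 : ℝ)..1, t ^ m := by
  rw [quad_fej_pow D hD he m hm]
  congr 1
  have h := integral_sin_pow_odd_mul_cos_pow (a := 0) (b := Real.pi) 0 m
  simp only [Nat.mul_zero, Nat.zero_add, pow_one, Real.cos_pi, Real.cos_zero, pow_zero,
    mul_one] at h
  rw [← h]
  congr 1
  funext θ
  ring

/-- exactness on `(sin θ)^(2 s) (cos θ)^c` -/
theorem quad_fej_sc (D : ℕ) (hD : 2 ≤ D) (he : Even D) (s : ℕ) : ∀ c : ℕ, 2 * s + c < D →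
    ∑ k ∈ range D, fej D k * (Real.sin (Real.pi * (2 * k + 1) / (2 * D)) ^ (2 * s) *
      Real.cos (Real.pi * (2 * k + 1) / (2 * D)) ^ c) =
      (1 / 2) * ∫ θ in (0:ℝ)..Real.pi, (Real.sin θ ^ (2 * s) * Real.cos θ ^ c) * Real.sin θ := by
  induction s with
  | zero =>
    intro c hc
    simp only [Nat.mul_zero, pow_zero, one_mul]
    exact quad_fej_pow D hD he c (by omega)
  | succ s ih =>
    intro c hc
    have i1 := ih c (by omega)
    have i2 := ih (c + 2) (by omega)
    have key : ∀ x : ℝ, Real.sin x ^ (2 * (s + 1)) * Real.cos x ^ c =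
        Real.sin x ^ (2 * s) * Real.cos x ^ c - Real.sin x ^ (2 * s) * Real.cos x ^ (c + 2) := by
      intro x
      have : Real.sin x ^ (2 * (s + 1)) = Real.sin x ^ (2 * s) * (1 - Real.cos x ^ 2) := by
        rw [← Real.sin_sq]; ring
      rw [this]
      ring
    simp_rw [key]
    have l1 : ∑ k ∈ range D, fej D k * (Real.sin (Real.pi * (2 * k + 1) / (2 * D)) ^ (2 * s) *
        Real.cos (Real.pi * (2 * k + 1) / (2 * D)) ^ c -
        Real.sin (Real.pi * (2 * k + 1) / (2 * D)) ^ (2 * s) *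
        Real.cos (Real.pi * (2 * k + 1) / (2 * D)) ^ (c + 2)) =
        ∑ k ∈ range D, fej D k * (Real.sin (Real.pi * (2 * k + 1) / (2 * D)) ^ (2 * s) *
        Real.cos (Real.pi * (2 * k + 1) / (2 * D)) ^ c) -
        ∑ k ∈ range D, fej D k * (Real.sin (Real.pi * (2 * k + 1) / (2 * D)) ^ (2 * s) *
        Real.cos (Real.pi * (2 * k + 1) / (2 * D)) ^ (c + 2)) := by
      rw [← sum_sub_distrib]
      refine sum_congr rfl fun k _ => ?_
      ring
    rw [l1, i1, i2, ← mul_sub,
      ← intervalIntegral.integral_sub (by apply Continuous.intervalIntegrable; fun_prop)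
        (by apply Continuous.intervalIntegrable; fun_prop)]
    congr 2
    funext θ
    ring

/-! ### exactness in the longitude -/

/-- the equidistant rule with `D` nodes integrates `f` exactly -/
def QuadEx (D : ℕ) (f : ℝ → ℂ) : Prop :=
  Continuous f ∧ (1 / (D : ℂ)) * ∑ j ∈ range D, f (2 * Real.pi * j / D) =
    (1 / (2 * (Real.pi : ℂ))) * ∫ φ in (0:ℝ)..(2 * Real.pi), f φ

theorem quadEx_add {D : ℕ} {f g : ℝ → ℂ} (hf : QuadEx D f) (hg : QuadEx D g) :
    QuadEx D (fun x => f x + g x) := by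
  refine ⟨hf.1.add hg.1, ?_⟩
  rw [sum_add_distrib, mul_add, hf.2, hg.2,
    intervalIntegral.integral_add (hf.1.intervalIntegrable _ _) (hg.1.intervalIntegrable _ _)]
  ring

theorem quadEx_smul {D : ℕ} {f : ℝ → ℂ} (c : ℂ) (hf : QuadEx D f) :
    QuadEx D (fun x => c * f x) := by
  refine ⟨continuous_const.mul hf.1, ?_⟩
  rw [← mul_sum, intervalIntegral.integral_const_mul, mul_left_comm, hf.2]
  ring

theorem quadEx_congr {D : ℕ} {f g : ℝ → ℂ} (hf : QuadEx D f) (h : ∀ x, f x = g x) :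
    QuadEx D g := by
  have : f = g := funext h
  rw [← this]
  exact hf

theorem quadEx_exp (D : ℕ) (hD : 0 < D) (p : ℤ) (hp : |p| < D) :
    QuadEx D (fun x => Complex.exp (p * x * Complex.I)) := by
  refine ⟨by (clear * -; fun_prop), ?_⟩
  have hDC : (D : ℂ) ≠ 0 := by exact_mod_cast hD.ne'
  have hpi : (Real.pi : ℂ) ≠ 0 := by exact_mod_cast Real.pi_ne_zero
  by_cases hp0 : p = 0
  · subst hp0
    simp only [one_div, Int.cast_zero, Complex.ofReal_div, Complex.ofReal_mul, Complex.ofReal_ofNat, Complex.ofReal_natCast, zero_mul, Complex.exp_zero, sum_const, card_range, nsmul_eq_mul, mul_one, mul_inv_rev, intervalIntegral.integral_const, sub_zero, Complex.real_smul]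
    field_simp
  · have hpC : (p : ℂ) ≠ 0 := by exact_mod_cast hp0
    have h1 : ∑ j ∈ range D, Complex.exp ((p : ℂ) * ((2 * Real.pi * j / D : ℝ) : ℂ) * Complex.I) = 0 := by
      set ζ : ℂ := Complex.exp ((p : ℂ) * (2 * Real.pi / D) * Complex.I) with hζ
      have e1 : ∀ j ∈ range D, Complex.exp ((p : ℂ) * ((2 * Real.pi * j / D : ℝ) : ℂ) * Complex.I) =
          ζ ^ j := by
        intro j _
        rw [hζ, ← Complex.exp_nat_mul]
        congr 1
        push_cast
        ring
      rw [sum_congr rfl e1]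
      have hz : ζ ≠ 1 := by
        intro h
        rw [hζ, Complex.exp_eq_one_iff] at h
        obtain ⟨n, hn⟩ := h
        have h2 : (p : ℂ) = n * D := by
          have hI := Complex.I_ne_zero
          field_simp at hn
          linear_combination hn
        have h3 : p = n * D := by exact_mod_cast h2
        have hn0 : n ≠ 0 := by
          rintro rfl
          apply hp0
          simpa using h3
        have h4 : (1 : ℤ) ≤ |n| := Int.one_le_abs hn0
        rw [h3, abs_mul] at hp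
        have h5 : |(D : ℤ)| = D := abs_of_nonneg (by (clear * - hD; positivity))
        rw [h5] at hp
        have hD' : (0 : ℤ) < D := by exact_mod_cast hD
        nlinarith only [hp, h4]
      have hz1 : ζ ^ D = 1 := by
        rw [hζ, ← Complex.exp_nat_mul, Complex.exp_eq_one_iff]
        refine ⟨p, ?_⟩
        (clear * - hDC hpi hpC; field_simp)
      have h6 := geom_sum_eq hz D
      rw [h6, hz1]
      simp
    have h2 : ∫ φ in (0:ℝ)..(2 * Real.pi), Complex.exp ((p : ℂ) * φ * Complex.I) = 0 := by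
      have e2 : ∀ φ : ℝ, Complex.exp ((p : ℂ) * φ * Complex.I) =
          Complex.exp (((p : ℂ) * Complex.I) * φ) := by
        intro φ; congr 1; ring
      simp_rw [e2]
      rw [integral_exp_mul_complex (mul_ne_zero hpC Complex.I_ne_zero)]
      have e3 : Complex.exp (((p : ℂ) * Complex.I) * ((2 * Real.pi : ℝ) : ℂ)) = 1 := by
        rw [Complex.exp_eq_one_iff]
        refine ⟨p, ?_⟩
        push_cast
        ring
      rw [e3]
      simp only [Complex.ofReal_zero, mul_zero, Complex.exp_zero, sub_self, zero_div]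
    rw [h1, h2]
    simp only [one_div, mul_zero, mul_inv_rev]

theorem quadEx_cs0 (D : ℕ) (hD : 0 < D) (a : ℕ) : ∀ p : ℤ, (a : ℤ) + |p| < D →
    QuadEx D (fun x => (Real.cos x : ℂ) ^ a * Complex.exp (p * x * Complex.I)) := by
  induction a with
  | zero =>
    intro p hp
    refine quadEx_congr (quadEx_exp D hD p (by simpa only [CharP.cast_eq_zero, zero_add] using hp)) fun x => ?_
    simp only [Complex.ofReal_cos, pow_zero, one_mul]
  | succ a ih =>
    intro p hp
    push_cast at hp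
    have b1 : |p + 1| ≤ |p| + 1 := by simpa only [abs_one] using abs_add_le p 1
    have b2 : |p - 1| ≤ |p| + 1 := by simpa only [abs_one] using abs_sub p 1
    have i1 := ih (p + 1) (by omega)
    have i2 := ih (p - 1) (by omega)
    refine quadEx_congr (quadEx_smul (1 / 2) (quadEx_add i1 i2)) fun x => ?_
    have e1 : Complex.exp (((p + 1 : ℤ) : ℂ) * x * Complex.I) =
        Complex.exp (p * x * Complex.I) * Complex.exp (x * Complex.I) := by
      rw [← Complex.exp_add]; congr 1; push_cast; ring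
    have e2 : Complex.exp (((p - 1 : ℤ) : ℂ) * x * Complex.I) =
        Complex.exp (p * x * Complex.I) * Complex.exp (-x * Complex.I) := by
      rw [← Complex.exp_add]; congr 1; push_cast; ring
    have e3 : (Real.cos x : ℂ) = (Complex.exp (x * Complex.I) + Complex.exp (-x * Complex.I)) / 2 := by
      rw [Complex.ofReal_cos]; rfl
    rw [e1, e2, pow_succ, e3]
    ring

theorem quadEx_cs (D : ℕ) (hD : 0 < D) (a b : ℕ) : ∀ p : ℤ, (a : ℤ) + b + |p| < D →
    QuadEx D (fun x => (Real.cos x : ℂ) ^ a * (Real.sin x : ℂ) ^ b *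
      Complex.exp (p * x * Complex.I)) := by
  induction b with
  | zero =>
    intro p hp
    refine quadEx_congr (quadEx_cs0 D hD a p (by simpa only [CharP.cast_eq_zero, add_zero] using hp)) fun x => ?_
    simp
  | succ b ih =>
    intro p hp
    push_cast at hp
    have b1 : |p + 1| ≤ |p| + 1 := by simpa only [abs_one] using abs_add_le p 1
    have b2 : |p - 1| ≤ |p| + 1 := by simpa only [abs_one] using abs_sub p 1
    have i1 := ih (p + 1) (by omega)
    have i2 := ih (p - 1) (by omega)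
    refine quadEx_congr (quadEx_add (quadEx_smul (-Complex.I / 2) i1)
      (quadEx_smul (Complex.I / 2) i2)) fun x => ?_
    have e1 : Complex.exp (((p + 1 : ℤ) : ℂ) * x * Complex.I) =
        Complex.exp (p * x * Complex.I) * Complex.exp (x * Complex.I) := by
      rw [← Complex.exp_add]; congr 1; push_cast; ring
    have e2 : Complex.exp (((p - 1 : ℤ) : ℂ) * x * Complex.I) =
        Complex.exp (p * x * Complex.I) * Complex.exp (-x * Complex.I) := by
      rw [← Complex.exp_add]; congr 1; push_cast; ring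
    have e3 : (Real.sin x : ℂ) = ((Complex.exp (-x * Complex.I) - Complex.exp (x * Complex.I)) *
        Complex.I) / 2 := by
      rw [Complex.ofReal_sin]; rfl
    rw [e1, e2]
    have e4 : ∀ C S E F G : ℂ, S = ((G - F) * Complex.I) / 2 →
        (-Complex.I / 2) * (C * S ^ b * (E * F)) + (Complex.I / 2) * (C * S ^ b * (E * G)) =
        C * S ^ (b + 1) * E := by
      intro C S E F G h
      rw [pow_succ]
      linear_combination (-(C * S ^ b * E)) * h
    exact e4 _ _ _ _ _ e3

theorem quad_circ (D : ℕ) (hD : 0 < D) (a b : ℕ) (hab : a + b < D) :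
    (1 / (D : ℝ)) * ∑ j ∈ range D, Real.cos (2 * Real.pi * j / D) ^ a *
      Real.sin (2 * Real.pi * j / D) ^ b =
    (1 / (2 * Real.pi)) * ∫ φ in (0:ℝ)..(2 * Real.pi), Real.cos φ ^ a * Real.sin φ ^ b := by
  have h := (quadEx_cs D hD a b 0 (by simp only [abs_zero, add_zero]; exact_mod_cast hab)).2
  simp only [Int.cast_zero, zero_mul, Complex.exp_zero, mul_one] at h
  have h1 : ∫ φ in (0:ℝ)..(2 * Real.pi), (Real.cos φ : ℂ) ^ a * (Real.sin φ : ℂ) ^ b =
      ((∫ φ in (0:ℝ)..(2 * Real.pi), Real.cos φ ^ a * Real.sin φ ^ b : ℝ) : ℂ) := by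
    rw [← intervalIntegral.integral_ofReal]
    congr 1
    funext φ
    push_cast
    rfl
  rw [h1] at h
  have h2 : ((((1 / (D : ℝ)) * ∑ j ∈ range D, Real.cos (2 * Real.pi * j / D) ^ a *
      Real.sin (2 * Real.pi * j / D) ^ b : ℝ)) : ℂ) =
      (((1 / (2 * Real.pi)) * ∫ φ in (0:ℝ)..(2 * Real.pi), Real.cos φ ^ a * Real.sin φ ^ b : ℝ) : ℂ) := by
    push_cast at h ⊢
    exact h
  exact_mod_cast h2

theorem quad_circ_odd (a b : ℕ) (h : ¬ (Even a ∧ Even b)) :
    ∫ φ in (0:ℝ)..(2 * Real.pi), Real.cos φ ^ a * Real.sin φ ^ b = 0 := by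
  have e : ∀ φ : ℝ, Real.cos φ ^ a * Real.sin φ ^ b = Real.sin φ ^ b * Real.cos φ ^ a := by
    intro φ; ring
  simp_rw [e]
  by_cases ha : Even a
  · have hb : ¬ Even b := fun hb => h ⟨ha, hb⟩
    obtain ⟨r, hr⟩ := Nat.not_even_iff_odd.mp hb
    rw [hr, integral_sin_pow_odd_mul_cos_pow]
    simp
  · obtain ⟨r, hr⟩ := Nat.not_even_iff_odd.mp ha
    rw [hr, integral_sin_pow_mul_cos_pow_odd]
    simp

/-! ### the sphere -/

/-- exact value of the sphere average of a monomial -/
noncomputable def quadM (a b c : ℕ) : ℝ :=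
  ((1 / 2) * ∫ θ in (0:ℝ)..Real.pi, (Real.sin θ ^ (a + b) * Real.cos θ ^ c) * Real.sin θ) *
    ((1 / (2 * Real.pi)) * ∫ φ in (0:ℝ)..(2 * Real.pi), Real.cos φ ^ a * Real.sin φ ^ b)

theorem quad_mono (D : ℕ) (hD : 2 ≤ D) (he : Even D) (a b c : ℕ) (h : a + b + c < D) :
    ∑ k ∈ range D, ∑ j ∈ range D, qw D k *
      ((Real.sin (Real.pi * (2 * k + 1) / (2 * D)) * Real.cos (2 * Real.pi * j / D)) ^ a *
      (Real.sin (Real.pi * (2 * k + 1) / (2 * D)) * Real.sin (2 * Real.pi * j / D)) ^ b *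
      Real.cos (Real.pi * (2 * k + 1) / (2 * D)) ^ c) = quadM a b c := by
  have hD0 : 0 < D := by omega
  have e1 : ∑ k ∈ range D, ∑ j ∈ range D, qw D k *
      ((Real.sin (Real.pi * (2 * k + 1) / (2 * D)) * Real.cos (2 * Real.pi * j / D)) ^ a *
      (Real.sin (Real.pi * (2 * k + 1) / (2 * D)) * Real.sin (2 * Real.pi * j / D)) ^ b *
      Real.cos (Real.pi * (2 * k + 1) / (2 * D)) ^ c) =
      (∑ k ∈ range D, fej D k * (Real.sin (Real.pi * (2 * k + 1) / (2 * D)) ^ (a + b) *
        Real.cos (Real.pi * (2 * k + 1) / (2 * D)) ^ c)) *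
      ((1 / (D : ℝ)) * ∑ j ∈ range D, Real.cos (2 * Real.pi * j / D) ^ a *
      Real.sin (2 * Real.pi * j / D) ^ b) := by
    rw [sum_mul]
    refine sum_congr rfl fun k _ => ?_
    rw [mul_sum, mul_sum]
    refine sum_congr rfl fun j _ => ?_
    unfold qw
    rw [mul_pow, mul_pow, pow_add]
    ring
  rw [e1, quad_circ D hD0 a b (by (clear * - h; omega))]
  unfold quadM
  by_cases hab : Even a ∧ Even b
  · obtain ⟨⟨r, hr⟩, ⟨s, hs⟩⟩ := hab
    have hab2 : a + b = 2 * (r + s) := by omega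
    rw [hab2, quad_fej_sc D hD he (r + s) c (by omega)]
  · rw [quad_circ_odd a b hab]
    simp only [one_div, mul_inv_rev, mul_zero]

theorem quad_sph_sum {ι : Type} (S : Finset ι) (w : ι → ℝ) (a b c : ι → ℕ) :
    sph (fun u : R3 => ∑ m ∈ S, w m * (u 0 ^ a m * u 1 ^ b m * u 2 ^ c m)) =
      ∑ m ∈ S, w m * quadM (a m) (b m) (c m) := by
  unfold sph
  have e1 : ∀ θ φ : ℝ, Real.sin θ • (∑ m ∈ S, w m * ((sp θ φ) 0 ^ a m * (sp θ φ) 1 ^ b m *
      (sp θ φ) 2 ^ c m)) = ∑ m ∈ S, (w m * (Real.sin θ ^ (a m + b m) * Real.cos θ ^ c m * Real.sin θ)) *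
        (Real.cos φ ^ a m * Real.sin φ ^ b m) := by
    intro θ φ
    rw [smul_eq_mul, mul_sum]
    refine sum_congr rfl fun m _ => ?_
    have h0 : (sp θ φ) 0 = Real.sin θ * Real.cos φ := rfl
    have h1 : (sp θ φ) 1 = Real.sin θ * Real.sin φ := rfl
    have h2 : (sp θ φ) 2 = Real.cos θ := rfl
    rw [h0, h1, h2, mul_pow, mul_pow, pow_add]
    ring
  simp_rw [e1]
  have e2 : ∀ θ : ℝ, ∫ φ in (0:ℝ)..(2 * Real.pi), ∑ m ∈ S,
      (w m * (Real.sin θ ^ (a m + b m) * Real.cos θ ^ c m * Real.sin θ)) *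
        (Real.cos φ ^ a m * Real.sin φ ^ b m) =
      ∑ m ∈ S, (w m * ∫ φ in (0:ℝ)..(2 * Real.pi), Real.cos φ ^ a m * Real.sin φ ^ b m) *
        (Real.sin θ ^ (a m + b m) * Real.cos θ ^ c m * Real.sin θ) := by
    intro θ
    rw [intervalIntegral.integral_finsetSum]
    · refine sum_congr rfl fun m _ => ?_
      rw [intervalIntegral.integral_const_mul]
      ring
    · intro m _
      apply Continuous.intervalIntegrable
      (clear * -; fun_prop)
  simp_rw [e2]
  rw [intervalIntegral.integral_finsetSum]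
  · rw [smul_eq_mul, mul_sum]
    refine sum_congr rfl fun m _ => ?_
    rw [intervalIntegral.integral_const_mul]
    unfold quadM
    have hpi := Real.pi_ne_zero
    field_simp
    ring
  · intro m _
    apply Continuous.intervalIntegrable
    fun_prop

theorem quad_pe (P : Poly3) (u : R3) :
    pe P u = ∑ m ∈ P.support, P.coeff m * (u 0 ^ m 0 * u 1 ^ m 1 * u 2 ^ m 2) := by
  unfold pe
  rw [MvPolynomial.eval_eq']
  refine sum_congr rfl fun m _ => ?_
  rw [Fin.prod_univ_three]

theorem quad_exact (D : ℕ) (hD : 2 ≤ D) (he : Even D) (P : Poly3) (hP : P.totalDegree < D) :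
    ∑ k ∈ range D, ∑ j ∈ range D, qw D k * pe P (node D k j) = sph (fun u => pe P u) := by
  simp_rw [quad_pe]
  rw [quad_sph_sum P.support (fun m => P.coeff m) (fun m => m 0) (fun m => m 1) (fun m => m 2)]
  have e1 : ∀ k ∈ range D, ∑ j ∈ range D, qw D k * ∑ m ∈ P.support, P.coeff m *
      ((node D k j) 0 ^ m 0 * (node D k j) 1 ^ m 1 * (node D k j) 2 ^ m 2) =
      ∑ m ∈ P.support, P.coeff m * ∑ j ∈ range D, qw D k *
      ((Real.sin (Real.pi * (2 * k + 1) / (2 * D)) * Real.cos (2 * Real.pi * j / D)) ^ m 0 *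
      (Real.sin (Real.pi * (2 * k + 1) / (2 * D)) * Real.sin (2 * Real.pi * j / D)) ^ m 1 *
      Real.cos (Real.pi * (2 * k + 1) / (2 * D)) ^ m 2) := by
    intro k _
    simp_rw [mul_sum]
    rw [sum_comm]
    refine sum_congr rfl fun m _ => sum_congr rfl fun j _ => ?_
    have h0 : (node D k j) 0 = Real.sin (Real.pi * (2 * k + 1) / (2 * D)) *
      Real.cos (2 * Real.pi * j / D) := rfl
    have h1 : (node D k j) 1 = Real.sin (Real.pi * (2 * k + 1) / (2 * D)) *
      Real.sin (2 * Real.pi * j / D) := rfl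
    have h2 : (node D k j) 2 = Real.cos (Real.pi * (2 * k + 1) / (2 * D)) := rfl
    rw [h0, h1, h2]
    ring
  rw [sum_congr rfl e1, sum_comm]
  refine sum_congr rfl fun m hm => ?_
  rw [← mul_sum]
  congr 1
  apply quad_mono D hD he
  have h3 := MvPolynomial.le_totalDegree hm
  rw [Finsupp.sum_fintype _ _ (fun _ => rfl), Fin.sum_univ_three] at h3
  omega

theorem qw_sum (D : ℕ) (hD : 2 ≤ D) (he : Even D) :
    ∑ k ∈ range D, ∑ _j ∈ range D, qw D k = 1 := by
  rw [← fej_sum D hD he]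
  refine sum_congr rfl fun k _ => ?_
  rw [sum_const, card_range, nsmul_eq_mul]
  unfold qw
  have : (D : ℝ) ≠ 0 := by
    have : 0 < D := by omega
    exact_mod_cast this.ne'
  field_simp

end Vale.Agent.P370.Q
end

section

/-!
Half-filled Mott insulator, upper bound.
-/

namespace Vale.Agent.P370.Q

open MeasureTheory Finset ComplexConjugate

namespace Mott

variable {K : ℕ}

/-- antisymmetric family with a given spin state at the identity -/
noncomputable def seed (φ : SpinState K) : Fam K := fun π s =>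
  ∑ g : Equiv.Perm (Fin K), if π = g then ((Equiv.Perm.sign g : ℤ) : ℂ) * φ (s ∘ g.symm) else 0

theorem seed_id (φ : SpinState K) : seed φ id = φ := by
  funext s
  unfold seed
  rw [sum_eq_single 1]
  · simp only [Equiv.Perm.coe_one, ↓reduceIte, Equiv.Perm.sign_one, Units.val_one, Int.cast_one, one_mul]
    rfl
  · intro g _ hg
    rw [if_neg]
    intro h
    apply hg
    ext x
    rw [← h]
    simp only [id_eq, Equiv.Perm.coe_one]
  · simp only [mem_univ, not_true_eq_false, Equiv.Perm.coe_one, ↓reduceIte, Equiv.Perm.sign_one, Units.val_one, Int.cast_one, one_mul, IsEmpty.forall_iff]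

theorem seed_zero (φ : SpinState K) {ρ : Fin K → Fin K} (hρ : ¬ Function.Bijective ρ) :
    seed φ ρ = 0 := by
  funext s
  unfold seed
  refine sum_eq_zero fun g _ => ?_
  rw [if_neg]
  intro h
  exact hρ (h ▸ g.bijective)

theorem seed_anti (φ : SpinState K) : FAnti (seed φ) := by
  intro h ρ s
  unfold seed
  rw [← Equiv.sum_comp (Equiv.mulRight h), mul_sum]
  refine sum_congr rfl fun g _ => ?_
  have h1 : ((fun e => ρ (h e)) = ⇑(Equiv.mulRight h g)) ↔ ρ = g := by
    constructor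
    · intro hh
      funext x
      have := congrFun hh (h.symm x)
      simpa using this
    · intro hh
      rw [hh]
      rfl
  by_cases hg : ρ = g
  · rw [if_pos (h1.2 hg), if_pos hg]
    have h2 : (fun e => s (h e)) ∘ ⇑(Equiv.mulRight h g).symm = s ∘ g.symm := by
      funext x
      simp only [Function.comp, Equiv.coe_mulRight]
      congr 1
      change h (h.symm (g.symm x)) = g.symm x
      exact h.apply_symm_apply _
    rw [h2]
    simp only [Equiv.coe_mulRight, map_mul]
    push_cast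
    ring
  · rw [if_neg (fun hh => hg (h1.1 hh)), if_neg hg, mul_zero]

theorem hop_smul (t : Fin K → Fin K → ℝ) (r : ℝ) (c : Fam K) :
    hop t (fun ρ s => (r : ℂ) * c ρ s) = fun ρ s => (r : ℂ) * hop t c ρ s := by
  funext ρ s
  rw [hop_apply, hop_apply, mul_sum]
  refine sum_congr rfl fun e _ => ?_
  rw [mul_sum]
  exact sum_congr rfl fun b _ => by ring

theorem en0_smul (W t : Fin K → Fin K → ℝ) (ε0 r : ℝ) (C : Fam K) :
    en0 W t ε0 (fun ρ s => (r : ℂ) * C ρ s) = r ^ 2 * en0 W t ε0 C := by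
  unfold en0
  rw [hop_smul, mul_add, mul_sum, mul_sum]
  congr 1
  · refine sum_congr rfl fun ρ _ => ?_
    rw [spinNsq_smul]
    ring
  · refine sum_congr rfl fun ρ _ => ?_
    rw [rp_smul_left, rp_smul_right]
    ring

end Mott

namespace Mott

variable {K : ℕ}

/-- normalised trial family from the family `C` of squared norm `n + Z` -/
theorem normalise {h W t : Fin K → Fin K → ℝ} {v : Fin K → Fin K → Fin K → Fin K → ℝ}
    {ε0 w0 w1 u τ δ : ℝ} (H : MottHyp K h W t v ε0 w0 w1 u τ δ) {C : Fam K} (hC : FAnti C)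
    {n Z X E : ℝ} (hn : 0 < n) (hZ : 0 ≤ Z) (hX : Z ≤ n * X) (hE : 0 ≤ E)
    (hCn : ∑ ρ, spinNsq (C ρ) = n + Z) {m : ℝ} (hm : 0 ≤ m)
    (hen : en0 W t ε0 C ≤ mottBase W ε0 * (n + Z) - n * m + E * Z) :
    ∃ c : Tens K (Fin K × Fin 2), IsAnti c ∧ nsq c = 1 ∧
      enT h v c ≤ mottBase W ε0 - m + X * (m + E) + 2 * K ^ 4 * δ := by
  set r : ℝ := (Real.sqrt (n + Z))⁻¹ with hr
  have hr2 : r ^ 2 * (n + Z) = 1 := by
    rw [hr, inv_pow, Real.sq_sqrt (by (clear * - hn hZ; positivity))]
    exact inv_mul_cancel₀ (by (clear * - hn hZ; positivity))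
  set D : Fam K := fun ρ s => (r : ℂ) * C ρ s with hD
  have hDa : FAnti D := by
    intro g ρ s
    simp only [hD]
    rw [hC g]
    ring
  have hDn : nsq (ofFam D) = 1 := by
    rw [nsq_split, toFam_ofFam, ← hr2, ← hCn, mul_sum]
    exact sum_congr rfl fun ρ _ => spinNsq_smul _ _
  refine ⟨ofFam D, ofFam_anti hDa, hDn, ?_⟩
  have herr := (abs_le.1 (enT_error H (ofFam D))).2
  rw [toFam_ofFam, hDn, hD, en0_smul] at herr
  have hrn : r ^ 2 * n ≤ 1 := by
    rw [← hr2]
    exact mul_le_mul_of_nonneg_left (by linarith only [hZ]) (by (clear * - hn hZ; positivity))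
  have hX0 : 0 ≤ X := by
    by_contra hneg
    push Not at hneg
    nlinarith only [hZ, hX, hn, hneg]
  have hrZ : r ^ 2 * Z ≤ X := by
    calc r ^ 2 * Z ≤ r ^ 2 * (n * X) := mul_le_mul_of_nonneg_left hX (by (clear * - hn hZ; positivity))
      _ = (r ^ 2 * n) * X := by ring
      _ ≤ 1 * X := mul_le_mul_of_nonneg_right hrn hX0
      _ = _ := one_mul _
  have hE' := mul_le_mul_of_nonneg_left hen (sq_nonneg r)
  have e3 : r ^ 2 * (mottBase W ε0 * (n + Z) - n * m + E * Z) = mottBase W ε0 - m +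
      r ^ 2 * Z * (m + E) := by
    linear_combination (mottBase W ε0 - m) * hr2
  rw [e3] at hE'
  have e4 : r ^ 2 * Z * (m + E) ≤ X * (m + E) := mul_le_mul_of_nonneg_right hrZ (by (clear * - hm hE; positivity))
  linarith only [herr, hE', e4]

theorem t_bounds {h W t : Fin K → Fin K → ℝ} {v : Fin K → Fin K → Fin K → Fin K → ℝ}
    {ε0 w0 w1 u τ δ : ℝ} (H : MottHyp K h W t v ε0 w0 w1 u τ δ) (i j : Fin K) :
    t i j ^ 2 / (w0 - W i j) ≤ τ ^ 2 / u ∧ (t i j / (w0 - W i j)) ^ 2 ≤ (τ / u) ^ 2 := by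
  have hu := H.u_pos
  by_cases hij : i = j
  · subst hij
    rw [H.t_diag]
    constructor
    · simp only [ne_eq, OfNat.ofNat_ne_zero, not_false_eq_true, zero_pow, zero_div]
      (clear * - hu; positivity)
    · simp only [zero_div, ne_eq, OfNat.ofNat_ne_zero, not_false_eq_true, zero_pow]
      (clear * -; positivity)
  · have hU := u_le H hij
    have htt : t i j ^ 2 ≤ τ ^ 2 := by
      rw [← sq_abs]
      exact pow_le_pow_left₀ (abs_nonneg _) (H.t_le i j) 2
    have hU0 : 0 < w0 - W i j := by (clear * - hu hU; linarith)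
    constructor
    · exact div_le_div₀ (by (clear * -; positivity)) htt hu hU
    · rw [div_pow, div_pow]
      exact div_le_div₀ (by (clear * -; positivity)) htt (by positivity) (pow_le_pow_left₀ hu.le hU 2)

theorem sum_sq_le {a : Fin K → Fin K → ℝ} {X : ℝ} (hX : 0 ≤ X) (ha : ∀ i j, a i j ≤ X)
    {φ : SpinState K} (hφ : spinNsq φ = 1) :
    ∑ i, ∑ j, a i j * sw φ i j ≤ 2 * (K : ℝ) ^ 2 * X := by
  have : ∀ i j, a i j * sw φ i j ≤ 2 * X := by
    intro i j
    have hs := sw_bounds φ i j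
    rw [hφ] at hs
    calc a i j * sw φ i j ≤ X * sw φ i j := mul_le_mul_of_nonneg_right (ha i j) hs.1
      _ ≤ X * (2 * 1) := mul_le_mul_of_nonneg_left hs.2 hX
      _ = _ := by ring
  refine (sum_le_sum fun i _ => sum_le_sum fun j _ => this i j).trans (le_of_eq ?_)
  simp only [sum_const, card_univ, Fintype.card_fin, nsmul_eq_mul]
  ring

/-- the trial family -/
theorem trial {h W t : Fin K → Fin K → ℝ} {v : Fin K → Fin K → Fin K → Fin K → ℝ}
    {ε0 w0 w1 u τ δ : ℝ} (H : MottHyp K h W t v ε0 w0 w1 u τ δ) {φ : SpinState K}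
    (hφ1 : spinNsq φ = 1) :
    ∃ (C : Fam K) (Z : ℝ), FAnti C ∧ 0 ≤ Z ∧ Z ≤ nB K * (2 * (K : ℝ) ^ 2 * (τ / u) ^ 2) ∧
      ∑ ρ, spinNsq (C ρ) = nB K + Z ∧
      en0 W t ε0 C ≤ mottBase W ε0 * (nB K + Z) - nB K * heisE (mottJ W t w0) φ +
        ((K : ℝ) ^ 2 * τ) * Z := by
  have hu := H.u_pos
  set t' : Fin K → Fin K → ℝ := fun i j => t i j / (w0 - W i j - 0) with ht'
  have ht's : ∀ i j, t' i j = t' j i := fun i j => by simp only [ht', H.t_symm i j, H.W_symm i j]
  have ht'0 : ∀ i, t' i i = 0 := fun i => by simp only [ht', H.t_diag, zero_div]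
  set p := seed φ with hp
  have hpa : FAnti p := seed_anti φ
  have hbp : bp p = p := by
    funext ρ
    unfold bp
    split_ifs with hρ
    · rfl
    · exact (seed_zero φ hρ).symm
  set z := hop t' p with hz
  have hza : FAnti z := hop_anti t' hpa
  have hzb : ∀ ρ, Function.Bijective ρ → z ρ = 0 := by
    intro ρ hρ
    rw [hz, ← hbp]
    exact hop_bp_bij t' ht'0 p hρ
  set q : Fam K := fun ρ s => ((-1 : ℝ) : ℂ) * z ρ s with hq
  have hqb : ∀ ρ, Function.Bijective ρ → q ρ = 0 := by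
    intro ρ hρ
    funext s
    simp [hq, hzb ρ hρ]
  have hCa : FAnti (p + q) := by
    intro g ρ s
    rw [Pi.add_apply, Pi.add_apply, Pi.add_apply, Pi.add_apply, hpa g]
    simp only [hq]
    rw [hza g]
    ring
  have hCp : bp (p + q) = p := by
    funext ρ
    unfold bp
    split_ifs with hρ
    · rw [Pi.add_apply, hqb ρ hρ, add_zero]
    · exact (seed_zero φ hρ).symm
  have hCq : bq (p + q) = q := by
    funext ρ
    unfold bq
    split_ifs with hρ
    · exact (hqb ρ hρ).symm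
    · rw [Pi.add_apply, hp, seed_zero φ hρ, zero_add]
  have hid : p id = φ := seed_id φ
  have hso1 := second_order ht's H.t_symm ht'0 hpa
  have hso2 := second_order ht's ht's ht'0 hpa
  rw [hbp, hid, ← hz] at hso1 hso2
  have hJ1 : ∑ i, ∑ j, t' i j * t i j * sw φ i j = heisE (mottJ W t w0) φ := by
    rw [← mottJ_form H.W_symm H.t_symm H.t_diag]
    refine sum_congr rfl fun i _ => sum_congr rfl fun j _ => ?_
    simp only [ht', sub_zero]
    ring
  have hqz : ∀ ρ, spinNsq (q ρ) = spinNsq (z ρ) := by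
    intro ρ
    change spinNsq (fun s => ((-1 : ℝ) : ℂ) * z ρ s) = _
    rw [spinNsq_smul]
    ring
  refine ⟨p + q, ∑ ρ, spinNsq (z ρ), hCa, sum_nonneg fun ρ _ => spinNsq_nonneg _, ?_, ?_, ?_⟩
  · have e0 : ∑ ρ, spinNsq (z ρ) = ∑ ρ, rp (z ρ) (z ρ) :=
      sum_congr rfl fun ρ _ => (rp_self _).symm
    rw [e0, hso2]
    refine mul_le_mul_of_nonneg_left ?_ (Nat.cast_nonneg _)
    refine sum_sq_le (by (clear * -; positivity)) (fun i j => ?_) hφ1
    have := (t_bounds H i j).2
    simp only [ht', sub_zero]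
    rw [← sq]
    exact this
  · have e1 : ∑ ρ, spinNsq (p ρ) = nB K := by
      have := sum_bp_sq hpa
      rw [hbp, hid, hφ1, mul_one] at this
      exact this
    rw [← e1, ← sum_add_distrib]
    refine sum_congr rfl fun ρ _ => ?_
    rw [← hqz]
    by_cases hρ : Function.Bijective ρ
    · rw [Pi.add_apply, hqb ρ hρ, add_zero, spinNsq_zero, add_zero]
    · rw [Pi.add_apply, hp, seed_zero φ hρ, zero_add, spinNsq_zero, zero_add]
  · have hsplit := en0_split H (p + q)
    have hCn : ∑ ρ, spinNsq ((p + q) ρ) = nB K + ∑ ρ, spinNsq (z ρ) := by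
      have e1 : ∑ ρ, spinNsq (p ρ) = nB K := by
        have := sum_bp_sq hpa
        rw [hbp, hid, hφ1, mul_one] at this
        exact this
      rw [← e1, ← sum_add_distrib]
      refine sum_congr rfl fun ρ _ => ?_
      rw [← hqz]
      by_cases hρ : Function.Bijective ρ
      · rw [Pi.add_apply, hqb ρ hρ, add_zero, spinNsq_zero, add_zero]
      · rw [Pi.add_apply, hp, seed_zero φ hρ, zero_add, spinNsq_zero, zero_add]
    rw [hCp, hCq, hCn] at hsplit
    have hres := hop_res H (a := 0) hu p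
    rw [hbp, ← ht', ← hz] at hres
    have hE2 : ∑ ρ, (ws W ρ - ws W id) * spinNsq (q ρ) + 2 * ∑ ρ, rp (q ρ) (hop t p ρ) =
        -(nB K * heisE (mottJ W t w0) φ) := by
      rw [← hJ1, ← hso1, mul_sum, ← sum_add_distrib, ← sum_neg_distrib]
      refine sum_congr rfl fun ρ _ => ?_
      rw [hqz, hres ρ, rp_smul_right, rp_smul_right]
      change (ws W ρ - ws W id) * spinNsq (z ρ) + 2 * ((ws W ρ - ws W id - 0) *
        rp (fun s => ((-1 : ℝ) : ℂ) * z ρ s) (z ρ)) = -((ws W ρ - ws W id - 0) * rp (z ρ) (z ρ))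
      rw [rp_smul_left, rp_self]
      ring
    have hE3 : ∑ ρ, rp (q ρ) (hop t q ρ) ≤ (K : ℝ) ^ 2 * τ * ∑ ρ, spinNsq (z ρ) := by
      have := (abs_le.1 (hop_bound H.t_le q)).2
      simp only [hqz] at this
      exact this
    rw [hsplit]
    linarith only [hE2, hE3]

end Mott

open Mott in
theorem mott_upper {K : ℕ} {h W t : Fin K → Fin K → ℝ}
    {v : Fin K → Fin K → Fin K → Fin K → ℝ} {ε0 w0 w1 u τ δ : ℝ}
    (H : MottHyp K h W t v ε0 w0 w1 u τ δ) :
    ∃ c : Tens K (Fin K × Fin 2), IsAnti c ∧ nsq c = 1 ∧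
      enT h v c ≤ mottBase W ε0 - heisMax (mottJ W t w0) + 8 * K ^ 4 * (τ ^ 3 / u ^ 2 + δ) := by
  have hu := H.u_pos
  have hK : (2 : ℝ) ≤ K := by exact_mod_cast H.two_le
  have hτ : 0 ≤ τ := (abs_nonneg _).trans (H.t_le ⟨0, by have := H.two_le; omega⟩
    ⟨0, by have := H.two_le; omega⟩)
  have hK4 : (4 : ℝ) ≤ (K : ℝ) ^ 2 := by linarith only [mul_nonneg_of_nonpos_of_nonpos (Mathlib.Tactic.Linarith.sub_nonpos_of_le (Mathlib.Tactic.Linarith.natCast_nonneg ℝ K)) (Mathlib.Tactic.Linarith.sub_nonpos_of_le hK), hK]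
  have hτu : τ ≤ u / 8 := by
    have := H.τ_le
    linarith only [mul_nonneg_of_nonpos_of_nonpos (Mathlib.Tactic.Linarith.sub_nonpos_of_le hτ) (Mathlib.Tactic.Linarith.sub_nonpos_of_le hK4), this]
  obtain ⟨φ, hφ1, hφ2⟩ := heisMax_attained (mottJ W t w0)
  obtain ⟨C, Z, hCa, hZ0, hZ, hCn, hen⟩ := trial H hφ1
  rw [hφ2] at hen
  have hnB : (0 : ℝ) < nB K := by exact_mod_cast nB_pos
  have hm0 : 0 ≤ heisMax (mottJ W t w0) := heisMax_nonneg fun i j hij => by
    have := u_le H hij.ne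
    unfold mottJ
    exact div_nonneg (by (clear * -; positivity)) (by linarith only [hu, this])
  have hhm : heisMax (mottJ W t w0) ≤ 2 * (K : ℝ) ^ 2 * (τ ^ 2 / u) := by
    rw [← hφ2, ← mottJ_form H.W_symm H.t_symm H.t_diag]
    exact sum_sq_le (by (clear * - hu; positivity)) (fun i j => (t_bounds H i j).1) hφ1
  obtain ⟨c, hc1, hc2, hc3⟩ := normalise H hCa hnB hZ0 hZ
    (show 0 ≤ (K : ℝ) ^ 2 * τ by (clear * - hK hτ; positivity)) hCn hm0 hen
  refine ⟨c, hc1, hc2, hc3.trans ?_⟩
  have e1 : heisMax (mottJ W t w0) + (K : ℝ) ^ 2 * τ ≤ 2 * ((K : ℝ) ^ 2 * τ) := by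
    have : 2 * (K : ℝ) ^ 2 * (τ ^ 2 / u) ≤ (K : ℝ) ^ 2 * τ := by
      have e2 : τ ^ 2 / u ≤ τ / 8 := by
        rw [div_le_iff₀ hu]
        linarith only [mul_nonneg_of_nonpos_of_nonpos (Mathlib.Tactic.Linarith.sub_nonpos_of_le hτ) (Mathlib.Tactic.Linarith.sub_nonpos_of_le hτu)]
      calc 2 * (K : ℝ) ^ 2 * (τ ^ 2 / u) ≤ 2 * (K : ℝ) ^ 2 * (τ / 8) :=
            mul_le_mul_of_nonneg_left e2 (by (clear * - hK; positivity))
        _ ≤ _ := by linarith only [mul_nonneg (sq_nonneg (K : ℝ)) hτ]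
    linarith only [hhm, this]
  have hfin : 2 * (K : ℝ) ^ 2 * (τ / u) ^ 2 * (heisMax (mottJ W t w0) + (K : ℝ) ^ 2 * τ) ≤
      4 * K ^ 4 * (τ ^ 3 / u ^ 2) := by
    calc 2 * (K : ℝ) ^ 2 * (τ / u) ^ 2 * (heisMax (mottJ W t w0) + (K : ℝ) ^ 2 * τ) ≤
        2 * (K : ℝ) ^ 2 * (τ / u) ^ 2 * (2 * ((K : ℝ) ^ 2 * τ)) :=
          mul_le_mul_of_nonneg_left e1 (by (clear * - hK; positivity))
      _ = _ := by
        field_simp
        ring
  have hpos : 0 ≤ (K : ℝ) ^ 4 * (τ ^ 3 / u ^ 2) := by (clear * - hK hτ hu; positivity)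
  have hpos2 : 0 ≤ (K : ℝ) ^ 4 * δ := by
    have := H.δ_nonneg
    (clear * - hK this; positivity)
  linarith only [hfin, hpos, hpos2]

end Vale.Agent.P370.Q
end

section

/-!
Projection of the open shell onto low lying orbitals.
-/

namespace Vale.Agent.P370.Q

open MeasureTheory Finset ComplexConjugate

namespace OpenS

open Function

section generic

variable {N : ℕ} {ι : Type} [Fintype ι] [DecidableEq ι]

/-- one-particle term -/
noncomputable def o1 (h : ι → ι → ℝ) (i : Fin N) (c : Tens N ι) (I : Fin N → ι) : ℝ :=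
  ∑ a, h (I i) a * (conj (c I) * c (update I i a)).re

/-- two-particle term -/
noncomputable def o2 (v : ι → ι → ι → ι → ℝ) (i j : Fin N) (c : Tens N ι) (I : Fin N → ι) : ℝ :=
  ∑ a, ∑ b, v (I i) a (I j) b * (conj (c I) * c (update (update I i a) j b)).re

theorem oneE_eq (h : ι → ι → ℝ) (c : Tens N ι) : oneE h c = ∑ i, ∑ I, o1 h i c I := by
  unfold oneE o1
  simp only [Complex.re_sum, Complex.re_ofReal_mul]
  rw [Finset.sum_comm]

theorem twoE_eq (v : ι → ι → ι → ι → ℝ) (c : Tens N ι) :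
    twoE v c = ∑ i, ∑ j ∈ Ioi i, ∑ I, o2 v i j c I := by
  unfold twoE o2
  simp only [Complex.re_sum, Complex.re_ofReal_mul]
  rw [Finset.sum_comm]
  refine Finset.sum_congr rfl fun i _ => ?_
  rw [Finset.sum_comm]

/-- the swap `(I, a) ↦ (update I i a, I i)` -/
def swp (i : Fin N) (x : (Fin N → ι) × ι) : (Fin N → ι) × ι := (update x.1 i x.2, x.1 i)

omit [Fintype ι] [DecidableEq ι] in
theorem swp_invol (i : Fin N) : Function.Involutive (swp (ι := ι) i) := by
  rintro ⟨I, a⟩
  simp only [swp, update_idem, update_eq_self, update_self]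

omit [DecidableEq ι] in
theorem sum_update (i : Fin N) (F : (Fin N → ι) → ℝ) :
    ∑ I, ∑ a, F (update I i a) = Fintype.card ι * ∑ I, F I := by
  have h1 : ∑ I, ∑ a, F (update I i a) = ∑ x : (Fin N → ι) × ι, F (swp i x).1 := by
    rw [Fintype.sum_prod_type]
    rfl
  have h2 : ∑ x : (Fin N → ι) × ι, F (swp i x).1 = ∑ x : (Fin N → ι) × ι, F x.1 :=
    Equiv.sum_comp (Function.Involutive.toPerm _ (swp_invol (ι := ι) i)) (fun x => F x.1)
  rw [h1, h2, Fintype.sum_prod_type]
  simp only [sum_const, card_univ, nsmul_eq_mul, mul_sum]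

theorem sum_le_fiber (i : Fin N) (F G : (Fin N → ι) → ℝ)
    (H : ∀ I, ∑ a, G (update I i a) ≤ ∑ a, F (update I i a)) : ∑ I, G I ≤ ∑ I, F I := by
  rcases isEmpty_or_nonempty ι with he | he
  · have : IsEmpty (Fin N → ι) := ⟨fun I => he.elim (I i)⟩
    simp
  · have hpos : (0 : ℝ) < Fintype.card ι := by exact_mod_cast Fintype.card_pos
    have h1 := Finset.sum_le_sum (s := (univ : Finset (Fin N → ι))) fun I _ => H I
    rw [sum_update, sum_update] at h1
    exact le_of_mul_le_mul_left h1 hpos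

end generic

section spin

variable {N : ℕ} {A : Type} [Fintype A] [DecidableEq A]

theorem sum_le_fiber1 (i : Fin N) (F G : (Fin N → A × Fin 2) → ℝ)
    (H : ∀ I s, ∑ p, G (update I i (p, s)) ≤ ∑ p, F (update I i (p, s))) :
    ∑ I, G I ≤ ∑ I, F I := by
  refine sum_le_fiber i F G fun I => ?_
  rw [Fintype.sum_prod_type_right, Fintype.sum_prod_type_right]
  exact Finset.sum_le_sum fun s _ => H I s

theorem sum_le_fiber2 (i j : Fin N) (F G : (Fin N → A × Fin 2) → ℝ)
    (H : ∀ I s t, ∑ p, ∑ q, G (update (update I i (p, s)) j (q, t)) ≤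
      ∑ p, ∑ q, F (update (update I i (p, s)) j (q, t))) :
    ∑ I, G I ≤ ∑ I, F I := by
  have h1 : ∑ I, ∑ b, G (update I j b) ≤ ∑ I, ∑ b, F (update I j b) := by
    refine sum_le_fiber1 i (fun I => ∑ b, F (update I j b)) (fun I => ∑ b, G (update I j b))
      fun I s => ?_
    simp only [Fintype.sum_prod_type_right]
    rw [Finset.sum_comm, Finset.sum_comm (s := (univ : Finset A))]
    exact Finset.sum_le_sum fun t _ => H I s t
  rcases isEmpty_or_nonempty (A × Fin 2) with he | he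
  · have : IsEmpty (Fin N → A × Fin 2) := ⟨fun I => he.elim (I i)⟩
    simp
  · have hpos : (0 : ℝ) < Fintype.card (A × Fin 2) := by exact_mod_cast Fintype.card_pos
    rw [sum_update, sum_update] at h1
    exact le_of_mul_le_mul_left h1 hpos

omit [DecidableEq A] in
theorem fib1 (h : A → A → ℝ) (i : Fin N) (c : Tens N (A × Fin 2)) (I : Fin N → A × Fin 2)
    (s : Fin 2) :
    ∑ p, o1 (spin1 h) i c (update I i (p, s)) =
      qf h (fun p => (c (update I i (p, s))).re) + qf h (fun p => (c (update I i (p, s))).im) := by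
  unfold o1 qf
  rw [← Finset.sum_add_distrib]
  refine Finset.sum_congr rfl fun p _ => ?_
  rw [← Finset.sum_add_distrib, Fintype.sum_prod_type]
  refine Finset.sum_congr rfl fun q _ => ?_
  rw [Finset.sum_eq_single s]
  · simp only [update_self, update_idem, spin1, if_true, Complex.mul_re, Complex.conj_re,
      Complex.conj_im]
    ring
  · intro t _ ht
    simp only [update_self, spin1]
    rw [if_neg (fun h' => ht h'.symm), zero_mul]
  · simp only [mem_univ, not_true_eq_false, update_self, update_idem, Complex.mul_re, Complex.conj_re, Complex.conj_im, neg_mul, sub_neg_eq_add, mul_eq_zero, IsEmpty.forall_iff]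

theorem upd4 {i j : Fin N} (hij : i ≠ j) {ι : Type} (I : Fin N → ι) (x y a b : ι) :
    update (update (update (update I i x) j y) i a) j b = update (update I i a) j b := by
  funext k
  by_cases hk : k = j
  · subst hk
    simp
  · rw [update_of_ne hk, update_of_ne hk]
    by_cases hi : k = i
    · subst hi
      simp
    · rw [update_of_ne hi, update_of_ne hi, update_of_ne hk, update_of_ne hi]

omit [DecidableEq A] in
theorem fib2 (v : A → A → A → A → ℝ) {i j : Fin N} (hij : i ≠ j) (c : Tens N (A × Fin 2))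
    (I : Fin N → A × Fin 2) (s t : Fin 2) :
    ∑ p, ∑ q, o2 (spin2 v) i j c (update (update I i (p, s)) j (q, t)) =
      qf2 v (fun p q => (c (update (update I i (p, s)) j (q, t))).re) +
      qf2 v (fun p q => (c (update (update I i (p, s)) j (q, t))).im) := by
  unfold o2 qf2
  rw [← Finset.sum_add_distrib]
  refine Finset.sum_congr rfl fun p _ => ?_
  rw [← Finset.sum_add_distrib]
  have key : ∀ q, (∑ a, ∑ b, spin2 v (update (update I i (p, s)) j (q, t) i) a
      (update (update I i (p, s)) j (q, t) j) b *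
      (conj (c (update (update I i (p, s)) j (q, t))) *
        c (update (update (update (update I i (p, s)) j (q, t)) i a) j b)).re) =
      ∑ a, ∑ b, (v p a q b * (c (update (update I i (p, s)) j (q, t))).re *
        (c (update (update I i (a, s)) j (b, t))).re + v p a q b *
          (c (update (update I i (p, s)) j (q, t))).im *
        (c (update (update I i (a, s)) j (b, t))).im) := by
    intro q
    simp only [upd4 hij, update_self, update_of_ne hij]
    rw [Fintype.sum_prod_type]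
    refine Finset.sum_congr rfl fun a _ => ?_
    rw [Finset.sum_eq_single s]
    · rw [Fintype.sum_prod_type]
      refine Finset.sum_congr rfl fun b _ => ?_
      rw [Finset.sum_eq_single t]
      · simp only [spin2, and_self, if_true, Complex.mul_re, Complex.conj_re, Complex.conj_im]
        ring
      · intro t' _ ht
        simp only [spin2]
        rw [if_neg (fun h' => ht h'.2.symm), zero_mul]
      · simp only [mem_univ, not_true_eq_false, Complex.mul_re, Complex.conj_re, Complex.conj_im, neg_mul, sub_neg_eq_add, mul_eq_zero, IsEmpty.forall_iff]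
    · intro s' _ hs
      refine Finset.sum_eq_zero fun b _ => ?_
      simp only [spin2]
      rw [if_neg (fun h' => hs h'.1.symm), zero_mul]
    · simp only [mem_univ, not_true_eq_false, Complex.mul_re, Complex.conj_re, Complex.conj_im, neg_mul, sub_neg_eq_add, IsEmpty.forall_iff]
  simp only [key]
  rw [Finset.sum_comm]
  refine Finset.sum_congr rfl fun a _ => ?_
  rw [← Finset.sum_add_distrib]
  refine Finset.sum_congr rfl fun q _ => ?_
  rw [← Finset.sum_add_distrib]

/-! ### the two-body form -/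

omit [DecidableEq A] in
theorem qf2_lin (v : A → A → A → A → ℝ) (x y : A → A → ℝ) (s t : ℝ) :
    qf2 v (fun p q => s * x p q + t * y p q) = s ^ 2 * qf2 v x + t ^ 2 * qf2 v y +
      s * t * ∑ p, ∑ a, ∑ q, ∑ b, v p a q b * (x p q * y a b + y p q * x a b) := by
  unfold qf2
  simp only [Finset.mul_sum, ← Finset.sum_add_distrib]
  refine Finset.sum_congr rfl fun p _ => Finset.sum_congr rfl fun a _ =>
    Finset.sum_congr rfl fun q _ => Finset.sum_congr rfl fun b _ => ?_
  ring

omit [DecidableEq A] in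
theorem qf2_cs (v : A → A → A → A → ℝ) (hvpos : ∀ x, 0 ≤ qf2 v x) {ε : ℝ} (hε : 0 < ε)
    (x y : A → A → ℝ) :
    (1 - ε) * qf2 v x - (1 / ε - 1) * qf2 v y ≤ qf2 v (fun p q => x p q + y p q) := by
  have h1 := hvpos (fun p q => Real.sqrt ε * x p q + (1 / Real.sqrt ε) * y p q)
  have hs : 0 < Real.sqrt ε := Real.sqrt_pos.2 hε
  have hs2 : Real.sqrt ε ^ 2 = ε := Real.sq_sqrt hε.le
  rw [qf2_lin] at h1
  have h2 := qf2_lin v x y 1 1
  simp only [one_mul] at h2
  rw [h2]
  have h3 : (1 / Real.sqrt ε) ^ 2 = 1 / ε := by rw [div_pow, hs2, one_pow]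
  have h4 : Real.sqrt ε * (1 / Real.sqrt ε) = 1 := by (clear * - hε; field_simp)
  rw [h3, h4, hs2] at h1
  (clear * - h1; linarith)

theorem nsq_re_im (z : ℂ) : ‖z‖ ^ 2 = z.re ^ 2 + z.im ^ 2 := by
  rw [← Complex.normSq_eq_norm_sq, Complex.normSq_apply]
  ring

theorem o2_nonneg (v : A → A → A → A → ℝ) (hvpos : ∀ x, 0 ≤ qf2 v x) {i j : Fin N} (hij : i ≠ j)
    (c : Tens N (A × Fin 2)) : 0 ≤ ∑ I, o2 (spin2 v) i j c I := by
  have h := sum_le_fiber2 i j (fun I => o2 (spin2 v) i j c I) (fun _ => 0) fun I s t => ?_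
  · simpa only [ge_iff_le, sum_const_zero] using h
  · rw [fib2 v hij c I s t]
    simp only [Finset.sum_const_zero]
    exact add_nonneg (hvpos _) (hvpos _)

theorem o2_le (v : A → A → A → A → ℝ) {β : ℝ} (hvle : ∀ x, qf2 v x ≤ β * ∑ p, ∑ q, x p q ^ 2)
    {i j : Fin N} (hij : i ≠ j) (c : Tens N (A × Fin 2)) :
    ∑ I, o2 (spin2 v) i j c I ≤ β * nsq c := by
  unfold nsq
  rw [Finset.mul_sum]
  refine sum_le_fiber2 i j _ _ fun I s t => ?_
  rw [fib2 v hij c I s t]
  simp only [nsq_re_im, mul_add, Finset.sum_add_distrib, ← Finset.mul_sum]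
  exact add_le_add (hvle _) (hvle _)

theorem o2_cs (v : A → A → A → A → ℝ) (hvpos : ∀ x, 0 ≤ qf2 v x) {ε : ℝ} (hε : 0 < ε)
    {i j : Fin N} (hij : i ≠ j) (x y : Tens N (A × Fin 2)) :
    (1 - ε) * (∑ I, o2 (spin2 v) i j x I) - (1 / ε - 1) * (∑ I, o2 (spin2 v) i j y I) ≤
      ∑ I, o2 (spin2 v) i j (fun I => x I + y I) I := by
  rw [Finset.mul_sum, Finset.mul_sum, ← Finset.sum_sub_distrib]
  refine sum_le_fiber2 i j _ _ fun I s t => ?_
  simp only [Finset.sum_sub_distrib, ← Finset.mul_sum]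
  rw [fib2 v hij x I s t, fib2 v hij y I s t, fib2 v hij (fun I => x I + y I) I s t]
  have h1 := qf2_cs v hvpos hε (fun p q => (x (update (update I i (p, s)) j (q, t))).re)
    (fun p q => (y (update (update I i (p, s)) j (q, t))).re)
  have h2 := qf2_cs v hvpos hε (fun p q => (x (update (update I i (p, s)) j (q, t))).im)
    (fun p q => (y (update (update I i (p, s)) j (q, t))).im)
  simp only [Complex.add_re, Complex.add_im]
  linarith

theorem twoE_le (v : A → A → A → A → ℝ) {β : ℝ} (hβ : 0 ≤ β)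
    (hvle : ∀ x, qf2 v x ≤ β * ∑ p, ∑ q, x p q ^ 2) (c : Tens N (A × Fin 2)) :
    twoE (spin2 v) c ≤ N ^ 2 * β * nsq c := by
  rw [twoE_eq]
  have hn : 0 ≤ nsq c := Finset.sum_nonneg fun I _ => by (clear * -; positivity)
  have h1 : ∀ i : Fin N, ∑ j ∈ Ioi i, ∑ I, o2 (spin2 v) i j c I ≤ N * (β * nsq c) := by
    intro i
    have h2 : ∑ j ∈ Ioi i, ∑ I, o2 (spin2 v) i j c I ≤ ∑ j ∈ Ioi i, β * nsq c :=
      Finset.sum_le_sum fun j hj => o2_le v hvle (Finset.mem_Ioi.1 hj).ne c
    refine h2.trans ?_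
    rw [Finset.sum_const, nsmul_eq_mul]
    refine mul_le_mul_of_nonneg_right ?_ (mul_nonneg hβ hn)
    have h3 : (Ioi i).card ≤ N := by
      simpa only [Fin.card_Ioi, tsub_le_iff_right, Fintype.card_fin] using Finset.card_le_univ (Ioi i)
    exact_mod_cast h3
  refine (Finset.sum_le_sum fun i _ => h1 i).trans ?_
  rw [Finset.sum_const, nsmul_eq_mul, Finset.card_univ, Fintype.card_fin]
  linarith

theorem twoE_nonneg (v : A → A → A → A → ℝ) (hvpos : ∀ x, 0 ≤ qf2 v x)
    (c : Tens N (A × Fin 2)) : 0 ≤ twoE (spin2 v) c := by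
  rw [twoE_eq]
  exact Finset.sum_nonneg fun i _ => Finset.sum_nonneg fun j hj =>
    o2_nonneg v hvpos (Finset.mem_Ioi.1 hj).ne c

theorem twoE_cs (v : A → A → A → A → ℝ) (hvpos : ∀ x, 0 ≤ qf2 v x) {ε : ℝ} (hε : 0 < ε)
    (x y : Tens N (A × Fin 2)) :
    (1 - ε) * twoE (spin2 v) x - (1 / ε - 1) * twoE (spin2 v) y ≤
      twoE (spin2 v) (fun I => x I + y I) := by
  rw [twoE_eq, twoE_eq, twoE_eq]
  simp only [Finset.mul_sum, ← Finset.sum_sub_distrib]
  refine Finset.sum_le_sum fun i _ => Finset.sum_le_sum fun j hj => ?_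
  have h := o2_cs v hvpos hε (Finset.mem_Ioi.1 hj).ne x y
  simpa only [Finset.mul_sum, ← Finset.sum_sub_distrib] using h

end spin

end OpenS

end Vale.Agent.P370.Q
end

section

/-!
Projection of the open shell onto low lying orbitals.
-/

namespace Vale.Agent.P370.Q

open MeasureTheory Finset ComplexConjugate

namespace OpenS

open Function

section ext

variable {N : ℕ} {ι κ : Type} [Fintype ι] [DecidableEq ι] [Fintype κ] [DecidableEq κ]

/-- extension by zero along an embedding of the orbitals -/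
noncomputable def extT (e : ι → κ) (d : Tens N ι) : Tens N κ :=
  Function.extend (fun J : Fin N → ι => e ∘ J) d (fun _ => 0)

omit [Fintype ι] [DecidableEq ι] [Fintype κ] [DecidableEq κ] in
theorem extT_apply {e : ι → κ} (he : Injective e) (d : Tens N ι) (J : Fin N → ι) :
    extT e d (e ∘ J) = d J :=
  Function.Injective.extend_apply (he.comp_left (α := Fin N)) d (fun _ => 0) J

omit [Fintype ι] [DecidableEq ι] [Fintype κ] [DecidableEq κ] in
theorem extT_zero {e : ι → κ} (d : Tens N ι) (I : Fin N → κ)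
    (hI : I ∉ Set.range (fun J : Fin N → ι => e ∘ J)) : extT e d I = 0 :=
  Function.extend_apply' _ _ _ (by simpa only [not_exists, Set.mem_range] using hI)

omit [DecidableEq ι] in
theorem nsq_ext {e : ι → κ} (he : Injective e) [DecidableEq ι] (d : Tens N ι) :
    nsq (extT e d) = nsq d := by
  unfold nsq
  refine (Fintype.sum_of_injective (fun J : Fin N → ι => e ∘ J) (he.comp_left (α := Fin N))
    (fun J => ‖d J‖ ^ 2) (fun I => ‖extT e d I‖ ^ 2) ?_ ?_).symm
  · intro I hI
    rw [extT_zero d I hI]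
    simp
  · intro J
    simp only [extT_apply he]

omit [Fintype ι] [DecidableEq ι] [Fintype κ] [DecidableEq κ] in
theorem anti_ext {e : ι → κ} (he : Injective e) {d : Tens N ι} (hd : IsAnti d) :
    IsAnti (extT e d) := by
  intro π I
  by_cases hI : I ∈ Set.range (fun J : Fin N → ι => e ∘ J)
  · obtain ⟨J, rfl⟩ := hI
    have h1 : (fun i => (e ∘ J) (π i)) = e ∘ (fun i => J (π i)) := rfl
    simp only [h1, extT_apply he]
    exact hd π J
  · rw [extT_zero d I hI, extT_zero, mul_zero]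
    rintro ⟨J, hJ⟩
    refine hI ⟨fun i => J (π⁻¹ i), ?_⟩
    funext i
    have := congrFun hJ (π⁻¹ i)
    simpa only [Equiv.Perm.coe_inv, comp_apply, Equiv.apply_symm_apply] using this

omit [DecidableEq ι] [DecidableEq κ] in
theorem o1_ext {e : ι → κ} (he : Injective e) (h : κ → κ → ℝ) (i : Fin N) (d : Tens N ι) :
    ∑ I, o1 h i (extT e d) I = ∑ J, o1 (fun p q => h (e p) (e q)) i d J := by
  refine (Fintype.sum_of_injective (fun J : Fin N → ι => e ∘ J) (he.comp_left (α := Fin N))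
    _ _ ?_ ?_).symm
  · intro I hI
    unfold o1
    rw [extT_zero d I hI]
    simp only [map_zero, zero_mul, Complex.zero_re, mul_zero, sum_const_zero]
  · intro J
    unfold o1
    refine Fintype.sum_of_injective e he _ _ ?_ ?_
    · intro a ha
      rw [extT_zero d (update (e ∘ J) i a)]
      · simp
      · rintro ⟨J', hJ'⟩
        refine ha ⟨J' i, ?_⟩
        have := congrFun hJ' i
        simpa using this
    · intro a
      rw [← Function.comp_update, extT_apply he, extT_apply he]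
      rfl

theorem oneE_ext {e : ι → κ} (he : Injective e) (h : κ → κ → ℝ) (d : Tens N ι) :
    oneE h (extT e d) = oneE (fun p q => h (e p) (e q)) d := by
  rw [oneE_eq, oneE_eq]
  exact Finset.sum_congr rfl fun i _ => o1_ext he h i d

omit [DecidableEq ι] [DecidableEq κ] in
theorem o2_ext {e : ι → κ} (he : Injective e) (v : κ → κ → κ → κ → ℝ) {i j : Fin N}
    (hij : i ≠ j) (d : Tens N ι) :
    ∑ I, o2 v i j (extT e d) I = ∑ J, o2 (fun p a q b => v (e p) (e a) (e q) (e b)) i j d J := by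
  refine (Fintype.sum_of_injective (fun J : Fin N → ι => e ∘ J) (he.comp_left (α := Fin N))
    _ _ ?_ ?_).symm
  · intro I hI
    unfold o2
    rw [extT_zero d I hI]
    simp only [map_zero, zero_mul, Complex.zero_re, mul_zero, sum_const_zero]
  · intro J
    unfold o2
    refine Fintype.sum_of_injective e he _ _ ?_ ?_
    · intro a ha
      refine Finset.sum_eq_zero fun b _ => ?_
      rw [extT_zero d (update (update (e ∘ J) i a) j b)]
      · simp only [comp_apply, mul_zero, Complex.zero_re]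
      · rintro ⟨J', hJ'⟩
        refine ha ⟨J' i, ?_⟩
        have := congrFun hJ' i
        simpa [update_of_ne hij] using this
    · intro a
      refine Fintype.sum_of_injective e he _ _ ?_ ?_
      · intro b hb
        rw [extT_zero d (update (update (e ∘ J) i (e a)) j b)]
        · simp only [comp_apply, mul_zero, Complex.zero_re]
        · rintro ⟨J', hJ'⟩
          refine hb ⟨J' j, ?_⟩
          have := congrFun hJ' j
          simpa using this
      · intro b
        rw [← Function.comp_update, ← Function.comp_update, extT_apply he, extT_apply he]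
        rfl

theorem twoE_ext {e : ι → κ} (he : Injective e) (v : κ → κ → κ → κ → ℝ) (d : Tens N ι) :
    twoE v (extT e d) = twoE (fun p a q b => v (e p) (e a) (e q) (e b)) d := by
  rw [twoE_eq, twoE_eq]
  exact Finset.sum_congr rfl fun i _ => Finset.sum_congr rfl fun j hj =>
    o2_ext he v (Finset.mem_Ioi.1 hj).ne d

end ext

section main

variable {N : ℕ} {B R : Type}

/-- the embedding of the low orbitals -/
def emb : B × Fin 2 → (B ⊕ R) × Fin 2 := fun p => (Sum.inl p.1, p.2)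

theorem emb_inj : Injective (emb : B × Fin 2 → (B ⊕ R) × Fin 2) := by
  rintro ⟨p, s⟩ ⟨q, t⟩ h
  simp only [emb, Prod.mk.injEq, Sum.inl.injEq] at h
  simp [h.1, h.2]

variable [Fintype B] [DecidableEq B] [Fintype R] [DecidableEq R]

theorem enT_ext (h : B ⊕ R → B ⊕ R → ℝ) (v : B ⊕ R → B ⊕ R → B ⊕ R → B ⊕ R → ℝ)
    (d : Tens N (B × Fin 2)) :
    enT h v (extT emb d) = enT (fun i j => h (Sum.inl i) (Sum.inl j))
      (fun i j k l => v (Sum.inl i) (Sum.inl j) (Sum.inl k) (Sum.inl l)) d := by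
  unfold enT
  rw [oneE_ext emb_inj, twoE_ext emb_inj]
  rfl

/-- the part without electrons in `R` -/
def cS (c : Tens N ((B ⊕ R) × Fin 2)) : Tens N ((B ⊕ R) × Fin 2) :=
  fun I => if ∀ j, (I j).1.isLeft = true then c I else 0

/-- the part with electrons in `R` -/
def cR (c : Tens N ((B ⊕ R) × Fin 2)) : Tens N ((B ⊕ R) × Fin 2) :=
  fun I => if ∀ j, (I j).1.isLeft = true then 0 else c I

omit [Fintype B] [DecidableEq B] [Fintype R] [DecidableEq R] in
theorem cS_add_cR (c : Tens N ((B ⊕ R) × Fin 2)) : (fun I => cS c I + cR c I) = c := by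
  funext I
  unfold cS cR
  split_ifs <;> simp

omit [Fintype B] [DecidableEq B] [Fintype R] [DecidableEq R] in
theorem cS_eq (c : Tens N ((B ⊕ R) × Fin 2)) :
    cS c = extT emb (fun J : Fin N → B × Fin 2 => c (emb ∘ J)) := by
  funext I
  by_cases hI : I ∈ Set.range (fun J : Fin N → B × Fin 2 => (emb ∘ J : Fin N → (B ⊕ R) × Fin 2))
  · obtain ⟨J, rfl⟩ := hI
    rw [extT_apply emb_inj]
    unfold cS
    rw [if_pos]
    intro j
    rfl
  · rw [extT_zero _ _ hI]
    unfold cS
    rw [if_neg]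
    intro hall
    refine hI ⟨fun j => ((I j).1.getLeft (hall j), (I j).2), ?_⟩
    funext j
    simp [emb]

theorem nsq_split (c : Tens N ((B ⊕ R) × Fin 2)) : nsq c = nsq (cS c) + nsq (cR c) := by
  unfold nsq
  rw [← Finset.sum_add_distrib]
  refine Finset.sum_congr rfl fun I _ => ?_
  unfold cS cR
  split_ifs <;> simp

/-- weight -/
noncomputable def wt (a b η G : ℝ) (i : Fin N) (I : Fin N → (B ⊕ R) × Fin 2) : ℝ :=
  -η + (if (I i).1.isLeft = true then (if ∀ j, (I j).1.isLeft = true then 0 else (a - b))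
    else (a + G))

omit [Fintype B] [DecidableEq B] [Fintype R] [DecidableEq R] in
theorem allL_update (i : Fin N) (I : Fin N → (B ⊕ R) × Fin 2) (p : B ⊕ R) (s : Fin 2) :
    (∀ j, (update I i (p, s) j).1.isLeft = true) ↔
      (∀ j, j ≠ i → (I j).1.isLeft = true) ∧ p.isLeft = true := by
  constructor
  · intro h
    refine ⟨fun j hj => ?_, ?_⟩
    · have := h j
      rwa [update_of_ne hj] at this
    · have := h i
      rwa [update_self] at this
  · rintro ⟨h1, h2⟩ j
    by_cases hj : j = i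
    · subst hj
      rw [update_self]
      exact h2
    · rw [update_of_ne hj]
      exact h1 j hj

omit [DecidableEq B] [DecidableEq R] in
/-- core inequality, others in `S` -/
theorem core1 (h : B ⊕ R → B ⊕ R → ℝ) (a η G : ℝ) (hη : 0 ≤ η)
    (hone : ∀ x : B ⊕ R → ℝ,
      (∑ i, ∑ j, h (Sum.inl i) (Sum.inl j) * x (Sum.inl i) * x (Sum.inl j)) -
        η * (∑ i, x (Sum.inl i) ^ 2) + (a + G) * (∑ r, x (Sum.inr r) ^ 2) ≤ qf h x)
    (x : B ⊕ R → ℝ) :
    qf h (fun p => if p.isLeft = true then x p else 0) +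
      ∑ p : B ⊕ R, (-η + (if p.isLeft = true then 0 else (a + G))) * x p ^ 2 ≤ qf h x := by
  refine le_trans ?_ (hone x)
  have h1 : qf h (fun p => if p.isLeft = true then x p else 0) =
      ∑ i, ∑ j, h (Sum.inl i) (Sum.inl j) * x (Sum.inl i) * x (Sum.inl j) := by
    unfold qf
    simp only [mul_ite, mul_zero, ite_mul, zero_mul, Fintype.sum_sum_type, Sum.isLeft_inl, ↓reduceIte, sum_ite_irrel, sum_const_zero, Sum.isLeft_inr, Bool.false_eq_true, add_zero]
  rw [h1]
  simp only [Fintype.sum_sum_type, Sum.isLeft_inl, Sum.isLeft_inr, if_true, add_zero,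
    Bool.false_eq_true, if_false, ← Finset.mul_sum]
  have h2 : 0 ≤ ∑ r, x (Sum.inr r) ^ 2 := Finset.sum_nonneg fun r _ => sq_nonneg _
  linarith only [mul_nonneg hη h2]

omit [DecidableEq B] [DecidableEq R] in
/-- core inequality, some other in `R` -/
theorem core2 (h : B ⊕ R → B ⊕ R → ℝ) (a b η G : ℝ) (hη : 0 ≤ η)
    (hone : ∀ x : B ⊕ R → ℝ,
      (∑ i, ∑ j, h (Sum.inl i) (Sum.inl j) * x (Sum.inl i) * x (Sum.inl j)) -
        η * (∑ i, x (Sum.inl i) ^ 2) + (a + G) * (∑ r, x (Sum.inr r) ^ 2) ≤ qf h x)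
    (hS : ∀ x : B → ℝ, (a - b) * (∑ i, x i ^ 2) ≤
      ∑ i, ∑ j, h (Sum.inl i) (Sum.inl j) * x i * x j)
    (x : B ⊕ R → ℝ) :
    ∑ p : B ⊕ R, (-η + (if p.isLeft = true then (a - b) else (a + G))) * x p ^ 2 ≤ qf h x := by
  refine le_trans ?_ (hone x)
  have h1 := hS (fun i => x (Sum.inl i))
  simp only [Fintype.sum_sum_type, Sum.isLeft_inl, Sum.isLeft_inr, if_true,
    Bool.false_eq_true, if_false, ← Finset.mul_sum]
  have h2 : 0 ≤ ∑ r, x (Sum.inr r) ^ 2 := Finset.sum_nonneg fun r _ => sq_nonneg _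
  linarith only [h1, mul_nonneg hη h2]

theorem o1_lower (h : B ⊕ R → B ⊕ R → ℝ) (a b η G : ℝ) (hη : 0 ≤ η)
    (hone : ∀ x : B ⊕ R → ℝ,
      (∑ i, ∑ j, h (Sum.inl i) (Sum.inl j) * x (Sum.inl i) * x (Sum.inl j)) -
        η * (∑ i, x (Sum.inl i) ^ 2) + (a + G) * (∑ r, x (Sum.inr r) ^ 2) ≤ qf h x)
    (hS : ∀ x : B → ℝ, (a - b) * (∑ i, x i ^ 2) ≤
      ∑ i, ∑ j, h (Sum.inl i) (Sum.inl j) * x i * x j)
    (c : Tens N ((B ⊕ R) × Fin 2)) (i : Fin N) :
    (∑ I, (o1 (spin1 h) i (cS c) I + wt a b η G i I * ‖c I‖ ^ 2)) ≤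
      ∑ I, o1 (spin1 h) i c I := by
  refine sum_le_fiber1 i _ _ fun I s => ?_
  rw [Finset.sum_add_distrib, fib1, fib1]
  simp only [nsq_re_im, mul_add, Finset.sum_add_distrib]
  by_cases hP : ∀ j, j ≠ i → (I j).1.isLeft = true
  · have e1 : ∀ p, cS c (update I i (p, s)) =
        if p.isLeft = true then c (update I i (p, s)) else 0 := by
      intro p
      unfold cS
      by_cases hp : p.isLeft = true
      · rw [if_pos ((allL_update i I p s).2 ⟨hP, hp⟩), if_pos hp]
      · rw [if_neg (fun h' => hp ((allL_update i I p s).1 h').2), if_neg hp]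
    have e2 : ∀ p, wt a b η G i (update I i (p, s)) =
        -η + (if p.isLeft = true then 0 else (a + G)) := by
      intro p
      unfold wt
      by_cases hp : p.isLeft = true
      · rw [if_pos ((allL_update i I p s).2 ⟨hP, hp⟩), update_self, if_pos hp]
      · rw [update_self, if_neg hp, if_neg hp]
    have h1 := core1 h a η G hη hone (fun p => (c (update I i (p, s))).re)
    have h2 := core1 h a η G hη hone (fun p => (c (update I i (p, s))).im)
    have e3 : ∀ p, (cS c (update I i (p, s))).re =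
        if p.isLeft = true then (c (update I i (p, s))).re else 0 := by
      intro p
      rw [e1]
      split_ifs <;> rfl
    have e4 : ∀ p, (cS c (update I i (p, s))).im =
        if p.isLeft = true then (c (update I i (p, s))).im else 0 := by
      intro p
      rw [e1]
      split_ifs <;> rfl
    simp only [e2, e3, e4]
    linarith
  · have e1 : ∀ p, cS c (update I i (p, s)) = 0 := by
      intro p
      unfold cS
      rw [if_neg (fun h' => hP ((allL_update i I p s).1 h').1)]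
    have e2 : ∀ p, wt a b η G i (update I i (p, s)) =
        -η + (if p.isLeft = true then (a - b) else (a + G)) := by
      intro p
      unfold wt
      rw [if_neg (fun h' => hP ((allL_update i I p s).1 h').1), update_self]
    have h1 := core2 h a b η G hη hone hS (fun p => (c (update I i (p, s))).re)
    have h2 := core2 h a b η G hη hone hS (fun p => (c (update I i (p, s))).im)
    have e3 : qf h (fun _ => 0) = 0 := by
      unfold qf
      simp only [mul_zero, sum_const_zero]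
    simp only [e2, e1, Complex.zero_re, Complex.zero_im, e3]
    linarith

omit [Fintype B] [DecidableEq B] [Fintype R] [DecidableEq R] in
theorem wt_sum_pos (a b η G : ℝ) (I : Fin N → (B ⊕ R) × Fin 2)
    (hI : ∀ j, (I j).1.isLeft = true) : ∑ i, wt a b η G i I = -(N * η) := by
  unfold wt
  simp only [hI, ↓reduceIte, implies_true, add_zero, sum_neg_distrib, sum_const, card_univ, Fintype.card_fin, nsmul_eq_mul]

omit [Fintype B] [DecidableEq B] [Fintype R] [DecidableEq R] in
theorem wt_sum_neg (a b η G : ℝ) (hb : 0 ≤ b) (hG0 : 0 ≤ G) (I : Fin N → (B ⊕ R) × Fin 2)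
    (hI : ¬ ∀ j, (I j).1.isLeft = true) :
    N * a - N * b + G - N * η ≤ ∑ i, wt a b η G i I := by
  have h1 : ∀ i, wt a b η G i I = (-η + (a - b)) +
      (if (I i).1.isLeft = true then 0 else (G + b)) := by
    intro i
    unfold wt
    rw [if_neg hI]
    split_ifs <;> ring
  simp only [h1, Finset.sum_add_distrib, Finset.sum_const, nsmul_eq_mul, Finset.card_univ,
    Fintype.card_fin]
  push Not at hI
  obtain ⟨j, hj⟩ := hI
  have h2 : (if (I j).1.isLeft = true then 0 else (G + b)) ≤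
      ∑ i, (if (I i).1.isLeft = true then 0 else (G + b)) :=
    Finset.single_le_sum (f := fun i => if (I i).1.isLeft = true then 0 else (G + b))
      (fun i _ => by
        split_ifs
        · exact le_rfl
        · linarith only [hb, hG0]) (Finset.mem_univ j)
  rw [if_neg hj] at h2
  linarith only [hb, h2]

theorem oneE_lower (h : B ⊕ R → B ⊕ R → ℝ) (a b η G : ℝ) (hη : 0 ≤ η) (hb : 0 ≤ b)
    (hG0 : 0 ≤ G)
    (hone : ∀ x : B ⊕ R → ℝ,
      (∑ i, ∑ j, h (Sum.inl i) (Sum.inl j) * x (Sum.inl i) * x (Sum.inl j)) -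
        η * (∑ i, x (Sum.inl i) ^ 2) + (a + G) * (∑ r, x (Sum.inr r) ^ 2) ≤ qf h x)
    (hS : ∀ x : B → ℝ, (a - b) * (∑ i, x i ^ 2) ≤
      ∑ i, ∑ j, h (Sum.inl i) (Sum.inl j) * x i * x j)
    (c : Tens N ((B ⊕ R) × Fin 2)) :
    oneE (spin1 h) (cS c) - N * η * nsq (cS c) +
      (N * a - N * b + G - N * η) * nsq (cR c) ≤ oneE (spin1 h) c := by
  rw [oneE_eq, oneE_eq]
  refine le_trans ?_ (Finset.sum_le_sum fun i _ => o1_lower h a b η G hη hone hS c i)
  simp only [Finset.sum_add_distrib]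
  have h1 : ∑ i, ∑ I, wt a b η G i I * ‖c I‖ ^ 2 = ∑ I, (∑ i, wt a b η G i I) * ‖c I‖ ^ 2 := by
    rw [Finset.sum_comm]
    exact Finset.sum_congr rfl fun I _ => (Finset.sum_mul _ _ _).symm
  have h2 : -(N * η) * nsq (cS c) + (N * a - N * b + G - N * η) * nsq (cR c) ≤
      ∑ I, (∑ i, wt a b η G i I) * ‖c I‖ ^ 2 := by
    unfold nsq
    rw [Finset.mul_sum, Finset.mul_sum, ← Finset.sum_add_distrib]
    refine Finset.sum_le_sum fun I _ => ?_
    by_cases hI : ∀ j, (I j).1.isLeft = true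
    · rw [wt_sum_pos a b η G I hI]
      unfold cS cR
      rw [if_pos hI, if_pos hI]
      simp only [neg_mul, norm_zero, ne_eq, OfNat.ofNat_ne_zero, not_false_eq_true, zero_pow, mul_zero, add_zero, Std.le_refl]
    · have h3 := wt_sum_neg a b η G hb hG0 I hI
      unfold cS cR
      rw [if_neg hI, if_neg hI]
      simp only [norm_zero]
      have h4 : 0 ≤ ‖c I‖ ^ 2 := by (clear * -; positivity)
      linarith only [mul_le_mul_of_nonneg_right h3 h4]
  rw [h1]
  linarith

end main

end OpenS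

/-- Open shell with orbitals `Fin K ⊕ R`: if the one-body form puts a large gap `G` on the
orbitals `R`, the ground energy of `K` electrons is that of the orbitals `Fin K` up to a small
error. -/
theorem open_lower {K : ℕ} {R : Type} [Fintype R] [DecidableEq R]
    (h : Fin K ⊕ R → Fin K ⊕ R → ℝ)
    (v : Fin K ⊕ R → Fin K ⊕ R → Fin K ⊕ R → Fin K ⊕ R → ℝ)
    (a b η G β ε μ : ℝ) (hη : 0 ≤ η) (hb : 0 ≤ b) (hβ : 0 ≤ β)
    (hG0 : 0 ≤ G) (hε : 0 < ε) (hε1 : ε ≤ 1)
    (hsym : ∀ p q, h p q = h q p)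
    (hvsym1 : ∀ p a q b, v p a q b = v a p q b) (hvsym2 : ∀ p a q b, v p a q b = v q b p a)
    (hvpos : ∀ x, 0 ≤ qf2 v x) (hvle : ∀ x, qf2 v x ≤ β * ∑ p, ∑ q, x p q ^ 2)
    (hone : ∀ x : Fin K ⊕ R → ℝ,
      (∑ i, ∑ j, h (Sum.inl i) (Sum.inl j) * x (Sum.inl i) * x (Sum.inl j)) -
        η * (∑ i, x (Sum.inl i) ^ 2) + (a + G) * (∑ r, x (Sum.inr r) ^ 2) ≤ qf h x)
    (hS : ∀ x : Fin K → ℝ, (a - b) * (∑ i, x i ^ 2) ≤
      ∑ i, ∑ j, h (Sum.inl i) (Sum.inl j) * x i * x j)
    (hμ : ∀ d : Tens K (Fin K × Fin 2), IsAnti d →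
      μ * nsq d ≤ enT (fun i j => h (Sum.inl i) (Sum.inl j))
        (fun i j k l => v (Sum.inl i) (Sum.inl j) (Sum.inl k) (Sum.inl l)) d)
    (hG : μ ≤ K * a - K * (b + η) + G - K ^ 2 * β / ε)
    (c : Tens K ((Fin K ⊕ R) × Fin 2)) (hc : IsAnti c) :
    (μ - η * K - ε * K ^ 2 * β) * nsq c ≤ enT h v c := by
  have h1 := OpenS.oneE_lower h a b η G hη hb hG0 hone hS c
  have h2 := OpenS.twoE_cs v hvpos hε (OpenS.cS c) (OpenS.cR c)
  rw [OpenS.cS_add_cR] at h2
  have h3 := OpenS.twoE_le v hβ hvle (OpenS.cS c)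
  have h4 := OpenS.twoE_le v hβ hvle (OpenS.cR c)
  have hnS : 0 ≤ nsq (OpenS.cS c) := Finset.sum_nonneg fun I _ => by (clear * -; positivity)
  have hnR : 0 ≤ nsq (OpenS.cR c) := Finset.sum_nonneg fun I _ => by (clear * -; positivity)
  have h5 : μ * nsq (OpenS.cS c) ≤ enT h v (OpenS.cS c) := by
    rw [OpenS.cS_eq, OpenS.enT_ext, OpenS.nsq_ext OpenS.emb_inj]
    refine hμ _ ?_
    intro π J
    exact hc π (OpenS.emb ∘ J)
  have hn := OpenS.nsq_split c
  have h6 : ε * twoE (spin2 v) (OpenS.cS c) ≤ ε * (K ^ 2 * β * nsq (OpenS.cS c)) :=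
    mul_le_mul_of_nonneg_left h3 hε.le
  have hε2 : 0 ≤ 1 / ε - 1 := by
    rw [sub_nonneg, le_div_iff₀ hε]
    linarith only [hε1]
  have h7 : (1 / ε - 1) * twoE (spin2 v) (OpenS.cR c) ≤
      (1 / ε - 1) * (K ^ 2 * β * nsq (OpenS.cR c)) := mul_le_mul_of_nonneg_left h4 hε2
  have h8 : 0 ≤ K ^ 2 * β * nsq (OpenS.cR c) := by (clear * - hβ hnR; positivity)
  have h9 : μ * nsq (OpenS.cR c) ≤
      (K * a - K * (b + η) + G - K ^ 2 * β / ε) * nsq (OpenS.cR c) :=
    mul_le_mul_of_nonneg_right hG hnR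
  have h10 : (K : ℝ) ^ 2 * β / ε * nsq (OpenS.cR c) =
      1 / ε * (K ^ 2 * β * nsq (OpenS.cR c)) := by ring
  have h11 : 0 ≤ η * K * nsq (OpenS.cR c) := by (clear * - hη hnR; positivity)
  have h12 : 0 ≤ ε * K ^ 2 * β * nsq (OpenS.cR c) := by (clear * - hε hβ hnR; positivity)
  unfold enT at h5 ⊢
  rw [hn]
  linarith only [h1, h2, h5, h6, h7, h8, h9, h10, h11, h12]

/-- Extension by zero: a tensor over the orbitals `Fin K` is a tensor over `Fin K ⊕ R`. -/
theorem open_upper {K : ℕ} {R : Type} [Fintype R] [DecidableEq R]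
    (h : Fin K ⊕ R → Fin K ⊕ R → ℝ)
    (v : Fin K ⊕ R → Fin K ⊕ R → Fin K ⊕ R → Fin K ⊕ R → ℝ)
    (d : Tens K (Fin K × Fin 2)) (hd : IsAnti d) :
    ∃ c : Tens K ((Fin K ⊕ R) × Fin 2), IsAnti c ∧ nsq c = nsq d ∧
      enT h v c = enT (fun i j => h (Sum.inl i) (Sum.inl j))
        (fun i j k l => v (Sum.inl i) (Sum.inl j) (Sum.inl k) (Sum.inl l)) d :=
  ⟨OpenS.extT OpenS.emb d, OpenS.anti_ext OpenS.emb_inj hd, OpenS.nsq_ext OpenS.emb_inj d,
    OpenS.enT_ext h v d⟩

end Vale.Agent.P370.Q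
end

section

/-!
Trigonometric table of the instance builder (ALG2).
-/

namespace Vale.Agent.P370.Q.Alg

open MeasureTheory Finset

theorem num1_list_sum (f : ℕ → ℕ) (n : ℕ) : ((List.range n).map f).sum = ∑ j ∈ range n, f j := by
  induction n with
  | zero => simp
  | succ n ih => rw [List.range_succ, List.map_append, List.sum_append, ih, sum_range_succ]; simp

theorem aN_eq (k : ℕ) : aN k = pN k := by
  unfold aN pN
  rw [num1_list_sum]
  rfl

theorem ch_le (P m : ℕ) (hP : 1 ≤ P) : ch P m ≤ 2 ^ P := by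
  obtain ⟨p, rfl⟩ : ∃ p, P = p + 1 := ⟨P - 1, by omega⟩
  induction m with
  | zero => simp only [ch_zero, zero_le]
  | succ m ih =>
    have h : (2 ^ (p + 1) + ch (p + 1) m) * 2 ^ (p + 1 - 1) ≤ (2 ^ (p + 1)) ^ 2 := by
      calc (2 ^ (p + 1) + ch (p + 1) m) * 2 ^ (p + 1 - 1)
          ≤ (2 ^ (p + 1) + 2 ^ (p + 1)) * 2 ^ p := by
            rw [Nat.add_sub_cancel]
            (clear * - ih; gcongr)
        _ = (2 ^ (p + 1)) ^ 2 := by ring
    rw [ch_succ]
    exact (Nat.sqrt_le_sqrt h).trans (Nat.sqrt_eq' _).le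

theorem num1_sqrt_diff {a s t w : ℝ} (ha : 0 < a) (hs : a ≤ s) (ht : a ≤ t)
    (h : (s - t) * (s + t) = w * a) : |s - t| ≤ |w| / 2 := by
  have h1 : |s - t| * (s + t) = |w| * a := by
    rw [← abs_of_pos (show 0 < s + t by linarith only [ha, hs, ht]), ← abs_mul, h, abs_mul, abs_of_pos ha]
  have h2 : |s - t| * (2 * a) ≤ |s - t| * (s + t) :=
    mul_le_mul_of_nonneg_left (by linarith only [hs, ht]) (abs_nonneg _)
  have h3 : |s - t| * 2 ≤ |w| := by
    have : (|s - t| * 2) * a ≤ |w| * a := by linarith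
    exact le_of_mul_le_mul_right this ha
  linarith only [h3]

/-- error of the iterated half angle formula -/
theorem ch_err (P m : ℕ) (hP : 1 ≤ P) :
    |(ch P m : ℝ) - 2 ^ P * Real.cos (Real.pi / 2 ^ (m + 1))| ≤ 2 := by
  obtain ⟨p, rfl⟩ : ∃ p, P = p + 1 := ⟨P - 1, by omega⟩
  induction m with
  | zero => simp only [ch_zero, CharP.cast_eq_zero, zero_add, pow_one, Real.cos_pi_div_two, mul_zero, sub_self, abs_zero, Nat.ofNat_nonneg]
  | succ m ih =>
    have hpi := Real.pi_pos
    have hθ0 : 0 ≤ Real.pi / 2 ^ (m + 1) := by positivity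
    have hθ1 : Real.pi / 2 ^ (m + 1) ≤ Real.pi / 2 := by
      apply div_le_div_of_nonneg_left hpi.le (by norm_num)
      calc (2 : ℝ) = 2 ^ 1 := by norm_num
        _ ≤ 2 ^ (m + 1) := pow_le_pow_right₀ (by norm_num) (by omega)
    have hc : 0 ≤ Real.cos (Real.pi / 2 ^ (m + 1)) :=
      Real.cos_nonneg_of_neg_pi_div_two_le_of_le (by linarith only [hpi, hθ0]) hθ1
    have hhalf : Real.cos (Real.pi / 2 ^ (m + 1 + 1)) =
        Real.sqrt ((1 + Real.cos (Real.pi / 2 ^ (m + 1))) / 2) := by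
      rw [← Real.cos_half (by linarith only [hpi, hθ0]) (by linarith only [hpi, hθ1])]
      congr 1
      rw [pow_succ 2 (m + 1)]
      (clear * -; field_simp)
    set x : ℝ := (ch (p + 1) m : ℝ) with hx
    set a : ℝ := 2 ^ p with ha
    have ha0 : 0 < a := by positivity
    have hx0 : 0 ≤ x := by (clear * -; positivity)
    have h2a : (2 : ℝ) ^ (p + 1) = 2 * a := by rw [ha]; ring
    rw [h2a] at ih ⊢
    set c := Real.cos (Real.pi / 2 ^ (m + 1)) with hcdef
    have hv : 2 * a * Real.cos (Real.pi / 2 ^ (m + 1 + 1)) =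
        Real.sqrt ((2 * a + 2 * a * c) * a) := by
      rw [hhalf, show (2 * a + 2 * a * c) * a = (2 * a) ^ 2 * ((1 + c) / 2) by ring,
        Real.sqrt_mul (by positivity), Real.sqrt_sq (by positivity)]
    rw [hv]
    have hu : ((((2 : ℕ) ^ (p + 1) + ch (p + 1) m) * 2 ^ (p + 1 - 1) : ℕ) : ℝ) =
        (2 * a + x) * a := by
      rw [Nat.add_sub_cancel]
      push_cast
      rw [h2a]
    have e1 := Real.nat_sqrt_le_real_sqrt (a := (2 ^ (p + 1) + ch (p + 1) m) * 2 ^ (p + 1 - 1))
    have e2 := Real.real_sqrt_lt_nat_sqrt_succ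
      (a := (2 ^ (p + 1) + ch (p + 1) m) * 2 ^ (p + 1 - 1))
    rw [hu] at e1 e2
    have hch : ch (p + 1) (m + 1) =
        Nat.sqrt ((2 ^ (p + 1) + ch (p + 1) m) * 2 ^ (p + 1 - 1)) := rfl
    rw [← hch] at e1 e2
    have hs : a ≤ Real.sqrt ((2 * a + x) * a) := by
      apply Real.le_sqrt_of_sq_le
      nlinarith
    have ht : a ≤ Real.sqrt ((2 * a + 2 * a * c) * a) := by
      apply Real.le_sqrt_of_sq_le
      have : 0 ≤ a * a * c := by (clear * - hc; positivity)
      linarith only [this, mul_self_nonneg a]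
    have hst := num1_sqrt_diff (w := x - 2 * a * c) ha0 hs ht (by
      have q1 := Real.mul_self_sqrt (show 0 ≤ (2 * a + x) * a by (clear * -; positivity))
      have q2 := Real.mul_self_sqrt (show 0 ≤ (2 * a + 2 * a * c) * a by (clear * - hc; positivity))
      linear_combination q1 - q2)
    rw [abs_le] at hst ⊢
    have h1 : |x - 2 * a * c| ≤ 2 := ih
    constructor
    · linarith only [ih, e2, hst]
    · linarith only [ih, e1, hst]

theorem sh_err (P m : ℕ) (hP : 1 ≤ P) :
    |(sh P m : ℝ) - 2 ^ P * Real.sin (Real.pi / 2 ^ (m + 1))| ≤ 6 * 2 ^ m := by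
  have hpi := Real.pi_pos
  have h0 := ch_err P m hP
  have h1 := ch_le P m hP
  set θ := Real.pi / 2 ^ (m + 1) with hθ
  have hθ0 : 0 ≤ θ := by positivity
  have hθ1 : θ ≤ Real.pi / 2 := by
    apply div_le_div_of_nonneg_left hpi.le (by norm_num)
    calc (2 : ℝ) = 2 ^ 1 := by norm_num
      _ ≤ 2 ^ (m + 1) := pow_le_pow_right₀ (by norm_num) (by omega)
  have hsin : 1 / 2 ^ m ≤ Real.sin θ := by
    refine le_trans (le_of_eq ?_) (Real.mul_le_sin hθ0 hθ1)
    rw [hθ, pow_succ]
    (clear * -; field_simp)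
  have h2m : (1 : ℝ) ≤ 2 ^ m := one_le_pow₀ (by norm_num)
  have hsin0 : 0 < Real.sin θ := lt_of_lt_of_le (by (clear * -; positivity)) hsin
  set S : ℝ := 2 ^ P with hS
  have hS0 : 0 < S := by positivity
  set x : ℝ := (ch P m : ℝ) with hx
  have hx0 : 0 ≤ x := by (clear * -; positivity)
  have hxS : x ≤ S := by
    rw [hx, hS]
    exact_mod_cast h1
  have hc0 : 0 ≤ Real.cos θ := Real.cos_nonneg_of_neg_pi_div_two_le_of_le (by linarith only [hpi, hθ0]) hθ1
  have hc1 := Real.cos_le_one θ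
  have hu : ((2 ^ (2 * P) - ch P m ^ 2 : ℕ) : ℝ) = S ^ 2 - x ^ 2 := by
    have : ch P m ^ 2 ≤ 2 ^ (2 * P) := by
      rw [mul_comm, pow_mul]
      exact Nat.pow_le_pow_left h1 2
    rw [Nat.cast_sub this]
    push_cast
    rw [hS, hx]
    ring
  have e1 := Real.nat_sqrt_le_real_sqrt (a := 2 ^ (2 * P) - ch P m ^ 2)
  have e2 := Real.real_sqrt_lt_nat_sqrt_succ (a := 2 ^ (2 * P) - ch P m ^ 2)
  have hsh : sh P m = Nat.sqrt (2 ^ (2 * P) - ch P m ^ 2) := rfl
  rw [hu, ← hsh] at e1 e2
  set s := Real.sqrt (S ^ 2 - x ^ 2) with hs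
  have hs0 : 0 ≤ s := Real.sqrt_nonneg _
  have hsq : s * s = S ^ 2 - x ^ 2 := Real.mul_self_sqrt (by linarith only [hu])
  set t := S * Real.sin θ with ht
  have ht0 : 0 < t := by positivity
  have htq : t * t = S ^ 2 - (S * Real.cos θ) ^ 2 := by
    have := Real.sin_sq_add_cos_sq θ
    rw [ht]
    linear_combination S ^ 2 * this
  have hd : (s - t) * (s + t) = (S * Real.cos θ - x) * (S * Real.cos θ + x) := by
    linear_combination hsq - htq
  have hd2 : |s - t| * (s + t) ≤ 2 * (2 * S) := by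
    rw [← abs_of_pos (show 0 < s + t by linarith only [e1, ht0]), ← abs_mul, hd, abs_mul]
    have g1 : |S * Real.cos θ - x| ≤ 2 := by
      rw [abs_sub_comm]
      exact h0
    have g2 : |S * Real.cos θ + x| ≤ 2 * S := by
      rw [abs_of_nonneg (by (clear * - hc0; positivity))]
      nlinarith only [hxS, hS0, hc1]
    exact mul_le_mul g1 g2 (abs_nonneg _) (by norm_num)
  have hd3 : |s - t| ≤ 4 * 2 ^ m := by
    have q1 : |s - t| * t ≤ 4 * S := by
      have := mul_le_mul_of_nonneg_left (show t ≤ s + t by linarith only [e1]) (abs_nonneg (s - t))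
      linarith only [hd2, this]
    have q2 : S ≤ 2 ^ m * t := by
      have : S * 1 ≤ S * (2 ^ m * Real.sin θ) := by
        apply mul_le_mul_of_nonneg_left _ hS0.le
        calc (1 : ℝ) = 2 ^ m * (1 / 2 ^ m) := by (clear * -; field_simp)
          _ ≤ 2 ^ m * Real.sin θ := by gcongr
      rw [ht]
      linarith only [this]
    have q3 : |s - t| * t ≤ (4 * 2 ^ m) * t := by linarith only [q1, q2]
    exact le_of_mul_le_mul_right q3 ht0
  rw [abs_le] at hd3 ⊢
  constructor
  · linarith only [h2m, e2, hd3]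
  · linarith only [e1, hd3]

theorem gp_eq (c s : ℤ) (j : ℕ) :
    (((gp c s j).1 : ℂ) + ((gp c s j).2 : ℂ) * Complex.I) =
      ((c : ℂ) + (s : ℂ) * Complex.I) ^ j := by
  induction j with
  | zero => simp [gp_zero]
  | succ j ih =>
    rw [pow_succ, ← ih, gp_succ]
    push_cast
    linear_combination (-((gp c s j).2 : ℂ) * s) * Complex.I_sq

/-- powers of nearby numbers -/
theorem num1_pow_sub {z ζ : ℂ} {d : ℝ} (hζ : ‖ζ‖ ≤ 1) (hd : ‖z - ζ‖ ≤ d) (j : ℕ) :
    ‖z ^ j - ζ ^ j‖ ≤ j * d * (1 + d) ^ j := by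
  have hd0 : 0 ≤ d := (norm_nonneg _).trans hd
  have hz : ‖z‖ ≤ 1 + d := by
    calc ‖z‖ = ‖ζ + (z - ζ)‖ := by congr 1; ring
      _ ≤ ‖ζ‖ + ‖z - ζ‖ := norm_add_le _ _
      _ ≤ 1 + d := by linarith only [hζ, hd]
  induction j with
  | zero => simp
  | succ j ih =>
    calc ‖z ^ (j + 1) - ζ ^ (j + 1)‖ = ‖z ^ j * (z - ζ) + (z ^ j - ζ ^ j) * ζ‖ := by
          congr 1; ring
      _ ≤ ‖z ^ j * (z - ζ)‖ + ‖(z ^ j - ζ ^ j) * ζ‖ := norm_add_le _ _
      _ = ‖z‖ ^ j * ‖z - ζ‖ + ‖z ^ j - ζ ^ j‖ * ‖ζ‖ := by rw [norm_mul, norm_mul, norm_pow]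
      _ ≤ (1 + d) ^ j * d + (j * d * (1 + d) ^ j) * 1 := by gcongr
      _ = ((j + 1 : ℕ) : ℝ) * d * (1 + d) ^ j := by push_cast; ring
      _ ≤ ((j + 1 : ℕ) : ℝ) * d * (1 + d) ^ (j + 1) := by
          gcongr
          · linarith only [hd0]
          · omega

theorem num1_ediv (a b : ℤ) (hb : 0 < b) :
    (((a / b : ℤ) : ℤ) : ℝ) ≤ (a : ℝ) / b ∧ (a : ℝ) / b < ((a / b : ℤ) : ℝ) + 1 := by
  have hb' : (0 : ℝ) < b := by exact_mod_cast hb
  constructor
  · rw [le_div_iff₀ hb']
    exact_mod_cast Int.ediv_mul_le a hb.ne'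
  · rw [div_lt_iff₀ hb']
    exact_mod_cast Int.lt_ediv_add_one_mul_self a hb

theorem num1_W (k : ℕ) : (393216 : ℝ) * (an k : ℝ) ^ 3 ≤ 2 ^ aQ k := by
  have hn : 1 ≤ an k := by unfold an; exact Nat.one_le_two_pow
  have hn3 : 1 ≤ an k ^ 3 := Nat.one_le_pow _ _ hn
  have h : 393216 * an k ^ 3 ≤ 2 ^ aQ k := by
    unfold aQ
    calc 393216 * an k ^ 3 ≤ 2 ^ 20 * 2 ^ (an k ^ 3) := by
          apply Nat.mul_le_mul (by norm_num)
          exact Nat.lt_two_pow_self.le
      _ = 2 ^ (20 + an k ^ 3) := by rw [pow_add]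
      _ ≤ 2 ^ (512 * an k ^ 3) := Nat.pow_le_pow_right (by norm_num) (by omega)
  exact_mod_cast h

theorem num1_D (k : ℕ) : (aD k : ℝ) = 2 ^ (2048 * k + 4) := by
  unfold aD an
  push_cast
  ring

/-- the table of powers: main estimate -/
theorem num1_table {W D θ : ℝ} {c s : ℤ} {j : ℕ} (hW0 : 0 < W) (hD1 : 1 ≤ D)
    (e1 : |(c : ℝ) - W ^ 2 * Real.cos θ| ≤ 2) (e2 : |(s : ℝ) - W ^ 2 * Real.sin θ| ≤ 6 * D)
    (hj : (j : ℝ) ≤ 4 * D ^ 2) (hWD : 96 * D ^ 3 ≤ W) :
    |W * ((gp c s j).1 / W ^ (2 * j)) - W * Real.cos (j * θ)| ≤ 1 ∧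
    |W * ((gp c s j).2 / W ^ (2 * j)) - W * Real.sin (j * θ)| ≤ 1 := by
  obtain ⟨z, hz⟩ : ∃ z : ℂ, z = ((c : ℂ) + (s : ℂ) * Complex.I) / (W : ℂ) ^ 2 := ⟨_, rfl⟩
  obtain ⟨ζ, hζ⟩ : ∃ ζ : ℂ, ζ = Complex.exp ((θ : ℂ) * Complex.I) := ⟨_, rfl⟩
  have hζn : ‖ζ‖ ≤ 1 := by rw [hζ]; exact (Complex.norm_exp_ofReal_mul_I _).le
  have hWc : (W : ℂ) ≠ 0 := by exact_mod_cast hW0.ne'
  have hd : ‖z - ζ‖ ≤ 8 * D / W ^ 2 := by
    have h1 : z - ζ = ((((c : ℝ) - W ^ 2 * Real.cos θ : ℝ) : ℂ) +
        (((s : ℝ) - W ^ 2 * Real.sin θ : ℝ) : ℂ) * Complex.I) / (W : ℂ) ^ 2 := by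
      rw [hz, hζ, Complex.exp_mul_I, eq_div_iff (pow_ne_zero 2 hWc), sub_mul,
        div_mul_cancel₀ _ (pow_ne_zero 2 hWc)]
      push_cast
      ring
    rw [h1, norm_div, norm_pow, Complex.norm_real, Real.norm_of_nonneg hW0.le]
    gcongr
    refine (norm_add_le _ _).trans ?_
    rw [norm_mul, Complex.norm_I, mul_one, Complex.norm_real, Complex.norm_real,
      Real.norm_eq_abs, Real.norm_eq_abs]
    linarith only [hD1, e1, e2]
  have hpow := num1_pow_sub hζn hd j
  have hsmall : W * (j * (8 * D / W ^ 2) * (1 + 8 * D / W ^ 2) ^ j) ≤ 1 := by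
    have g0 : (j : ℝ) * (8 * D / W ^ 2) ≤ 32 * D ^ 3 / W ^ 2 := by
      calc (j : ℝ) * (8 * D / W ^ 2) ≤ (4 * D ^ 2) * (8 * D / W ^ 2) := by (clear * - hj hD1 hW0; gcongr)
        _ = _ := by ring
    have hD3 : 1 ≤ D ^ 3 := one_le_pow₀ hD1
    have hW1 : 1 ≤ W := by linarith only [hWD, hD3]
    have g1 : (j : ℝ) * (8 * D / W ^ 2) ≤ 1 := by
      refine g0.trans ?_
      rw [div_le_one (by (clear * - hW0; positivity))]
      nlinarith only [hWD, hD3]
    have g2 : (1 + 8 * D / W ^ 2) ^ j ≤ 3 := by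
      calc (1 + 8 * D / W ^ 2) ^ j ≤ (Real.exp (8 * D / W ^ 2)) ^ j := by
            gcongr
            have := Real.add_one_le_exp (8 * D / W ^ 2)
            linarith only [this]
        _ = Real.exp (j * (8 * D / W ^ 2)) := by rw [← Real.exp_nat_mul]
        _ ≤ Real.exp 1 := Real.exp_le_exp.2 g1
        _ ≤ 3 := by linarith only [Real.exp_one_lt_d9]
    calc W * (j * (8 * D / W ^ 2) * (1 + 8 * D / W ^ 2) ^ j)
        ≤ W * ((32 * D ^ 3 / W ^ 2) * 3) := by (clear * - g0 g2 hD1 hW0; gcongr)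
      _ = 96 * D ^ 3 / W := by field_simp; ring
      _ ≤ 1 := by rw [div_le_one hW0]; exact hWD
  have hzj : ((gp c s j).1 : ℂ) + ((gp c s j).2 : ℂ) * Complex.I =
      ((W ^ (2 * j) : ℝ) : ℂ) * z ^ j := by
    rw [gp_eq, hz, div_pow, ← pow_mul, Complex.ofReal_pow, mul_div_cancel₀ _ (pow_ne_zero _ hWc)]
  have hre : ((gp c s j).1 : ℝ) / W ^ (2 * j) = (z ^ j).re := by
    have h := congrArg Complex.re hzj
    rw [Complex.re_ofReal_mul] at h
    simp only [Complex.add_re, Complex.mul_re, Complex.I_re, Complex.I_im, mul_zero, mul_one,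
      Complex.intCast_re, Complex.intCast_im, sub_self, add_zero] at h
    rw [h]
    (clear * - hW0; field_simp)
  have him : ((gp c s j).2 : ℝ) / W ^ (2 * j) = (z ^ j).im := by
    have h := congrArg Complex.im hzj
    rw [Complex.im_ofReal_mul] at h
    simp only [Complex.add_im, Complex.mul_im, Complex.I_re, Complex.I_im, mul_zero, mul_one,
      Complex.intCast_re, Complex.intCast_im, zero_add, add_zero] at h
    rw [h]
    field_simp
  have hζj : ζ ^ j = Complex.exp (((j * θ : ℝ) : ℂ) * Complex.I) := by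
    rw [hζ, ← Complex.exp_nat_mul]
    congr 1
    push_cast
    ring
  have hcosj : Real.cos (j * θ) = (ζ ^ j).re := by
    rw [hζj, Complex.exp_ofReal_mul_I_re]
  have hsinj : Real.sin (j * θ) = (ζ ^ j).im := by
    rw [hζj, Complex.exp_ofReal_mul_I_im]
  rw [hre, him, hcosj, hsinj]
  have hfin : W * ‖z ^ j - ζ ^ j‖ ≤ 1 := (mul_le_mul_of_nonneg_left hpow hW0.le).trans hsmall
  constructor
  · rw [← mul_sub, abs_mul, abs_of_pos hW0, ← Complex.sub_re]
    exact (mul_le_mul_of_nonneg_left (Complex.abs_re_le_norm _) hW0.le).trans hfin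
  · rw [← mul_sub, abs_mul, abs_of_pos hW0, ← Complex.sub_im]
    exact (mul_le_mul_of_nonneg_left (Complex.abs_im_le_norm _) hW0.le).trans hfin

theorem num1_aQ_pos (k : ℕ) : 1 ≤ aQ k := by
  have hn : 1 ≤ an k := by unfold an; exact Nat.one_le_two_pow
  unfold aQ
  have : 1 ≤ an k ^ 3 := Nat.one_le_pow _ _ hn
  omega

theorem num1_zet (k j : ℕ) (hj : j ≤ 4 * aD k ^ 2) :
    |(2 : ℝ) ^ aQ k * ((zet k j).1 / (2 ^ aQ k) ^ (2 * j)) -
        2 ^ aQ k * Real.cos (Real.pi * j / (2 * aD k))| ≤ 1 ∧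
    |(2 : ℝ) ^ aQ k * ((zet k j).2 / (2 ^ aQ k) ^ (2 * j)) -
        2 ^ aQ k * Real.sin (Real.pi * j / (2 * aD k))| ≤ 1 := by
  have hn : 1 ≤ an k := by unfold an; exact Nat.one_le_two_pow
  have hn' : (1 : ℝ) ≤ an k := by exact_mod_cast hn
  have hQ := num1_aQ_pos k
  have hDn : (aD k : ℝ) = 16 * an k := by unfold aD; push_cast; ring
  have hD2 := num1_D k
  have hD1 : (1 : ℝ) ≤ aD k := by rw [hDn]; linarith only [hn']
  have hWn := num1_W k
  have hWD : 96 * (aD k : ℝ) ^ 3 ≤ 2 ^ aQ k := by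
    have hD3 : (aD k : ℝ) ^ 3 = 4096 * (an k : ℝ) ^ 3 := by rw [hDn]; ring
    rw [hD3]
    linarith only [hWn]
  have e1 := ch_err (2 * aQ k) (2048 * k + 4) (by omega)
  have e2 := sh_err (2 * aQ k) (2048 * k + 4) (by omega)
  have hang : Real.pi / 2 ^ (2048 * k + 4 + 1) = Real.pi / (2 * aD k) := by
    rw [hD2, pow_succ, mul_comm (2 : ℝ)]
  rw [hang] at e1 e2
  rw [← hD2] at e2
  have hW2 : (2 : ℝ) ^ (2 * aQ k) = (2 ^ aQ k) ^ 2 := by
    rw [← pow_mul, mul_comm]
  rw [hW2] at e1 e2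
  have hj' : (j : ℝ) ≤ 4 * (aD k : ℝ) ^ 2 := by exact_mod_cast hj
  have key := num1_table (W := 2 ^ aQ k) (D := aD k) (θ := Real.pi / (2 * aD k))
    (c := ch (2 * aQ k) (2048 * k + 4)) (s := sh (2 * aQ k) (2048 * k + 4)) (j := j)
    (by positivity) hD1 (by simpa only [Int.cast_natCast] using e1) (by simpa only [Int.cast_natCast] using e2) hj' hWD
  have ha : (j : ℝ) * (Real.pi / (2 * aD k)) = Real.pi * j / (2 * aD k) := by ring
  rw [ha] at key
  exact key

theorem cs_err (k j : ℕ) (_hk : 1 ≤ k) (hj : j ≤ 4 * aD k ^ 2) :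
    |(cs k j : ℝ) - 2 ^ aQ k * Real.cos (Real.pi * j / (2 * aD k))| ≤ 2 := by
  have h := (num1_zet k j hj).1
  have h2 := num1_ediv ((zet k j).1 * 2 ^ aQ k) (2 ^ (2 * aQ k * j)) (by (clear * -; positivity))
  have h3 : cs k j = (zet k j).1 * 2 ^ aQ k / 2 ^ (2 * aQ k * j) := rfl
  rw [← h3] at h2
  push_cast at h2
  rw [show ((zet k j).1 : ℝ) * 2 ^ aQ k / 2 ^ (2 * aQ k * j) =
    2 ^ aQ k * ((zet k j).1 / (2 ^ aQ k) ^ (2 * j)) by
      rw [← pow_mul, show aQ k * (2 * j) = 2 * aQ k * j by ring]; ring] at h2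
  rw [abs_le] at h ⊢
  constructor
  · linarith only [h, h2]
  · linarith only [h, h2]

theorem sn_err (k j : ℕ) (_hk : 1 ≤ k) (hj : j ≤ 4 * aD k ^ 2) :
    |(sn k j : ℝ) - 2 ^ aQ k * Real.sin (Real.pi * j / (2 * aD k))| ≤ 2 := by
  have h := (num1_zet k j hj).2
  have h2 := num1_ediv ((zet k j).2 * 2 ^ aQ k) (2 ^ (2 * aQ k * j)) (by positivity)
  have h3 : sn k j = (zet k j).2 * 2 ^ aQ k / 2 ^ (2 * aQ k * j) := rfl
  rw [← h3] at h2
  push_cast at h2
  rw [show ((zet k j).2 : ℝ) * 2 ^ aQ k / 2 ^ (2 * aQ k * j) =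
    2 ^ aQ k * ((zet k j).2 / (2 ^ aQ k) ^ (2 * j)) by
      rw [← pow_mul, show aQ k * (2 * j) = 2 * aQ k * j by ring]; ring] at h2
  rw [abs_le] at h ⊢
  constructor
  · linarith only [h, h2]
  · linarith only [h, h2]

/-- rounding to the nearest integer -/
theorem num1_round {W c x : ℝ} {C N : ℤ} {Q : ℕ} (hQ : 1 ≤ Q) (hW : W = 2 ^ Q)
    (hN : 0 ≤ N) (hNW : 4 * (N : ℝ) ≤ W) (hC : |(C : ℝ) - W * c| ≤ 2) (hc : 0 ≤ c)
    (hx : x = N * c) :
    |((((C * N + 2 ^ (Q - 1)) / 2 ^ Q).toNat : ℕ) : ℝ) - x| ≤ 1 := by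
  have hW0 : 0 < W := by rw [hW]; (clear * -; positivity)
  have hN' : (0 : ℝ) ≤ N := by exact_mod_cast hN
  have h2 := num1_ediv (C * N + 2 ^ (Q - 1)) (2 ^ Q) (by (clear * -; positivity))
  have hhalf : (2 : ℝ) ^ (Q - 1) = W / 2 := by
    obtain ⟨q, rfl⟩ : ∃ q, Q = q + 1 := ⟨Q - 1, by omega⟩
    rw [hW, Nat.add_sub_cancel, pow_succ]
    ring
  push_cast at h2
  rw [hhalf, ← hW, show ((C : ℝ) * N + W / 2) / W = C * N / W + 1 / 2 by
    (clear * - hW0; field_simp)] at h2
  have h3 : |(C : ℝ) * N / W - x| ≤ 1 / 2 := by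
    rw [hx, show (C : ℝ) * N / W - N * c = (C - W * c) * N / W by (clear * - hW0; field_simp), abs_div, abs_mul,
      abs_of_pos hW0, abs_of_nonneg hN', div_le_iff₀ hW0]
    have := mul_le_mul_of_nonneg_right hC hN'
    linarith only [hNW, this]
  have hx0 : 0 ≤ x := by rw [hx]; (clear * - hN hc; positivity)
  have hnn : 0 ≤ (C * N + 2 ^ (Q - 1)) / 2 ^ Q := by
    have h4 : (-1 : ℝ) < (((C * N + 2 ^ (Q - 1)) / 2 ^ Q : ℤ) : ℝ) := by
      rw [abs_le] at h3
      linarith only [hx0, h2.2, h3.1]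
    have h5 : (-1 : ℤ) < (C * N + 2 ^ (Q - 1)) / 2 ^ Q := by exact_mod_cast h4
    omega
  have h6 : ((((C * N + 2 ^ (Q - 1)) / 2 ^ Q).toNat : ℕ) : ℝ) =
      (((C * N + 2 ^ (Q - 1)) / 2 ^ Q : ℤ) : ℝ) := by
    exact_mod_cast congrArg (fun z : ℤ => (z : ℝ)) (Int.toNat_of_nonneg hnn)
  rw [h6, abs_le]
  rw [abs_le] at h3
  constructor
  · linarith only [h2.2, h3.1]
  · linarith only [h2.1, h3.2]

theorem num1_min {a b x : ℝ} (hx : x ≤ a) (hb : |b - x| ≤ 1) : |min a b - x| ≤ 1 := by
  rcases le_total a b with h | h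
  · rw [min_eq_left h, abs_le]
    rw [abs_le] at hb
    constructor <;> linarith only [hb, h, hx]
  · rwa [min_eq_right h]

/-- multipole orders -/
theorem goodQ (k : ℕ) (hk : 1 ≤ k) : GoodQ k (aq k) := by
  intro d hd1 hd2
  have hn : 1 ≤ an k := by unfold an; exact Nat.one_le_two_pow
  have hn' : (1 : ℝ) ≤ an k := by exact_mod_cast hn
  have hpK : pK k = 2 ^ k := rfl
  have hpi := Real.pi_pos
  have hdK : (d : ℝ) < pK k := by exact_mod_cast hd2
  have hd0 : (0 : ℝ) ≤ d := by (clear * - hd1; positivity)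
  have hD2 := num1_D k
  have hj : d * 2 ^ (2047 * k + 4) ≤ 4 * aD k ^ 2 := by
    have h1 : aD k = 2 ^ k * 2 ^ (2047 * k + 4) := by
      unfold aD an
      rw [← pow_add, show 16 = 2 ^ 4 by norm_num, ← pow_add]
      congr 1
      ring
    have h2 : d * 2 ^ (2047 * k + 4) ≤ aD k := by
      rw [h1]
      exact Nat.mul_le_mul_right _ (by rw [← hpK]; omega)
    have h3 : 1 ≤ aD k := by
      rw [h1]
      exact Nat.succ_le_of_lt (by (clear * -; positivity))
    calc d * 2 ^ (2047 * k + 4) ≤ aD k := h2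
      _ = 1 * aD k * 1 := by ring
      _ ≤ 4 * aD k * aD k := by gcongr; norm_num
      _ = 4 * aD k ^ 2 := by ring
  have hcs := cs_err k (d * 2 ^ (2047 * k + 4)) hk hj
  have hang : Real.pi * ((d * 2 ^ (2047 * k + 4) : ℕ) : ℝ) / (2 * aD k) =
      Real.pi * d / (2 * pK k) := by
    rw [hD2, hpK]
    push_cast
    rw [show 2048 * k + 4 = k + (2047 * k + 4) by ring, pow_add 2 k]
    (clear * - hd1; field_simp)
  rw [hang] at hcs
  have hcos : 0 ≤ Real.cos (Real.pi * d / (2 * pK k)) := by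
    apply Real.cos_nonneg_of_neg_pi_div_two_le_of_le
    · have : 0 ≤ Real.pi * d / (2 * pK k) := by (clear * - hd1; positivity)
      linarith only [hpi, this]
    · have hK0 : (0 : ℝ) < pK k := by linarith only [hdK]
      rw [div_le_div_iff₀ (by (clear * - hK0; positivity)) (by norm_num)]
      nlinarith only [hpi, hdK]
  have hcos1 := Real.cos_le_one (Real.pi * d / (2 * pK k))
  have hW4 : 4 * (((an k : ℤ) - 1 : ℤ) : ℝ) ≤ 2 ^ aQ k := by
    have hWn := num1_W k
    have hn3 : (an k : ℝ) ≤ (an k : ℝ) ^ 3 := by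
      calc (an k : ℝ) = (an k : ℝ) ^ 1 := by ring
        _ ≤ (an k : ℝ) ^ 3 := pow_le_pow_right₀ hn' (by norm_num)
    push_cast
    linarith only [hWn, hn3]
  have key := num1_round (W := 2 ^ aQ k) (Q := aQ k)
    (C := cs k (d * 2 ^ (2047 * k + 4))) (N := (an k : ℤ) - 1)
    (c := Real.cos (Real.pi * d / (2 * pK k)))
    (x := ((pn k : ℝ) - 1) * Real.cos (Real.pi * d / (2 * pK k)))
    (num1_aQ_pos k) rfl (by (clear * - hn; omega)) hW4 hcs hcos (by push_cast; rfl)
  unfold aq
  rw [Nat.cast_min, Nat.cast_sub hn]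
  refine num1_min ?_ key
  have hpn : (pn k : ℝ) = an k := rfl
  rw [hpn]
  push_cast
  have : 0 ≤ (an k : ℝ) - 1 := by linarith only [hn']
  linarith only [mul_nonneg_of_nonpos_of_nonpos (Mathlib.Tactic.Linarith.sub_nonpos_of_le hn') (Mathlib.Tactic.Linarith.sub_nonpos_of_le hcos1)]

end Vale.Agent.P370.Q.Alg
end
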