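import Vale.Agent.P370.MathlibUsed
import Vale.Agent.P370.Bdl.B8
import Vale.Agent.P370.Bdl.B3
import Vale.Agent.P370.Bdl.B7
import Vale.Agent.P370.Bdl.B5
import Vale.Agent.P370.Bdl.B2

set_option linter.all false

section

set_option exponentiation.threshold 10000

namespace Vale.Agent.P370

open Red Chains

theorem isq_le_isq_sum (w : List Bool) (n B t t' : ℕ) :
    isq (cQ B) (if fP n B t = fP n B t' then dP w n B t t' else dM w n B t t') ≤
      2 * (isq (cQ B) (dP w n B t t') + isq (cQ B) (dM w n B t t')) := by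
  split_ifs <;> omega

theorem Psum_le_Asum (w : List Bool) (n B : ℕ) : Psum w n B ≤ Asum w n B := by
  unfold Psum Asum
  refine Finset.sum_le_sum (fun t _ => ?_)
  refine le_trans ?_ (Nat.le_add_left _ _)
  exact Finset.sum_le_sum (fun t' _ => isq_le_isq_sum w n B t t')

theorem NT_pos {n B : ℕ} (hn : 1 ≤ n) : 1 ≤ NT n B := by
  unfold NT
  have : 1 ≤ n ^ 2 := Nat.one_le_pow _ _ hn
  omega

theorem zB_pos (w : List Bool) {n B : ℕ} (hn : 1 ≤ n) (hB : 2 ≤ B) : 1 ≤ zB w n B := by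
  unfold zB
  have h1 := Psum_le_Asum w n B
  have h2 := NT_pos (B := B) hn
  have h3 : 4 * cJ B ≤ cl B * cQ B := by
    unfold cJ cl cQ
    calc 4 * B ^ 162 = 2 ^ 2 * B ^ 162 := by norm_num
      _ ≤ B ^ 2 * B ^ 162 := Nat.mul_le_mul_right _ (Nat.pow_le_pow_left hB 2)
      _ = B ^ 164 := by rw [← pow_add]
      _ ≤ B ^ (2300 + 800) := Nat.pow_le_pow_right (by omega) (by norm_num)
      _ = B ^ 2300 * B ^ 800 := by rw [pow_add]
  have h4 : cl B * cQ B ≤ NT n B * cl B * cQ B := by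
    rw [mul_assoc]
    exact Nat.le_mul_of_pos_left _ h2
  have h5 : 1 ≤ cJ B := Nat.one_le_pow _ _ (by omega)
  omega

theorem zB_le_zA (w : List Bool) (n B : ℕ) : zB w n B ≤ zA w n B := by
  unfold zA zB
  (clear * -; omega)

theorem zA_eq (w : List Bool) {n B : ℕ} (hn : 1 ≤ n) (hB : 2 ≤ B) :
    zA w n B = zB w n B + 2 * cJ B := by
  have := zB_pos w hn hB
  unfold zA zB at *
  omega

theorem coprime_aux {D z : ℕ} (hz : 1 ≤ z) (hD : 1 ≤ D) : Nat.Coprime (D * z - 1) (D ^ 2) := by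
  have h1 : Nat.Coprime (D * z - 1) D := by
    have h2 : 1 ≤ D * z := Nat.mul_pos hD hz
    have h3 : Nat.Coprime (D * z - 1) (D * z) := by
      have h4 : Nat.Coprime (D * z - 1) (D * z - 1 + 1) := by
        simp only [Nat.coprime_self_add_right, Nat.coprime_one_right_eq_true]
      rwa [Nat.sub_add_cancel h2] at h4
    exact Nat.Coprime.coprime_mul_right_right h3
  exact Nat.Coprime.pow_right 2 h1

theorem encRat_nat (m : ℕ) : encRat (m : ℚ) = false :: (encNat m ++ encNat 1) := by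
  unfold encRat
  have h : ¬ ((m : ℚ) < 0) := by
    have : (0 : ℚ) ≤ m := Nat.cast_nonneg m
    exact not_lt.mpr this
  simp only [h, decide_false, Rat.num_natCast, Int.natAbs_natCast, Rat.den_natCast]

theorem encRat_neg_nat {m : ℕ} (hm : 1 ≤ m) :
    encRat (-(m : ℚ)) = true :: (encNat m ++ encNat 1) := by
  unfold encRat
  have h : (-(m : ℚ)) < 0 := by
    have : (0 : ℚ) < m := by exact_mod_cast hm
    linarith only [this]
  simp only [h, decide_true, Rat.neg_num, Rat.num_natCast, Int.natAbs_neg, Int.natAbs_natCast, Rat.neg_den, Rat.den_natCast]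

theorem encRat_neg_div {p q : ℕ} (hp : 1 ≤ p) (hq : 1 ≤ q) (hpq : Nat.Coprime p q) :
    encRat (-((p : ℚ) / (q : ℚ))) = true :: (encNat p ++ encNat q) := by
  have h : (-((p : ℚ) / (q : ℚ))) < 0 := by
    have : (0 : ℚ) < (p : ℚ) / q := by
      have h1 : (0 : ℚ) < p := by exact_mod_cast hp
      have h2 : (0 : ℚ) < q := by exact_mod_cast hq
      positivity
    linarith
  have hnum : ((p : ℚ) / (q : ℚ)).num = p := by
    have := Rat.num_div_eq_of_coprime (a := (p : ℤ)) (b := (q : ℤ)) (by exact_mod_cast hq)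
      (by simpa only [Int.natAbs_natCast] using hpq)
    simpa only [Int.cast_natCast] using this
  have hden : ((p : ℚ) / (q : ℚ)).den = q := by
    have := Rat.den_div_eq_of_coprime (a := (p : ℤ)) (b := (q : ℤ)) (by exact_mod_cast hq)
      (by simpa only [Int.natAbs_natCast] using hpq)
    have h2 : (((p : ℚ) / (q : ℚ)).den : ℤ) = q := by simpa only [Nat.cast_inj, Int.cast_natCast] using this
    exact_mod_cast h2
  unfold encRat
  have e1 : (-((p : ℚ) / (q : ℚ))).num.natAbs = p := by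
    rw [Rat.neg_num, hnum]
    simp only [Int.natAbs_neg, Int.natAbs_natCast]
  have e2 : (-((p : ℚ) / (q : ℚ))).den = q := by
    rw [Rat.neg_den, hden]
  rw [e1, e2]
  simp only [h, decide_true]

theorem fH_pos (w : List Bool) {n B : ℕ} (hB : 1 ≤ B) (t : ℕ) : 1 ≤ fH w n B t := by
  unfold fH
  have h1 : 1 ≤ cH B := Nat.one_le_pow _ _ hB
  have h2 : 1 ≤ cV B := Nat.one_le_pow _ _ hB
  split_ifs
  · omega
  · exact h2

theorem flatMap_finRange {α : Type*} (n : ℕ) (g : ℕ → List α) :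
    (List.finRange n).flatMap (fun i => g i.val) = (List.range n).flatMap g := by
  rw [← List.map_coe_finRange_eq_range, List.flatMap_map]

/-- the code of the constructed instance, explicitly -/
def code (w : List Bool) (n B : ℕ) : List Bool :=
  (List.range (2 * NT n B)).flatMap (fun α => true ::
    ((false :: (encNat (cl B * fX n B (α / 2)) ++ encNat 1)) ++
     (false :: (encNat (cl B * fY n B (α / 2)) ++ encNat 1)) ++
     (if α % 2 = 0 then (false :: (encNat (cl B * fH w n B (α / 2)) ++ encNat 1)) else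
        (true :: (encNat (cl B * fH w n B (α / 2)) ++ encNat 1))) ++ encNat 1)) ++
  [false] ++ un (NT n B) ++ [false] ++
  (true :: (encNat (cD B * zA w n B - 1) ++ encNat (cD B ^ 2))) ++
  (true :: (encNat (cD B * zB w n B - 1) ++ encNat (cD B ^ 2)))

theorem nn_pos (w : List Bool) : 1 ≤ nn w := by unfold nn; omega

theorem two_le_cD {B : ℕ} (hB : 1 ≤ B) : 2 ≤ cD B := by
  unfold cD cl cQ
  have h1 : 1 ≤ B ^ 2300 := Nat.one_le_pow _ _ hB
  have h2 : 1 ≤ B ^ 800 := Nat.one_le_pow _ _ hB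
  calc 2 = 2 * 1 * 1 := rfl
    _ ≤ 2 * B ^ 2300 * B ^ 800 := Nat.mul_le_mul (Nat.mul_le_mul_left 2 h1) h2

theorem two_le_BB {j : ℕ} (hj : 1 ≤ j) (w : List Bool) : 2 ≤ BB j w := by
  unfold BB
  have : 1 ≤ (w.length + j) ^ 4 := Nat.one_le_pow _ _ (by omega)
  omega

theorem encInstance_inst {j : ℕ} (hj : 1 ≤ j) (w : List Bool) :
    encInstance (inst j w) = code w (nn w) (BB j w) := by
  have hn := nn_pos w
  have hB2 := two_le_BB hj w
  have hB : 1 ≤ BB j w := by (clear * - hB2; omega)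
  have hzB := zB_pos w hn hB2
  have hzA : 1 ≤ zA w (nn w) (BB j w) := hzB.trans (zB_le_zA _ _ _)
  have hD := two_le_cD hB
  have hD2 : 1 ≤ cD (BB j w) ^ 2 := Nat.one_le_pow _ _ (by (clear * - hD; omega))
  have e1 := encRat_neg_div (p := cD (BB j w) * zA w (nn w) (BB j w) - 1)
    (q := cD (BB j w) ^ 2) (by
      have : 2 * 1 ≤ cD (BB j w) * zA w (nn w) (BB j w) := Nat.mul_le_mul hD hzA
      (clear * - this; omega)) hD2 (coprime_aux hzA (by omega))
  have e2 := encRat_neg_div (p := cD (BB j w) * zB w (nn w) (BB j w) - 1)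
    (q := cD (BB j w) ^ 2) (by
      have : 2 * 1 ≤ cD (BB j w) * zB w (nn w) (BB j w) := Nat.mul_le_mul hD hzB
      (clear * - this; omega)) hD2 (coprime_aux hzB (by omega))
  unfold encInstance code
  simp only [inst]
  rw [e1, e2]
  congr 5
  rw [← flatMap_finRange]
  refine List.flatMap_congr (fun α _ => ?_)
  have h10 : ¬ ((1 : Fin 3) = 0) := by decide
  have h20 : ¬ ((2 : Fin 3) = 0) := by decide
  have h21 : ¬ ((2 : Fin 3) = 1) := by decide
  simp only [if_true, h10, h20, h21, if_false]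
  rw [encRat_nat, encRat_nat]
  have hm : 1 ≤ cl (BB j w) * fH w (nn w) (BB j w) (α.val / 2) :=
    Nat.mul_pos (Nat.one_le_pow _ _ hB) (fH_pos w hB _)
  split_ifs
  · rw [encRat_nat]
  · rw [encRat_neg_nat hm]

theorem PolyTime.code {k : ℕ} {n B : (Fin k → List Bool) → ℕ}
    {f : (Fin k → List Bool) → List Bool} (hf : PolyTime k f) (hn : PN k n) (hB : PN k B) :
    PolyTime k (fun v => Vale.Agent.P370.code (f v) (n v) (B v)) := by
  have hf1 := PolyTime.lift1 hf
  have hn1 := PN.lift1 hn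
  have hB1 := PN.lift1 hB
  have ha : PN (k + 1) (fun w => (w 0).length) := PN.var 0
  have ha2 := PN.div ha (PN.const _ 2)
  have hm2 := PN.mod ha (PN.const _ 2)
  have hl : PN (k + 1) (fun w => Red.cl (B (fun i => w i.succ))) := PN.pow hB1 2300
  have one1 : PolyTime (k + 1) (fun _ => Vale.Agent.P370.encNat 1) := PolyTime.const _ _
  have hZ := PolyTime.append (PolyTime.encNat (PN.mul hl (PN.fH hf1 hn1 hB1 ha2))) one1
  have hN := PolyTime.flatMap (PN.mul (PN.const k 2) (PN.NT hn hB)) (PolyTime.cons' true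
    (PolyTime.append (PolyTime.append (PolyTime.append
      (PolyTime.cons' false (PolyTime.append
        (PolyTime.encNat (PN.mul hl (PN.fX hn1 hB1 ha2))) one1))
      (PolyTime.cons' false (PolyTime.append
        (PolyTime.encNat (PN.mul hl (PN.fY hn1 hB1 ha2))) one1)))
      (PolyTime.ite_eq hm2 (PN.const _ 0) (PolyTime.cons' false hZ) (PolyTime.cons' true hZ)))
      one1))
  have hD := PN.cD hB
  have hD2 := PolyTime.encNat (PN.pow hD 2)
  have h := PolyTime.append (PolyTime.append (PolyTime.append (PolyTime.append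
    (PolyTime.append hN (PolyTime.const k [false])) (PN.NT hn hB)) (PolyTime.const k [false]))
    (PolyTime.cons' true (PolyTime.append
      (PolyTime.encNat (PN.sub (PN.mul hD (PN.zA hf hn hB)) (PN.const k 1))) hD2)))
    (PolyTime.cons' true (PolyTime.append
      (PolyTime.encNat (PN.sub (PN.mul hD (PN.zB hf hn hB)) (PN.const k 1))) hD2))
  refine h.congr (fun v => ?_)
  simp only [Fin.cons_zero, Fin.cons_succ, un_length]
  rfl

theorem inst_poly {j : ℕ} (hj : 1 ≤ j) : PolyTime 1 (fun v => encInstance (inst j (v 0))) := by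
  have hf := PolyTime.proj 1 0
  refine (PolyTime.code hf (PN.nn hf) (PN.BB j hf)).congr (fun v => ?_)
  rw [encInstance_inst hj]

end Vale.Agent.P370
end

section

/-!
Basic algebra of real qubit states (used by H2): inner product, Pauli operators, gates.
-/

namespace Vale.Agent.P370.H

open Finset

variable {n : ℕ}

/-! ### inner product -/

theorem ip_comm (v w : RSt n) : ip v w = ip w v := by
  unfold ip; exact sum_congr rfl fun x _ => mul_comm _ _

theorem ip_add_left (u v w : RSt n) : ip (u + v) w = ip u w + ip v w := by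
  unfold ip; rw [← sum_add_distrib]; exact sum_congr rfl fun x _ => by simp only [Pi.add_apply, add_mul]

theorem ip_add_right (u v w : RSt n) : ip w (u + v) = ip w u + ip w v := by
  rw [ip_comm, ip_add_left, ip_comm u, ip_comm v]

theorem ip_smul_left (c : ℝ) (v w : RSt n) : ip (c • v) w = c * ip v w := by
  unfold ip; rw [mul_sum]; exact sum_congr rfl fun x _ => by simp [mul_assoc]

theorem ip_smul_right (c : ℝ) (v w : RSt n) : ip v (c • w) = c * ip v w := by
  rw [ip_comm, ip_smul_left, ip_comm]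

theorem ip_neg_left (v w : RSt n) : ip (-v) w = -ip v w := by
  have := ip_smul_left (-1) v w
  simpa using this

theorem ip_neg_right (v w : RSt n) : ip v (-w) = -ip v w := by
  rw [ip_comm, ip_neg_left, ip_comm]

theorem ip_sub_left (u v w : RSt n) : ip (u - v) w = ip u w - ip v w := by
  rw [sub_eq_add_neg, ip_add_left, ip_neg_left]; ring

theorem ip_sub_right (u v w : RSt n) : ip w (u - v) = ip w u - ip w v := by
  rw [sub_eq_add_neg, ip_add_right, ip_neg_right]; ring

@[simp] theorem ip_zero_left (v : RSt n) : ip 0 v = 0 := by simp only [ip, Pi.zero_apply, zero_mul, sum_const_zero]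

@[simp] theorem ip_zero_right (v : RSt n) : ip v 0 = 0 := by simp only [ip, Pi.zero_apply, mul_zero, sum_const_zero]

@[simp] theorem nrm2_zero : nrm2 (0 : RSt n) = 0 := by simp [nrm2]

theorem nrm2_nonneg (v : RSt n) : 0 ≤ nrm2 v := by
  unfold nrm2 ip; exact sum_nonneg fun x _ => mul_self_nonneg _

theorem nrm2_eq_zero {v : RSt n} (h : nrm2 v = 0) : v = 0 := by
  unfold nrm2 ip at h
  rw [sum_eq_zero_iff_of_nonneg (fun x _ => mul_self_nonneg _)] at h
  funext x
  exact mul_self_eq_zero.1 (h x (mem_univ x))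

theorem nrm2_add (v w : RSt n) : nrm2 (v + w) = nrm2 v + 2 * ip v w + nrm2 w := by
  unfold nrm2; rw [ip_add_left, ip_add_right, ip_add_right, ip_comm w v]; ring

theorem nrm2_sub (v w : RSt n) : nrm2 (v - w) = nrm2 v - 2 * ip v w + nrm2 w := by
  unfold nrm2; rw [ip_sub_left, ip_sub_right, ip_sub_right, ip_comm w v]; ring

theorem nrm2_smul (c : ℝ) (v : RSt n) : nrm2 (c • v) = c ^ 2 * nrm2 v := by
  unfold nrm2; rw [ip_smul_left, ip_smul_right]; ring

theorem nrm2_neg (v : RSt n) : nrm2 (-v) = nrm2 v := by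
  unfold nrm2; rw [ip_neg_left, ip_neg_right]; ring

theorem nrm2_sub_comm (v w : RSt n) : nrm2 (v - w) = nrm2 (w - v) := by
  rw [← nrm2_neg, neg_sub]

/-- Young's inequality -/
theorem two_ip_le (v w : RSt n) {c : ℝ} (hc : 0 < c) : 2 * ip v w ≤ c * nrm2 v + 1 / c * nrm2 w := by
  have h := nrm2_nonneg (c • v - w)
  rw [nrm2_sub, nrm2_smul, ip_smul_left] at h
  have e : c * nrm2 v + 1 / c * nrm2 w - 2 * ip v w
      = 1 / c * (c ^ 2 * nrm2 v - 2 * (c * ip v w) + nrm2 w) := by field_simp; ring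
  have : 0 ≤ 1 / c * (c ^ 2 * nrm2 v - 2 * (c * ip v w) + nrm2 w) :=
    mul_nonneg (by positivity) h
  linarith only [e, this]

theorem neg_two_ip_le (v w : RSt n) {c : ℝ} (hc : 0 < c) :
    -(c * nrm2 v + 1 / c * nrm2 w) ≤ 2 * ip v w := by
  have := two_ip_le (-v) w hc
  rw [ip_neg_left, nrm2_neg] at this
  linarith

theorem nrm2_add_le (v w : RSt n) {c : ℝ} (hc : 0 < c) :
    nrm2 (v + w) ≤ (1 + c) * nrm2 v + (1 + 1 / c) * nrm2 w := by
  rw [nrm2_add]; have := two_ip_le v w hc; linarith only [this]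

theorem le_nrm2_add (v w : RSt n) {c : ℝ} (hc : 0 < c) :
    (1 - c) * nrm2 v - (1 / c - 1) * nrm2 w ≤ nrm2 (v + w) := by
  rw [nrm2_add]; have := neg_two_ip_le v w hc; linarith

/-- Cauchy-Schwarz -/
theorem ip_sq_le (v w : RSt n) : ip v w ^ 2 ≤ nrm2 v * nrm2 w := by
  unfold nrm2 ip
  have h := sum_mul_sq_le_sq_mul_sq univ v w
  simpa only [sq, ge_iff_le] using h

/-! ### Pauli operators -/

theorem pau_add (P i : ℕ) (v w : RSt n) : pau P i (v + w) = pau P i v + pau P i w := by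
  unfold pau
  split_ifs
  · rfl
  · funext x; simp
  · funext x; simp only [Pi.add_apply, mul_add, ite_mul, neg_mul, one_mul]
  · rfl

theorem pau_smul (P i : ℕ) (c : ℝ) (v : RSt n) : pau P i (c • v) = c • pau P i v := by
  unfold pau
  split_ifs
  · rfl
  · funext x; simp
  · funext x; simp only [Pi.smul_apply, smul_eq_mul]; ring
  · rfl

theorem pau_neg (P i : ℕ) (v : RSt n) : pau P i (-v) = -pau P i v := by
  have := pau_smul P i (-1) v
  simpa using this

theorem pau_sub (P i : ℕ) (v w : RSt n) : pau P i (v - w) = pau P i v - pau P i w := by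
  rw [sub_eq_add_neg, pau_add, pau_neg, ← sub_eq_add_neg]

/-- flip of the bit `i` -/
def flipE (i : Fin n) : (Fin n → Bool) ≃ (Fin n → Bool) where
  toFun x := Function.update x i (!x i)
  invFun x := Function.update x i (!x i)
  left_inv x := by simp
  right_inv x := by simp

theorem pau_pau (P i : ℕ) (v : RSt n) : pau P i (pau P i v) = v := by
  by_cases h : i < n
  · by_cases h0 : P = 0
    · simp only [pau, h, ↓reduceDIte, h0, ↓reduceIte]
    · by_cases h1 : P = 1
      · funext x; simp only [pau, h, ↓reduceDIte, h1, one_ne_zero, ↓reduceIte, Function.update_self, Bool.not_not, Function.update_idem, Function.update_eq_self]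
      · funext x
        simp only [pau, h, h0, h1, dite_true, if_false]
        by_cases hx : x ⟨i, h⟩ = true <;> simp [hx]
  · simp [pau, h]

theorem ip_pau (P i : ℕ) (v w : RSt n) : ip v (pau P i w) = ip (pau P i v) w := by
  by_cases h : i < n
  · by_cases h0 : P = 0
    · simp [pau, h, h0]
    · by_cases h1 : P = 1
      · simp only [pau, h, h1, dite_true, if_true, one_ne_zero, if_false]
        unfold ip
        rw [← Equiv.sum_comp (flipE ⟨i, h⟩)]
        refine sum_congr rfl fun x _ => ?_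
        simp [flipE]
      · simp only [pau, h, h0, h1, if_false, dite_true]
        unfold ip
        exact sum_congr rfl fun x _ => by ring
  · simp [pau, h]

theorem nrm2_pau (P i : ℕ) (v : RSt n) : nrm2 (pau P i v) = nrm2 v := by
  unfold nrm2; rw [ip_pau, pau_pau]

/-- `Z` as a diagonal operator -/
theorem pauZ_apply {i : ℕ} (h : i < n) (v : RSt n) (x : Fin n → Bool) :
    pau 2 i v x = (if x ⟨i, h⟩ then -1 else 1) * v x := by
  simp [pau, h]

theorem ip_pauZ_pauX {i : ℕ} (h : i < n) (v : RSt n) : ip (pau 2 i v) (pau 1 i v) = 0 := by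
  have e : ip (pau 2 i v) (pau 1 i v) = -ip (pau 2 i v) (pau 1 i v) := by
    conv_lhs => unfold ip
    rw [← Equiv.sum_comp (flipE ⟨i, h⟩)]
    unfold ip
    rw [← sum_neg_distrib]
    refine sum_congr rfl fun x _ => ?_
    simp only [pau, h, dite_true, if_true, flipE, Equiv.coe_fn_mk, one_ne_zero, if_false,
      OfNat.ofNat_ne_zero, OfNat.ofNat_ne_one, Function.update_self, Function.update_idem,
      Bool.not_not, Function.update_eq_self]
    by_cases hx : x ⟨i, h⟩ = true <;> simp [hx, mul_comm]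
  linarith only [e]

/-! ### gates -/

theorem refl_add (a q : ℕ) (v w : RSt n) : refl a q (v + w) = refl a q v + refl a q w := by
  unfold refl
  split_ifs
  · rfl
  · rw [pau_add, pau_add, smul_add, smul_add]; abel

theorem refl_smul (a q : ℕ) (c : ℝ) (v : RSt n) : refl a q (c • v) = c • refl a q v := by
  unfold refl
  split_ifs
  · rfl
  · rw [pau_smul, pau_smul, smul_add, smul_comm c, smul_comm c]

theorem nrm2_refl (a : ℕ) {q : ℕ} (hq : q < n) (v : RSt n) : nrm2 (refl a q v) = nrm2 v := by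
  unfold refl
  split_ifs
  · rfl
  · rw [nrm2_add, nrm2_smul, nrm2_smul, nrm2_pau, nrm2_pau, ip_smul_left, ip_smul_right,
      ip_pauZ_pauX hq]
    have := Real.cos_sq_add_sin_sq (ang a)
    linear_combination nrm2 v * this

theorem ip_refl (a q : ℕ) (v w : RSt n) : ip v (refl a q w) = ip (refl a q v) w := by
  unfold refl
  split_ifs
  · rfl
  · rw [ip_add_right, ip_smul_right, ip_smul_right, ip_add_left, ip_smul_left, ip_smul_left,
      ip_pau, ip_pau]

/-- polarisation: a linear isometry that is self-adjoint is an involution -/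
theorem eq_of_ip_eq {v w : RSt n} (h : ∀ u, ip u v = ip u w) : v = w := by
  have h1 := h (v - w)
  have : nrm2 (v - w) = 0 := by
    unfold nrm2; rw [ip_sub_right, h1, sub_self]
  have := nrm2_eq_zero this
  exact sub_eq_zero.1 this

theorem ip_refl_refl (a : ℕ) {q : ℕ} (hq : q < n) (v w : RSt n) :
    ip (refl a q v) (refl a q w) = ip v w := by
  have h1 := nrm2_refl a hq (v + w)
  rw [refl_add, nrm2_add, nrm2_add, nrm2_refl a hq, nrm2_refl a hq] at h1
  linarith only [h1]

theorem refl_refl (a : ℕ) {q : ℕ} (hq : q < n) (v : RSt n) : refl a q (refl a q v) = v := by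
  apply eq_of_ip_eq
  intro u
  rw [ip_refl, ip_refl_refl a hq]

theorem czg_apply {f s : ℕ} (hf : f < n) (hs : s < n) (v : RSt n) (x : Fin n → Bool) :
    czg f s v x = (if x ⟨f, hf⟩ && x ⟨s, hs⟩ then -1 else 1) * v x := by
  simp only [czg, Pi.smul_apply, Pi.sub_apply, Pi.add_apply, pauZ_apply hf, pauZ_apply hs, smul_eq_mul]
  by_cases h1 : x ⟨f, hf⟩ = true <;> by_cases h2 : x ⟨s, hs⟩ = true <;> simp [h1, h2] <;> ring

theorem czg_add (f s : ℕ) (v w : RSt n) : czg f s (v + w) = czg f s v + czg f s w := by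
  unfold czg
  rw [pau_add, pau_add, pau_add, ← smul_add]
  congr 1; abel

theorem czg_smul (f s : ℕ) (c : ℝ) (v : RSt n) : czg f s (c • v) = c • czg f s v := by
  unfold czg
  rw [pau_smul, pau_smul, pau_smul, smul_comm c, ← smul_add, ← smul_add, ← smul_sub]

theorem nrm2_czg {f s : ℕ} (hf : f < n) (hs : s < n) (v : RSt n) : nrm2 (czg f s v) = nrm2 v := by
  unfold nrm2 ip
  refine sum_congr rfl fun x _ => ?_
  rw [czg_apply hf hs]
  split_ifs <;> ring

theorem czg_czg {f s : ℕ} (hf : f < n) (hs : s < n) (v : RSt n) : czg f s (czg f s v) = v := by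
  funext x
  rw [czg_apply hf hs, czg_apply hf hs]
  split_ifs <;> ring

theorem ip_czg {f s : ℕ} (hf : f < n) (hs : s < n) (v w : RSt n) :
    ip v (czg f s w) = ip (czg f s v) w := by
  unfold ip
  refine sum_congr rfl fun x _ => ?_
  rw [czg_apply hf hs, czg_apply hf hs]; ring

theorem rndAct_add (r : Rnd) (v w : RSt n) : rndAct r (v + w) = rndAct r v + rndAct r w := by
  unfold rndAct; rw [refl_add, czg_add]

theorem rndAct_smul (r : Rnd) (c : ℝ) (v : RSt n) : rndAct r (c • v) = c • rndAct r v := by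
  unfold rndAct; rw [refl_smul, czg_smul]

theorem nrm2_rndAct {r : Rnd} (hr : r.Ok n) (v : RSt n) : nrm2 (rndAct r v) = nrm2 v := by
  unfold rndAct; rw [nrm2_czg hr.2.1 hr.2.2.1, nrm2_refl r.a hr.1]

theorem runR_nil (v : RSt n) : runR [] v = v := rfl

theorem runR_cons (r : Rnd) (rs : List Rnd) (v : RSt n) : runR (r :: rs) v = runR rs (rndAct r v) :=
  rfl

theorem runR_append (rs rs' : List Rnd) (v : RSt n) :
    runR (rs ++ rs') v = runR rs' (runR rs v) := by
  unfold runR; rw [List.foldl_append]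

theorem runR_add (rs : List Rnd) (v w : RSt n) : runR rs (v + w) = runR rs v + runR rs w := by
  induction rs generalizing v w with
  | nil => rfl
  | cons r rs ih => rw [runR_cons, runR_cons, runR_cons, rndAct_add, ih]

theorem runR_smul (rs : List Rnd) (c : ℝ) (v : RSt n) : runR rs (c • v) = c • runR rs v := by
  induction rs generalizing v with
  | nil => rfl
  | cons r rs ih => rw [runR_cons, runR_cons, rndAct_smul, ih]

theorem nrm2_runR {rs : List Rnd} (h : ∀ r ∈ rs, r.Ok n) (v : RSt n) :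
    nrm2 (runR rs v) = nrm2 v := by
  induction rs generalizing v with
  | nil => rfl
  | cons r rs ih =>
    rw [runR_cons, ih (fun r' hr' => h r' (List.mem_cons_of_mem _ hr')),
      nrm2_rndAct (h r List.mem_cons_self)]

/-! ### projections -/

theorem one_add (i : ℕ) (v w : RSt n) : one i (v + w) = one i v + one i w := by
  unfold one; rw [pau_add, ← smul_add]; congr 1; abel

theorem zer_add (i : ℕ) (v w : RSt n) : zer i (v + w) = zer i v + zer i w := by
  unfold zer; rw [pau_add, ← smul_add]; congr 1; abel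

theorem one_apply {i : ℕ} (h : i < n) (v : RSt n) (x : Fin n → Bool) :
    one i v x = if x ⟨i, h⟩ then v x else 0 := by
  simp only [one, Pi.smul_apply, Pi.sub_apply, smul_eq_mul, pauZ_apply h]
  split_ifs <;> ring

theorem zer_apply {i : ℕ} (h : i < n) (v : RSt n) (x : Fin n → Bool) :
    zer i v x = if x ⟨i, h⟩ then 0 else v x := by
  simp only [zer, Pi.smul_apply, Pi.add_apply, smul_eq_mul, pauZ_apply h]
  split_ifs <;> ring

theorem nrm2_one_le (i : ℕ) (v : RSt n) : nrm2 (one i v) ≤ nrm2 v := by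
  unfold one
  rw [nrm2_smul, nrm2_sub, nrm2_pau]
  have := neg_two_ip_le v (pau 2 i v) one_pos
  rw [nrm2_pau] at this
  linarith

theorem nrm2_zer_le (i : ℕ) (v : RSt n) : nrm2 (zer i v) ≤ nrm2 v := by
  unfold zer
  rw [nrm2_smul, nrm2_add, nrm2_pau]
  have := two_ip_le v (pau 2 i v) one_pos
  rw [nrm2_pau] at this
  linarith

end Vale.Agent.P370.H
end

section

/-!
The effective energy is the energy of the given Hamiltonian (H8).
-/

namespace Vale.Agent.P370.H

open Finset

variable {n : ℕ}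

/-- coefficient of `Z` in the directions -/
noncomputable def glz (a : Fin 3) : ℝ := if a = 0 then 1 else -(1 / 2)

/-- coefficient of `X` in the directions -/
noncomputable def glx (a : Fin 3) : ℝ :=
  if a = 0 then 0 else if a = 1 then √3 / 2 else -(√3 / 2)

/-- the directions on real states -/
noncomputable def gls (a : Fin 3) (b : Fin n) (v : RSt n) : RSt n :=
  glz a • pau 2 b v + glx a • pau 1 b v

theorem gl_pau2 (b : Fin n) (v : RSt n) (x : Fin n → Bool) :
    pau 2 (b : ℕ) v x = (if x b then -1 else 1) * v x := by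
  simp [pau]

theorem gl_pau1 (b : Fin n) (v : RSt n) (x : Fin n → Bool) :
    pau 1 (b : ℕ) v x = v (Function.update x b (!x b)) := by
  simp only [pau, Fin.is_lt, ↓reduceDIte, one_ne_zero, ↓reduceIte, Fin.eta]

theorem gl_gls_apply (a : Fin 3) (b : Fin n) (v : RSt n) (x : Fin n → Bool) :
    gls a b v x = glz a * ((if x b then -1 else 1) * v x) +
      glx a * v (Function.update x b (!x b)) := by
  have : gls a b v x = glz a * pau 2 (b : ℕ) v x + glx a * pau 1 (b : ℕ) v x := by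
    simp only [gls, Pi.add_apply, Pi.smul_apply, smul_eq_mul]
  rw [this, gl_pau2, gl_pau1]

theorem gl_sgm_apply (a : Fin 3) (b : Fin n) (u : (Fin n → Bool) → ℂ) (x : Fin n → Bool) :
    sgm a b u x = (glz a : ℂ) * (((if x b then -1 else 1 : ℝ) : ℂ) * u x) +
      (glx a : ℂ) * u (Function.update x b (!x b)) := by
  unfold sgm glz glx
  split_ifs <;> push_cast <;> ring

theorem gl_sgm_re (a : Fin 3) (b : Fin n) (u : (Fin n → Bool) → ℂ) :
    (fun x => (sgm a b u x).re) = gls a b (fun x => (u x).re) := by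
  funext x
  rw [gl_sgm_apply, gl_gls_apply, Complex.add_re, Complex.re_ofReal_mul, Complex.re_ofReal_mul,
    Complex.re_ofReal_mul]

theorem gl_sgm_im (a : Fin 3) (b : Fin n) (u : (Fin n → Bool) → ℂ) :
    (fun x => (sgm a b u x).im) = gls a b (fun x => (u x).im) := by
  funext x
  rw [gl_sgm_apply, gl_gls_apply, Complex.add_im, Complex.im_ofReal_mul, Complex.im_ofReal_mul,
    Complex.im_ofReal_mul]

theorem gl_re_sum (u w : (Fin n → Bool) → ℂ) :
    (∑ x, (starRingEnd ℂ) (u x) * w x).re =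
      ip (fun x => (u x).re) (fun x => (w x).re) + ip (fun x => (u x).im) (fun x => (w x).im) := by
  rw [Complex.re_sum, ip, ip, ← Finset.sum_add_distrib]
  refine Finset.sum_congr rfl fun x _ => ?_
  rw [Complex.mul_re, Complex.conj_re, Complex.conj_im]
  ring

theorem gl_norm (u : (Fin n → Bool) → ℂ) :
    ∑ x, ‖u x‖ ^ 2 =
      ip (fun x => (u x).re) (fun x => (u x).re) + ip (fun x => (u x).im) (fun x => (u x).im) := by
  rw [ip, ip, ← Finset.sum_add_distrib]
  refine Finset.sum_congr rfl fun x _ => ?_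
  rw [Complex.sq_norm, Complex.normSq_apply]

theorem gl_A (a : Fin 3) (b : Fin n) (u : (Fin n → Bool) → ℂ) :
    (∑ x, (starRingEnd ℂ) (u x) * sgm a b u x).re =
      ip (fun x => (u x).re) (gls a b (fun x => (u x).re)) +
        ip (fun x => (u x).im) (gls a b (fun x => (u x).im)) := by
  rw [gl_re_sum, gl_sgm_re, gl_sgm_im]

theorem gl_B (a a' : Fin 3) (b b' : Fin n) (u : (Fin n → Bool) → ℂ) :
    (∑ x, (starRingEnd ℂ) (u x) * sgm a b (sgm a' b' u) x).re =
      ip (fun x => (u x).re) (gls a b (gls a' b' (fun x => (u x).re))) +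
        ip (fun x => (u x).im) (gls a b (gls a' b' (fun x => (u x).im))) := by
  rw [gl_re_sum, gl_sgm_re, gl_sgm_im, gl_sgm_re, gl_sgm_im]

/-! ### sums over the directions -/

theorem gl_sum_pvR (P : ℕ) : ∑ a : Fin 3, pvR P a = 0 := by
  rw [Fin.sum_univ_three]
  unfold pvR
  simp only [Fin.val_zero, Fin.val_one, Fin.val_two]
  by_cases h2 : P = 2
  · simp only [h2, ↓reduceIte, one_ne_zero, one_div, OfNat.ofNat_ne_zero]; (clear * -; norm_num)
  · by_cases h1 : P = 1
    · simp only [h1, OfNat.one_ne_ofNat, ↓reduceIte, one_ne_zero, one_div, zero_add, OfNat.ofNat_ne_zero, OfNat.ofNat_ne_one, add_neg_cancel]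
    · simp [h1, h2]

theorem gl_sum_gls (b : Fin n) (v : RSt n) : ∑ a : Fin 3, gls a b v = 0 := by
  rw [Fin.sum_univ_three]
  unfold gls glz glx
  simp only [if_true, Fin.isValue, one_ne_zero, if_false]
  simp only [show (2 : Fin 3) ≠ 0 from by decide, if_false, show (2 : Fin 3) ≠ 1 from by decide]
  module

theorem gl_pau_gls (P : ℕ) (hP : P = 1 ∨ P = 2) (b : Fin n) (v : RSt n) :
    ∑ a : Fin 3, pvR P a • gls a b v = pau P (b : ℕ) v := by
  have h3 : √3 * √3 = 3 := Real.mul_self_sqrt (by norm_num)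
  have h0 : √3 ≠ 0 := by positivity
  rw [Fin.sum_univ_three]
  unfold gls glz glx pvR
  simp only [Fin.isValue, Fin.val_zero, if_true, Fin.val_one, one_ne_zero, if_false, Fin.val_two]
  simp only [show (2 : ℕ) ≠ 0 from by decide, if_false, show (2 : ℕ) ≠ 1 from by decide, show (2 : Fin 3) ≠ 0 from by decide, show (2 : Fin 3) ≠ 1 from by decide]
  rcases hP with rfl | rfl
  · simp only [show (1 : ℕ) ≠ 2 from by decide, if_false, if_true]
    have e : (1 / √3 * (√3 / 2) : ℝ) = 1 / 2 := by field_simp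
    match_scalars
    · ring
    · field_simp
      ring
  · simp only [if_true]
    match_scalars <;> ring

/-! ### one list -/

theorem gl_pau_zero (i : ℕ) (v : RSt n) : pau 0 i v = v := by
  simp [pau]

theorem gl_pau_comm (P Q : ℕ) (b b' : Fin n) (h : b ≠ b') (v : RSt n) :
    pau P (b : ℕ) (pau Q (b' : ℕ) v) = pau Q (b' : ℕ) (pau P (b : ℕ) v) := by
  have h' : b' ≠ b := fun e => h e.symm
  funext x
  simp only [pau, b.isLt, b'.isLt, dif_pos, Fin.eta]
  by_cases hP0 : P = 0
  · simp only [hP0, ↓reduceIte, ite_mul, neg_mul, one_mul]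
  · by_cases hQ0 : Q = 0
    · simp only [hQ0, ↓reduceIte, ite_mul, neg_mul, one_mul]
    · by_cases hP1 : P = 1
      · by_cases hQ1 : Q = 1
        · simp only [hP1, one_ne_zero, hQ1, if_true, if_false]
          rw [Function.update_of_ne h', Function.update_of_ne h, Function.update_comm h]
        · simp only [hP1, one_ne_zero, hQ0, hQ1, if_false, if_true]
          rw [Function.update_of_ne h']
      · by_cases hQ1 : Q = 1
        · simp only [hP1, hQ1, hP0, if_true, one_ne_zero, if_false]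
          rw [Function.update_of_ne h]
        · simp only [hP1, hQ1, hP0, hQ0, if_false]
          ring

theorem gl_ip_sum_right {ι : Type*} (S : Finset ι) (f : ι → RSt n) (v : RSt n) :
    ip v (∑ i ∈ S, f i) = ∑ i ∈ S, ip v (f i) := by
  classical
  induction S using Finset.induction_on with
  | empty => simp
  | insert a S ha ih => rw [Finset.sum_insert ha, Finset.sum_insert ha, ip_add_right, ih]

theorem gl_gls_sum {ι : Type*} (S : Finset ι) (f : ι → RSt n) (a : Fin 3) (b : Fin n) :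
    gls a b (∑ i ∈ S, f i) = ∑ i ∈ S, gls a b (f i) := by
  classical
  have h0 : gls a b (0 : RSt n) = 0 := by
    funext x
    rw [gl_gls_apply]
    simp
  have hadd : ∀ v w : RSt n, gls a b (v + w) = gls a b v + gls a b w := by
    intro v w
    unfold gls
    rw [pau_add, pau_add]
    module
  induction S using Finset.induction_on with
  | empty => simp [h0]
  | insert a S ha ih => rw [Finset.sum_insert ha, Finset.sum_insert ha, hadd, ih]

theorem gl_gls_smul (c : ℝ) (a : Fin 3) (b : Fin n) (v : RSt n) :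
    gls a b (c • v) = c • gls a b v := by
  unfold gls
  rw [pau_smul, pau_smul]
  module

theorem gl_one (P : ℕ) (hP : P = 1 ∨ P = 2) (b : Fin n) (v w : RSt n) :
    ∑ a : Fin 3, pvR P a * ip v (gls a b w) = ip v (pau P (b : ℕ) w) := by
  rw [← gl_pau_gls P hP, gl_ip_sum_right]
  refine Finset.sum_congr rfl fun a _ => ?_
  rw [ip_smul_right]

theorem gl_two (P Q : ℕ) (hP : P = 1 ∨ P = 2) (hQ : Q = 1 ∨ Q = 2) (b b' : Fin n) (v : RSt n) :
    ∑ a : Fin 3, ∑ a' : Fin 3, pvR P a * pvR Q a' * ip v (gls a b (gls a' b' v)) =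
      ip v (pau P (b : ℕ) (pau Q (b' : ℕ) v)) := by
  rw [← gl_one P hP]
  refine Finset.sum_congr rfl fun a _ => ?_
  rw [← gl_pau_gls Q hQ, gl_gls_sum, gl_ip_sum_right, Finset.mul_sum]
  refine Finset.sum_congr rfl fun a' _ => ?_
  rw [gl_gls_smul, ip_smul_right]
  ring

/-- the coefficient of one term in `co2` -/
noncomputable def glc2 (t : Tm ℝ) (b b' a a' : ℕ) : ℝ :=
  if t.P = 0 ∨ t.Q = 0 then 0
    else if t.i = b ∧ t.j = b' then t.c * (pvR t.P a * pvR t.Q a')
    else if t.i = b' ∧ t.j = b then t.c * (pvR t.P a' * pvR t.Q a) else 0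

noncomputable def glc1 (t : Tm ℝ) (b a : ℕ) : ℝ :=
  if t.P ≠ 0 ∧ t.Q = 0 ∧ t.i = b then t.c * pvR t.P a else 0

theorem gl_co2_nil (b b' a a' : ℕ) : co2 pvR [] b b' a a' = 0 := by simp only [co2, List.map_nil, List.sum_nil]

theorem gl_co2_cons (t : Tm ℝ) (L : List (Tm ℝ)) (b b' a a' : ℕ) :
    co2 pvR (t :: L) b b' a a' = glc2 t b b' a a' + co2 pvR L b b' a a' := by
  simp only [co2, glc2, List.map_cons, List.sum_cons]

theorem gl_co1_nil (b a : ℕ) : co1 pvR [] b a = 0 := by simp [co1]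

theorem gl_co1_cons (t : Tm ℝ) (L : List (Tm ℝ)) (b a : ℕ) :
    co1 pvR (t :: L) b a = glc1 t b a + co1 pvR L b a := by
  simp only [co1, glc1, List.map_cons, List.sum_cons]

/-- the two-qubit part of the quadratic form -/
noncomputable def glt2 (t : Tm ℝ) (v : RSt n) : ℝ :=
  if t.P = 0 ∨ t.Q = 0 then 0 else t.c * ip v (pau t.P t.i (pau t.Q t.j v))

noncomputable def glt1 (t : Tm ℝ) (v : RSt n) : ℝ :=
  if t.P ≠ 0 ∧ t.Q = 0 then t.c * ip v (pau t.P t.i v) else 0

theorem gl_sum_ite2 (K : ℝ) (i j : Fin n) :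
    ∑ b : Fin n, ∑ b' : Fin n, (if (i : ℕ) = b ∧ (j : ℕ) = b' then K else 0) = K := by
  rw [Finset.sum_eq_single i, Finset.sum_eq_single j]
  · simp
  · intro b _ hb
    rw [if_neg]
    rintro ⟨_, h⟩
    exact hb (Fin.ext h.symm)
  · simp only [mem_univ, not_true_eq_false, and_self, ↓reduceIte, IsEmpty.forall_iff]
  · intro b _ hb
    refine Finset.sum_eq_zero fun b' _ => ?_
    rw [if_neg]
    rintro ⟨h, _⟩
    exact hb (Fin.ext h.symm)
  · simp only [mem_univ, not_true_eq_false, true_and, IsEmpty.forall_iff]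

theorem gl_t2 (t : Tm ℝ) (ht : t.Ok n) (v : RSt n) :
    ∑ b : Fin n, ∑ b' : Fin n, (if b = b' then 0 else
      ∑ a : Fin 3, ∑ a' : Fin 3, glc2 t b b' a a' * ip v (gls a b (gls a' b' v))) =
      2 * glt2 t v := by
  rcases ht with h | h | h
  · have e : ∀ b b' a a' : ℕ, glc2 t b b' a a' = 0 := fun b b' a a' => by
      unfold glc2
      rw [if_pos (Or.inl h.1)]
    have e2 : glt2 t v = 0 := by
      unfold glt2
      rw [if_pos (Or.inl h.1)]
    simp only [e, zero_mul, sum_const_zero, ite_self, e2, mul_zero]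
  · have e : ∀ b b' a a' : ℕ, glc2 t b b' a a' = 0 := fun b b' a a' => by
      unfold glc2
      rw [if_pos (Or.inr h.2.1)]
    have e2 : glt2 t v = 0 := by
      unfold glt2
      rw [if_pos (Or.inr h.2.1)]
    simp only [e, zero_mul, sum_const_zero, ite_self, e2, mul_zero]
  · obtain ⟨hP, hQ, hij, hj⟩ := h
    have hPQ : ¬ (t.P = 0 ∨ t.Q = 0) := by omega
    have hi : t.i < n := by omega
    set I : Fin n := ⟨t.i, hi⟩ with hI
    set J : Fin n := ⟨t.j, hj⟩ with hJ
    set K : ℝ := t.c * ip v (pau t.P t.i (pau t.Q t.j v)) with hK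
    have e2 : glt2 t v = K := by
      unfold glt2
      rw [if_neg hPQ]
    have key : ∀ b b' : Fin n, (if b = b' then (0 : ℝ) else
        ∑ a : Fin 3, ∑ a' : Fin 3, glc2 t b b' a a' * ip v (gls a b (gls a' b' v))) =
        (if (I : ℕ) = b ∧ (J : ℕ) = b' then K else 0) +
          (if (J : ℕ) = b ∧ (I : ℕ) = b' then K else 0) := by
      intro b b'
      by_cases h1 : t.i = (b : ℕ) ∧ t.j = (b' : ℕ)
      · have hne : b ≠ b' := by
          intro e
          rw [e] at h1
          omega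
        have h2 : ¬ (t.j = (b : ℕ) ∧ t.i = (b' : ℕ)) := by (clear * - hij hj hi h1; omega)
        rw [if_neg hne, if_pos h1, if_neg h2, add_zero]
        have : ∀ a a' : Fin 3, glc2 t b b' a a' * ip v (gls a b (gls a' b' v)) =
            t.c * (pvR t.P a * pvR t.Q a' * ip v (gls a b (gls a' b' v))) := by
          intro a a'
          unfold glc2
          rw [if_neg hPQ, if_pos h1]
          ring
        simp only [this, ← Finset.mul_sum]
        rw [gl_two _ _ hP hQ, hK, ← h1.1, ← h1.2]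
      · by_cases h2 : t.i = (b' : ℕ) ∧ t.j = (b : ℕ)
        · have hne : b ≠ b' := by
            intro e
            rw [e] at h2
            omega
          rw [if_neg hne, if_neg h1, if_pos h2.symm, zero_add]
          have : ∀ a a' : Fin 3, glc2 t b b' a a' * ip v (gls a b (gls a' b' v)) =
              t.c * (pvR t.Q a * pvR t.P a' * ip v (gls a b (gls a' b' v))) := by
            intro a a'
            unfold glc2
            rw [if_neg hPQ, if_neg h1, if_pos h2]
            ring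
          simp only [this, ← Finset.mul_sum]
          rw [gl_two _ _ hQ hP, hK, gl_pau_comm _ _ _ _ hne, ← h2.1, ← h2.2]
        · have h3 : ¬ (t.j = (b : ℕ) ∧ t.i = (b' : ℕ)) := fun h => h2 h.symm
          have : ∀ a a' : Fin 3, glc2 t b b' a a' = 0 := by
            intro a a'
            unfold glc2
            rw [if_neg hPQ, if_neg h1, if_neg h2]
          rw [if_neg h1, if_neg h3, add_zero]
          simp [this]
    simp only [key, Finset.sum_add_distrib]
    rw [gl_sum_ite2 K I J, gl_sum_ite2 K J I, e2]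
    ring

theorem gl_t1 (t : Tm ℝ) (ht : t.Ok n) (v : RSt n) :
    ∑ b : Fin n, ∑ a : Fin 3, glc1 t b a * ip v (gls a b v) = glt1 t v := by
  rcases ht with h | h | h
  · have e : ∀ b a : ℕ, glc1 t b a = 0 := fun b a => by
      unfold glc1
      rw [if_neg (by (clear * - h; tauto))]
    have e2 : glt1 t v = 0 := by
      unfold glt1
      rw [if_neg (by tauto)]
    simp only [e, zero_mul, sum_const_zero, e2]
  · obtain ⟨hP, hQ, hi⟩ := h
    have hP0 : t.P ≠ 0 := by omega
    have e2 : glt1 t v = t.c * ip v (pau t.P t.i v) := by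
      unfold glt1
      rw [if_pos ⟨hP0, hQ⟩]
    rw [e2, Finset.sum_eq_single (⟨t.i, hi⟩ : Fin n)]
    · have : ∀ a : Fin 3, glc1 t (⟨t.i, hi⟩ : Fin n) a * ip v (gls a ⟨t.i, hi⟩ v) =
          t.c * (pvR t.P a * ip v (gls a ⟨t.i, hi⟩ v)) := by
        intro a
        unfold glc1
        rw [if_pos ⟨hP0, hQ, rfl⟩]
        ring
      simp only [this, ← Finset.mul_sum]
      rw [gl_one _ hP]
    · intro b _ hb
      refine Finset.sum_eq_zero fun a _ => ?_
      unfold glc1
      rw [if_neg, zero_mul]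
      rintro ⟨_, _, h⟩
      exact hb (Fin.ext h.symm)
    · simp only [mem_univ, not_true_eq_false, IsEmpty.forall_iff]
  · have e : ∀ b a : ℕ, glc1 t b a = 0 := fun b a => by
      unfold glc1
      rw [if_neg (by rintro ⟨_, h1, _⟩; omega)]
    have e2 : glt1 t v = 0 := by
      unfold glt1
      rw [if_neg (by rintro ⟨_, h1⟩; omega)]
    simp only [e, zero_mul, sum_const_zero, e2]

theorem gl_T2 (L : List (Tm ℝ)) (hok : ∀ t ∈ L, t.Ok n) (v : RSt n) :
    ∑ b : Fin n, ∑ b' : Fin n, (if b = b' then 0 else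
      ∑ a : Fin 3, ∑ a' : Fin 3, co2 pvR L b b' a a' * ip v (gls a b (gls a' b' v))) =
      2 * (L.map fun t => glt2 t v).sum := by
  induction L with
  | nil => simp only [gl_co2_nil, zero_mul, sum_const_zero, ite_self, List.map_nil, List.sum_nil, mul_zero]
  | cons t L ih =>
    have hL := ih fun t' ht' => hok t' (List.mem_cons_of_mem _ ht')
    have ht := gl_t2 t (hok t List.mem_cons_self) v
    rw [List.map_cons, List.sum_cons, mul_add, ← hL, ← ht, ← Finset.sum_add_distrib]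
    refine Finset.sum_congr rfl fun b _ => ?_
    rw [← Finset.sum_add_distrib]
    refine Finset.sum_congr rfl fun b' _ => ?_
    split_ifs
    · simp
    · rw [← Finset.sum_add_distrib]
      refine Finset.sum_congr rfl fun a _ => ?_
      rw [← Finset.sum_add_distrib]
      refine Finset.sum_congr rfl fun a' _ => ?_
      rw [gl_co2_cons, add_mul]

theorem gl_T1 (L : List (Tm ℝ)) (hok : ∀ t ∈ L, t.Ok n) (v : RSt n) :
    ∑ b : Fin n, ∑ a : Fin 3, co1 pvR L b a * ip v (gls a b v) =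
      (L.map fun t => glt1 t v).sum := by
  induction L with
  | nil => simp only [gl_co1_nil, zero_mul, sum_const_zero, List.map_nil, List.sum_nil]
  | cons t L ih =>
    have hL := ih fun t' ht' => hok t' (List.mem_cons_of_mem _ ht')
    have ht := gl_t1 t (hok t List.mem_cons_self) v
    rw [List.map_cons, List.sum_cons, ← hL, ← ht, ← Finset.sum_add_distrib]
    refine Finset.sum_congr rfl fun b _ => ?_
    rw [← Finset.sum_add_distrib]
    refine Finset.sum_congr rfl fun a _ => ?_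
    rw [gl_co1_cons, add_mul]

theorem gl_T0 (L : List (Tm ℝ)) (hok : ∀ t ∈ L, t.Ok n) (v : RSt n) :
    tform L v = (L.map fun t => glt2 t v).sum + (L.map fun t => glt1 t v).sum +
      co0 L * ip v v := by
  induction L with
  | nil => simp [tform, co0]
  | cons t L ih =>
    have hL := ih fun t' ht' => hok t' (List.mem_cons_of_mem _ ht')
    have e0 : tform (t :: L) v = t.c * ip v (pau t.P t.i (pau t.Q t.j v)) + tform L v := by
      simp only [tform, List.map_cons, List.sum_cons]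
    have e1 : co0 (t :: L) = (if t.P = 0 then t.c else 0) + co0 L := by
      simp only [co0, List.map_cons, List.sum_cons]
    rw [e0, e1, hL, List.map_cons, List.sum_cons, List.map_cons, List.sum_cons]
    have key : t.c * ip v (pau t.P t.i (pau t.Q t.j v)) =
        glt2 t v + glt1 t v + (if t.P = 0 then t.c else 0) * ip v v := by
      rcases hok t List.mem_cons_self with h | h | h
      · unfold glt2 glt1
        rw [if_pos (Or.inl h.1), if_neg (by (clear * - ih h; tauto)), if_pos h.1, h.1, h.2, gl_pau_zero,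
          gl_pau_zero]
        ring
      · have h0 : t.P ≠ 0 := by omega
        unfold glt2 glt1
        rw [if_pos (Or.inr h.2.1), if_pos ⟨h0, h.2.1⟩, if_neg h0, h.2.1, gl_pau_zero]
        ring
      · have h0 : t.P ≠ 0 := by omega
        have h1 : t.Q ≠ 0 := by omega
        unfold glt2 glt1
        rw [if_neg (by (clear * - ih h h0 h1; tauto)), if_neg (by (clear * - ih h h1; tauto)), if_neg h0]
        ring
    rw [key]
    ring

/-! ### the constants -/

theorem gl_sum_co2 (L : List (Tm ℝ)) (b b' a : ℕ) :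
    ∑ a' : Fin 3, co2 pvR L b b' a a' = 0 := by
  induction L with
  | nil => simp [gl_co2_nil]
  | cons t L ih =>
    simp only [gl_co2_cons, Finset.sum_add_distrib, ih, add_zero]
    unfold glc2
    split_ifs
    · simp
    · rw [← Finset.mul_sum, ← Finset.mul_sum, gl_sum_pvR, mul_zero, mul_zero]
    · rw [← Finset.mul_sum, ← Finset.sum_mul, gl_sum_pvR, zero_mul, mul_zero]
    · simp

theorem gl_sum_co1 (L : List (Tm ℝ)) (b : ℕ) : ∑ a : Fin 3, co1 pvR L b a = 0 := by
  induction L with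
  | nil => simp [gl_co1_nil]
  | cons t L ih =>
    simp only [gl_co1_cons, Finset.sum_add_distrib, ih, add_zero]
    unfold glc1
    split_ifs
    · rw [← Finset.mul_sum, gl_sum_pvR, mul_zero]
    · simp

theorem gl_inner (c : Fin 3 → Fin 3 → ℝ) (A : Fin 3 → ℝ) (Bf : Fin 3 → Fin 3 → ℝ) (N s C : ℝ)
    (hA : ∑ a, A a = 0) (hB : ∑ a, ∑ a', Bf a a' = 0) (hc : ∀ a, ∑ a', c a a' = 0) :
    ∑ a, ∑ a', 1 / 2 * (1 - c a a' / C) * s ^ 3 *
      (1 / 96 * N + 1 / 24 * A a + 1 / 24 * Bf a a') =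
      3 / 64 * s ^ 3 * N - s ^ 3 / (48 * C) * ∑ a, ∑ a', c a a' * Bf a a' := by
  have h0 := hc 0
  have h1 := hc 1
  have h2 := hc 2
  simp only [Fin.sum_univ_three] at h0 h1 h2 hA hB ⊢
  have e : s ^ 3 / (48 * C) = s ^ 3 * C⁻¹ / 48 := by
    rw [div_eq_mul_inv, mul_inv]
    ring
  simp only [e, div_eq_mul_inv]
  generalize C⁻¹ = D
  linear_combination (s ^ 3 / 16) * hA + (s ^ 3 / 48) * hB -
    (s ^ 3 * D / 2) * ((1 / 96) * N * (h0 + h1 + h2) +
      (1 / 24) * (A 0 * h0 + A 1 * h1 + A 2 * h2))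

theorem gl_count (x : ℝ) :
    ∑ b : Fin n, ∑ b' : Fin n, (if b = b' then 0 else x) = n * (n - 1) * x := by
  have : ∀ b : Fin n, ∑ b' : Fin n, (if b = b' then 0 else x) = (n - 1) * x := by
    intro b
    have h1 : ∑ b' : Fin n, (if b = b' then 0 else x) =
        ∑ b' : Fin n, (x - (if b = b' then x else 0)) := by
      refine Finset.sum_congr rfl fun b' _ => ?_
      split_ifs <;> ring
    rw [h1, Finset.sum_sub_distrib, Finset.sum_ite_eq, if_pos (Finset.mem_univ _)]
    simp only [sum_const, card_univ, Fintype.card_fin, nsmul_eq_mul]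
    ring
  simp only [this]
  simp only [sum_const, card_univ, Fintype.card_fin, nsmul_eq_mul]
  ring

/-- the energy of a real state -/
theorem gl_real (L : List (Tm ℝ)) (hok : ∀ t ∈ L, t.Ok n) (C s : ℝ) (v : RSt n) :
    (∑ b : Fin n, ∑ b' : Fin n, if b = b' then 0 else
      (3 / 64 * s ^ 4 * ip v v +
      ∑ a : Fin 3, ∑ a' : Fin 3, tR C L b b' a a' * s ^ 3 *
        (1 / 96 * ip v v + 1 / 24 * ip v (gls a b v) +
          1 / 24 * ip v (gls a b (gls a' b' v))))) +
    ∑ b : Fin n, ∑ a : Fin 3, dR C s L b a * (1 / 4 * ip v v + 1 / 2 * ip v (gls a b v)) =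
    3 / 64 * (s ^ 4 + s ^ 3) * n * (n - 1) * ip v v -
      s ^ 3 / (24 * C) * (tform L v - co0 L * ip v v) := by
  have hA : ∀ b : Fin n, ∑ a : Fin 3, ip v (gls a b v) = 0 := by
    intro b
    rw [← gl_ip_sum_right, gl_sum_gls, ip_zero_right]
  have hB : ∀ b b' : Fin n, ∑ a : Fin 3, ∑ a' : Fin 3, ip v (gls a b (gls a' b' v)) = 0 := by
    intro b b'
    rw [Finset.sum_comm]
    refine Finset.sum_eq_zero fun a' _ => ?_
    rw [← gl_ip_sum_right, gl_sum_gls, ip_zero_right]
  have h1 : ∀ b b' : Fin n, (if b = b' then (0 : ℝ) else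
      (3 / 64 * s ^ 4 * ip v v +
      ∑ a : Fin 3, ∑ a' : Fin 3, tR C L b b' a a' * s ^ 3 *
        (1 / 96 * ip v v + 1 / 24 * ip v (gls a b v) +
          1 / 24 * ip v (gls a b (gls a' b' v))))) =
      (if b = b' then 0 else 3 / 64 * (s ^ 4 + s ^ 3) * ip v v) -
        s ^ 3 / (48 * C) * (if b = b' then 0 else
          ∑ a : Fin 3, ∑ a' : Fin 3, co2 pvR L b b' a a' * ip v (gls a b (gls a' b' v))) := by
    intro b b'
    by_cases h : b = b'
    · simp [h]
    · rw [if_neg h, if_neg h, if_neg h]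
      unfold tR
      rw [gl_inner (fun a a' => co2 pvR L b b' a a') (fun a => ip v (gls a b v))
        (fun a a' => ip v (gls a b (gls a' b' v))) (ip v v) s C (hA b) (hB b b')
        (fun a => gl_sum_co2 L b b' a)]
      ring
  have h2 : ∀ b : Fin n, ∑ a : Fin 3, dR C s L b a * (1 / 4 * ip v v + 1 / 2 * ip v (gls a b v)) =
      -(s ^ 3 / (24 * C)) * ∑ a : Fin 3, co1 pvR L b a * ip v (gls a b v) := by
    intro b
    have h3 := gl_sum_co1 L b
    rw [Finset.mul_sum]
    have h4 : ∑ a : Fin 3, dR C s L b a * (1 / 4 * ip v v + 1 / 2 * ip v (gls a b v)) =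
        ∑ a : Fin 3, (-(s ^ 3 / (24 * C)) * (co1 pvR L b a * ip v (gls a b v)) +
          (-(s ^ 3 / (12 * C)) * (1 / 4 * ip v v)) * co1 pvR L b a) := by
      refine Finset.sum_congr rfl fun a _ => ?_
      unfold dR
      have e1 : s ^ 3 / (24 * C) = s ^ 3 * C⁻¹ / 24 := by
        rw [div_eq_mul_inv, mul_inv]
        ring
      have e2 : s ^ 3 / (12 * C) = s ^ 3 * C⁻¹ / 12 := by
        rw [div_eq_mul_inv, mul_inv]
        ring
      rw [e1, e2]
      ring
    rw [h4, Finset.sum_add_distrib, ← Finset.mul_sum (a := (-(s ^ 3 / (12 * C)) *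
      (1 / 4 * ip v v))), h3, mul_zero, add_zero]
  simp only [h1, h2, Finset.sum_sub_distrib, ← Finset.mul_sum]
  rw [gl_count, gl_T2 L hok, gl_T1 L hok, gl_T0 L hok]
  have e1 : s ^ 3 / (24 * C) = s ^ 3 * C⁻¹ / 24 := by
    rw [div_eq_mul_inv, mul_inv]
    ring
  have e2 : s ^ 3 / (48 * C) = s ^ 3 * C⁻¹ / 48 := by
    rw [div_eq_mul_inv, mul_inv]
    ring
  rw [e1, e2]
  ring

theorem teff_eq (L : List (Tm ℝ)) (hok : ∀ t ∈ L, t.Ok n) (C s : ℝ) (hC : 0 < C)
    (u : (Fin n → Bool) → ℂ) :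
    teff s (tR C L) (dR C s L) u =
      -(3 / 2 * s ^ 10 * n + 3 / 64 * (s ^ 4 + s ^ 3) * n * (n - 1)) * (∑ x, ‖u x‖ ^ 2) +
      s ^ 3 / (24 * C) * (tform L (fun x => (u x).re) + tform L (fun x => (u x).im) -
        co0 L * ∑ x, ‖u x‖ ^ 2) := by
  have hr := gl_real L hok C s (fun x => (u x).re)
  have hi := gl_real L hok C s (fun x => (u x).im)
  unfold teff
  simp only [gl_A, gl_B, gl_norm, Fintype.card_fin]
  have h1 : (∑ b : Fin n, ∑ b' : Fin n, if b = b' then (0 : ℝ) else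
      (3 / 64 * s ^ 4 * (ip (fun x => (u x).re) (fun x => (u x).re) +
        ip (fun x => (u x).im) (fun x => (u x).im)) +
      ∑ a : Fin 3, ∑ a' : Fin 3, tR C L b b' a a' * s ^ 3 *
        (1 / 96 * (ip (fun x => (u x).re) (fun x => (u x).re) +
        ip (fun x => (u x).im) (fun x => (u x).im)) +
          1 / 24 * (ip (fun x => (u x).re) (gls a b (fun x => (u x).re)) +
            ip (fun x => (u x).im) (gls a b (fun x => (u x).im))) +
          1 / 24 * (ip (fun x => (u x).re) (gls a b (gls a' b' (fun x => (u x).re))) +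
            ip (fun x => (u x).im) (gls a b (gls a' b' (fun x => (u x).im))))))) =
      (∑ b : Fin n, ∑ b' : Fin n, if b = b' then (0 : ℝ) else
      (3 / 64 * s ^ 4 * ip (fun x => (u x).re) (fun x => (u x).re) +
      ∑ a : Fin 3, ∑ a' : Fin 3, tR C L b b' a a' * s ^ 3 *
        (1 / 96 * ip (fun x => (u x).re) (fun x => (u x).re) +
          1 / 24 * ip (fun x => (u x).re) (gls a b (fun x => (u x).re)) +
          1 / 24 * ip (fun x => (u x).re) (gls a b (gls a' b' (fun x => (u x).re)))))) +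
      (∑ b : Fin n, ∑ b' : Fin n, if b = b' then (0 : ℝ) else
      (3 / 64 * s ^ 4 * ip (fun x => (u x).im) (fun x => (u x).im) +
      ∑ a : Fin 3, ∑ a' : Fin 3, tR C L b b' a a' * s ^ 3 *
        (1 / 96 * ip (fun x => (u x).im) (fun x => (u x).im) +
          1 / 24 * ip (fun x => (u x).im) (gls a b (fun x => (u x).im)) +
          1 / 24 * ip (fun x => (u x).im) (gls a b (gls a' b' (fun x => (u x).im)))))) := by
    rw [← Finset.sum_add_distrib]
    refine Finset.sum_congr rfl fun b _ => ?_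
    rw [← Finset.sum_add_distrib]
    refine Finset.sum_congr rfl fun b' _ => ?_
    by_cases h : b = b'
    · simp [h]
    · rw [if_neg h, if_neg h, if_neg h]
      rw [add_add_add_comm, ← mul_add, ← Finset.sum_add_distrib]
      congr 1
      refine Finset.sum_congr rfl fun a _ => ?_
      rw [← Finset.sum_add_distrib]
      refine Finset.sum_congr rfl fun a' _ => ?_
      ring
  have h2 : (∑ b : Fin n, ∑ a : Fin 3, dR C s L b a *
      (1 / 4 * (ip (fun x => (u x).re) (fun x => (u x).re) +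
        ip (fun x => (u x).im) (fun x => (u x).im)) +
        1 / 2 * (ip (fun x => (u x).re) (gls a b (fun x => (u x).re)) +
            ip (fun x => (u x).im) (gls a b (fun x => (u x).im))))) =
      (∑ b : Fin n, ∑ a : Fin 3, dR C s L b a *
        (1 / 4 * ip (fun x => (u x).re) (fun x => (u x).re) +
          1 / 2 * ip (fun x => (u x).re) (gls a b (fun x => (u x).re)))) +
      (∑ b : Fin n, ∑ a : Fin 3, dR C s L b a *
        (1 / 4 * ip (fun x => (u x).im) (fun x => (u x).im) +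
          1 / 2 * ip (fun x => (u x).im) (gls a b (fun x => (u x).im)))) := by
    rw [← Finset.sum_add_distrib]
    refine Finset.sum_congr rfl fun b _ => ?_
    rw [← Finset.sum_add_distrib]
    refine Finset.sum_congr rfl fun a _ => ?_
    ring
  rw [h1, h2]
  linear_combination -hr - hi

/-! ### bounds -/

theorem gl_abs_pvR (P a : ℕ) : |pvR P a| ≤ 2 / 3 := by
  have h3 : √3 * √3 = 3 := Real.mul_self_sqrt (by norm_num)
  have h0 : 0 < √3 := by positivity
  have h1 : 3 / 2 ≤ √3 := by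
    rw [Real.le_sqrt' (by norm_num)]
    norm_num
  have h4 : |1 / √3| ≤ 2 / 3 := by
    rw [abs_of_pos (by positivity), div_le_div_iff₀ h0 (by norm_num)]
    linarith only [h1]
  unfold pvR
  split_ifs
  · rw [abs_of_pos (by norm_num)]
  · rw [abs_neg, abs_of_pos (by norm_num)]
    norm_num
  · rw [abs_zero]
    norm_num
  · exact h4
  · rw [abs_neg]
    exact h4
  · rw [abs_zero]
    norm_num

theorem gl_abs_pp (P a Q a' : ℕ) : |pvR P a * pvR Q a'| ≤ 1 := by
  rw [abs_mul]
  calc |pvR P a| * |pvR Q a'| ≤ (2 / 3) * (2 / 3) :=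
        mul_le_mul (gl_abs_pvR P a) (gl_abs_pvR Q a') (abs_nonneg _) (by norm_num)
    _ ≤ 1 := by norm_num

theorem gl_abs_co2 (L : List (Tm ℝ)) (b b' a a' : ℕ) : |co2 pvR L b b' a a'| ≤ tabs L := by
  induction L with
  | nil => simp only [gl_co2_nil, abs_zero, tabs, List.map_nil, List.sum_nil, Std.le_refl]
  | cons t L ih =>
    have e : tabs (t :: L) = |t.c| + tabs L := by simp only [tabs, List.map_cons, List.sum_cons]
    rw [gl_co2_cons, e]
    refine (abs_add_le _ _).trans (add_le_add ?_ ih)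
    unfold glc2
    split_ifs
    · rw [abs_zero]
      exact abs_nonneg _
    · rw [abs_mul]
      exact mul_le_of_le_one_right (abs_nonneg _) (gl_abs_pp _ _ _ _)
    · rw [abs_mul]
      exact mul_le_of_le_one_right (abs_nonneg _) (gl_abs_pp _ _ _ _)
    · rw [abs_zero]
      exact abs_nonneg _

theorem gl_abs_co1 (L : List (Tm ℝ)) (b a : ℕ) : |co1 pvR L b a| ≤ tabs L := by
  induction L with
  | nil => simp [gl_co1_nil, tabs]
  | cons t L ih =>
    have e : tabs (t :: L) = |t.c| + tabs L := by simp only [tabs, List.map_cons, List.sum_cons]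
    rw [gl_co1_cons, e]
    refine (abs_add_le _ _).trans (add_le_add ?_ ih)
    unfold glc1
    split_ifs
    · rw [abs_mul]
      exact mul_le_of_le_one_right (abs_nonneg _) ((gl_abs_pvR _ _).trans (by norm_num))
    · rw [abs_zero]
      exact abs_nonneg _

theorem tR_nonneg (L : List (Tm ℝ)) (hok : ∀ t ∈ L, t.Ok n) (C : ℝ) (hC : 0 < C)
    (hL : tabs L ≤ C) (b b' : Fin n) (a a' : Fin 3) : 0 ≤ tR C L b b' a a' := by
  have h := abs_le.1 ((gl_abs_co2 L b b' a a').trans hL)
  have h1 : co2 pvR L b b' a a' / C ≤ 1 := (div_le_one hC).2 h.2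
  unfold tR
  linarith only [h1]

theorem tR_le_one (L : List (Tm ℝ)) (hok : ∀ t ∈ L, t.Ok n) (C : ℝ) (hC : 0 < C)
    (hL : tabs L ≤ C) (b b' : Fin n) (a a' : Fin 3) : tR C L b b' a a' ≤ 1 := by
  have h := abs_le.1 ((gl_abs_co2 L b b' a a').trans hL)
  have h1 : -1 ≤ co2 pvR L b b' a a' / C := (le_div_iff₀ hC).2 (by linarith only [h])
  unfold tR
  linarith

theorem gl_co2_symm (L : List (Tm ℝ)) (hok : ∀ t ∈ L, t.Ok n) (b b' a a' : ℕ) :
    co2 pvR L b b' a a' = co2 pvR L b' b a' a := by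
  induction L with
  | nil => simp [gl_co2_nil]
  | cons t L ih =>
    rw [gl_co2_cons, gl_co2_cons, ih fun t' ht' => hok t' (List.mem_cons_of_mem _ ht')]
    congr 1
    have ht := hok t List.mem_cons_self
    unfold glc2
    by_cases h0 : t.P = 0 ∨ t.Q = 0
    · rw [if_pos h0, if_pos h0]
    · rw [if_neg h0, if_neg h0]
      have hij : t.i < t.j := by
        rcases ht with h | h | h
        · exact absurd (Or.inl h.1) h0
        · exact absurd (Or.inr h.2.1) h0
        · exact h.2.2.1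
      by_cases h1 : t.i = b ∧ t.j = b'
      · have h2 : ¬ (t.i = b' ∧ t.j = b) := by omega
        rw [if_pos h1, if_neg h2, if_pos h1]
      · by_cases h2 : t.i = b' ∧ t.j = b
        · rw [if_neg h1, if_pos h2, if_pos h2]
        · rw [if_neg h1, if_neg h2, if_neg h2, if_neg h1]

theorem tR_symm (L : List (Tm ℝ)) (hok : ∀ t ∈ L, t.Ok n) (C : ℝ) (b b' : Fin n)
    (a a' : Fin 3) : tR C L b b' a a' = tR C L b' b a' a := by
  unfold tR
  rw [gl_co2_symm L hok]

theorem abs_dR_le (L : List (Tm ℝ)) (hok : ∀ t ∈ L, t.Ok n) (C s : ℝ) (hC : 0 < C) (hs : 0 ≤ s)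
    (hL : tabs L ≤ C) (b : Fin n) (a : Fin 3) : |dR C s L b a| ≤ s ^ 3 := by
  have h := (gl_abs_co1 L b a).trans hL
  have hs3 : 0 ≤ s ^ 3 := by (clear * - hs; positivity)
  unfold dR
  rw [abs_mul, abs_neg, abs_of_nonneg (by positivity)]
  calc s ^ 3 / (12 * C) * |co1 pvR L b a| ≤ s ^ 3 / (12 * C) * C :=
        mul_le_mul_of_nonneg_left h (by positivity)
    _ = s ^ 3 / 12 := by (clear * - hC; field_simp)
    _ ≤ s ^ 3 := by linarith only [hs3]

end Vale.Agent.P370.H
end

section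

/-!
Symmetric ring density: normalisation, sup bound, moments.
-/

namespace Vale.Agent.P370.Q

open MeasureTheory Finset ComplexConjugate

theorem fh_sq_le (n : ℕ) (hn : 1 ≤ n) (α : ℝ) (x : R3) : fh n α x ^ 2 ≤ 2 * rho0 n α x := by
  have hn0 : (0 : ℝ) < n := by exact_mod_cast hn
  have hnf : 0 < nf n := by
    unfold nf
    positivity
  have h1 : fh n α x ^ 2 = ((cdot (av α) x ^ (n - 1)).re) ^ 2 *
      Real.exp (-(2 * ‖x‖ / n)) / nf n := by
    unfold fh fsite
    rw [div_pow, Real.sq_sqrt hnf.le, mul_pow, ← Real.exp_nat_mul]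
    congr 3
    push_cast
    ring
  have h2 : 2 * rho0 n α x = (‖cdot (av α) x‖ ^ (n - 1)) ^ 2 *
      Real.exp (-(2 * ‖x‖ / n)) / nf n := by
    unfold rho0
    rw [← pow_mul, mul_comm (n - 1) 2]
    field_simp
  rw [h1, h2]
  gcongr ?_ * _ / _
  rw [← sq_abs]
  gcongr
  rw [← norm_pow]
  exact Complex.abs_re_le_norm _

theorem rho0_nonneg (n : ℕ) (hn : 1 ≤ n) (α : ℝ) (x : R3) : 0 ≤ rho0 n α x := by
  rw [rho0_eq n hn]
  exact div_nonneg (GC.wd_nonneg _ _ _) (GC.wm_pos _).le

theorem rho0_integral (n : ℕ) (hn : 2 ≤ n) (α : ℝ) :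
    Integrable (rho0 n α) ∧ ∫ x, rho0 n α x = 1 := by
  have e : rho0 n α = fun x => GC.wd (n - 1) α x / GC.wm (n - 1) := by
    funext x
    exact rho0_eq n (by omega) α x
  constructor
  · rw [e]
    exact (GC.integrable_wd _ _).div_const _
  · rw [e, integral_div, GC.integral_wd, div_self (GC.wm_pos _).ne']

theorem rho0_sup (n : ℕ) (hn : 2 ≤ n) (α : ℝ) (x : R3) :
    rho0 n α x ≤ 1 / (Real.pi * (n : ℝ) ^ 4) := by
  obtain ⟨l, rfl⟩ : ∃ l, n = l + 1 := ⟨n - 1, by omega⟩
  have hl : 1 ≤ l := by omega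
  have hl1 : (1 : ℝ) ≤ l := by exact_mod_cast hl
  rw [rho0_eq _ (by omega), Nat.add_sub_cancel]
  have h := GC.wd_le l hl α x
  have hw := GC.wm_pos l
  have hpi := Real.pi_gt_three
  calc GC.wd l α x / GC.wm l
      ≤ (GC.wm l / (2 * Real.pi ^ 2 * l * ((l : ℝ) + 1) ^ 4)) / GC.wm l := by (clear * - h hw; gcongr)
    _ = 1 / (2 * Real.pi ^ 2 * l * ((l : ℝ) + 1) ^ 4) := by field_simp
    _ ≤ 1 / (Real.pi * ((l + 1 : ℕ) : ℝ) ^ 4) := by
        push_cast
        apply one_div_le_one_div_of_le (by positivity)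
        have : Real.pi ≤ 2 * Real.pi ^ 2 * l := by nlinarith only [hpi, hl1]
        gcongr

theorem integrable_rho0_norm_pow (n : ℕ) (hn : 1 ≤ n) (α : ℝ) (j : ℕ) :
    Integrable (fun x => ‖x‖ ^ j * rho0 n α x) := by
  have h := (GC.integrable_wd_mul (n - 1) 0 j α).div_const (GC.wm (n - 1))
  refine h.congr (.of_forall fun x => ?_)
  simp only [rho0_eq n hn]
  simp only [mul_zero, pow_zero, one_mul]
  ring

/-- second moments -/
theorem rho0_moments (n : ℕ) (hn : 2 ≤ n) (α : ℝ) :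
    Integrable (fun x => ‖x‖ ^ 4 * rho0 n α x) ∧
    (∫ x, ‖cdot (av α) x‖ ^ 2 * rho0 n α x = (n : ℝ) ^ 3 * (n + 1)) ∧
    (∫ x, ‖cdot (av α) x‖ ^ 4 * rho0 n α x = (n : ℝ) ^ 5 * (n + 1) ^ 2 * (n + 2)) ∧
    (∫ x, (inner ℝ (nuv α) x) ^ 2 * rho0 n α x = (n : ℝ) ^ 2 * (n + 1) / 2) := by
  obtain ⟨l, rfl⟩ : ∃ l, n = l + 1 := ⟨n - 1, by omega⟩
  have hw := GC.wm_pos l
  refine ⟨integrable_rho0_norm_pow _ (by omega) α 4, ?_, ?_, ?_⟩
  · have e : ∀ x : R3, ‖cdot (av α) x‖ ^ 2 * rho0 (l + 1) α x =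
        (GC.wd l α x * ‖GC.lf (GC.av α) x‖ ^ 2) / GC.wm l := by
      intro x
      rw [rho0_eq _ (by omega), cdot_eq_lf, av_eq, Nat.add_sub_cancel]
      ring
    simp only [e]
    rw [integral_div, GC.integral_wd_mul_s2, mul_div_assoc, mul_comm,
      div_mul_cancel₀ _ hw.ne']
    push_cast
    ring
  · have e : ∀ x : R3, ‖cdot (av α) x‖ ^ 4 * rho0 (l + 1) α x =
        (GC.wd l α x * ‖GC.lf (GC.av α) x‖ ^ 4) / GC.wm l := by
      intro x
      rw [rho0_eq _ (by omega), cdot_eq_lf, av_eq, Nat.add_sub_cancel]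
      ring
    simp only [e]
    rw [integral_div, GC.integral_wd_mul_s4, mul_div_assoc, mul_comm,
      div_mul_cancel₀ _ hw.ne']
    push_cast
    ring
  · have e : ∀ x : R3, (inner ℝ (nuv α) x) ^ 2 * rho0 (l + 1) α x =
        (GC.wd l α x * GC.nu α x ^ 2) / GC.wm l := by
      intro x
      rw [rho0_eq _ (by omega), nuv_inner, Nat.add_sub_cancel]
      ring
    simp only [e]
    rw [integral_div, GC.integral_wd_mul_nu2, mul_div_assoc, mul_comm,
      div_mul_cancel₀ _ hw.ne']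
    push_cast
    ring

end Vale.Agent.P370.Q
end

section

/-!
Coulomb potential of the ring.
-/

namespace Vale.Agent.P370.Q

open MeasureTheory Finset ComplexConjugate

theorem continuous_rho0 (n : ℕ) (hn : 1 ≤ n) (α : ℝ) : Continuous (rho0 n α) := by
  have e : rho0 n α = fun x => GC.wd (n - 1) α x / GC.wm (n - 1) := by
    funext x
    exact rho0_eq n hn α x
  rw [e]
  exact (GC.continuous_wd _ _).div_const _

theorem rho0_pot_lintegral (n : ℕ) (hn : 2 ≤ n) (α : ℝ) (y : R3) :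
    ∫⁻ x, ENNReal.ofReal (rho0 n α x / dist x y) ≤
      ENNReal.ofReal ((17 + 3 * Real.log n) / (n : ℝ) ^ 2) := by
  obtain ⟨l, rfl⟩ : ∃ l, n = l + 1 := ⟨n - 1, by omega⟩
  have hl : 1 ≤ l := by omega
  have hw := GC.wm_pos l
  have e : ∀ x : R3, ENNReal.ofReal (rho0 (l + 1) α x / dist x y) =
      ENNReal.ofReal (1 / GC.wm l) * ENNReal.ofReal (GC.wd l α x / dist x y) := by
    intro x
    rw [← ENNReal.ofReal_mul (by positivity), rho0_eq _ (by omega), Nat.add_sub_cancel]
    congr 1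
    ring
  have hm : Measurable fun x : R3 => ENNReal.ofReal (GC.wd l α x / dist x y) :=
    ((GC.continuous_wd l α).measurable.div (by fun_prop)).ennreal_ofReal
  simp only [e]
  rw [lintegral_const_mul _ hm]
  calc ENNReal.ofReal (1 / GC.wm l) * ∫⁻ x, ENNReal.ofReal (GC.wd l α x / dist x y)
      ≤ ENNReal.ofReal (1 / GC.wm l) *
        ENNReal.ofReal (GC.wm l * ((17 + 3 * Real.log ((l : ℝ) + 1)) / ((l : ℝ) + 1) ^ 2)) := by
        gcongr
        exact GC.pot_le l hl α y
    _ = _ := by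
        rw [← ENNReal.ofReal_mul (by (clear * - hw; positivity))]
        congr 1
        push_cast
        field_simp

/-- potential of the symmetric density -/
theorem rho0_pot (n : ℕ) (hn : 2 ≤ n) (α : ℝ) (y : R3) :
    Integrable (fun x => rho0 n α x / dist x y) ∧
      ∫ x, rho0 n α x / dist x y ≤ (21 + 3 * Real.log n) / (n : ℝ) ^ 2 := by
  have h := rho0_pot_lintegral n hn α y
  have hn1 : (1 : ℝ) ≤ n := by exact_mod_cast (by omega : 1 ≤ n)
  have hlog : 0 ≤ Real.log n := Real.log_nonneg hn1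
  have hnn : ∀ x : R3, 0 ≤ rho0 n α x / dist x y := fun x =>
    div_nonneg (rho0_nonneg n (by omega) α x) dist_nonneg
  have hm : Measurable fun x : R3 => rho0 n α x / dist x y :=
    (continuous_rho0 n (by omega) α).measurable.div (by fun_prop)
  have hint : Integrable (fun x => rho0 n α x / dist x y) := by
    refine ⟨hm.aestronglyMeasurable, ?_⟩
    rw [hasFiniteIntegral_iff_ofReal (.of_forall hnn)]
    exact h.trans_lt ENNReal.ofReal_lt_top
  refine ⟨hint, ?_⟩
  have h2 : ENNReal.ofReal (∫ x, rho0 n α x / dist x y) ≤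
      ENNReal.ofReal ((17 + 3 * Real.log n) / (n : ℝ) ^ 2) := by
    rw [ofReal_integral_eq_lintegral_ofReal hint (.of_forall hnn)]
    exact h
  rw [ENNReal.ofReal_le_ofReal_iff (by (clear * - hn; positivity))] at h2
  refine h2.trans ?_
  gcongr
  norm_num

end Vale.Agent.P370.Q
end

section

/-!
L1 bound for products of two great circle functions.
-/

namespace Vale.Agent.P370.GC

open MeasureTheory Set Metric Module

theorem nu_sq_add_ge (α β : ℝ) (x : V3) :
    (1 - |Real.cos (α - β)|) * (x 0 ^ 2 + x 1 ^ 2) ≤ nu α x ^ 2 + nu β x ^ 2 := by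
  set B := (x 0 ^ 2 - x 1 ^ 2) * Real.cos (α + β) + 2 * x 0 * x 1 * Real.sin (α + β) with hB
  have h1 : nu α x ^ 2 + nu β x ^ 2 = (x 0 ^ 2 + x 1 ^ 2) - Real.cos (α - β) * B := by
    rw [hB, Real.cos_add, Real.sin_add, Real.cos_sub]
    unfold nu
    have e1 := Real.sin_sq_add_cos_sq α
    have e2 := Real.sin_sq_add_cos_sq β
    have s1 : Real.sin α ^ 2 = 1 - Real.cos α ^ 2 := by linarith only [e1]
    have s2 : Real.sin β ^ 2 = 1 - Real.cos β ^ 2 := by linarith only [e2]
    ring_nf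
    simp only [s1, s2]
    ring
  have h2 : |B| ≤ x 0 ^ 2 + x 1 ^ 2 := by
    refine abs_le_of_sq_le_sq ?_ (by (clear * -; positivity))
    have h3 : B ^ 2 + ((x 0 ^ 2 - x 1 ^ 2) * Real.sin (α + β) -
        2 * x 0 * x 1 * Real.cos (α + β)) ^ 2 = (x 0 ^ 2 + x 1 ^ 2) ^ 2 := by
      rw [hB]
      linear_combination ((x 0 ^ 2 - x 1 ^ 2) ^ 2 + 4 * x 0 ^ 2 * x 1 ^ 2) *
        Real.sin_sq_add_cos_sq (α + β)
    linarith only [h3, sq_nonneg ((x 0 ^ 2 - x 1 ^ 2) * Real.sin (α + β) - 2 * x 0 * x 1 * Real.cos (α + β))]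
  have h4 : Real.cos (α - β) * B ≤ |Real.cos (α - β)| * (x 0 ^ 2 + x 1 ^ 2) := by
    calc Real.cos (α - β) * B ≤ |Real.cos (α - β) * B| := le_abs_self _
      _ = |Real.cos (α - β)| * |B| := abs_mul _ _
      _ ≤ _ := by gcongr
  rw [h1]
  linarith only [h4]

theorem norm_mul_norm_le (α β : ℝ) (x : V3) :
    ‖lf (av α) x‖ * ‖lf (av β) x‖ ≤
      ‖x‖ ^ 2 - (1 - |Real.cos (α - β)|) / 2 * (x 0 ^ 2 + x 1 ^ 2) := by
  have h1 := norm_sq_eq_add α x
  have h2 := norm_sq_eq_add β x
  have h3 := nu_sq_add_ge α β x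
  linarith only [h1, h2, h3, sq_nonneg (‖lf (av α) x‖ - ‖lf (av β) x‖)]

theorem sphere_prod_le (l : ℕ) (α β : ℝ) (ω : sphere (0 : V3) 1) :
    ‖lf (av α) (ω : V3)‖ ^ l * ‖lf (av β) (ω : V3)‖ ^ l ≤
      Real.exp (-((l : ℝ) * ((1 - |Real.cos (α - β)|) / 2)) *
        ((ω : V3) 0 ^ 2 + (ω : V3) 1 ^ 2)) := by
  have hω : ‖(ω : V3)‖ = 1 := by simp only [norm_eq_of_mem_sphere]
  have h := norm_mul_norm_le α β ω
  rw [hω] at h
  have h0 : 0 ≤ ‖lf (av α) (ω : V3)‖ * ‖lf (av β) (ω : V3)‖ := by positivity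
  set μ := (1 - |Real.cos (α - β)|) / 2 with hμ
  have h1 : ‖lf (av α) (ω : V3)‖ * ‖lf (av β) (ω : V3)‖ ≤
      Real.exp (-(μ * ((ω : V3) 0 ^ 2 + (ω : V3) 1 ^ 2))) := by
    have := Real.add_one_le_exp (-(μ * ((ω : V3) 0 ^ 2 + (ω : V3) 1 ^ 2)))
    linarith only [h, this]
  calc ‖lf (av α) (ω : V3)‖ ^ l * ‖lf (av β) (ω : V3)‖ ^ l
      = (‖lf (av α) (ω : V3)‖ * ‖lf (av β) (ω : V3)‖) ^ l := by rw [mul_pow]
    _ ≤ (Real.exp (-(μ * ((ω : V3) 0 ^ 2 + (ω : V3) 1 ^ 2)))) ^ l := by (clear * - h1; gcongr)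
    _ = _ := by
        rw [← Real.exp_nat_mul]
        congr 1
        ring

theorem integral_gauss_aniso {m : ℝ} (hm : 0 < m) :
    Integrable (fun x : V3 => Real.exp (-m * (x 0 ^ 2 + x 1 ^ 2) - x 2 ^ 2)) ∧
    ∫ x : V3, Real.exp (-m * (x 0 ^ 2 + x 1 ^ 2) - x 2 ^ 2) =
      Real.pi / m * Real.sqrt Real.pi := by
  have hmp := PiLp.volume_preserving_toLp (Fin 3)
  have hme : MeasurableEmbedding (@WithLp.toLp 2 (Fin 3 → ℝ)) :=
    (MeasurableEquiv.toLp 2 (Fin 3 → ℝ)).measurableEmbedding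
  have e : ∀ x : Fin 3 → ℝ, Real.exp (-m * (x 0 ^ 2 + x 1 ^ 2) - x 2 ^ 2) =
      ∏ i : Fin 3, Real.exp (-(![m, m, 1] i) * x i ^ 2) := by
    intro x
    rw [← Real.exp_sum]
    simp only [Fin.sum_univ_three, Matrix.cons_val_zero, Matrix.cons_val_one, Matrix.cons_val]
    congr 1
    ring
  have hi : ∀ i : Fin 3, Integrable (fun t : ℝ => Real.exp (-(![m, m, 1] i) * t ^ 2)) := by
    intro i
    refine integrable_exp_neg_mul_sq ?_
    fin_cases i <;> simp [hm]
  have hint : Integrable (fun x : Fin 3 → ℝ =>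
      Real.exp (-m * (x 0 ^ 2 + x 1 ^ 2) - x 2 ^ 2)) := by
    simp only [e]
    exact Integrable.fintype_prod (f := fun i t => Real.exp (-(![m, m, 1] i) * t ^ 2)) hi
  have hval : ∫ x : Fin 3 → ℝ, Real.exp (-m * (x 0 ^ 2 + x 1 ^ 2) - x 2 ^ 2) =
      Real.pi / m * Real.sqrt Real.pi := by
    simp only [e]
    rw [integral_fintype_prod_volume_eq_prod
      (f := fun (i : Fin 3) t => Real.exp (-(![m, m, 1] i) * t ^ 2))]
    simp only [integral_gaussian]
    simp only [Fin.prod_univ_three, Matrix.cons_val_zero, Matrix.cons_val_one, Matrix.cons_val, div_one]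
    rw [Real.mul_self_sqrt (by positivity)]
  constructor
  · exact (hmp.integrable_comp_emb hme).1 hint
  · rw [← hmp.integral_comp hme]
    exact hval

/-- a sphere integral -/
theorem sphere_exp_le {m : ℝ} (hm : 0 < m) :
    ∫ ω : sphere (0 : V3) 1, Real.exp (-m * ((ω : V3) 0 ^ 2 + (ω : V3) 1 ^ 2))
      ∂(volume : Measure V3).toSphere ≤ 48 / m := by
  set H : V3 → ℝ := fun x => Real.exp (-m * ((x 0 ^ 2 + x 1 ^ 2) / ‖x‖ ^ 2)) with hH
  set g : ℝ → ℝ := (Iio (1 : ℝ)).indicator (fun _ => (1 : ℝ)) with hg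
  have h := integral_homog_mul_radial_real (volume : Measure V3) H 0
    (fun t ht v => by
      simp only [hH, norm_smul, Real.norm_eq_abs, abs_of_pos ht, pow_zero, one_mul]
      congr 2
      have ht' : t ≠ 0 := ht.ne'
      simp only [PiLp.smul_apply, smul_eq_mul]
      rcases eq_or_ne (‖v‖) 0 with h0 | h0
      · simp only [Fin.isValue, h0, mul_zero, ne_eq, OfNat.ofNat_ne_zero, not_false_eq_true, zero_pow, div_zero]
      · field_simp) g
  have hr : ∫ r in Ioi (0 : ℝ), r ^ (0 + (finrank ℝ V3 - 1)) * g r = 1 / 3 := by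
    simp only [finrank_euclideanSpace, Fintype.card_fin, hg]
    have e : ∀ r : ℝ, r ^ (0 + (3 - 1)) * (Iio (1 : ℝ)).indicator (fun _ => (1 : ℝ)) r =
        (Iio (1 : ℝ)).indicator (fun r => r ^ 2) r := by
      intro r
      by_cases hr : r ∈ Iio (1 : ℝ)
      · rw [indicator_of_mem hr, indicator_of_mem hr]
        norm_num
      · rw [indicator_of_notMem hr, indicator_of_notMem hr]
        ring
    simp only [e]
    rw [setIntegral_indicator measurableSet_Iio]
    have e2 : Ioi (0 : ℝ) ∩ Iio 1 = Ioo 0 1 := Ioi_inter_Iio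
    rw [e2, ← integral_Ioc_eq_integral_Ioo, ← intervalIntegral.integral_of_le zero_le_one,
      integral_pow]
    norm_num
  rw [hr] at h
  have hs : ∫ ω : sphere (0 : V3) 1, H ω ∂(volume : Measure V3).toSphere =
      ∫ ω : sphere (0 : V3) 1, Real.exp (-m * ((ω : V3) 0 ^ 2 + (ω : V3) 1 ^ 2))
      ∂(volume : Measure V3).toSphere := by
    refine integral_congr_ae (.of_forall fun ω => ?_)
    have hω : ‖(ω : V3)‖ = 1 := by simp only [norm_eq_of_mem_sphere]
    simp only [hH, hω]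
    norm_num
  rw [hs] at h
  obtain ⟨hi, hv⟩ := integral_gauss_aniso hm
  have hle : ∫ x : V3, H x * g ‖x‖ ≤
      ∫ x : V3, Real.exp 1 * Real.exp (-m * (x 0 ^ 2 + x 1 ^ 2) - x 2 ^ 2) := by
    refine integral_mono_of_nonneg (.of_forall fun x => ?_) (hi.const_mul _)
      (.of_forall fun x => ?_)
    · simp only [hH, hg, Pi.zero_apply]
      exact mul_nonneg (Real.exp_pos _).le (indicator_nonneg (fun _ _ => zero_le_one) _)
    · simp only [hH, hg]
      by_cases hx : ‖x‖ ∈ Iio (1 : ℝ)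
      · rw [indicator_of_mem hx, mul_one, ← Real.exp_add]
        apply Real.exp_le_exp.2
        have hx1 : ‖x‖ < 1 := hx
        have hn := EuclideanSpace.norm_sq_eq x
        rw [Fin.sum_univ_three] at hn
        simp only [Real.norm_eq_abs, sq_abs] at hn
        have hn1 : ‖x‖ ^ 2 ≤ 1 := by
          have := norm_nonneg x
          nlinarith only [hx1, this]
        have h2 : x 2 ^ 2 ≤ 1 := by linarith only [hn, hn1, sq_nonneg (x 0), sq_nonneg (x 1)]
        have h3 : x 0 ^ 2 + x 1 ^ 2 ≤ (x 0 ^ 2 + x 1 ^ 2) / ‖x‖ ^ 2 := by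
          rcases eq_or_ne (‖x‖ ^ 2) 0 with h0 | h0
          · rw [h0, div_zero]
            linarith only [hn, h0, sq_nonneg (x 2)]
          · rw [le_div_iff₀ (lt_of_le_of_ne (by (clear * - h0; positivity)) (Ne.symm h0))]
            have h4 : 0 ≤ x 0 ^ 2 + x 1 ^ 2 := by (clear * -; positivity)
            nlinarith only [hn1]
        linarith only [mul_nonneg_of_nonpos_of_nonpos (le_of_lt (Mathlib.Tactic.Linarith.sub_neg_of_lt hm)) (Mathlib.Tactic.Linarith.sub_nonpos_of_le h3), hn1, hn, sq_nonneg (x.ofLp 1), sq_nonneg (x.ofLp 0)]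
      · rw [indicator_of_notMem hx, mul_zero]
        positivity
  rw [integral_const_mul, hv] at hle
  rw [h] at hle
  have hpi := Real.pi_lt_d2
  have hpi0 := Real.pi_pos
  have he := Real.exp_one_lt_d9
  have hsq : Real.sqrt Real.pi ≤ 1.78 := by
    rw [Real.sqrt_le_left (by norm_num)]
    norm_num
    linarith only [hpi]
  have hfin : 3 * (Real.exp 1 * (Real.pi / m * Real.sqrt Real.pi)) ≤ 48 / m := by
    rw [le_div_iff₀ hm]
    have e3 : 3 * (Real.exp 1 * (Real.pi / m * Real.sqrt Real.pi)) * m =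
        3 * (Real.exp 1 * (Real.pi * Real.sqrt Real.pi)) := by
      field_simp
    rw [e3]
    have h5 : Real.pi * Real.sqrt Real.pi ≤ 3.15 * 1.78 := by
      have := Real.sqrt_nonneg Real.pi
      linarith only [mul_nonneg_of_nonpos_of_nonpos (le_of_lt (Mathlib.Tactic.Linarith.sub_neg_of_lt hpi)) (Mathlib.Tactic.Linarith.sub_nonpos_of_le this), hsq]
    have h6 : Real.exp 1 * (Real.pi * Real.sqrt Real.pi) ≤ 2.7182818286 * (3.15 * 1.78) := by
      have : 0 ≤ Real.pi * Real.sqrt Real.pi := by positivity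
      have := Real.exp_pos 1
      (clear m hm H hH g hg h hr hs hi hv hle e3 h5 this; nlinarith)
    linarith only [h6]
  linarith only [hle, hfin]

/-- the product of two great circle functions is small in `L¹` -/
theorem integral_prod_le (l : ℕ) (hl : 1 ≤ l) (α β : ℝ) (hc : |Real.cos (α - β)| < 1) {κ : ℝ}
    (hκ : 0 < κ) :
    ∫ x : V3, ‖lf (av α) x‖ ^ l * ‖lf (av β) x‖ ^ l * Real.exp (-κ * ‖x‖) ≤
      96 / ((l : ℝ) * (1 - |Real.cos (α - β)|)) *
        (((2 * l + 2).factorial : ℝ) / κ ^ (2 * l + 3)) := by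
  have hl0 : (0 : ℝ) < l := by exact_mod_cast hl
  have h := integral_homog_mul_radial_real (volume : Measure V3)
    (fun x : V3 => ‖lf (av α) x‖ ^ l * ‖lf (av β) x‖ ^ l) (2 * l)
    (fun t ht v => by
      simp only [norm_lf_av_smul, abs_of_pos ht]
      ring) (fun r => Real.exp (-κ * r))
  simp only [finrank_euclideanSpace, Fintype.card_fin] at h
  rw [h, show 2 * l + (3 - 1) = 2 * l + 2 by rfl, integral_pow_mul_exp_neg_mul _ hκ]
  have hm : 0 < (l : ℝ) * ((1 - |Real.cos (α - β)|) / 2) := by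
    have : 0 < 1 - |Real.cos (α - β)| := by linarith only [hc]
    positivity
  have hs : ∫ ω : sphere (0 : V3) 1, ‖lf (av α) (ω : V3)‖ ^ l * ‖lf (av β) (ω : V3)‖ ^ l
      ∂(volume : Measure V3).toSphere ≤ 48 / ((l : ℝ) * ((1 - |Real.cos (α - β)|) / 2)) := by
    refine le_trans ?_ (sphere_exp_le hm)
    refine integral_mono ?_ ?_ fun ω => sphere_prod_le l α β ω
    · refine Continuous.integrable_of_hasCompactSupport ?_ (HasCompactSupport.of_compactSpace _)
      (clear * -; fun_prop)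
    · refine Continuous.integrable_of_hasCompactSupport ?_ (HasCompactSupport.of_compactSpace _)
      fun_prop
  refine mul_le_mul_of_nonneg_right (hs.trans (le_of_eq ?_)) (by positivity)
  have : 1 - |Real.cos (α - β)| ≠ 0 := by linarith only [hc]
  field_simp
  norm_num

theorem fact_sq_le (l : ℕ) :
    ((2 * l + 1).factorial : ℝ) ^ 2 ≤ (2 * l + 1) * (4 ^ l * (l.factorial : ℝ) ^ 2) ^ 2 := by
  induction l with
  | zero => norm_num
  | succ l ih =>
    have e1 : 2 * (l + 1) + 1 = (2 * l + 1) + 1 + 1 := by ring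
    rw [e1, Nat.factorial_succ, Nat.factorial_succ (2 * l + 1), Nat.factorial_succ l]
    push_cast
    have h1 : ((2 * (l : ℝ) + 2 + 1) * ((2 * (l : ℝ) + 1 + 1) *
        ((2 * l + 1).factorial : ℝ))) ^ 2 =
        (2 * (l : ℝ) + 3) ^ 2 * (2 * (l : ℝ) + 2) ^ 2 * ((2 * l + 1).factorial : ℝ) ^ 2 := by ring
    rw [h1]
    calc (2 * (l : ℝ) + 3) ^ 2 * (2 * (l : ℝ) + 2) ^ 2 * ((2 * l + 1).factorial : ℝ) ^ 2
        ≤ (2 * (l : ℝ) + 3) ^ 2 * (2 * (l : ℝ) + 2) ^ 2 *
          ((2 * l + 1) * (4 ^ l * (l.factorial : ℝ) ^ 2) ^ 2) := by (clear * - ih; gcongr)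
      _ = (2 * (l : ℝ) + 3) * (2 * (l : ℝ) + 2) ^ 2 * ((2 * (l : ℝ) + 3) * (2 * l + 1)) *
          (4 ^ l * (l.factorial : ℝ) ^ 2) ^ 2 := by ring
      _ ≤ (2 * (l : ℝ) + 3) * (2 * (l : ℝ) + 2) ^ 2 * (2 * (l : ℝ) + 2) ^ 2 *
          (4 ^ l * (l.factorial : ℝ) ^ 2) ^ 2 := by
          gcongr
          linarith only []
      _ = _ := by ring

end Vale.Agent.P370.GC
end

section

/-!
Off-diagonal Coulomb integrals are small.
-/

namespace Vale.Agent.P370.Q

open MeasureTheory Finset ComplexConjugate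

theorem continuous_fh (n : ℕ) (α : ℝ) : Continuous (fh n α) := by
  unfold fh fsite
  simp only [cdot_eq_lf]
  (clear * -; fun_prop)

theorem abs_fh_mul_le (n : ℕ) (hn : 1 ≤ n) (α β : ℝ) (x : R3) :
    |fh n α x * fh n β x| ≤ rho0 n α x + rho0 n β x := by
  have h1 := fh_sq_le n hn α x
  have h2 := fh_sq_le n hn β x
  rw [abs_mul]
  linarith only [h1, h2, sq_nonneg (|fh n α x| - |fh n β x|), sq_abs (fh n α x), sq_abs (fh n β x)]

theorem integrable_fh_mul (n : ℕ) (hn : 2 ≤ n) (α β : ℝ) :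
    Integrable (fun x => fh n α x * fh n β x) := by
  refine ((rho0_integral n hn α).1.add (rho0_integral n hn β).1).mono'
    ((continuous_fh n α).mul (continuous_fh n β)).aestronglyMeasurable (.of_forall fun x => ?_)
  exact abs_fh_mul_le n (by omega) α β x

theorem integral_abs_fh_le_two (n : ℕ) (hn : 2 ≤ n) (α β : ℝ) :
    ∫ x, |fh n α x * fh n β x| ≤ 2 := by
  have h1 := rho0_integral n hn α
  have h2 := rho0_integral n hn β
  calc ∫ x, |fh n α x * fh n β x| ≤ ∫ x, (rho0 n α x + rho0 n β x) :=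
        integral_mono (integrable_fh_mul n hn α β).abs (h1.1.add h2.1)
          fun x => abs_fh_mul_le n (by omega) α β x
    _ = 2 := by
        rw [integral_add h1.1 h2.1, h1.2, h2.2]
        norm_num

theorem integral_abs_fh_le (n : ℕ) (hn : 2 ≤ n) (α β : ℝ) (hc : |Real.cos (α - β)| < 1) :
    ∫ x, |fh n α x * fh n β x| ≤
      64 / ((1 - |Real.cos (α - β)|) * Real.sqrt n) := by
  obtain ⟨l, rfl⟩ : ∃ l, n = l + 1 := ⟨n - 1, by omega⟩
  have hl : 1 ≤ l := by omega
  have hl1 : (1 : ℝ) ≤ l := by exact_mod_cast hl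
  have hd : 0 < 1 - |Real.cos (α - β)| := by linarith only [hc]
  have hκ : (0 : ℝ) < 2 / ((l : ℝ) + 1) := by positivity
  have h := GC.integral_prod_le l hl α β hc hκ
  have hnf : 0 < nf (l + 1) := by
    unfold nf
    positivity
  have hI : ∫ x, |fh (l + 1) α x * fh (l + 1) β x| ≤
      (1 / nf (l + 1)) * ∫ x : R3, ‖GC.lf (GC.av α) x‖ ^ l * ‖GC.lf (GC.av β) x‖ ^ l *
        Real.exp (-(2 / ((l : ℝ) + 1)) * ‖x‖) := by
    rw [← integral_const_mul]
    have hint : Integrable (fun x : R3 => ‖GC.lf (GC.av α) x‖ ^ l * ‖GC.lf (GC.av β) x‖ ^ l *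
        Real.exp (-(2 / ((l : ℝ) + 1)) * ‖x‖)) := by
      refine (GC.integrable_norm_pow_mul_exp_neg (2 * l) hκ).mono'
        (Continuous.aestronglyMeasurable (by (clear * -; fun_prop))) (.of_forall fun x => ?_)
      rw [Real.norm_of_nonneg (by (clear * -; positivity))]
      have : ‖GC.lf (GC.av α) x‖ ^ l * ‖GC.lf (GC.av β) x‖ ^ l ≤ ‖x‖ ^ l * ‖x‖ ^ l := by
        gcongr
        · exact GC.norm_lf_av_le α x
        · exact GC.norm_lf_av_le β x
      calc _ ≤ (‖x‖ ^ l * ‖x‖ ^ l) * Real.exp (-(2 / ((l : ℝ) + 1)) * ‖x‖) := by gcongr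
        _ = _ := by ring
    refine integral_mono (integrable_fh_mul _ hn α β).abs (hint.const_mul _) fun x => ?_
    simp only [fh, fsite, av_eq, cdot_eq_lf, Nat.add_sub_cancel]
    have e1 : |((GC.lf (GC.av α) x ^ l).re * Real.exp (-(‖x‖ / ((l + 1 : ℕ) : ℝ))) / √(nf (l + 1))) *
        ((GC.lf (GC.av β) x ^ l).re * Real.exp (-(‖x‖ / ((l + 1 : ℕ) : ℝ))) / √(nf (l + 1)))| =
        1 / nf (l + 1) * (|(GC.lf (GC.av α) x ^ l).re| * |(GC.lf (GC.av β) x ^ l).re| *
          Real.exp (-(2 / ((l : ℝ) + 1)) * ‖x‖)) := by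
      have e2 : Real.exp (-(2 / ((l : ℝ) + 1)) * ‖x‖) =
          Real.exp (-(‖x‖ / ((l + 1 : ℕ) : ℝ))) * Real.exp (-(‖x‖ / ((l + 1 : ℕ) : ℝ))) := by
        rw [← Real.exp_add]
        congr 1
        push_cast
        ring
      have e3 : nf (l + 1) = √(nf (l + 1)) * √(nf (l + 1)) := (Real.mul_self_sqrt hnf.le).symm
      rw [e2, abs_mul, abs_div, abs_div, abs_mul, abs_mul, Real.abs_exp,
        abs_of_nonneg (Real.sqrt_nonneg (nf (l + 1)))]
      have hs : √(nf (l + 1)) ≠ 0 := (Real.sqrt_pos.2 hnf).ne'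
      conv_rhs => rw [e3]
      field_simp
    rw [e1]
    gcongr
    · rw [← norm_pow]
      exact Complex.abs_re_le_norm _
    · rw [← norm_pow]
      exact Complex.abs_re_le_norm _
  refine hI.trans ?_
  calc (1 / nf (l + 1)) * ∫ x : R3, ‖GC.lf (GC.av α) x‖ ^ l * ‖GC.lf (GC.av β) x‖ ^ l *
        Real.exp (-(2 / ((l : ℝ) + 1)) * ‖x‖)
      ≤ (1 / nf (l + 1)) * (96 / ((l : ℝ) * (1 - |Real.cos (α - β)|)) *
        (((2 * l + 2).factorial : ℝ) / (2 / ((l : ℝ) + 1)) ^ (2 * l + 3))) := by (clear * - h hnf; gcongr)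
    _ = 96 / ((l : ℝ) * (1 - |Real.cos (α - β)|)) * (1 / (2 * Real.pi)) *
        (((2 * l + 1).factorial : ℝ) / (4 ^ l * (l.factorial : ℝ) ^ 2)) := by
        have e1 : nf (l + 1) = Real.pi / 2 * ((l : ℝ) + 1) ^ (2 * l + 4) * (l.factorial : ℝ) ^ 2 := by
          unfold nf
          rw [Nat.add_sub_cancel]
          push_cast
          ring
        have e2 : ((2 * l + 2).factorial : ℝ) = (2 * ((l : ℝ) + 1)) *
            ((2 * l + 1).factorial : ℝ) := by
          rw [show 2 * l + 2 = (2 * l + 1) + 1 by ring, Nat.factorial_succ, Nat.cast_mul]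
          congr 1
          push_cast
          ring
        have e3 : (2 : ℝ) ^ (2 * l + 3) = 8 * 4 ^ l := by
          rw [pow_add, pow_mul]
          norm_num
          ring
        rw [e1, e2, div_pow, e3]
        generalize (((2 * l + 1).factorial : ℕ) : ℝ) = F
        have hf : (l.factorial : ℝ) ≠ 0 := by exact_mod_cast l.factorial_ne_zero
        have hpi := Real.pi_pos
        have h4 : (4 : ℝ) ^ l ≠ 0 := by positivity
        field_simp
        ring
    _ ≤ 96 / ((l : ℝ) * (1 - |Real.cos (α - β)|)) * (1 / 6) * Real.sqrt (2 * l + 1) := by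
        have h1 : ((2 * l + 1).factorial : ℝ) / (4 ^ l * (l.factorial : ℝ) ^ 2) ≤
            Real.sqrt (2 * l + 1) := by
          have hf : (0 : ℝ) < (l.factorial : ℝ) := by exact_mod_cast l.factorial_pos
          rw [div_le_iff₀ (by positivity)]
          refine le_of_sq_le_sq ?_ (by positivity)
          rw [mul_pow, Real.sq_sqrt (by positivity)]
          exact GC.fact_sq_le l
        have h2 : 1 / (2 * Real.pi) ≤ 1 / 6 := by
          apply one_div_le_one_div_of_le (by norm_num)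
          linarith only [Real.pi_gt_three]
        gcongr
    _ ≤ _ := by
        have hs0 : 0 < Real.sqrt ((l + 1 : ℕ) : ℝ) := Real.sqrt_pos.2 (by positivity)
        have hs1 : Real.sqrt (2 * l + 1) * Real.sqrt ((l + 1 : ℕ) : ℝ) ≤ 4 * l := by
          rw [← Real.sqrt_mul (by positivity)]
          rw [Real.sqrt_le_left (by positivity)]
          push_cast
          nlinarith only [hl1]
        rw [le_div_iff₀ (by positivity)]
        have e : 96 / ((l : ℝ) * (1 - |Real.cos (α - β)|)) * (1 / 6) * Real.sqrt (2 * l + 1) *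
            ((1 - |Real.cos (α - β)|) * Real.sqrt ((l + 1 : ℕ) : ℝ)) =
            16 / l * (Real.sqrt (2 * l + 1) * Real.sqrt ((l + 1 : ℕ) : ℝ)) := by
          field_simp
          norm_num
        rw [e]
        calc 16 / (l : ℝ) * (Real.sqrt (2 * l + 1) * Real.sqrt ((l + 1 : ℕ) : ℝ))
            ≤ 16 / (l : ℝ) * (4 * l) := by gcongr
          _ = 64 := by field_simp; norm_num

theorem one_sub_abs_cos_ge {K : ℕ} {i j : ℕ} (hi : i < K) (hj : j < K) (hij : i ≠ j) :
    2 / (K : ℝ) ^ 2 ≤ 1 - |Real.cos (Real.pi * i / K - Real.pi * j / K)| := by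
  have h := GC.abs_sin_pi_mul_ge hi hj hij
  have hK : (0 : ℝ) < K := by exact_mod_cast (by omega : 0 < K)
  have e : (2 * Real.pi * i / K - 2 * Real.pi * j / K) / 2 =
      Real.pi * i / K - Real.pi * j / K := by ring
  rw [e] at h
  set θ := Real.pi * i / K - Real.pi * j / K with hθ
  have h1 : (2 / (K : ℝ)) ^ 2 ≤ Real.sin θ ^ 2 := by
    rw [← sq_abs (Real.sin θ)]
    gcongr
  have h2 := Real.sin_sq_add_cos_sq θ
  have h3 : |Real.cos θ| ≤ 1 := Real.abs_cos_le_one θ
  have h4 : |Real.cos θ| ^ 2 = Real.cos θ ^ 2 := sq_abs _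
  have h5 : 1 - Real.cos θ ^ 2 ≤ 2 * (1 - |Real.cos θ|) := by
    rw [← h4]
    nlinarith only [h3]
  have h6 : (2 / (K : ℝ)) ^ 2 = 2 * (2 / (K : ℝ) ^ 2) := by
    field_simp
  linarith only [h1, h2, h5, h6]

/-- `L¹` norm of the cross densities -/
theorem cross_L1 (n K : ℕ) (hK : 2 ≤ K) (hn : 2 ≤ n) (i j : Fin K) (hij : i ≠ j) :
    ∫ x, |fh n (Real.pi * i / K) x * fh n (Real.pi * j / K) x| ≤
      27 * K * (n : ℝ) ^ (-(1 / 4) : ℝ) := by
  have hn0 : (0 : ℝ) < n := by exact_mod_cast (by omega : 0 < n)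
  have hK0 : (0 : ℝ) < K := by exact_mod_cast (by omega : 0 < K)
  have hij' : (i : ℕ) ≠ (j : ℕ) := fun h => hij (Fin.ext h)
  have h1 := one_sub_abs_cos_ge i.2 j.2 hij'
  have hpos : 0 < 2 / (K : ℝ) ^ 2 := by (clear * - hK; positivity)
  have h2 := integral_abs_fh_le n hn (Real.pi * i / K) (Real.pi * j / K) (by linarith only [h1, hpos])
  have h3 := integral_abs_fh_le_two n hn (Real.pi * i / K) (Real.pi * j / K)
  have h4 : 0 ≤ ∫ x, |fh n (Real.pi * i / K) x * fh n (Real.pi * j / K) x| :=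
    integral_nonneg fun x => abs_nonneg _
  set I := ∫ x, |fh n (Real.pi * i / K) x * fh n (Real.pi * j / K) x| with hI
  have hs0 : 0 < Real.sqrt n := Real.sqrt_pos.2 hn0
  have h5 : I ≤ 32 * (K : ℝ) ^ 2 / Real.sqrt n := by
    refine h2.trans ?_
    calc 64 / ((1 - |Real.cos (Real.pi * i / K - Real.pi * j / K)|) * Real.sqrt n)
        ≤ 64 / ((2 / (K : ℝ) ^ 2) * Real.sqrt n) := by gcongr
      _ = 32 * (K : ℝ) ^ 2 / Real.sqrt n := by field_simp; norm_num
  have h6 : I ^ 2 ≤ 64 * (K : ℝ) ^ 2 / Real.sqrt n := by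
    calc I ^ 2 = I * I := sq I
      _ ≤ 2 * (32 * (K : ℝ) ^ 2 / Real.sqrt n) := by (clear * - h3 h5; gcongr)
      _ = _ := by ring
  have h7 : ((n : ℝ) ^ (-(1 / 4) : ℝ)) ^ 2 = 1 / Real.sqrt n := by
    rw [← Real.rpow_natCast, ← Real.rpow_mul hn0.le, Real.sqrt_eq_rpow,
      show (1 : ℝ) / (n : ℝ) ^ (1 / 2 : ℝ) = (n : ℝ) ^ (-(1 / 2) : ℝ) by
        rw [Real.rpow_neg hn0.le, one_div]]
    congr 1
    norm_num
  have hr0 : 0 < (n : ℝ) ^ (-(1 / 4) : ℝ) := Real.rpow_pos_of_pos hn0 _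
  refine le_of_sq_le_sq ?_ (by positivity)
  calc I ^ 2 ≤ 64 * (K : ℝ) ^ 2 / Real.sqrt n := h6
    _ = 64 * (K : ℝ) ^ 2 * ((n : ℝ) ^ (-(1 / 4) : ℝ)) ^ 2 := by rw [h7]; ring
    _ ≤ 27 ^ 2 * (K : ℝ) ^ 2 * ((n : ℝ) ^ (-(1 / 4) : ℝ)) ^ 2 := by
        gcongr
        norm_num
    _ = _ := by ring

/-- the potential of a product of site orbitals -/
theorem abs_nuc_fh_le (n : ℕ) (hn : 2 ≤ n) (α β : ℝ) (y : R3) :
    |nuc y (fh n α) (fh n β)| ≤ (42 + 6 * Real.log n) / (n : ℝ) ^ 2 := by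
  have h1 := rho0_pot n hn α y
  have h2 := rho0_pot n hn β y
  unfold nuc
  calc |∫ x, fh n α x * fh n β x / dist x y|
      ≤ ∫ x, |fh n α x * fh n β x / dist x y| := abs_integral_le_integral_abs
    _ ≤ ∫ x, (rho0 n α x / dist x y + rho0 n β x / dist x y) := by
        refine integral_mono_of_nonneg (.of_forall fun x => abs_nonneg _) (h1.1.add h2.1)
          (.of_forall fun x => ?_)
        show |fh n α x * fh n β x / dist x y| ≤ rho0 n α x / dist x y + rho0 n β x / dist x y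
        rw [abs_div, abs_of_nonneg (dist_nonneg (x := x) (y := y)), ← add_div]
        gcongr
        exact abs_fh_mul_le n (by omega) α β x
    _ = (∫ x, rho0 n α x / dist x y) + ∫ x, rho0 n β x / dist x y := integral_add h1.1 h2.1
    _ ≤ (21 + 3 * Real.log n) / (n : ℝ) ^ 2 + (21 + 3 * Real.log n) / (n : ℝ) ^ 2 :=
        add_le_add h1.2 h2.2
    _ = _ := by ring

theorem coul_fh_le (n : ℕ) (hn : 2 ≤ n) (α β γ δ : ℝ) :
    |coul (fh n α) (fh n β) (fh n γ) (fh n δ)| ≤
      (42 + 6 * Real.log n) / (n : ℝ) ^ 2 * ∫ x, |fh n γ x * fh n δ x| := by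
  unfold coul
  rw [← integral_const_mul]
  calc |∫ y, nuc y (fh n α) (fh n β) * (fh n γ y * fh n δ y)|
      ≤ ∫ y, |nuc y (fh n α) (fh n β) * (fh n γ y * fh n δ y)| := abs_integral_le_integral_abs
    _ ≤ _ := by
        refine integral_mono_of_nonneg (.of_forall fun x => abs_nonneg _)
          ((integrable_fh_mul n hn γ δ).abs.const_mul _) (.of_forall fun y => ?_)
        show |nuc y (fh n α) (fh n β) * (fh n γ y * fh n δ y)| ≤ _
        rw [abs_mul]
        exact mul_le_mul_of_nonneg_right (abs_nuc_fh_le n hn α β y) (abs_nonneg _)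

theorem integrable_coul_fh (n : ℕ) (hn : 2 ≤ n) (α β γ δ : ℝ) :
    Integrable (fun p : R3 × R3 => fh n α p.1 * fh n β p.1 / dist p.1 p.2 *
      (fh n γ p.2 * fh n δ p.2)) (volume.prod volume) := by
  have hmeas : Measurable (fun p : R3 × R3 => fh n α p.1 * fh n β p.1 / dist p.1 p.2 *
      (fh n γ p.2 * fh n δ p.2)) := by
    have m : ∀ ζ : ℝ, Measurable (fh n ζ) := fun ζ => (continuous_fh n ζ).measurable
    exact ((((m α).comp measurable_fst).mul ((m β).comp measurable_fst)).div (by fun_prop)).mul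
      (((m γ).comp measurable_snd).mul ((m δ).comp measurable_snd))
  have hx : ∀ y : R3, Integrable (fun x : R3 => fh n α x * fh n β x / dist x y) := by
    intro y
    have h1 := rho0_pot n hn α y
    have h2 := rho0_pot n hn β y
    refine (h1.1.add h2.1).mono' ?_ (.of_forall fun x => ?_)
    · exact ((((continuous_fh n α).measurable).mul (continuous_fh n β).measurable).div
        (by fun_prop)).aestronglyMeasurable
    · show ‖fh n α x * fh n β x / dist x y‖ ≤ rho0 n α x / dist x y + rho0 n β x / dist x y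
      rw [Real.norm_eq_abs, abs_div, abs_of_nonneg (dist_nonneg (x := x) (y := y)), ← add_div]
      gcongr
      exact abs_fh_mul_le n (by (clear * - hn; omega)) α β x
  rw [integrable_prod_iff' hmeas.aestronglyMeasurable]
  refine ⟨.of_forall fun y => (hx y).mul_const (fh n γ y * fh n δ y), ?_⟩
  have hb : ∀ y : R3, ∫ x : R3, ‖fh n α x * fh n β x / dist x y *
      (fh n γ y * fh n δ y)‖ ≤ (42 + 6 * Real.log n) / (n : ℝ) ^ 2 * |fh n γ y * fh n δ y| := by
    intro y
    simp only [norm_mul (fh n α _ * fh n β _ / dist _ y)]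
    rw [integral_mul_const]
    rw [Real.norm_eq_abs (fh n γ y * fh n δ y)]
    refine mul_le_mul_of_nonneg_right ?_ (abs_nonneg _)
    have h1 := rho0_pot n hn α y
    have h2 := rho0_pot n hn β y
    calc ∫ x, ‖fh n α x * fh n β x / dist x y‖
        ≤ ∫ x, (rho0 n α x / dist x y + rho0 n β x / dist x y) := by
          refine integral_mono_of_nonneg (.of_forall fun x => norm_nonneg _) (h1.1.add h2.1)
            (.of_forall fun x => ?_)
          show ‖fh n α x * fh n β x / dist x y‖ ≤ rho0 n α x / dist x y + rho0 n β x / dist x y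
          rw [Real.norm_eq_abs, abs_div, abs_of_nonneg (dist_nonneg (x := x) (y := y)), ← add_div]
          gcongr
          exact abs_fh_mul_le n (by omega) α β x
      _ = (∫ x, rho0 n α x / dist x y) + ∫ x, rho0 n β x / dist x y := integral_add h1.1 h2.1
      _ ≤ (21 + 3 * Real.log n) / (n : ℝ) ^ 2 + (21 + 3 * Real.log n) / (n : ℝ) ^ 2 :=
          add_le_add h1.2 h2.2
      _ = _ := by ring
  refine ((integrable_fh_mul n hn γ δ).abs.const_mul _).mono' ?_
    (.of_forall fun y => (Real.norm_of_nonneg (integral_nonneg fun x => norm_nonneg _)).le.trans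
      (hb y))
  exact (hmeas.norm.stronglyMeasurable.integral_prod_left'
    (μ := (volume : Measure R3))).aestronglyMeasurable

theorem coul_fh_symm (n : ℕ) (hn : 2 ≤ n) (α β γ δ : ℝ) :
    coul (fh n α) (fh n β) (fh n γ) (fh n δ) = coul (fh n γ) (fh n δ) (fh n α) (fh n β) := by
  have h := integrable_coul_fh n hn α β γ δ
  have e1 : coul (fh n α) (fh n β) (fh n γ) (fh n δ) =
      ∫ y, ∫ x, fh n α x * fh n β x / dist x y * (fh n γ y * fh n δ y) := by
    unfold coul nuc
    refine integral_congr_ae (.of_forall fun y => ?_)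
    simp only
    rw [integral_mul_const]
  have e2 : coul (fh n γ) (fh n δ) (fh n α) (fh n β) =
      ∫ x, ∫ y, fh n α x * fh n β x / dist x y * (fh n γ y * fh n δ y) := by
    unfold coul nuc
    refine integral_congr_ae (.of_forall fun x => ?_)
    simp only
    rw [← integral_mul_const]
    refine integral_congr_ae (.of_forall fun y => ?_)
    simp only
    rw [dist_comm y x]
    ring
  rw [e1, e2]
  exact (integral_integral_swap (f := fun x y => fh n α x * fh n β x / dist x y *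
    (fh n γ y * fh n δ y)) h).symm

/-- Coulomb integrals with an off-diagonal density are small -/
theorem coul_off (n K : ℕ) (hK : 2 ≤ K) (hn : 2 ≤ n) (i j k l : Fin K)
    (h : i ≠ j ∨ k ≠ l) :
    |coul (fh n (Real.pi * i / K)) (fh n (Real.pi * j / K)) (fh n (Real.pi * k / K))
        (fh n (Real.pi * l / K))| ≤
      2 ^ 11 * K * (1 + Real.log n) * (n : ℝ) ^ (-(9 / 4) : ℝ) := by
  have hn0 : (0 : ℝ) < n := by exact_mod_cast (by omega : 0 < n)
  have hlog : 0 ≤ Real.log n := Real.log_nonneg (by exact_mod_cast (by omega : 1 ≤ n))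
  have main : ∀ i j k l : Fin K, k ≠ l →
      |coul (fh n (Real.pi * i / K)) (fh n (Real.pi * j / K)) (fh n (Real.pi * k / K))
        (fh n (Real.pi * l / K))| ≤
      2 ^ 11 * K * (1 + Real.log n) * (n : ℝ) ^ (-(9 / 4) : ℝ) := by
    intro i j k l hkl
    refine (coul_fh_le n hn _ _ _ _).trans ?_
    have h1 := cross_L1 n K hK hn k l hkl
    have hr : (n : ℝ) ^ (-(9 / 4) : ℝ) = (n : ℝ) ^ (-(1 / 4) : ℝ) / (n : ℝ) ^ 2 := by
      rw [← Real.rpow_natCast, ← Real.rpow_sub hn0]
      congr 1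
      norm_num
    have hr0 : 0 < (n : ℝ) ^ (-(1 / 4) : ℝ) := Real.rpow_pos_of_pos hn0 _
    calc (42 + 6 * Real.log n) / (n : ℝ) ^ 2 *
          ∫ x, |fh n (Real.pi * k / K) x * fh n (Real.pi * l / K) x|
        ≤ (42 + 6 * Real.log n) / (n : ℝ) ^ 2 * (27 * K * (n : ℝ) ^ (-(1 / 4) : ℝ)) := by (clear * - h1 hn; gcongr)
      _ = (27 * (42 + 6 * Real.log n)) * (K * (n : ℝ) ^ (-(1 / 4) : ℝ) / (n : ℝ) ^ 2) := by ring
      _ ≤ (2 ^ 11 * (1 + Real.log n)) * (K * (n : ℝ) ^ (-(1 / 4) : ℝ) / (n : ℝ) ^ 2) := by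
          refine mul_le_mul_of_nonneg_right ?_ (by positivity)
          linarith only [hlog]
      _ = _ := by
          rw [hr]
          ring
  rcases h with h | h
  · rw [coul_fh_symm n hn]
    exact main k l i j h
  · exact main i j k l h

end Vale.Agent.P370.Q
end

section

/-!
Direct Coulomb integrals: symmetries and upper bound.
-/

namespace Vale.Agent.P370.Q

open MeasureTheory Finset ComplexConjugate

/-- rotation about the third axis -/
noncomputable def zrotL (φ : ℝ) : R3 →ₗ[ℝ] R3 where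
  toFun x := !₂[Real.cos φ * x 0 - Real.sin φ * x 1, Real.sin φ * x 0 + Real.cos φ * x 1, x 2]
  map_add' x y := by
    ext i
    fin_cases i <;> simp <;> ring
  map_smul' c x := by
    ext i
    fin_cases i <;> simp <;> ring

theorem norm_zrotL (φ : ℝ) (x : R3) : ‖zrotL φ x‖ = ‖x‖ := by
  have h : ‖zrotL φ x‖ ^ 2 = ‖x‖ ^ 2 := by
    rw [EuclideanSpace.norm_sq_eq, EuclideanSpace.norm_sq_eq, Fin.sum_univ_three,
      Fin.sum_univ_three]
    simp only [Real.norm_eq_abs, sq_abs]
    simp only [zrotL, Fin.isValue, LinearMap.coe_mk, AddHom.coe_mk, Matrix.cons_val_zero, Matrix.cons_val_one, Matrix.cons_val, add_left_inj]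
    linear_combination (x 0 ^ 2 + x 1 ^ 2) * Real.sin_sq_add_cos_sq φ
  exact (sq_eq_sq₀ (norm_nonneg _) (norm_nonneg _)).1 h

/-- rotation about the third axis as a linear isometry equivalence -/
noncomputable def zrot (φ : ℝ) : R3 ≃ₗᵢ[ℝ] R3 :=
  LinearIsometry.toLinearIsometryEquiv ⟨zrotL φ, norm_zrotL φ⟩ rfl

theorem zrot_apply (φ : ℝ) (x : R3) : zrot φ x = zrotL φ x := rfl

theorem cdot_zrot (α φ : ℝ) (x : R3) : cdot (av α) (zrot φ x) = cdot (av (α - φ)) x := by
  rw [cdot_eq_lf, cdot_eq_lf, av_eq, av_eq, GC.lf_av, GC.lf_av, zrot_apply]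
  have e0 : zrotL φ x 0 = Real.cos φ * x 0 - Real.sin φ * x 1 := by simp only [Fin.isValue, zrotL, LinearMap.coe_mk, AddHom.coe_mk, Matrix.cons_val_zero]
  have e1 : zrotL φ x 1 = Real.sin φ * x 0 + Real.cos φ * x 1 := by simp only [Fin.isValue, zrotL, LinearMap.coe_mk, AddHom.coe_mk, Matrix.cons_val_one, Matrix.cons_val_zero]
  have e2 : zrotL φ x 2 = x 2 := by simp [zrotL]
  rw [e0, e1, e2, Real.cos_sub, Real.sin_sub]
  congr 3
  ring

theorem fsite_zrot (n : ℕ) (α φ : ℝ) (x : R3) :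
    fsite n α (zrot φ x) = fsite n (α - φ) x := by
  unfold fsite
  rw [cdot_zrot, LinearIsometryEquiv.norm_map]

theorem fh_zrot (n : ℕ) (α φ : ℝ) (x : R3) : fh n α (zrot φ x) = fh n (α - φ) x := by
  unfold fh
  rw [fsite_zrot]

theorem coul_comp_isometry (g : R3 ≃ₗᵢ[ℝ] R3) (f1 f2 f3 f4 : R3 → ℝ) :
    coul (fun x => f1 (g x)) (fun x => f2 (g x)) (fun x => f3 (g x)) (fun x => f4 (g x)) =
      coul f1 f2 f3 f4 := by
  have hn : ∀ y : R3, nuc y (fun x => f1 (g x)) (fun x => f2 (g x)) = nuc (g y) f1 f2 := by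
    intro y
    unfold nuc
    have := g.measurePreserving.integral_comp g.toHomeomorph.measurableEmbedding
      (fun x => f1 x * f2 x / dist x (g y))
    rw [← this]
    refine integral_congr_ae (.of_forall fun x => ?_)
    simp only
    rw [g.dist_map]
  unfold coul
  simp only [hn]
  exact g.measurePreserving.integral_comp g.toHomeomorph.measurableEmbedding
      (fun y => nuc y f1 f2 * (f3 y * f4 y))

theorem wdir_eq (n : ℕ) (hn : 2 ≤ n) (α β : ℝ) :
    coul (fh n α) (fh n α) (fh n β) (fh n β) = wdir n (α - β) := by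
  have h := coul_comp_isometry (zrot β) (fh n α) (fh n α) (fh n β) (fh n β)
  simp only [fh_zrot, sub_self] at h
  rw [← h]
  rfl

theorem wdir_even (n : ℕ) (hn : 2 ≤ n) (δ : ℝ) : wdir n (-δ) = wdir n δ := by
  have h1 := wdir_eq n hn 0 δ
  rw [zero_sub] at h1
  rw [← h1, coul_fh_symm n hn]
  rfl

theorem wdir_per (n : ℕ) (hn : 2 ≤ n) (δ : ℝ) : wdir n (δ + Real.pi) = wdir n δ := by
  have h : fh n (δ + Real.pi) = fh n δ := by
    funext x
    unfold fh fsite
    have e : cdot (av (δ + Real.pi)) x = (starRingEnd ℂ) (cdot (av δ) x) := by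
      rw [cdot_eq_lf, cdot_eq_lf, av_eq, av_eq, GC.conj_lf_av]
    rw [e, ← map_pow, Complex.conj_re]
  unfold wdir
  rw [h]

theorem wdir_bounds (n : ℕ) (hn : 2 ≤ n) (δ : ℝ) :
    0 ≤ wdir n δ ∧ wdir n δ ≤ (42 + 6 * Real.log n) / (n : ℝ) ^ 2 := by
  constructor
  · unfold wdir coul nuc
    refine integral_nonneg fun y => mul_nonneg (integral_nonneg fun x => ?_) ?_
    · exact div_nonneg (mul_self_nonneg _) dist_nonneg
    · exact mul_self_nonneg _
  · have h := coul_fh_le n hn δ δ 0 0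
    have h1 : ∫ x, |fh n 0 x * fh n 0 x| = 1 := by
      have h2 := ov_fh_self n hn 0
      unfold ov at h2
      rw [← h2]
      refine integral_congr_ae (.of_forall fun x => ?_)
      exact abs_of_nonneg (mul_self_nonneg _)
    rw [h1, mul_one] at h
    exact (le_abs_self _).trans h

end Vale.Agent.P370.Q
end

section

/-!
Abstract strict positivity of Coulomb quadratic forms.
-/

namespace Vale.Agent.P370.GC

open MeasureTheory Set Metric Module
open scoped ENNReal

theorem pd_abstract {ι : Type*} [Fintype ι] [DecidableEq ι] {d : ι → V3 → ℝ}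
    (hd : ∀ i, Dens (d i)) (h1 : ∀ i, ∫ x, d i x = 1)
    (hI : ∀ i j, Integrable (fun q : V3 × V3 => d i q.1 / dist q.1 q.2 * d j q.2)
      (volume.prod volume)) (v : ι → ℝ) (i0 : ι) (hv0 : |v i0| = 1) (hv : ∀ i, |v i| ≤ 1)
    {t0 : ℝ} (ht0 : 0 < t0) {Rs A : Set V3} {N : ι → Set V3} (hR : MeasurableSet Rs)
    (hA : MeasurableSet A) (hN : ∀ i, MeasurableSet (N i))
    (hAR : ∀ x ∈ A, ∀ z, dist z x < 2 * t0 → z ∈ Rs)
    (hNR : ∀ i, i ≠ i0 → ∀ z ∈ Rs, ∀ x, dist z x < 2 * t0 → x ∈ N i)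
    {V : ℝ} (hV : 0 < V) (hvol : volume Rs ≤ ENNReal.ofReal V)
    {m δ c : ℝ} (hm : m ≤ ∫ x in A, d i0 x)
    (hδ : ∑ i ∈ Finset.univ.erase i0, ∫ x in N i, d i x ≤ δ) (hc : 0 < c) (hmc : c ≤ m - 8 * δ) :
    c ^ 2 * t0 ^ 2 / (2 * V) ≤ kap.toReal * ∑ i, ∑ j, v i * v j * cw (d i) (d j) := by
  obtain ⟨hint, hval⟩ := quad_integral hd hI v
  rw [hval]
  have hpi := Real.pi_gt_three
  -- finiteness of the region measure
  have hfin : (nur t0 Rs) univ = ENNReal.ofReal t0 * volume Rs := by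
    unfold nur
    rw [← univ_prod_univ, Measure.prod_prod, Measure.restrict_apply_univ,
      Measure.restrict_apply_univ, Real.volume_Ioc]
    congr 2
    ring
  have hfin2 : (nur t0 Rs) univ ≤ ENNReal.ofReal (t0 * V) := by
    rw [hfin, ENNReal.ofReal_mul ht0.le]
    (clear * - hvol; gcongr)
  haveI : IsFiniteMeasure (nur t0 Rs) := ⟨hfin2.trans_lt ENNReal.ofReal_lt_top⟩
  have hreal : (nur t0 Rs).real univ ≤ t0 * V := by
    unfold Measure.real
    exact ENNReal.toReal_le_of_le_ofReal (by (clear * - ht0 hV; positivity)) hfin2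
  have hbi : ∀ i, Integrable (bm (d i)) (nur t0 Rs) := by
    intro i
    refine Integrable.of_bound (measurable_bm (hd i).meas (hd i).int (hd i).nn).aestronglyMeasurable
      1 (.of_forall fun p => ?_)
    rw [Real.norm_of_nonneg (bm_nonneg (hd i).nn p)]
    exact bm_le_one (hd i) (h1 i) p
  -- restriction to the region
  set lam : ℝ := 4 * t0 ^ 3 * c / V with hlam
  have hlam0 : 0 < lam := by (clear * - ht0 hc hV; positivity)
  have step1 : ∫ p, 1 / (32 * t0 ^ 5) * (2 * lam * (bm (d i0) p -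
      ∑ i ∈ Finset.univ.erase i0, bm (d i) p) - lam ^ 2) ∂(nur t0 Rs) ≤
      ∫ p, 1 / p.1 ^ 5 * (∑ i, v i * bm (d i) p) ^ 2 ∂nub := by
    have hms : MeasurableSet (Ioc t0 (2 * t0) ×ˢ Rs) := measurableSet_Ioc.prod hR
    calc ∫ p, 1 / (32 * t0 ^ 5) * (2 * lam * (bm (d i0) p -
        ∑ i ∈ Finset.univ.erase i0, bm (d i) p) - lam ^ 2) ∂(nur t0 Rs)
        ≤ ∫ p in Ioc t0 (2 * t0) ×ˢ Rs, 1 / p.1 ^ 5 * (∑ i, v i * bm (d i) p) ^ 2 ∂nub := by
          rw [← nub_restrict ht0 Rs]
          refine setIntegral_mono_on ?_ hint.integrableOn hms fun p hp => ?_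
          · show Integrable _ (nub.restrict (Ioc t0 (2 * t0) ×ˢ Rs))
            rw [nub_restrict ht0 Rs]
            refine Integrable.const_mul ?_ _
            refine Integrable.sub ?_ (integrable_const _)
            refine Integrable.const_mul ?_ _
            exact (hbi i0).sub (integrable_finsetSum _ fun i _ => hbi i)
          · have hp1 : t0 < p.1 := hp.1.1
            have hp2 : p.1 ≤ 2 * t0 := hp.1.2
            have hp0 : 0 < p.1 := ht0.trans hp1
            have hu : 2 * lam * (bm (d i0) p - ∑ i ∈ Finset.univ.erase i0, bm (d i) p) - lam ^ 2 ≤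
                (∑ i, v i * bm (d i) p) ^ 2 := by
              have ha : bm (d i0) p - ∑ i ∈ Finset.univ.erase i0, bm (d i) p ≤
                  |∑ i, v i * bm (d i) p| := by
                have e1 : ∑ i, v i * bm (d i) p = v i0 * bm (d i0) p +
                    ∑ i ∈ Finset.univ.erase i0, v i * bm (d i) p :=
                  (Finset.add_sum_erase _ _ (Finset.mem_univ i0)).symm
                have e2 : |v i0 * bm (d i0) p| = bm (d i0) p := by
                  rw [abs_mul, hv0, one_mul, abs_of_nonneg (bm_nonneg (hd i0).nn p)]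
                have e3 : |∑ i ∈ Finset.univ.erase i0, v i * bm (d i) p| ≤
                    ∑ i ∈ Finset.univ.erase i0, bm (d i) p := by
                  refine (Finset.abs_sum_le_sum_abs _ _).trans (Finset.sum_le_sum fun i _ => ?_)
                  rw [abs_mul, abs_of_nonneg (bm_nonneg (hd i).nn p)]
                  calc |v i| * bm (d i) p ≤ 1 * bm (d i) p :=
                        mul_le_mul_of_nonneg_right (hv i) (bm_nonneg (hd i).nn p)
                    _ = _ := one_mul _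
                rw [e1]
                have e4 := abs_sub_abs_le_abs_sub (v i0 * bm (d i0) p)
                  (-(∑ i ∈ Finset.univ.erase i0, v i * bm (d i) p))
                rw [abs_neg, sub_neg_eq_add, e2] at e4
                linarith only [e3, e4]
              have hsq : |∑ i, v i * bm (d i) p| ^ 2 = (∑ i, v i * bm (d i) p) ^ 2 := sq_abs _
              exact le_of_not_gt fun hng => by linarith only [hng, Mathlib.Tactic.Linarith.zero_mul_eq (sub_eq_zero_of_eq hsq) (Mathlib.Tactic.Linarith.sub_neg_of_lt hlam0), mul_pos_of_neg_of_neg (Mathlib.Tactic.Linarith.sub_neg_of_lt hng) (Mathlib.Tactic.Linarith.sub_neg_of_lt hlam0), mul_nonneg_of_nonpos_of_nonpos (Mathlib.Tactic.Linarith.sub_nonpos_of_le (sq_nonneg lam)) (Mathlib.Tactic.Linarith.sub_nonpos_of_le ha), mul_nonneg_of_nonpos_of_nonpos (Mathlib.Tactic.Linarith.sub_nonpos_of_le (sq_nonneg (|∑ i, v i * Vale.Agent.P370.GC.bm (d i) p| - lam))) (le_of_lt (Mathlib.Tactic.Linarith.sub_neg_of_lt hlam0))]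
            have hw : 1 / (32 * t0 ^ 5) ≤ 1 / p.1 ^ 5 := by
              apply one_div_le_one_div_of_le (by (clear * - hp0; positivity))
              calc p.1 ^ 5 ≤ (2 * t0) ^ 5 := by (clear * - hp0 hp2; gcongr)
                _ = 32 * t0 ^ 5 := by ring
            calc 1 / (32 * t0 ^ 5) * (2 * lam * (bm (d i0) p -
                ∑ i ∈ Finset.univ.erase i0, bm (d i) p) - lam ^ 2)
                ≤ 1 / (32 * t0 ^ 5) * (∑ i, v i * bm (d i) p) ^ 2 := by (clear * - hu ht0; gcongr)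
              _ ≤ 1 / p.1 ^ 5 * (∑ i, v i * bm (d i) p) ^ 2 := by (clear * - hw; gcongr)
      _ ≤ _ := by
          refine setIntegral_le_integral hint ?_
          filter_upwards [ae_nub_pos] with p hp
          show 0 ≤ 1 / p.1 ^ 5 * (∑ i, v i * bm (d i) p) ^ 2
          (clear * - hp; positivity)
  refine le_trans ?_ step1
  -- evaluation
  have hlow : 4 * t0 ^ 4 * m ≤ ∫ p, bm (d i0) p ∂(nur t0 Rs) ∨ m ≤ 0 := by
    rcases le_or_gt m 0 with hm0 | hm0
    · exact Or.inr hm0
    · left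
      have h2 := bm_nur_lower (hd i0) ht0 hR hA hAR
      rw [← ofReal_integral_eq_lintegral_ofReal (hbi i0)
        (.of_forall fun p => bm_nonneg (hd i0).nn p), ← ENNReal.ofReal_mul (by positivity),
        ENNReal.ofReal_le_ofReal_iff (integral_nonneg fun p => bm_nonneg (hd i0).nn p)] at h2
      refine le_trans ?_ h2
      have h3 : 4 * t0 ^ 4 ≤ 4 * Real.pi / 3 * t0 ^ 4 := by
        have : 0 < t0 ^ 4 := by positivity
        nlinarith only [hpi, this]
      calc 4 * t0 ^ 4 * m ≤ 4 * Real.pi / 3 * t0 ^ 4 * m := by (clear * - h3 hm0; gcongr)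
        _ ≤ _ := by (clear * - hm ht0; gcongr)
  have hup : ∀ i, i ≠ i0 → ∫ p, bm (d i) p ∂(nur t0 Rs) ≤
      32 * Real.pi / 3 * t0 ^ 4 * ∫ x in N i, d i x := by
    intro i hi
    have h2 := bm_nur_upper (hd i) ht0 hR (hN i) (hNR i hi)
    have h3 : 0 ≤ ∫ x in N i, d i x := integral_nonneg (hd i).nn
    rw [← ofReal_integral_eq_lintegral_ofReal (hbi i)
        (.of_forall fun p => bm_nonneg (hd i).nn p), ← ENNReal.ofReal_mul (by positivity),
        ENNReal.ofReal_le_ofReal_iff (by (clear * - ht0 h3; positivity))] at h2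
    exact h2
  have hδ0 : 0 ≤ δ := le_trans (Finset.sum_nonneg fun i _ => integral_nonneg (hd i).nn) hδ
  have hm0 : 0 < m := by linarith only [hc, hmc, hδ0]
  have hlow' : 4 * Real.pi / 3 * t0 ^ 4 * m ≤ ∫ p, bm (d i0) p ∂(nur t0 Rs) := by
    have h2 := bm_nur_lower (hd i0) ht0 hR hA hAR
    rw [← ofReal_integral_eq_lintegral_ofReal (hbi i0)
      (.of_forall fun p => bm_nonneg (hd i0).nn p), ← ENNReal.ofReal_mul (by positivity),
      ENNReal.ofReal_le_ofReal_iff (integral_nonneg fun p => bm_nonneg (hd i0).nn p)] at h2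
    refine le_trans ?_ h2
    (clear * - hm ht0; gcongr)
  have hsum : ∑ i ∈ Finset.univ.erase i0, ∫ p, bm (d i) p ∂(nur t0 Rs) ≤
      32 * Real.pi / 3 * t0 ^ 4 * δ := by
    calc ∑ i ∈ Finset.univ.erase i0, ∫ p, bm (d i) p ∂(nur t0 Rs)
        ≤ ∑ i ∈ Finset.univ.erase i0, 32 * Real.pi / 3 * t0 ^ 4 * ∫ x in N i, d i x :=
          Finset.sum_le_sum fun i hi => hup i (Finset.ne_of_mem_erase hi)
      _ = 32 * Real.pi / 3 * t0 ^ 4 * ∑ i ∈ Finset.univ.erase i0, ∫ x in N i, d i x := by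
          rw [Finset.mul_sum]
      _ ≤ _ := by (clear * - hδ ht0; gcongr)
  have heval : ∫ p, 1 / (32 * t0 ^ 5) * (2 * lam * (bm (d i0) p -
      ∑ i ∈ Finset.univ.erase i0, bm (d i) p) - lam ^ 2) ∂(nur t0 Rs) =
      1 / (32 * t0 ^ 5) * (2 * lam * ((∫ p, bm (d i0) p ∂(nur t0 Rs)) -
      ∑ i ∈ Finset.univ.erase i0, ∫ p, bm (d i) p ∂(nur t0 Rs)) -
        lam ^ 2 * (nur t0 Rs).real univ) := by
    have j1 : Integrable (fun p => ∑ i ∈ Finset.univ.erase i0, bm (d i) p) (nur t0 Rs) :=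
      integrable_finsetSum _ fun i _ => hbi i
    have j2 : Integrable (fun p => bm (d i0) p - ∑ i ∈ Finset.univ.erase i0, bm (d i) p)
        (nur t0 Rs) := (hbi i0).sub j1
    rw [integral_const_mul, integral_sub (j2.const_mul _) (integrable_const _),
      integral_const_mul, integral_sub (hbi i0) j1, integral_finsetSum _ fun i _ => hbi i,
      integral_const, smul_eq_mul, mul_comm ((nur t0 Rs).real univ)]
  rw [heval]
  have hfinal : 4 * t0 ^ 4 * c ≤ (∫ p, bm (d i0) p ∂(nur t0 Rs)) -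
      ∑ i ∈ Finset.univ.erase i0, ∫ p, bm (d i) p ∂(nur t0 Rs) := by
    have h4 : 0 < t0 ^ 4 := by positivity
    have h5 : 4 * Real.pi / 3 * t0 ^ 4 * c ≤ 4 * Real.pi / 3 * t0 ^ 4 * (m - 8 * δ) := by (clear * - hmc ht0; gcongr)
    have h6 : 4 * t0 ^ 4 * c ≤ 4 * Real.pi / 3 * t0 ^ 4 * c := by
      have : 0 < t0 ^ 4 * c := by (clear * - ht0 hc; positivity)
      nlinarith only [hpi, this]
    linarith only [hlow', hsum, h5, h6]
  calc c ^ 2 * t0 ^ 2 / (2 * V)
      = 1 / (32 * t0 ^ 5) * (2 * lam * (4 * t0 ^ 4 * c) - lam ^ 2 * (t0 * V)) := by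
        rw [hlam]
        field_simp
        ring
    _ ≤ _ := by
        (clear * - hfinal ht0 hc hV hreal; gcongr)

end Vale.Agent.P370.GC
end

section

/-!
Volume of the region of centres, mass of the core.
-/

namespace Vale.Agent.P370.Q

open MeasureTheory Set Metric Module
open scoped ENNReal

theorem nu_zrot (α : ℝ) (x : R3) : GC.nu α x = zrot (-α) x 1 := by
  rw [zrot_apply]
  simp only [GC.nu, Fin.isValue, neg_mul, zrotL, Real.cos_neg, Real.sin_neg, sub_neg_eq_add, LinearMap.coe_mk, AddHom.coe_mk, Matrix.cons_val_one, Matrix.cons_val_zero]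

theorem volume_box (a b : ℝ) (ha : 0 ≤ a) (hb : 0 ≤ b) :
    volume {z : R3 | |z 0| ≤ b ∧ |z 1| ≤ a ∧ |z 2| ≤ b} = ENNReal.ofReal (8 * a * b ^ 2) := by
  have e : {z : R3 | |z 0| ≤ b ∧ |z 1| ≤ a ∧ |z 2| ≤ b} =
      (WithLp.ofLp) ⁻¹' (Icc (![-b, -a, -b] : Fin 3 → ℝ) ![b, a, b]) := by
    ext z
    simp only [abs_le, mem_setOf_eq, mem_preimage, mem_Icc, Pi.le_def, Fin.forall_fin_succ]
    simp only [Fin.isValue, Matrix.cons_val_zero, Nat.succ_eq_add_one, Nat.reduceAdd, Fin.succ_zero_eq_one, Matrix.cons_val_one, Fin.succ_one_eq_two, Matrix.cons_val, Matrix.cons_val_succ, Matrix.cons_val_fin_one, IsEmpty.forall_iff, and_true]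
    (clear * -; tauto)
  rw [e, (PiLp.volume_preserving_ofLp (Fin 3)).measure_preimage measurableSet_Icc.nullMeasurableSet,
    Real.volume_Icc_pi, Fin.prod_univ_three]
  simp only [Matrix.cons_val_zero, Matrix.cons_val_one, Matrix.cons_val]
  rw [← ENNReal.ofReal_mul (by linarith only [hb]), ← ENNReal.ofReal_mul (by nlinarith only [ha, hb])]
  congr 1
  ring

theorem volume_rgR (α : ℝ) {T t0 : ℝ} (hT : 0 ≤ T) (ht0 : 0 ≤ t0) :
    volume (GC.rgR α T t0) ≤ ENNReal.ofReal (1944 * t0 * T ^ 2) := by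
  have h1 : GC.rgR α T t0 ⊆ (zrot (-α)) ⁻¹'
      {z : R3 | |z 0| ≤ 9 * T ∧ |z 1| ≤ 3 * t0 ∧ |z 2| ≤ 9 * T} := by
    intro z hz
    obtain ⟨h1, h2, h3⟩ := hz
    have h4 : ‖zrot (-α) z‖ = ‖z‖ := LinearIsometryEquiv.norm_map _ _
    have h5 : ∀ i, |zrot (-α) z i| ≤ 9 * T := fun i => by
      have := EuclideanSpace.norm_eq (zrot (-α) z)
      have h6 : |zrot (-α) z i| ≤ ‖zrot (-α) z‖ := by
        have := PiLp.norm_apply_le (zrot (-α) z) i
        simpa only [norm_map, ge_iff_le, Real.norm_eq_abs] using this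
      linarith only [h3, h4, h6]
    refine ⟨h5 0, ?_, h5 2⟩
    rw [← nu_zrot]
    exact h1
  refine (measure_mono h1).trans ?_
  rw [(zrot (-α)).measurePreserving.measure_preimage_emb
    (zrot (-α)).toHomeomorph.measurableEmbedding, volume_box _ _ (by linarith only [ht0]) (by linarith only [hT])]
  apply le_of_eq
  congr 1
  ring

end Vale.Agent.P370.Q
end

section

/-!
Mass of the core.
-/

namespace Vale.Agent.P370.Q

open MeasureTheory Set Metric Module
open scoped ENNReal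

/-- density of the site orbital -/
noncomputable def den (n : ℕ) (α : ℝ) : R3 → ℝ := fun x => fh n α x * fh n α x

theorem den_nonneg (n : ℕ) (α : ℝ) (x : R3) : 0 ≤ den n α x := mul_self_nonneg _

theorem den_dens (n : ℕ) (hn : 2 ≤ n) (α : ℝ) : GC.Dens (den n α) where
  meas := ((continuous_fh n α).mul (continuous_fh n α)).measurable
  int := integrable_fh_mul n hn α α
  nn := den_nonneg n α

theorem integral_den (n : ℕ) (hn : 2 ≤ n) (α : ℝ) : ∫ x, den n α x = 1 := ov_fh_self n hn α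

theorem den_le (n : ℕ) (hn : 1 ≤ n) (α : ℝ) (x : R3) :
    den n α x ≤ 2 * (GC.wd (n - 1) α x / GC.wm (n - 1)) := by
  have h := fh_sq_le n hn α x
  rw [rho0_eq n hn] at h
  unfold den
  rw [← sq]
  exact h

theorem den_set_le (n : ℕ) (hn : 2 ≤ n) (α : ℝ) {S : Set R3} (hS : MeasurableSet S) {e : ℝ}
    (he : ∫ x in S, GC.wd (n - 1) α x ≤ GC.wm (n - 1) * e) : ∫ x in S, den n α x ≤ 2 * e := by
  have hw := GC.wm_pos (n - 1)
  calc ∫ x in S, den n α x ≤ ∫ x in S, 2 * (GC.wd (n - 1) α x / GC.wm (n - 1)) := by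
        refine setIntegral_mono_on (den_dens n hn α).int.integrableOn
          (((GC.integrable_wd (n - 1) α).div_const _).const_mul 2).integrableOn hS fun x _ => ?_
        exact den_le n (by omega) α x
    _ = 2 * ((∫ x in S, GC.wd (n - 1) α x) / GC.wm (n - 1)) := by
        rw [integral_const_mul, integral_div]
    _ ≤ 2 * e := by
        rw [mul_le_mul_iff_right₀ (by norm_num), div_le_iff₀ hw, mul_comm e]
        exact he

theorem fr_rot (l : ℕ) (hl : 1 ≤ l) (α : ℝ) (k : ℕ) (x : R3) :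
    GC.fr l α (GC.rot α (Real.pi * k / l) x) = (-1) ^ k * GC.fr l α x := by
  have hl0 : (l : ℝ) ≠ 0 := by positivity
  unfold GC.fr
  rw [GC.rot_apply, GC.lf_rotL, mul_pow, ← Complex.exp_nat_mul]
  have e : (l : ℂ) * (((Real.pi * k / l : ℝ) : ℂ) * Complex.I) = (k : ℂ) * (Real.pi * Complex.I) := by
    have hl1 : (l : ℂ) ≠ 0 := by exact_mod_cast hl0
    push_cast
    field_simp
  rw [e, Complex.exp_nat_mul, Complex.exp_pi_mul_I]
  have e2 : ((-1 : ℂ)) ^ k = (((-1 : ℝ) ^ k : ℝ) : ℂ) := by push_cast; rfl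
  rw [e2, Complex.re_ofReal_mul]

theorem den_rot (n : ℕ) (hn : 2 ≤ n) (α : ℝ) (k : ℕ) (x : R3) :
    den n α (GC.rot α (Real.pi * k / ((n - 1 : ℕ) : ℝ)) x) = den n α x := by
  unfold den fh
  rw [fsite_eq, fsite_eq, fr_rot (n - 1) (by omega), LinearIsometryEquiv.norm_map]
  have h : ((-1 : ℝ) ^ k) * (-1) ^ k = 1 := by
    rw [← mul_pow]
    norm_num
  have e : ∀ a b c : ℝ, (-1 : ℝ) ^ k * a * b / c * ((-1) ^ k * a * b / c) =
      ((-1) ^ k * (-1) ^ k) * (a * b / c * (a * b / c)) := by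
    intros
    ring
  rw [e, h, one_mul]

theorem den_preimage (n : ℕ) (hn : 2 ≤ n) (α : ℝ) (k : ℕ) (S : Set R3) (hS : MeasurableSet S) :
    ∫ x in (GC.rot α (Real.pi * k / ((n - 1 : ℕ) : ℝ))) ⁻¹' S, den n α x =
      ∫ x in S, den n α x := by
  have h := (GC.rot α (Real.pi * k / ((n - 1 : ℕ) : ℝ))).measurePreserving.setIntegral_preimage_emb
    (GC.rot α (Real.pi * k / ((n - 1 : ℕ) : ℝ))).toHomeomorph.measurableEmbedding (den n α) S
  rw [← h]
  refine setIntegral_congr_fun ?_ fun x _ => ?_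
  · exact (GC.rot α (Real.pi * k / ((n - 1 : ℕ) : ℝ))).continuous.measurable hS
  · exact (den_rot n hn α k x).symm

theorem angle_bounds (l : ℕ) (hl : 999 ≤ l) :
    9 / 10 ≤ Real.sin (Real.pi * ((l / 2 : ℕ) : ℝ) / l) ∧
      |Real.cos (Real.pi * ((l / 2 : ℕ) : ℝ) / l)| ≤ 1 / 10 := by
  have hl1 : (999 : ℝ) ≤ l := by exact_mod_cast hl
  have hpi := Real.pi_pos
  have hpi3 := Real.pi_gt_three
  have hpi4 := Real.pi_lt_d2
  obtain ⟨k, hk⟩ : ∃ k, k = l / 2 := ⟨_, rfl⟩
  rw [← hk]
  have hk1 : (k : ℝ) ≤ l / 2 := by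
    rw [hk]
    exact_mod_cast Nat.cast_div_le
  have hk2 : (l : ℝ) / 2 - 1 / 2 ≤ k := by
    have : l ≤ 2 * k + 1 := by (clear * - hk; omega)
    have : (l : ℝ) ≤ 2 * k + 1 := by exact_mod_cast this
    linarith only [this]
  have hl0 : (0 : ℝ) < l := by linarith only [hl1]
  obtain ⟨ε, hε⟩ : ∃ ε, ε = Real.pi / 2 - Real.pi * (k : ℝ) / l := ⟨_, rfl⟩
  have hφ : Real.pi * (k : ℝ) / l = Real.pi / 2 - ε := by rw [hε]; ring
  have he0 : 0 ≤ ε := by
    rw [hε, sub_nonneg, div_le_iff₀ hl0]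
    have := mul_le_mul_of_nonneg_left hk1 hpi.le
    linarith only [this]
  have he1 : ε ≤ 1 / 100 := by
    have h4 : Real.pi * (l / 2 - 1 / 2) / l ≤ Real.pi * (k : ℝ) / l := by gcongr
    have h5 : Real.pi / 2 - Real.pi * (l / 2 - 1 / 2) / l = Real.pi / (2 * l) := by
      field_simp
      ring
    have h6 : Real.pi / (2 * l) ≤ 1 / 100 := by
      rw [div_le_div_iff₀ (by positivity) (by norm_num)]
      linarith only [hl1, hpi4]
    linarith only [hε, h4, h5, h6]
  rw [hφ]
  constructor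
  · rw [Real.sin_pi_div_two_sub]
    have := Real.one_sub_sq_div_two_le_cos (x := ε)
    linarith only [mul_nonneg_of_nonpos_of_nonpos (Mathlib.Tactic.Linarith.sub_nonpos_of_le he1) (Mathlib.Tactic.Linarith.sub_nonpos_of_le he0), this, he1]
  · rw [Real.cos_pi_div_two_sub]
    have h7 := Real.sin_le he0
    have h8 : 0 ≤ Real.sin ε := Real.sin_nonneg_of_nonneg_of_le_pi he0 (by linarith only [hpi3, he1])
    rw [abs_of_nonneg h8]
    linarith only [he1, h7]

theorem cover_rot (α φ : ℝ) {T : ℝ} (hT0 : 0 < T) (hsin : 9 / 10 ≤ Real.sin φ)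
    (hcos : |Real.cos φ| ≤ 1 / 10) (x : R3) (h1 : 2 * T / 3 < ‖GC.lf (GC.av α) x‖)
    (h2 : |GC.ta α x| < T / 4) : T / 4 ≤ |GC.ta α (GC.rot α φ x)| := by
  have h4 : GC.ta α (GC.rot α φ x) = Real.sin φ * x 2 + Real.cos φ * GC.ta α x := by
    rw [GC.rot_apply, GC.ta_rotL]
  have h5 := GC.normSq_lf_av' α x
  have h6 : (T / 2) ^ 2 < x 2 ^ 2 := by
    have h7 : (2 * T / 3) ^ 2 < ‖GC.lf (GC.av α) x‖ ^ 2 :=
      pow_lt_pow_left₀ h1 (by positivity) two_ne_zero
    have h8 : GC.ta α x ^ 2 < (T / 4) ^ 2 := sq_lt_sq' (by linarith only [(abs_lt.1 h2).1])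
      (abs_lt.1 h2).2
    linarith only [h8, h7, h5, sq_nonneg (Vale.Agent.P370.GC.ta α x)]
  have h7 : T / 2 < |x 2| := by
    rw [← sq_abs (x 2)] at h6
    exact lt_of_pow_lt_pow_left₀ 2 (abs_nonneg _) h6
  have h8 : |Real.sin φ * x 2| - |Real.cos φ * GC.ta α x| ≤ |GC.ta α (GC.rot α φ x)| := by
    rw [h4]
    have := abs_sub_abs_le_abs_sub (Real.sin φ * x 2) (-(Real.cos φ * GC.ta α x))
    rwa [abs_neg, sub_neg_eq_add] at this
  have h9 : 9 / 10 * (T / 2) ≤ |Real.sin φ * x 2| := by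
    rw [abs_mul]
    have h10 : 9 / 10 ≤ |Real.sin φ| := hsin.trans (le_abs_self _)
    exact mul_le_mul h10 h7.le (by positivity) (abs_nonneg _)
  have h10 : |Real.cos φ * GC.ta α x| ≤ 1 / 10 * (T / 4) := by
    rw [abs_mul]
    exact mul_le_mul hcos h2.le (abs_nonneg _) (by norm_num)
  linarith only [hT0, h8, h9, h10]

/-- half of the mass lies away from the axis -/
theorem mass_G (n : ℕ) (hn : 1000 ≤ n) (α : ℝ) :
    (1 - 30 / (n : ℝ)) / 2 ≤ ∫ x in {x : R3 | (n : ℝ) ^ 2 / 4 ≤ |GC.ta α x|}, den n α x := by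
  obtain ⟨l, rfl⟩ : ∃ l, n = l + 1 := ⟨n - 1, by omega⟩
  have hl : 999 ≤ l := by omega
  have hcast : ((l + 1 : ℕ) : ℝ) = (l : ℝ) + 1 := by push_cast; ring
  rw [hcast]
  obtain ⟨T, hT⟩ : ∃ T : ℝ, T = ((l : ℝ) + 1) ^ 2 := ⟨_, rfl⟩
  have hT0 : 0 < T := by rw [hT]; positivity
  rw [← hT]
  obtain ⟨G, hG⟩ : ∃ G : Set R3, G = {x : R3 | T / 4 ≤ |GC.ta α x|} := ⟨_, rfl⟩
  rw [← hG]
  have hGm : MeasurableSet G := by
    rw [hG]
    exact measurableSet_le measurable_const (GC.continuous_ta α).measurable.abs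
  obtain ⟨a1, a2⟩ := angle_bounds l hl
  obtain ⟨φ, hφ⟩ : ∃ φ, φ = Real.pi * ((l / 2 : ℕ) : ℝ) / l := ⟨_, rfl⟩
  rw [← hφ] at a1 a2
  have hpre : ∫ x in (GC.rot α φ) ⁻¹' G, den (l + 1) α x = ∫ x in G, den (l + 1) α x := by
    have := den_preimage (l + 1) (by omega) α (l / 2) G hGm
    rw [Nat.add_sub_cancel, ← hφ] at this
    exact this
  obtain ⟨S, hS⟩ : ∃ S : Set R3, S = {x : R3 | ‖GC.lf (GC.av α) x‖ ≤ 2 * T / 3} := ⟨_, rfl⟩
  have hSm : MeasurableSet S := by
    rw [hS]
    exact measurableSet_le (by (clear * -; fun_prop)) measurable_const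
  have hSmass : ∫ x in S, den (l + 1) α x ≤ 2 * (15 / ((l : ℝ) + 1)) := by
    rw [hS, hT]
    refine den_set_le (l + 1) (by omega) α ?_ (GC.mass_small_s l (by omega) α)
    exact measurableSet_le (by (clear * -; fun_prop)) measurable_const
  have hd := den_dens (l + 1) (by omega) α
  have hRm : MeasurableSet ((GC.rot α φ) ⁻¹' G) := (GC.rot α φ).continuous.measurable hGm
  have i1 : Integrable (S.indicator (den (l + 1) α)) := hd.int.indicator hSm
  have i2 : Integrable (G.indicator (den (l + 1) α)) := hd.int.indicator hGm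
  have i3 : Integrable (((GC.rot α φ) ⁻¹' G).indicator (den (l + 1) α)) := hd.int.indicator hRm
  have key : ∀ x, den (l + 1) α x ≤ S.indicator (den (l + 1) α) x +
      (G.indicator (den (l + 1) α) x + ((GC.rot α φ) ⁻¹' G).indicator (den (l + 1) α) x) := by
    intro x
    have n1 : ∀ A : Set R3, 0 ≤ A.indicator (den (l + 1) α) x := fun A =>
      indicator_nonneg (fun y _ => hd.nn y) x
    by_cases h1 : x ∈ S
    · have := indicator_of_mem h1 (den (l + 1) α)
      linarith only [this, n1 G, n1 ((GC.rot α φ) ⁻¹' G)]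
    by_cases h2 : x ∈ G
    · have := indicator_of_mem h2 (den (l + 1) α)
      linarith only [this, n1 S, n1 ((GC.rot α φ) ⁻¹' G)]
    have h3 : x ∈ (GC.rot α φ) ⁻¹' G := by
      rw [hS] at h1
      rw [hG] at h2
      rw [hG]
      exact cover_rot α φ hT0 a1 a2 x (lt_of_not_ge h1) (lt_of_not_ge h2)
    have := indicator_of_mem h3 (den (l + 1) α)
    linarith only [this, n1 S, n1 G]
  have htot : (1 : ℝ) ≤ (∫ x in S, den (l + 1) α x) + ((∫ x in G, den (l + 1) α x) +
      ∫ x in (GC.rot α φ) ⁻¹' G, den (l + 1) α x) := by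
    have h1 := integral_mono hd.int (i1.add (i2.add i3)) key
    have h2 : ∫ x, (S.indicator (den (l + 1) α) x +
      (G.indicator (den (l + 1) α) x + ((GC.rot α φ) ⁻¹' G).indicator (den (l + 1) α) x)) =
        (∫ x in S, den (l + 1) α x) + ((∫ x in G, den (l + 1) α x) +
      ∫ x in (GC.rot α φ) ⁻¹' G, den (l + 1) α x) := by
      have i23 : Integrable (fun x => G.indicator (den (l + 1) α) x +
          ((GC.rot α φ) ⁻¹' G).indicator (den (l + 1) α) x) := i2.add i3
      rw [integral_add i1 i23, integral_add i2 i3, integral_indicator hSm, integral_indicator hGm,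
        integral_indicator hRm]
    rw [integral_den _ (by omega)] at h1
    exact h1.trans_eq h2
  rw [hpre] at htot
  have e : (30 : ℝ) / ((l : ℝ) + 1) = 2 * (15 / ((l : ℝ) + 1)) := by ring
  rw [e]
  linarith only [hSmass, htot]

end Vale.Agent.P370.Q
end

section

/-!
Strict positivity of the direct Coulomb matrix.
-/

namespace Vale.Agent.P370.Q

open MeasureTheory Finset ComplexConjugate

theorem setInt_cover {d : R3 → ℝ} (hd : GC.Dens d) {G A B C : Set R3} (hG : MeasurableSet G)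
    (hA : MeasurableSet A) (hB : MeasurableSet B) (hC : MeasurableSet C)
    (h : ∀ x ∈ G, x ∈ A ∨ x ∈ B ∨ x ∈ C) :
    ∫ x in G, d x ≤ (∫ x in A, d x) + ((∫ x in B, d x) + ∫ x in C, d x) := by
  have i0 : Integrable (G.indicator d) := hd.int.indicator hG
  have i1 : Integrable (A.indicator d) := hd.int.indicator hA
  have i2 : Integrable (B.indicator d) := hd.int.indicator hB
  have i3 : Integrable (C.indicator d) := hd.int.indicator hC
  have i23 : Integrable (fun x => B.indicator d x + C.indicator d x) := i2.add i3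
  have i123 : Integrable (fun x => A.indicator d x + (B.indicator d x + C.indicator d x)) :=
    i1.add i23
  rw [← integral_indicator hG, ← integral_indicator hA, ← integral_indicator hB,
    ← integral_indicator hC, ← integral_add i2 i3, ← integral_add i1 i23]
  refine integral_mono i0 i123 fun x => ?_
  have n1 : ∀ S : Set R3, 0 ≤ S.indicator d x := fun S =>
    Set.indicator_nonneg (fun y _ => hd.nn y) x
  by_cases hx : x ∈ G
  · rw [Set.indicator_of_mem hx]
    rcases h x hx with h | h | h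
    · have := Set.indicator_of_mem h d
      linarith only [this, n1 B, n1 C]
    · have := Set.indicator_of_mem h d
      linarith [n1 A, n1 C]
    · have := Set.indicator_of_mem h d
      linarith only [this, n1 A, n1 B]
  · rw [Set.indicator_of_notMem hx]
    linarith [n1 A, n1 B, n1 C]

theorem large_n {n K : ℕ} (hK : 2 ≤ K) (hn : 2 ^ 30 * K ^ 4 ≤ n) :
    1000 ≤ n ∧ (2 : ℝ) ^ 30 * (K : ℝ) ^ 4 ≤ n ∧ (2 : ℝ) ≤ K := by
  refine ⟨?_, by exact_mod_cast hn, by exact_mod_cast hK⟩
  have : 1 ≤ K ^ 4 := Nat.one_le_pow _ _ (by omega)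
  linarith only [hn, this]

theorem mass_core (n K : ℕ) (hK : 2 ≤ K) (hn : 2 ^ 30 * K ^ 4 ≤ n) (α : ℝ) :
    2 / 5 ≤ ∫ x in GC.rgA α ((n : ℝ) ^ 2) ((n : ℝ) ^ 2 / (64 * K)), den n α x := by
  obtain ⟨hn1, hn2, hK2⟩ := large_n hK hn
  have hn0 : (0 : ℝ) < n := by (clear * - hn1; positivity)
  have hK0 : (0 : ℝ) < K := by linarith only [hK2]
  have hd := den_dens n (by omega) α
  have hcast : ((n - 1 : ℕ) : ℝ) + 1 = n := by
    rw [Nat.cast_sub (by omega)]
    simp only [Nat.cast_one, sub_add_cancel]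
  have m1 : MeasurableSet {x : R3 | 1 / (64 * (K : ℝ)) * (n : ℝ) ^ 2 ≤ |GC.nu α x|} :=
    measurableSet_le measurable_const (GC.continuous_nu α).measurable.abs
  have m2 : MeasurableSet {x : R3 | 8 * (n : ℝ) ^ 2 ≤ ‖x‖} :=
    measurableSet_le measurable_const measurable_norm
  have m3 : MeasurableSet {x : R3 | (n : ℝ) ^ 2 / 4 ≤ |GC.ta α x|} :=
    measurableSet_le measurable_const (GC.continuous_ta α).measurable.abs
  have h1 := GC.mass_large_nu (n - 1) α (θ := 1 / (64 * (K : ℝ))) (by positivity)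
  have h2 := GC.mass_large_norm (n - 1) α (M := 8) (by norm_num)
  rw [hcast] at h1 h2
  have h1' := den_set_le n (by omega) α m1 h1
  have h2' := den_set_le n (by omega) α m2 h2
  have h3 := mass_G n hn1 α
  have h4 := setInt_cover hd m3 (GC.measurableSet_rgA α ((n : ℝ) ^ 2) ((n : ℝ) ^ 2 / (64 * K)))
    m1 m2 (fun x hx => by
      by_cases a1 : |GC.nu α x| ≤ (n : ℝ) ^ 2 / (64 * K)
      · by_cases a2 : ‖x‖ ≤ 8 * (n : ℝ) ^ 2
        · exact Or.inl ⟨a1, hx, a2⟩
        · exact Or.inr (Or.inr (not_le.1 a2).le)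
      · refine Or.inr (Or.inl ?_)
        show 1 / (64 * (K : ℝ)) * (n : ℝ) ^ 2 ≤ |GC.nu α x|
        rw [one_div_mul_eq_div]
        exact (not_le.1 a1).le)
  have e1 : 2 * (1 / ((1 / (64 * (K : ℝ))) ^ 2 * (n : ℝ))) ≤ 1 / 1000 := by
    have : 2 * (1 / ((1 / (64 * (K : ℝ))) ^ 2 * (n : ℝ))) = 8192 * K ^ 2 / n := by
      field_simp
      norm_num
    rw [this, div_le_div_iff₀ hn0 (by norm_num)]
    have : (K : ℝ) ^ 2 ≤ K ^ 4 := pow_le_pow_right₀ (by linarith only [hK2]) (by norm_num)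
    linarith only [hn2, this]
  have e2 : (30 : ℝ) / n ≤ 1 / 1000 := by
    rw [div_le_div_iff₀ hn0 (by norm_num)]
    have : (1 : ℝ) ≤ K ^ 4 := one_le_pow₀ (by linarith only [hK2])
    linarith only [hn2, this]
  linarith only [h1', h2', h3, h4, e1, e2]

theorem mass_far (n K : ℕ) (hK : 2 ≤ K) (hn : 2 ^ 30 * K ^ 4 ≤ n) (α : ℝ) :
    ∫ x in {x : R3 | (n : ℝ) ^ 2 / (8 * K) ≤ |GC.nu α x|}, den n α x ≤
      128 * (K : ℝ) ^ 2 / n := by
  obtain ⟨hn1, hn2, hK2⟩ := large_n hK hn
  have hn0 : (0 : ℝ) < n := by (clear * - hn1; positivity)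
  have hK0 : (0 : ℝ) < K := by linarith only [hK2]
  have hcast : ((n - 1 : ℕ) : ℝ) + 1 = n := by
    rw [Nat.cast_sub (by omega)]
    simp only [Nat.cast_one, sub_add_cancel]
  have h1 := GC.mass_large_nu (n - 1) α (θ := 1 / (8 * (K : ℝ))) (by positivity)
  rw [hcast, one_div_mul_eq_div] at h1
  have m1 : MeasurableSet {x : R3 | (n : ℝ) ^ 2 / (8 * K) ≤ |GC.nu α x|} :=
    measurableSet_le measurable_const (GC.continuous_nu α).measurable.abs
  refine (den_set_le n (by omega) α m1 h1).trans_eq ?_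
  field_simp
  norm_num

theorem cw_den (n : ℕ) (hn : 2 ≤ n) (α β : ℝ) : GC.cw (den n α) (den n β) = wdir n (α - β) := by
  rw [← wdir_eq n hn α β]
  rfl

theorem wdir_pd (n K : ℕ) (hK : 2 ≤ K) (hn : 2 ^ 30 * K ^ 4 ≤ n) (x : Fin K → ℤ)
    (hx : ∀ i, |x i| ≤ 1) (hx0 : x ≠ 0) :
    1 / (2 ^ 30 * (K : ℝ) ^ 2 * (n : ℝ) ^ 2) ≤
      ∑ i, ∑ j, (x i : ℝ) * (x j : ℝ) *
        wdir n (Real.pi * (i : ℕ) / K - Real.pi * (j : ℕ) / K) := by
  obtain ⟨hn1, hn2, hK2⟩ := large_n hK hn
  have hn0 : (0 : ℝ) < n := by (clear * - hn1; positivity)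
  have hK0 : (0 : ℝ) < K := by linarith only [hK2]
  have hn2' : 2 ≤ n := by omega
  obtain ⟨i0, hi0⟩ : ∃ i, x i ≠ 0 := Function.ne_iff.1 hx0
  have hv0 : |(x i0 : ℝ)| = 1 := by
    have h1 : |x i0| = 1 := le_antisymm (hx i0) (Int.one_le_abs hi0)
    exact_mod_cast h1
  have hv : ∀ i, |(x i : ℝ)| ≤ 1 := fun i => by exact_mod_cast hx i
  set al : Fin K → ℝ := fun i => Real.pi * (i : ℕ) / K with hal
  have ht0 : 0 < (n : ℝ) ^ 2 / (64 * K) := by positivity
  have hT : (0 : ℝ) ≤ (n : ℝ) ^ 2 := by positivity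
  have hsmall : 2 * ((n : ℝ) ^ 2 / (64 * K)) ≤ (n : ℝ) ^ 2 / 8 := by
    rw [← mul_div_assoc, div_le_div_iff₀ (by positivity) (by norm_num)]
    nlinarith only [hK2]
  have hmain := GC.pd_abstract (d := fun i : Fin K => den n (al i))
    (fun i => den_dens n hn2' (al i)) (fun i => integral_den n hn2' (al i))
    (fun i j => integrable_coul_fh n hn2' (al i) (al i) (al j) (al j))
    (fun i => (x i : ℝ)) i0 hv0 hv ht0
    (GC.measurableSet_rgR (al i0) ((n : ℝ) ^ 2) ((n : ℝ) ^ 2 / (64 * K)))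
    (GC.measurableSet_rgA (al i0) ((n : ℝ) ^ 2) ((n : ℝ) ^ 2 / (64 * K)))
    (N := fun i => {x : R3 | (n : ℝ) ^ 2 / (8 * K) ≤ |GC.nu (al i) x|})
    (fun i => measurableSet_le measurable_const (GC.continuous_nu (al i)).measurable.abs)
    (fun y hy z hz => GC.rgA_rgR (al i0) hsmall hT hy hz)
    (fun i hi z hz y hy => by
      refine GC.rgR_far (al i0) (al i) hK0 rfl hT ?_ hz hy
      have h := GC.abs_sin_pi_mul_ge i0.2 i.2 (fun h => hi (Fin.ext h.symm))
      have e : (2 * Real.pi * (i0 : ℕ) / K - 2 * Real.pi * (i : ℕ) / K) / 2 =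
          al i0 - al i := by
        simp only [hal]
        ring
      rwa [e] at h)
    (V := 1944 * ((n : ℝ) ^ 2 / (64 * K)) * ((n : ℝ) ^ 2) ^ 2) (by positivity)
    (volume_rgR (al i0) hT ht0.le)
    (m := 2 / 5) (δ := 1 / 1000) (c := 3 / 8) (mass_core n K hK hn (al i0))
    (by
      calc ∑ i ∈ Finset.univ.erase i0,
          ∫ x in {x : R3 | (n : ℝ) ^ 2 / (8 * K) ≤ |GC.nu (al i) x|}, den n (al i) x
          ≤ ∑ i ∈ Finset.univ.erase i0, 128 * (K : ℝ) ^ 2 / n :=
            Finset.sum_le_sum fun i _ => mass_far n K hK hn (al i)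
        _ ≤ ∑ _i : Fin K, 128 * (K : ℝ) ^ 2 / n :=
            Finset.sum_le_sum_of_subset_of_nonneg (Finset.erase_subset _ _)
              fun _ _ _ => by positivity
        _ = 128 * (K : ℝ) ^ 3 / n := by
            rw [Finset.sum_const, Finset.card_univ, Fintype.card_fin, nsmul_eq_mul]
            ring
        _ ≤ 1 / 1000 := by
            rw [div_le_div_iff₀ hn0 (by norm_num)]
            have : (K : ℝ) ^ 3 ≤ K ^ 4 := pow_le_pow_right₀ (by linarith only [hK2]) (by norm_num)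
            linarith only [hn2, this])
    (by norm_num) (by norm_num)
  simp only [cw_den n hn2'] at hmain
  set S := ∑ i, ∑ j, (x i : ℝ) * (x j : ℝ) * wdir n (al i - al j) with hS
  have hkap : GC.kap.toReal ≤ 9 := by
    have h1 : GC.kap.toReal ≤ 8 * Real.pi / 3 :=
      ENNReal.toReal_le_of_le_ofReal (by positivity) GC.kap_le
    have := Real.pi_lt_d2
    linarith only [h1, this]
  have hkap0 : 0 ≤ GC.kap.toReal := ENNReal.toReal_nonneg
  have hpos : 0 < (3 / 8 : ℝ) ^ 2 * ((n : ℝ) ^ 2 / (64 * K)) ^ 2 /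
      (2 * (1944 * ((n : ℝ) ^ 2 / (64 * K)) * ((n : ℝ) ^ 2) ^ 2)) := by (clear * - hn1 hK; positivity)
  have hS0 : 0 < S := by
    by_contra hneg
    have := mul_nonpos_of_nonneg_of_nonpos hkap0 (not_lt.1 hneg)
    linarith only [hmain, hpos, this]
  have h9 : (3 / 8 : ℝ) ^ 2 * ((n : ℝ) ^ 2 / (64 * K)) ^ 2 /
      (2 * (1944 * ((n : ℝ) ^ 2 / (64 * K)) * ((n : ℝ) ^ 2) ^ 2)) ≤ 9 * S :=
    hmain.trans (mul_le_mul_of_nonneg_right hkap hS0.le)
  have h10 : (3 / 8 : ℝ) ^ 2 * ((n : ℝ) ^ 2 / (64 * K)) ^ 2 /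
      (2 * (1944 * ((n : ℝ) ^ 2 / (64 * K)) * ((n : ℝ) ^ 2) ^ 2)) =
      9 / (64 * 3888 * 64) / (K * (n : ℝ) ^ 2) := by
    field_simp
    ring
  rw [h10] at h9
  have h11 : 1 / (2 ^ 30 * (K : ℝ) ^ 2 * (n : ℝ) ^ 2) ≤
      1 / (64 * 3888 * 64) / (K * (n : ℝ) ^ 2) := by
    rw [div_div, div_le_div_iff₀ (by positivity) (by positivity), one_mul, one_mul]
    have h12 : (K : ℝ) ≤ K ^ 2 := by nlinarith only [hK2]
    calc (64 * 3888 * 64 : ℝ) * (K * (n : ℝ) ^ 2) ≤ 2 ^ 30 * (K * (n : ℝ) ^ 2) := by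
          gcongr
          norm_num
      _ ≤ 2 ^ 30 * (K ^ 2 * (n : ℝ) ^ 2) := by (clear * - h12 hn1; gcongr)
      _ = _ := by ring
  refine h11.trans ?_
  have h13 : 1 / (64 * 3888 * 64) / (K * (n : ℝ) ^ 2) =
      (9 / (64 * 3888 * 64) / (K * (n : ℝ) ^ 2)) / 9 := by
    field_simp
  rw [h13]
  linarith only [h9]

end Vale.Agent.P370.Q
end

section

/-!
Half-filled Mott insulator, lower bound.
-/

namespace Vale.Agent.P370.Q

open MeasureTheory Finset ComplexConjugate

open Mott in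
theorem mott_lower {K : ℕ} {h W t : Fin K → Fin K → ℝ}
    {v : Fin K → Fin K → Fin K → Fin K → ℝ} {ε0 w0 w1 u τ δ : ℝ}
    (H : MottHyp K h W t v ε0 w0 w1 u τ δ) (c : Tens K (Fin K × Fin 2)) (hc : IsAnti c) :
    (mottBase W ε0 - heisMax (mottJ W t w0) - 8 * K ^ 4 * (τ ^ 3 / u ^ 2 + δ)) * nsq c
      ≤ enT h v c := by
  have hu := H.u_pos
  have hK : (2 : ℝ) ≤ K := by exact_mod_cast H.two_le
  have hτ : 0 ≤ τ := (abs_nonneg _).trans (H.t_le ⟨0, by have := H.two_le; omega⟩
    ⟨0, by have := H.two_le; omega⟩)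
  set C := toFam c with hC
  have hCa : FAnti C := toFam_anti hc
  set a : ℝ := (K : ℝ) ^ 2 * τ with ha
  have ha0 : 0 ≤ a := by (clear * - hK hτ; positivity)
  have hau : a ≤ u / 2 := H.τ_le
  set t' : Fin K → Fin K → ℝ := fun i j => t i j / (w0 - W i j - a) with ht'
  set φ := C id with hφ
  have herr := enT_error H c
  have hnsq : nsq c = ∑ ρ, spinNsq (C ρ) := nsq_split c
  -- energy decomposition
  have hsplit := en0_split H C
  have hqq : -(a * ∑ ρ, spinNsq (bq C ρ)) ≤ ∑ ρ, rp (bq C ρ) (hop t (bq C) ρ) :=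
    (abs_le.1 (hop_bound H.t_le (bq C))).1
  -- completing the square
  have hpt : ∀ ρ, -rp (hop t' (bp C) ρ) (hop t (bp C) ρ) ≤
      (ws W ρ - ws W id - a) * spinNsq (bq C ρ) + 2 * rp (bq C ρ) (hop t (bp C) ρ) := by
    intro ρ
    have h1 := hop_res H (a := a) (by linarith only [hu, hau]) C ρ
    rw [h1, rp_smul_right, rp_smul_right]
    change -((ws W ρ - ws W id - a) * rp (hop t' (bp C) ρ) (hop t' (bp C) ρ)) ≤
      (ws W ρ - ws W id - a) * spinNsq (bq C ρ) + 2 * ((ws W ρ - ws W id - a) *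
        rp (bq C ρ) (hop t' (bp C) ρ))
    rw [rp_self]
    have h2 : 0 ≤ (ws W ρ - ws W id - a) * spinNsq (bq C ρ + hop t' (bp C) ρ) := by
      by_cases hρ : Function.Bijective ρ
      · have e1 : bq C ρ = 0 := if_pos hρ
        have e2 : hop t' (bp C) ρ = 0 :=
          hop_bp_bij t' (fun i => by simp only [ht', H.t_diag, zero_div]) C hρ
        rw [e1, e2, add_zero, spinNsq_zero, mul_zero]
      · by_cases hz : (bq C + hop t' (bp C)) ρ = 0
        · have e1 : bq C ρ + hop t' (bp C) ρ = 0 := hz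
          rw [e1, spinNsq_zero, mul_zero]
        · have hanti : FAnti (bq C + hop t' (bp C)) := by
            intro g ρ s
            rw [Pi.add_apply, Pi.add_apply, Pi.add_apply, Pi.add_apply, bq_anti hCa g,
              hop_anti t' (bp_anti hCa) g]
            ring
          have h3 := ws_gap H hanti hρ hz
          exact mul_nonneg (by (clear * - hu hau h3; linarith)) (spinNsq_nonneg _)
    rw [spinNsq_add] at h2
    linarith only [h2]
  have hsum := sum_le_sum (s := univ) fun ρ (_ : ρ ∈ univ) => hpt ρ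
  rw [sum_neg_distrib, second_order (t₁ := t') (t₂ := t)
    (fun i j => by simp only [ht', H.t_symm i j, H.W_symm i j]) H.t_symm
    (fun i => by simp only [ht', H.t_diag, zero_div]) hCa, sum_add_distrib] at hsum
  have hsub : ∑ ρ, (ws W ρ - ws W id - a) * spinNsq (bq C ρ) =
      ∑ ρ, (ws W ρ - ws W id) * spinNsq (bq C ρ) - a * ∑ ρ, spinNsq (bq C ρ) := by
    rw [mul_sum, ← sum_sub_distrib]
    exact sum_congr rfl fun ρ _ => by ring
  rw [hsub, ← mul_sum] at hsum
  -- comparison with the Heisenberg form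
  have hcmp : ∑ i, ∑ j, t' i j * t i j * sw φ i j ≤ heisE (mottJ W t w0) φ +
      4 * K ^ 4 * (τ ^ 3 / u ^ 2) * spinNsq φ := by
    have h1 : ∀ i j, t' i j * t i j * sw φ i j ≤ t i j ^ 2 / (w0 - W i j) * sw φ i j +
        4 * (K : ℝ) ^ 2 * (τ ^ 3 / u ^ 2) * spinNsq φ := by
      intro i j
      have hs := sw_bounds φ i j
      have hS := spinNsq_nonneg φ
      by_cases hij : i = j
      · subst hij
        rw [H.t_diag]
        have : 0 ≤ 4 * (K : ℝ) ^ 2 * (τ ^ 3 / u ^ 2) * spinNsq φ := by (clear * - hK hτ hu hS; positivity)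
        simpa only [mul_zero, zero_mul, ne_eq, OfNat.ofNat_ne_zero, not_false_eq_true, zero_pow, zero_div, zero_add,     ge_iff_le] using this
      · have hU := u_le H hij
        have htt : t i j ^ 2 ≤ τ ^ 2 := by
          rw [← sq_abs]
          exact pow_le_pow_left₀ (abs_nonneg _) (H.t_le i j) 2
        set U := w0 - W i j with hUd
        have hUa : 0 < U - a := by linarith only [hu, hau, hU]
        have hU0 : 0 < U := by linarith only [hu, hU]
        have h2 : t' i j * t i j ≤ t i j ^ 2 / U + 2 * (K : ℝ) ^ 2 * (τ ^ 3 / u ^ 2) := by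
          have e1 : t' i j * t i j = t i j ^ 2 / U + t i j ^ 2 * (a / (U * (U - a))) := by
            change t i j / (U - a) * t i j = _
            field_simp
            ring
          have e2 : a / (U * (U - a)) ≤ a / (u * (u / 2)) := by
            apply div_le_div_of_nonneg_left ha0 (by positivity)
            exact mul_le_mul hU (by linarith only [hau, hU]) (by positivity) hU0.le
          have e3 : t i j ^ 2 * (a / (U * (U - a))) ≤ τ ^ 2 * (a / (u * (u / 2))) :=
            mul_le_mul htt e2 (by (clear * - hK hτ hU0 hUa; positivity)) (by (clear * -; positivity))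
          have e4 : τ ^ 2 * (a / (u * (u / 2))) = 2 * (K : ℝ) ^ 2 * (τ ^ 3 / u ^ 2) := by
            rw [ha]
            (clear * - hu hK; field_simp)
          rw [e1]
          linarith only [e3, e4]
        calc t' i j * t i j * sw φ i j ≤
            (t i j ^ 2 / U + 2 * (K : ℝ) ^ 2 * (τ ^ 3 / u ^ 2)) * sw φ i j :=
              mul_le_mul_of_nonneg_right h2 hs.1
          _ = t i j ^ 2 / U * sw φ i j + 2 * (K : ℝ) ^ 2 * (τ ^ 3 / u ^ 2) * sw φ i j := by ring
          _ ≤ _ := by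
            have : 2 * (K : ℝ) ^ 2 * (τ ^ 3 / u ^ 2) * sw φ i j ≤
                2 * (K : ℝ) ^ 2 * (τ ^ 3 / u ^ 2) * (2 * spinNsq φ) :=
              mul_le_mul_of_nonneg_left hs.2 (by (clear * - hK hτ hu; positivity))
            linarith only [this]
    refine (sum_le_sum fun i _ => sum_le_sum fun j _ => h1 i j).trans (le_of_eq ?_)
    simp only [sum_add_distrib, mottJ_form H.W_symm H.t_symm H.t_diag]
    simp only [sum_const, card_univ, Fintype.card_fin, nsmul_eq_mul, add_right_inj]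
    ring
  have hJ : 0 ≤ heisMax (mottJ W t w0) := heisMax_nonneg fun i j hij => by
    have := u_le H hij.ne
    unfold mottJ
    exact div_nonneg (by (clear * -; positivity)) (by linarith only [hu, this])
  have hmax := heisE_le_max (mottJ W t w0) φ
  have hB := sum_bp_sq hCa
  have hBC : ∑ ρ, spinNsq (bp C ρ) ≤ ∑ ρ, spinNsq (C ρ) := by
    refine sum_le_sum fun ρ _ => ?_
    unfold bp
    split_ifs
    · exact le_rfl
    · rw [spinNsq_zero]
      exact spinNsq_nonneg _
  have hnB : (0 : ℝ) ≤ nB K := Nat.cast_nonneg _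
  have h7 : (nB K : ℝ) * ∑ i, ∑ j, t' i j * t i j * sw φ i j ≤
      (heisMax (mottJ W t w0) + 4 * K ^ 4 * (τ ^ 3 / u ^ 2)) * nsq c := by
    have h8 : ∑ i, ∑ j, t' i j * t i j * sw φ i j ≤
        (heisMax (mottJ W t w0) + 4 * K ^ 4 * (τ ^ 3 / u ^ 2)) * spinNsq φ := by linarith only [hcmp, hmax]
    calc (nB K : ℝ) * ∑ i, ∑ j, t' i j * t i j * sw φ i j ≤
        nB K * ((heisMax (mottJ W t w0) + 4 * K ^ 4 * (τ ^ 3 / u ^ 2)) * spinNsq φ) :=
          mul_le_mul_of_nonneg_left h8 hnB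
      _ = (heisMax (mottJ W t w0) + 4 * K ^ 4 * (τ ^ 3 / u ^ 2)) * ∑ ρ, spinNsq (bp C ρ) := by
          rw [hB]
          ring
      _ ≤ _ := by
          rw [hnsq]
          exact mul_le_mul_of_nonneg_left hBC (by (clear * - hJ hK hτ hu; positivity))
  have h9 := (abs_le.1 herr).1
  have h10 : 0 ≤ (K : ℝ) ^ 4 * (τ ^ 3 / u ^ 2) * nsq c := by
    have := nsq_nonneg c
    (clear * - hK hτ hu this; positivity)
  have h11 : 0 ≤ (K : ℝ) ^ 4 * δ * nsq c := by
    have := nsq_nonneg c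
    have := H.δ_nonneg
    (clear hc hu hτ C hC hCa a ha ha0 hau t' ht' φ hφ herr hnsq hsplit hqq hpt hsum hsub hcmp hJ hmax hB hBC hnB h7 h9 h10; positivity)
  rw [hsplit, ← hnsq] at h9
  linarith only [hqq, hsum, h7, h9, h10, h11]

end Vale.Agent.P370.Q
end
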