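import Vale.Agent.P370.MathlibUsed
import Vale.Agent.P370.Bdl.B1
import Vale.Agent.P370.Bdl.B2
import Vale.Agent.P370.Bdl.B3

set_option linter.all false

section

/-! The form inequality for compactly supported `C¹` functions, real and complex. -/

namespace Vale.Agent.P370.Hyd

open MeasureTheory Filter Topology MvPolynomial

theorem dec_of_compactSupport {f : R3 → ℝ} (hf : Continuous f) (hc : HasCompactSupport f) :
    Dec f := by
  obtain ⟨B, hB⟩ := hc.exists_bound_of_continuous hf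
  obtain ⟨R, hR⟩ := hc.isBounded.subset_closedBall (0 : R3)
  refine ⟨|B| * Real.exp (1 * |R|), 1, one_pos, fun x => ?_⟩
  by_cases hx : x ∈ tsupport f
  · have h1 : ‖x‖ ≤ |R| := by
      have := hR hx
      rw [mem_closedBall_zero_iff] at this
      exact this.trans (le_abs_self R)
    have h2 : |f x| ≤ |B| := (hB x).trans (le_abs_self B)
    have h3 : 1 ≤ Real.exp (1 * |R|) * Real.exp (-1 * ‖x‖) := by
      rw [← Real.exp_add]
      exact Real.one_le_exp (by linarith)
    calc |f x| ≤ |B| * 1 := by rw [mul_one]; exact h2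
      _ ≤ |B| * (Real.exp (1 * |R|) * Real.exp (-1 * ‖x‖)) :=
        mul_le_mul_of_nonneg_left h3 (abs_nonneg B)
      _ = _ := by ring
  · rw [image_eq_zero_of_notMem_tsupport hx, abs_zero]
    positivity

theorem adm_of_contDiff {u : R3 → ℝ} (hu : ContDiff ℝ 1 u) (hc : HasCompactSupport u) :
    Adm u (fun i x => fderiv ℝ u x (ei i)) := by
  have hd : ∀ i, Continuous fun x => fderiv ℝ u x (ei i) := fun i =>
    (hu.continuous_fderiv one_ne_zero).clm_apply continuous_const
  refine ⟨hu.continuous, fun i x _ => ?_, fun i => (hd i).continuousOn,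
    dec_of_compactSupport hu.continuous hc, fun i => dec_of_compactSupport (hd i) ?_⟩
  · have h1 : HasFDerivAt u (fderiv ℝ u x) (x + (0 : ℝ) • ei i) := by
      rw [zero_smul, add_zero]
      exact (hu.differentiable one_ne_zero x).hasFDerivAt
    have h2 : HasDerivAt (fun t : ℝ => x + t • ei i) (ei i) 0 := by
      have := ((hasDerivAt_id (0 : ℝ)).smul_const (ei i)).const_add x
      exact this.congr_deriv (one_smul _ _)
    exact h1.comp_hasDerivAt (0 : ℝ) h2
  · exact (hc.fderiv (𝕜 := ℝ)).mono (fun x hx => by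
      rw [Function.mem_support] at hx ⊢
      intro h
      exact hx (by rw [h]; rfl))

/-- a compactly supported `C¹` function as an admissible function -/
noncomputable def ofC1 (u : R3 → ℝ) (hu : ContDiff ℝ 1 u) (hc : HasCompactSupport u) : AdmS :=
  ⟨(u, fun i x => fderiv ℝ u x (ei i)), adm_of_contDiff hu hc⟩

variable {p : (l : ℕ) → Fin (2 * l + 1) → Pl}

theorem hyd_lower_real (n : ℕ) {ι : Type*} [Fintype ι] [DecidableEq ι] (φ : ι → AdmS) (e : ι → ℝ)
    (hEig : ∀ a w, kinB (φ a) w - iprB (φ a) w = e a * ipB (φ a) w)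
    (horth : ∀ a b, ipB (φ a) (φ b) = if a = b then 1 else 0)
    (he : ∀ a, e a < -(1 / (2 * ((n : ℝ) + 1) ^ 2)))
    (hcard : Module.finrank ℝ (E n) ≤ Fintype.card ι) {u : R3 → ℝ} (hu : ContDiff ℝ 1 u)
    (hc : HasCompactSupport u) :
    ∑ a, (e a - eng n) * (∫ x, (φ a).1.1 x * u x) ^ 2 + eng n * ∫ x, u x ^ 2
      ≤ (1 / 2) * (∑ i, ∫ x, (fderiv ℝ u x (ei i)) ^ 2) - ∫ x, u x ^ 2 / ‖x‖ := by
  have h := hyd_lower n φ e hEig horth he hcard (ofC1 u hu hc)
  have e1 : ipB (ofC1 u hu hc) (ofC1 u hu hc) = ∫ x, u x ^ 2 := by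
    refine integral_congr_ae (Eventually.of_forall fun x => ?_)
    exact (pow_two _).symm
  have e2 : iprB (ofC1 u hu hc) (ofC1 u hu hc) = ∫ x, u x ^ 2 / ‖x‖ := by
    refine integral_congr_ae (Eventually.of_forall fun x => ?_)
    simp only
    rw [pow_two]
    rfl
  have e3 : kinB (ofC1 u hu hc) (ofC1 u hu hc)
      = (1 / 2) * (∑ i, ∫ x, (fderiv ℝ u x (ei i)) ^ 2) := by
    show kin (ofC1 u hu hc).1.2 (ofC1 u hu hc).1.2 = _
    unfold kin
    congr 1
    refine Finset.sum_congr rfl fun i _ => ?_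
    refine integral_congr_ae (Eventually.of_forall fun x => ?_)
    exact (pow_two _).symm
  rw [e1, e2, e3] at h
  exact h

/-- **The form inequality for complex `C¹_c` functions.** -/
theorem hyd_lower_complex (n : ℕ) {ι : Type*} [Fintype ι] [DecidableEq ι] (φ : ι → AdmS)
    (e : ι → ℝ) (hEig : ∀ a w, kinB (φ a) w - iprB (φ a) w = e a * ipB (φ a) w)
    (horth : ∀ a b, ipB (φ a) (φ b) = if a = b then 1 else 0)
    (he : ∀ a, e a < -(1 / (2 * ((n : ℝ) + 1) ^ 2)))
    (hcard : Module.finrank ℝ (E n) ≤ Fintype.card ι) {u : R3 → ℂ} (hu : ContDiff ℝ 1 u)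
    (hc : HasCompactSupport u) :
    ∑ a, (e a - eng n) * ‖∫ x, ((φ a).1.1 x : ℂ) * u x‖ ^ 2 + eng n * ∫ x, ‖u x‖ ^ 2
      ≤ (1 / 2) * (∑ i, ∫ x, ‖fderiv ℝ u x (ei i)‖ ^ 2) - ∫ x, ‖u x‖ ^ 2 / ‖x‖ := by
  obtain ⟨ur, hur⟩ : ∃ ur : R3 → ℝ, ur = fun x => (u x).re := ⟨_, rfl⟩
  obtain ⟨um, hum⟩ : ∃ um : R3 → ℝ, um = fun x => (u x).im := ⟨_, rfl⟩
  have hur1 : ContDiff ℝ 1 ur := by
    rw [hur]
    exact Complex.reCLM.contDiff.comp hu
  have hum1 : ContDiff ℝ 1 um := by
    rw [hum]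
    exact Complex.imCLM.contDiff.comp hu
  have hurc : HasCompactSupport ur := by
    rw [hur]
    exact hc.comp_left (g := fun z : ℂ => z.re) Complex.zero_re
  have humc : HasCompactSupport um := by
    rw [hum]
    exact hc.comp_left (g := fun z : ℂ => z.im) Complex.zero_im
  have h1 := hyd_lower_real n φ e hEig horth he hcard hur1 hurc
  have h2 := hyd_lower_real n φ e hEig horth he hcard hum1 humc
  have hsq : ∀ z : ℂ, ‖z‖ ^ 2 = z.re ^ 2 + z.im ^ 2 := fun z => by
    rw [Complex.sq_norm, Complex.normSq_apply]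
    ring
  have hc2 : Continuous fun x => ur x ^ 2 := hur1.continuous.pow 2
  have hc3 : Continuous fun x => um x ^ 2 := hum1.continuous.pow 2
  have ar := (ofC1 ur hur1 hurc).2
  have am := (ofC1 um hum1 humc).2
  have i1 : ∫ x, ‖u x‖ ^ 2 = (∫ x, ur x ^ 2) + ∫ x, um x ^ 2 := by
    rw [← integral_add]
    · refine integral_congr_ae (Eventually.of_forall fun x => ?_)
      simp only
      rw [hsq, hur, hum]
    · exact (ar.int_mul ar).congr (Eventually.of_forall fun x => (pow_two _).symm)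
    · exact (am.int_mul am).congr (Eventually.of_forall fun x => (pow_two _).symm)
  have i2 : ∫ x, ‖u x‖ ^ 2 / ‖x‖ = (∫ x, ur x ^ 2 / ‖x‖) + ∫ x, um x ^ 2 / ‖x‖ := by
    rw [← integral_add]
    · refine integral_congr_ae (Eventually.of_forall fun x => ?_)
      simp only
      rw [hsq, hur, hum, add_div]
    · refine (ar.int_mul_div ar).congr (Eventually.of_forall fun x => ?_)
      simp only
      rw [pow_two]
      rfl
    · refine (am.int_mul_div am).congr (Eventually.of_forall fun x => ?_)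
      simp only
      rw [pow_two]
      rfl
  have hfd : ∀ x, DifferentiableAt ℝ u x := fun x => hu.differentiable one_ne_zero x
  have hdr : ∀ x v, fderiv ℝ ur x v = (fderiv ℝ u x v).re := by
    intro x v
    have h3 : HasFDerivAt ur (Complex.reCLM.comp (fderiv ℝ u x)) x := by
      rw [hur]
      exact (Complex.reCLM.hasFDerivAt).comp x (hfd x).hasFDerivAt
    rw [h3.fderiv]
    rfl
  have hdm : ∀ x v, fderiv ℝ um x v = (fderiv ℝ u x v).im := by
    intro x v
    have h3 : HasFDerivAt um (Complex.imCLM.comp (fderiv ℝ u x)) x := by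
      rw [hum]
      exact (Complex.imCLM.hasFDerivAt).comp x (hfd x).hasFDerivAt
    rw [h3.fderiv]
    rfl
  have i3 : ∀ i : Fin 3, ∫ x, ‖fderiv ℝ u x (ei i)‖ ^ 2
      = (∫ x, (fderiv ℝ ur x (ei i)) ^ 2) + ∫ x, (fderiv ℝ um x (ei i)) ^ 2 := by
    intro i
    rw [← integral_add]
    · refine integral_congr_ae (Eventually.of_forall fun x => ?_)
      simp only
      rw [hsq, hdr, hdm]
    · exact (ar.int_dmul ar i).congr (Eventually.of_forall fun x => (pow_two _).symm)
    · exact (am.int_dmul am i).congr (Eventually.of_forall fun x => (pow_two _).symm)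
  have i4 : ∀ a, ‖∫ x, ((φ a).1.1 x : ℂ) * u x‖ ^ 2
      = (∫ x, (φ a).1.1 x * ur x) ^ 2 + (∫ x, (φ a).1.1 x * um x) ^ 2 := by
    intro a
    have hint : Integrable fun x => ((φ a).1.1 x : ℂ) * u x := by
      refine Continuous.integrable_of_hasCompactSupport ?_ ?_
      · exact (Complex.continuous_ofReal.comp (φ a).2.cont).mul hu.continuous
      · exact hc.mul_left
    rw [hsq]
    have e1 : (∫ x, ((φ a).1.1 x : ℂ) * u x).re = ∫ x, (φ a).1.1 x * ur x := by
      have h3 := integral_re hint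
      have h4 : (∫ x, ((φ a).1.1 x : ℂ) * u x).re
          = RCLike.re (∫ x, ((φ a).1.1 x : ℂ) * u x) := rfl
      rw [h4, ← h3]
      refine integral_congr_ae (Eventually.of_forall fun x => ?_)
      show (((φ a).1.1 x : ℂ) * u x).re = _
      rw [Complex.re_ofReal_mul, hur]
    have e2 : (∫ x, ((φ a).1.1 x : ℂ) * u x).im = ∫ x, (φ a).1.1 x * um x := by
      have h3 := integral_im hint
      have h4 : (∫ x, ((φ a).1.1 x : ℂ) * u x).im
          = RCLike.im (∫ x, ((φ a).1.1 x : ℂ) * u x) := rfl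
      rw [h4, ← h3]
      refine integral_congr_ae (Eventually.of_forall fun x => ?_)
      show (((φ a).1.1 x : ℂ) * u x).im = _
      rw [Complex.im_ofReal_mul, hum]
    rw [e1, e2]
  rw [i1, i2]
  simp only [i3, i4, Finset.sum_add_distrib, mul_add] at *
  linarith

theorem orb_lower_complex (hp : HarmFam p) (n : ℕ) {u : R3 → ℂ} (hu : ContDiff ℝ 1 u)
    (hc : HasCompactSupport u) :
    ∑ a : Orb n, (eng a.1 - eng n) * ‖∫ x, ((orb p a).1.1 x : ℂ) * u x‖ ^ 2
        + eng n * ∫ x, ‖u x‖ ^ 2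
      ≤ (1 / 2) * (∑ i, ∫ x, ‖fderiv ℝ u x (ei i)‖ ^ 2) - ∫ x, ‖u x‖ ^ 2 / ‖x‖ := by
  classical
  refine hyd_lower_complex n (fun a : Orb n => orb p a) (fun a => eng a.1)
    (fun a w => orb_eigen hp a w) (fun a b => orb_orth hp a b) (fun a => eng_strictMono a.1.2) ?_
    hu hc
  rw [finrank_E, card_Orb]

end Vale.Agent.P370.Hyd
end

section

/-!
Calculus of the class `Nice`, exponential polynomials.
-/

namespace Vale.Agent.P370.Q

open MeasureTheory Finset ComplexConjugate Filter Topology Hyd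

theorem dec_of_bound {f : R3 → ℝ} {C c : ℝ} (hc : 0 < c)
    (h : ∀ x, x ≠ 0 → |f x| ≤ C * Real.exp (-(c * ‖x‖))) : Dec f := by
  refine ⟨max C |f 0|, c, hc, fun x => ?_⟩
  by_cases hx : x = 0
  · subst hx
    rw [norm_zero, mul_zero, Real.exp_zero, mul_one]
    exact le_max_right _ _
  · refine (h x hx).trans ?_
    rw [neg_mul]
    exact mul_le_mul_of_nonneg_right (le_max_left _ _) (Real.exp_pos _).le

theorem isOpen_ne_zero : IsOpen ({0}ᶜ : Set R3) := isOpen_compl_singleton

theorem Nice.contDiffAt {f : R3 → ℝ} (hf : Nice f) {x : R3} (hx : x ≠ 0) : ContDiffAt ℝ 1 f x :=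
  hf.smooth.contDiffAt (isOpen_ne_zero.mem_nhds hx)

theorem Nice.differentiableAt {f : R3 → ℝ} (hf : Nice f) {x : R3} (hx : x ≠ 0) :
    DifferentiableAt ℝ f x := (hf.contDiffAt hx).differentiableAt one_ne_zero

theorem Nice.dec {f : R3 → ℝ} (hf : Nice f) : Dec f := by
  obtain ⟨C, c, hc, h⟩ := hf.bound
  exact dec_of_bound hc fun x hx => (h x hx).1

theorem norm_ei (i : Fin 3) : ‖ei i‖ = 1 := by simp [ei]

theorem Nice.dec_pd {f : R3 → ℝ} (hf : Nice f) (k : Fin 3) : Dec (pd k f) := by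
  obtain ⟨C, c, hc, h⟩ := hf.bound
  refine dec_of_bound (C := C) hc fun x hx => ?_
  have h1 := (fderiv ℝ f x).le_opNorm (ei k)
  rw [norm_ei, mul_one] at h1
  exact h1.trans (h x hx).2

/-- directional derivatives off the origin -/
theorem hasDerivAt_line {f : R3 → ℝ} {x : R3} (h : DifferentiableAt ℝ f x) (v : R3) :
    HasDerivAt (fun t : ℝ => f (x + t • v)) (fderiv ℝ f x v) 0 := by
  have h1 : HasFDerivAt f (fderiv ℝ f x) (x + (0 : ℝ) • v) := by
    rw [zero_smul, add_zero]
    exact h.hasFDerivAt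
  have h2 : HasDerivAt (fun t : ℝ => x + t • v) v 0 := by
    have := ((hasDerivAt_id (0 : ℝ)).smul_const v).const_add x
    exact this.congr_deriv (one_smul _ _)
  exact h1.comp_hasDerivAt (0 : ℝ) h2

theorem Nice.adm {f : R3 → ℝ} (hf : Nice f) : Adm f (fun k x => pd k f x) := by
  refine ⟨hf.cont, fun i x hx => hasDerivAt_line (hf.differentiableAt hx) (ei i), fun i => ?_,
    hf.dec, hf.dec_pd⟩
  exact (hf.smooth.continuousOn_fderiv_of_isOpen isOpen_ne_zero le_rfl).clm_apply
    continuousOn_const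

theorem exp_combine {C c C' c' r : ℝ} (hr : 0 ≤ r) :
    C * Real.exp (-(c * r)) + C' * Real.exp (-(c' * r))
      ≤ (|C| + |C'|) * Real.exp (-(min c c' * r)) := by
  have h1 : C * Real.exp (-(c * r)) ≤ |C| * Real.exp (-(min c c' * r)) := by
    refine (mul_le_mul_of_nonneg_right (le_abs_self C) (Real.exp_pos _).le).trans ?_
    refine mul_le_mul_of_nonneg_left (Real.exp_le_exp.2 ?_) (abs_nonneg _)
    nlinarith [mul_le_mul_of_nonneg_right (min_le_left c c') hr]
  have h2 : C' * Real.exp (-(c' * r)) ≤ |C'| * Real.exp (-(min c c' * r)) := by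
    refine (mul_le_mul_of_nonneg_right (le_abs_self C') (Real.exp_pos _).le).trans ?_
    refine mul_le_mul_of_nonneg_left (Real.exp_le_exp.2 ?_) (abs_nonneg _)
    nlinarith [mul_le_mul_of_nonneg_right (min_le_right c c') hr]
  linarith

theorem nice_add {f g : R3 → ℝ} (hf : Nice f) (hg : Nice g) : Nice (fun x => f x + g x) := by
  obtain ⟨C, c, hc, h⟩ := hf.bound
  obtain ⟨C', c', hc', h'⟩ := hg.bound
  refine ⟨hf.cont.add hg.cont, hf.smooth.add hg.smooth, |C| + |C'|, min c c', lt_min hc hc',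
    fun x hx => ⟨?_, ?_⟩⟩
  · exact ((abs_add_le _ _).trans (add_le_add (h x hx).1 (h' x hx).1)).trans
      (exp_combine (norm_nonneg x))
  · have e : fderiv ℝ (fun x => f x + g x) x = fderiv ℝ f x + fderiv ℝ g x :=
      fderiv_fun_add (hf.differentiableAt hx) (hg.differentiableAt hx)
    rw [e]
    exact ((norm_add_le _ _).trans (add_le_add (h x hx).2 (h' x hx).2)).trans
      (exp_combine (norm_nonneg x))

theorem nice_smul {f : R3 → ℝ} (hf : Nice f) (c : ℝ) : Nice (fun x => c * f x) := by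
  obtain ⟨C, d, hd, h⟩ := hf.bound
  refine ⟨continuous_const.mul hf.cont, contDiffOn_const.mul hf.smooth, |c| * C, d, hd,
    fun x hx => ⟨?_, ?_⟩⟩
  · rw [abs_mul, mul_assoc]
    exact mul_le_mul_of_nonneg_left (h x hx).1 (abs_nonneg _)
  · have e : fderiv ℝ (fun x => c * f x) x = c • fderiv ℝ f x :=
      fderiv_const_mul (hf.differentiableAt hx) c
    rw [e, norm_smul, Real.norm_eq_abs, mul_assoc]
    exact mul_le_mul_of_nonneg_left (h x hx).2 (abs_nonneg _)

theorem nice_zero : Nice (fun _ => 0) := by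
  refine ⟨continuous_const, contDiffOn_const, 0, 1, one_pos, fun x _ => ⟨by simp, ?_⟩⟩
  rw [fderiv_const_apply]
  simp

theorem nice_sum {ι : Type*} (s : Finset ι) {f : ι → R3 → ℝ} (hf : ∀ i ∈ s, Nice (f i)) :
    Nice (fun x => ∑ i ∈ s, f i x) := by
  classical
  induction s using Finset.induction_on with
  | empty =>
    simp only [Finset.sum_empty]
    exact nice_zero
  | insert j s hj ih =>
    simp only [Finset.sum_insert hj]
    exact nice_add (hf j (Finset.mem_insert_self j s))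
      (ih fun k hk => hf k (Finset.mem_insert_of_mem hk))

theorem nice_c1 {f : R3 → ℝ} (hf : ContDiff ℝ 1 f) (hc : HasCompactSupport f) : Nice f := by
  obtain ⟨C, c, hc0, h⟩ := dec_of_compactSupport hf.continuous hc
  have hcn : HasCompactSupport fun x => ‖fderiv ℝ f x‖ :=
    ((hc.fderiv (𝕜 := ℝ)).comp_left (g := fun L : R3 →L[ℝ] ℝ => ‖L‖) norm_zero)
  obtain ⟨C', c', hc0', h'⟩ := dec_of_compactSupport
    (f := fun x => ‖fderiv ℝ f x‖) (hf.continuous_fderiv one_ne_zero).norm hcn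
  refine ⟨hf.continuous, hf.contDiffOn, |C| + |C'|, min c c', lt_min hc0 hc0',
    fun x _ => ⟨?_, ?_⟩⟩
  · refine (h x).trans (le_trans ?_ (exp_combine (norm_nonneg x)))
    rw [neg_mul]
    have h1 := h' x
    have : 0 ≤ C' * Real.exp (-(c' * ‖x‖)) := by
      rw [neg_mul] at h1
      exact (abs_nonneg _).trans h1
    linarith
  · have h1 := h' x
    rw [abs_norm, neg_mul] at h1
    refine h1.trans (le_trans ?_ (exp_combine (norm_nonneg x)))
    have h2 := h x
    have : 0 ≤ C * Real.exp (-(c * ‖x‖)) := by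
      rw [neg_mul] at h2
      exact (abs_nonneg _).trans h2
    linarith

theorem nice_test {f : R3 → ℝ} (hf : ContDiff ℝ (⊤ : ℕ∞) f) (hc : HasCompactSupport f) :
    Nice f := nice_c1 (hf.of_le (by exact_mod_cast le_top)) hc

theorem expPoly_eq (κ : ℝ) (P Q : Poly3) : expPoly κ P Q = xp κ P Q := by
  funext x
  unfold expPoly xp
  rw [neg_mul]
  rfl

theorem contDiff_ev {n : WithTop ℕ∞} (P : Poly3) : ContDiff ℝ n (ev P) := by
  induction P using MvPolynomial.induction_on with
  | C a =>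
    have : ev (MvPolynomial.C a) = fun _ => a := by
      funext x
      exact ev_C a x
    rw [this]
    exact contDiff_const
  | add P Q hP hQ =>
    have : ev (P + Q) = fun x => ev P x + ev Q x := by
      funext x
      exact ev_add P Q x
    rw [this]
    exact hP.add hQ
  | mul_X P j hP =>
    have : ev (P * MvPolynomial.X j) = fun x => ev P x * x j := by
      funext x
      rw [ev_mul, ev_X]
    rw [this]
    refine hP.mul ?_
    exact (EuclideanSpace.proj (𝕜 := ℝ) j).contDiff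

theorem contDiffAt_xp {n : WithTop ℕ∞} (κ : ℝ) (P Q : Poly3) {x : R3} (hx : x ≠ 0) :
    ContDiffAt ℝ n (xp κ P Q) x := by
  have hn : ContDiffAt ℝ n (fun y : R3 => ‖y‖) x := contDiffAt_norm ℝ hx
  unfold xp
  exact ((contDiff_ev P).contDiffAt.add (hn.mul (contDiff_ev Q).contDiffAt)).mul
    (contDiffAt_const.mul hn).exp

theorem fderiv_xp (κ : ℝ) (P Q : Poly3) {x : R3} (hx : x ≠ 0) (i : Fin 3) :
    fderiv ℝ (xp κ P Q) x (ei i) = xpd κ P Q i x :=
  (hasDerivAt_line ((contDiffAt_xp (n := 1) κ P Q hx).differentiableAt one_ne_zero) (ei i)).unique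
    (hasDerivAt_xp κ P Q i x hx)

theorem norm_clm_le (L : R3 →L[ℝ] ℝ) : ‖L‖ ≤ ∑ i, |L (ei i)| := by
  refine L.opNorm_le_bound (Finset.sum_nonneg fun i _ => abs_nonneg _) fun v => ?_
  have h1 : v = ∑ i, v i • ei i := by
    ext j
    rw [WithLp.ofLp_sum, Finset.sum_apply, Finset.sum_eq_single j]
    · rw [PiLp.smul_apply, ei_apply, if_pos rfl, smul_eq_mul, mul_one]
    · intro b _ hb
      rw [PiLp.smul_apply, ei_apply, if_neg hb.symm, smul_zero]
    · intro h
      exact absurd (Finset.mem_univ j) h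
  have h2 : L v = ∑ i, v i * L (ei i) := by
    conv_lhs => rw [h1]
    rw [map_sum]
    simp
  rw [h2, Finset.sum_mul]
  refine (norm_sum_le _ _).trans (Finset.sum_le_sum fun i _ => ?_)
  rw [Real.norm_eq_abs, abs_mul, mul_comm]
  refine mul_le_mul_of_nonneg_left ?_ (abs_nonneg _)
  have := EuclideanSpace.norm_eq v
  rw [this]
  refine Real.le_sqrt_of_sq_le ?_
  rw [sq_abs]
  have h3 := Finset.single_le_sum (f := fun i => ‖v i‖ ^ 2) (fun i _ => sq_nonneg _)
    (Finset.mem_univ i)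
  simpa using h3

theorem nice_xp {κ : ℝ} (hκ : 0 < κ) (P Q : Poly3) : Nice (xp κ P Q) := by
  obtain ⟨C0, c0, hc0, h0⟩ := dec_xp hκ P Q
  obtain ⟨C1, c1, hc1, h1⟩ : Dec fun x => ∑ i, |xpd κ P Q i x| := by
    have h3 : ∀ i, Dec fun x => |xpd κ P Q i x| := fun i => by
      obtain ⟨C, c, hc, h⟩ := dec_xpd hκ P Q i
      exact ⟨C, c, hc, fun x => by rw [abs_abs]; exact h x⟩
    simp only [Fin.sum_univ_three]
    exact ((h3 0).add (h3 1)).add (h3 2)
  refine ⟨continuous_xp κ P Q, fun x hx => (contDiffAt_xp κ P Q hx).contDiffWithinAt,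
    |C0| + |C1|, min c0 c1, lt_min hc0 hc1, fun x hx => ⟨?_, ?_⟩⟩
  · have h2 := h0 x
    rw [neg_mul] at h2
    refine h2.trans (le_trans ?_ (exp_combine (norm_nonneg x)))
    have h3 := h1 x
    have : 0 ≤ C1 * Real.exp (-(c1 * ‖x‖)) := by
      rw [neg_mul] at h3
      exact (abs_nonneg _).trans h3
    linarith
  · have h2 := h1 x
    rw [neg_mul, abs_of_nonneg (Finset.sum_nonneg fun i _ => abs_nonneg _)] at h2
    have h3 : ‖fderiv ℝ (xp κ P Q) x‖ ≤ ∑ i, |xpd κ P Q i x| := by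
      refine (norm_clm_le _).trans (le_of_eq ?_)
      exact Finset.sum_congr rfl fun i _ => by rw [fderiv_xp κ P Q hx]
    refine (h3.trans h2).trans (le_trans ?_ (exp_combine (norm_nonneg x)))
    have h4 := h0 x
    have : 0 ≤ C0 * Real.exp (-(c0 * ‖x‖)) := by
      rw [neg_mul] at h4
      exact (abs_nonneg _).trans h4
    linarith

theorem nice_expPoly {κ : ℝ} (hκ : 0 < κ) (P Q : Poly3) : Nice (expPoly κ P Q) := by
  rw [expPoly_eq]
  exact nice_xp hκ P Q

theorem nice_integrable_rinv {f g : R3 → ℝ} (hf : Nice f) (hg : Nice g) :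
    Integrable (fun x => f x * g x / ‖x‖) ∧ Integrable (fun x => f x * g x) :=
  ⟨hf.adm.int_mul_div hg.adm, hf.adm.int_mul hg.adm⟩

theorem nice_integrable_dir {f g : R3 → ℝ} (hf : Nice f) (hg : Nice g) (k : Fin 3) :
    Integrable (fun x => pd k f x * pd k g x) := hf.adm.int_dmul hg.adm k

theorem nice_dir_integrable {f g : R3 → ℝ} (hf : Nice f) (hg : Nice g) :
    Integrable (fun x => ∑ k, pd k f x * pd k g x) :=
  integrable_finsetSum _ fun k _ => nice_integrable_dir hf hg k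

theorem dir_eq_sum {f g : R3 → ℝ} (hf : Nice f) (hg : Nice g) :
    dir f g = ∑ k, ∫ x, pd k f x * pd k g x := by
  unfold dir
  exact integral_finsetSum _ fun k _ => nice_integrable_dir hf hg k

/-- Nice functions in the form domain -/
noncomputable def Nice.toS {f : R3 → ℝ} (hf : Nice f) : AdmS := ⟨(f, fun k x => pd k f x), hf.adm⟩

theorem kinB_toS {f g : R3 → ℝ} (hf : Nice f) (hg : Nice g) :
    kinB hf.toS hg.toS = (1 / 2) * dir f g := by
  rw [dir_eq_sum hf hg]
  rfl

theorem ipB_toS {f g : R3 → ℝ} (hf : Nice f) (hg : Nice g) : ipB hf.toS hg.toS = ov f g := rfl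

theorem iprB_toS {f g : R3 → ℝ} (hf : Nice f) (hg : Nice g) : iprB hf.toS hg.toS = rinv f g := rfl

end Vale.Agent.P370.Q
end

section

/-! Eigenspaces of the polynomial operator, orthonormal families. -/

namespace Vale.Agent.P370.Hyd

open MeasureTheory MvPolynomial

/-! ### eigenspaces in `E n` -/

theorem mem_lt_iff {N : ℕ} (hN : 1 ≤ N) {P : Pl} : P ∈ lt N ↔ P.totalDegree + 1 ≤ N := by
  constructor
  · intro h
    have h1 : P.totalDegree < N := by
      unfold totalDegree
      rw [Finset.sup_lt_iff (show (⊥ : ℕ) < N from hN)]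
      intro d hd
      by_contra hcon
      have h2 : (d.sum fun _ e => e) = d.degree := rfl
      exact (mem_support_iff.1 hd) (h d (by omega))
    omega
  · intro h d hd
    by_contra hcon
    have h1 := le_totalDegree (mem_support_iff.2 hcon)
    have h2 : (d.sum fun _ e => e) = d.degree := rfl
    omega

/-- the eigenspace -/
noncomputable def Eig (n : ℕ) : Submodule ℝ (Pl × Pl) :=
  E n ⊓ LinearMap.ker (TL (1 / (n : ℝ)) - LinearMap.id)

theorem mem_Eig {n : ℕ} {z : Pl × Pl} : z ∈ Eig n ↔ z ∈ E n ∧ TL (1 / (n : ℝ)) z = z := by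
  unfold Eig
  rw [Submodule.mem_inf, LinearMap.mem_ker, LinearMap.sub_apply, LinearMap.id_apply, sub_eq_zero]

instance (n : ℕ) : FiniteDimensional ℝ (Eig n) :=
  Submodule.finiteDimensional_of_le (inf_le_left : Eig n ≤ E n)

/-- `T - 1` maps `E (n + 1)` into `E n` -/
noncomputable def shiftL (n : ℕ) : E (n + 1) →ₗ[ℝ] E n :=
  ((TL (1 / ((n + 1 : ℕ) : ℝ)) - LinearMap.id).domRestrict (E (n + 1))).codRestrict (E n)
    (fun z => by
      rw [LinearMap.domRestrict_apply, LinearMap.sub_apply, LinearMap.id_apply]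
      have h := TL_sub_mem (1 / ((n + 1 : ℕ) : ℝ)) z.2
      have h1 : 1 / ((n + 1 : ℕ) : ℝ) * ((n : ℝ) + 1) = 1 := by
        push_cast
        field_simp
      rwa [h1, one_smul] at h)

theorem shiftL_apply (n : ℕ) (z : E (n + 1)) :
    (shiftL n z : Pl × Pl) = TL (1 / ((n + 1 : ℕ) : ℝ)) z - z := rfl

theorem eq_zero_of_fixed {n m : ℕ} (hm : m ≤ n) {z : Pl × Pl} (hz : z ∈ E m)
    (h : TL (1 / ((n + 1 : ℕ) : ℝ)) z = z) : z = 0 := by
  induction m with
  | zero => exact Prod.ext (lt_zero hz.1) (lt_zero hz.2)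
  | succ m ih =>
    refine ih (by omega) ?_
    have h1 := TL_sub_mem (1 / ((n + 1 : ℕ) : ℝ)) hz
    rw [h] at h1
    have h2 : (1 - 1 / ((n + 1 : ℕ) : ℝ) * ((m : ℝ) + 1)) ≠ 0 := by
      have h3 : (m : ℝ) + 1 ≤ n := by exact_mod_cast hm
      have h4 : (0 : ℝ) < (n : ℝ) + 1 := by positivity
      have h5 : 1 / ((n + 1 : ℕ) : ℝ) * ((m : ℝ) + 1) < 1 := by
        push_cast
        rw [one_div, inv_mul_lt_iff₀ h4]
        linarith
      linarith
    have h3 : (1 - 1 / ((n + 1 : ℕ) : ℝ) * ((m : ℝ) + 1))⁻¹ •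
        (z - (1 / ((n + 1 : ℕ) : ℝ) * ((m : ℝ) + 1)) • z) ∈ E m := Submodule.smul_mem _ _ h1
    have h4 : z - (1 / ((n + 1 : ℕ) : ℝ) * ((m : ℝ) + 1)) • z
        = (1 - 1 / ((n + 1 : ℕ) : ℝ) * ((m : ℝ) + 1)) • z := by
      rw [sub_smul, one_smul]
    rwa [h4, smul_smul, inv_mul_cancel₀ h2, one_smul] at h3

theorem finrank_Eig (n : ℕ) : Module.finrank ℝ (Eig (n + 1)) = (n + 1) ^ 2 := by
  have h1 := LinearMap.finrank_range_add_finrank_ker (shiftL n)
  have hE := finrank_E (n + 1)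
  have hE' := finrank_E n
  rw [Finset.sum_range_succ, ← hE'] at hE
  have h2 : Module.finrank ℝ (LinearMap.range (shiftL n)) ≤ Module.finrank ℝ (E n) :=
    Submodule.finrank_le _
  have h3 : Module.finrank ℝ (E n) ≤ Module.finrank ℝ (LinearMap.range (shiftL n)) := by
    let f : E n →ₗ[ℝ] LinearMap.range (shiftL n) :=
      (shiftL n).rangeRestrict.comp (Submodule.inclusion (E_mono (Nat.le_succ n)))
    refine LinearMap.finrank_le_finrank_of_injective (f := f) ?_
    rw [injective_iff_map_eq_zero]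
    intro z hz
    have h4 : (shiftL n (Submodule.inclusion (E_mono (Nat.le_succ n)) z) : Pl × Pl) = 0 := by
      have := congrArg (fun w : LinearMap.range (shiftL n) => ((w : E n) : Pl × Pl)) hz
      exact this
    rw [shiftL_apply, sub_eq_zero] at h4
    exact Subtype.ext (eq_zero_of_fixed le_rfl z.2 h4)
  have h5 : Module.finrank ℝ (LinearMap.ker (shiftL n)) = Module.finrank ℝ (Eig (n + 1)) := by
    have e : LinearMap.ker (shiftL n) = (Eig (n + 1)).comap (E (n + 1)).subtype := by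
      ext z
      rw [LinearMap.mem_ker, Submodule.mem_comap, Submodule.subtype_apply, mem_Eig]
      constructor
      · intro h
        refine ⟨z.2, ?_⟩
        have := congrArg Subtype.val h
        rw [shiftL_apply] at this
        exact sub_eq_zero.1 this
      · rintro ⟨-, h⟩
        refine Subtype.ext ?_
        rw [shiftL_apply, h, sub_self]
        rfl
    rw [e]
    exact (Submodule.comapSubtypeEquivOfLe (inf_le_left : Eig (n + 1) ≤ E (n + 1))).finrank_eq
  omega

/-! ### injectivity -/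

/-- restriction of a polynomial to a line through the origin -/
noncomputable def lineP (v : R3) (P : Pl) : Polynomial ℝ :=
  aeval (fun i => Polynomial.C (v i) * Polynomial.X) P

theorem eval_lineP (v : R3) (P : Pl) (t : ℝ) : (lineP v P).eval t = ev P (t • v) := by
  unfold lineP ev
  rw [← Polynomial.coe_evalRingHom, aeval_def, hom_eval₂]
  simp only [Polynomial.coe_evalRingHom, Polynomial.eval_mul, Polynomial.eval_C, Polynomial.eval_X]
  rw [eval, eval₂_eq_eval_map]
  simp only [PiLp.smul_apply, smul_eq_mul]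
  have : ((Polynomial.evalRingHom t).comp (algebraMap ℝ (Polynomial ℝ))) = RingHom.id ℝ := by
    ext x
    simp
  rw [this, map_id]
  simp only [mul_comm]
  rfl

theorem pair_eq_zero {P Q : Pl} (h : ∀ x : R3, ev P x + ‖x‖ * ev Q x = 0) : P = 0 ∧ Q = 0 := by
  have key : ∀ v : R3, v ≠ 0 → ev Q v = 0 := by
    intro v hv
    have hv' : 0 < ‖v‖ := norm_pos_iff.2 hv
    have h1 : lineP v P + Polynomial.C ‖v‖ * Polynomial.X * lineP v Q = 0 := by
      apply Polynomial.eq_zero_of_infinite_isRoot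
      refine (Set.Ioi_infinite (0 : ℝ)).mono fun t ht => ?_
      have ht' : (0 : ℝ) < t := ht
      show Polynomial.IsRoot _ t
      rw [Polynomial.IsRoot, Polynomial.eval_add, Polynomial.eval_mul, Polynomial.eval_mul,
        Polynomial.eval_C, Polynomial.eval_X, eval_lineP, eval_lineP]
      have := h (t • v)
      rw [norm_smul, Real.norm_eq_abs, abs_of_pos ht'] at this
      rw [← this]
      ring
    have h2 := congrArg (fun R => Polynomial.eval (-1 : ℝ) R) h1
    simp only [Polynomial.eval_add, Polynomial.eval_mul, Polynomial.eval_C, Polynomial.eval_X,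
      eval_lineP, Polynomial.eval_zero] at h2
    have h3 := h ((-1 : ℝ) • v)
    rw [norm_smul, Real.norm_eq_abs, abs_neg, abs_one, one_mul] at h3
    have h4 : ev Q ((-1 : ℝ) • v) = 0 := by
      have : ‖v‖ * ev Q ((-1 : ℝ) • v) = 0 := by linarith
      rcases mul_eq_zero.1 this with h5 | h5
      · exact absurd h5 hv'.ne'
      · exact h5
    -- use the symmetric point
    have h6 : lineP (-v) P + Polynomial.C ‖v‖ * Polynomial.X * lineP (-v) Q = 0 := by
      apply Polynomial.eq_zero_of_infinite_isRoot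
      refine (Set.Ioi_infinite (0 : ℝ)).mono fun t ht => ?_
      have ht' : (0 : ℝ) < t := ht
      show Polynomial.IsRoot _ t
      rw [Polynomial.IsRoot, Polynomial.eval_add, Polynomial.eval_mul, Polynomial.eval_mul,
        Polynomial.eval_C, Polynomial.eval_X, eval_lineP, eval_lineP]
      have := h (t • (-v))
      rw [norm_smul, norm_neg, Real.norm_eq_abs, abs_of_pos ht'] at this
      rw [← this]
      ring
    have h7 := congrArg (fun R => Polynomial.eval (-1 : ℝ) R) h6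
    simp only [Polynomial.eval_add, Polynomial.eval_mul, Polynomial.eval_C, Polynomial.eval_X,
      eval_lineP, Polynomial.eval_zero] at h7
    have h8 := h v
    rw [neg_smul, one_smul, neg_neg] at h7
    have : ‖v‖ * ev Q v = 0 := by linarith
    rcases mul_eq_zero.1 this with h9 | h9
    · exact absurd h9 hv'.ne'
    · exact h9
  have hQ : Q = 0 := by
    have h1 : ∀ x : R3, ev (X 0 * Q) x = 0 := by
      intro x
      rw [ev_mul]
      by_cases hx : x = 0
      · rw [ev_X, hx]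
        simp
      · rw [key x hx, mul_zero]
    have h2 : (X 0 * Q : Pl) = 0 := by
      by_contra hcon
      obtain ⟨x, hx⟩ := ev_ne_zero hcon
      exact hx (h1 x)
    rcases mul_eq_zero.1 h2 with h3 | h3
    · exact absurd h3 (X_ne_zero 0)
    · exact h3
  refine ⟨?_, hQ⟩
  by_contra hcon
  obtain ⟨x, hx⟩ := ev_ne_zero hcon
  have := h x
  rw [hQ] at this
  simp only [ev, map_zero, mul_zero, add_zero] at this
  exact hx this

/-- pairs as admissible functions -/
noncomputable def toAdm {κ : ℝ} (hκ : 0 < κ) : Pl × Pl →ₗ[ℝ] AdmS where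
  toFun z := ⟨(xp κ z.1 z.2, xpd κ z.1 z.2), adm_xp hκ z.1 z.2⟩
  map_add' z z' := by
    refine Subtype.ext (Prod.ext ?_ ?_)
    · funext x
      show xp κ (z.1 + z'.1) (z.2 + z'.2) x = xp κ z.1 z.2 x + xp κ z'.1 z'.2 x
      simp only [xp, ev_add]
      ring
    · funext i x
      show xpd κ (z.1 + z'.1) (z.2 + z'.2) i x = xpd κ z.1 z.2 i x + xpd κ z'.1 z'.2 i x
      simp only [xpd, ev_add, map_add]
      ring
  map_smul' c z := by
    refine Subtype.ext (Prod.ext ?_ ?_)
    · funext x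
      show xp κ (c • z.1) (c • z.2) x = c * xp κ z.1 z.2 x
      simp only [xp, ev, smul_eval]
      ring
    · funext i x
      show xpd κ (c • z.1) (c • z.2) i x = c * xpd κ z.1 z.2 i x
      simp only [xpd, ev, smul_eval, Derivation.map_smul]
      ring

theorem toAdm_pos {κ : ℝ} (hκ : 0 < κ) {z : Pl × Pl} (hz : z ≠ 0) :
    0 < ipB (toAdm hκ z) (toAdm hκ z) := by
  have h1 : ∃ x : R3, (toAdm hκ z).1.1 x ≠ 0 := by
    by_contra hcon
    push Not at hcon
    apply hz
    have h2 := pair_eq_zero (P := z.1) (Q := z.2) fun x => by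
      have := hcon x
      show ev z.1 x + ‖x‖ * ev z.2 x = 0
      have h3 : (ev z.1 x + ‖x‖ * ev z.2 x) * Real.exp (-κ * ‖x‖) = 0 := this
      rcases mul_eq_zero.1 h3 with h4 | h4
      · exact h4
      · exact absurd h4 (Real.exp_ne_zero _)
    exact Prod.ext h2.1 h2.2
  obtain ⟨x, hx⟩ := h1
  exact ipB_pos hx

theorem toAdm_eigen {κ : ℝ} (hκ : 0 < κ) {z : Pl × Pl} (hz : TL κ z = z) (w : AdmS) :
    kinB (toAdm hκ z) w - iprB (toAdm hκ z) w = -(κ ^ 2 / 2) * ipB (toAdm hκ z) w := by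
  have h1 := green hκ z.1 z.2 w.2
  rw [TL_apply] at hz
  rw [show TP κ z.1 z.2 = z.1 from congrArg Prod.fst hz,
    show TQ κ z.1 z.2 = z.2 from congrArg Prod.snd hz] at h1
  show kin _ _ - ipr _ _ = -(κ ^ 2 / 2) * ip _ _
  have h5 : kin (toAdm hκ z).1.2 w.1.2 + κ ^ 2 / 2 * ip (toAdm hκ z).1.1 w.1.1
      = ipr (toAdm hκ z).1.1 w.1.1 := h1
  linarith

/-- extension of orthonormal families -/
theorem extend_orthonormal {V : Type*} [AddCommGroup V] [Module ℝ V]
    [FiniteDimensional ℝ V] (B : V →ₗ[ℝ] V →ₗ[ℝ] ℝ) (hs : ∀ v w, B v w = B w v)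
    (hp : ∀ v, v ≠ 0 → 0 < B v v) {K : ℕ} (f : Fin K → V)
    (hf : ∀ i j, B (f i) (f j) = if i = j then 1 else 0) :
    ∃ (r : ℕ) (g : Fin r → V), K + r = Module.finrank ℝ V ∧
      (∀ i j, B (g i) (g j) = if i = j then 1 else 0) ∧ ∀ i j, B (f i) (g j) = 0 := by
  let L : V →ₗ[ℝ] (Fin K → ℝ) := LinearMap.pi fun i => B (f i)
  have hL : Function.Surjective L := by
    intro c
    refine ⟨∑ i, c i • f i, ?_⟩
    funext j
    show B (f j) (∑ i, c i • f i) = c j
    rw [map_sum, Finset.sum_eq_single j]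
    · rw [map_smul, hf, if_pos rfl, smul_eq_mul, mul_one]
    · intro b _ hb
      rw [map_smul, hf, if_neg hb.symm, smul_zero]
    · intro h
      exact absurd (Finset.mem_univ j) h
  have h1 := LinearMap.finrank_range_add_finrank_ker L
  rw [LinearMap.range_eq_top.2 hL, finrank_top, Module.finrank_fintype_fun_eq_card,
    Fintype.card_fin] at h1
  obtain ⟨g, hg⟩ := exists_orthonormal_family
    ((B.domRestrict₁₂ (LinearMap.ker L) (LinearMap.ker L)) :
      LinearMap.ker L →ₗ[ℝ] LinearMap.ker L →ₗ[ℝ] ℝ)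
    (fun v w => hs _ _) (fun v hv => hp _ (fun h => hv (Subtype.ext h)))
    (N := Module.finrank ℝ (LinearMap.ker L)) le_rfl
  refine ⟨Module.finrank ℝ (LinearMap.ker L), fun i => (g i).1, h1, hg, fun i j => ?_⟩
  have h2 := (g j).2
  rw [LinearMap.mem_ker] at h2
  exact congrFun h2 i

/-- completeness of maximal orthonormal families -/
theorem orthonormal_complete {V : Type*} [AddCommGroup V] [Module ℝ V]
    [FiniteDimensional ℝ V] (B : V →ₗ[ℝ] V →ₗ[ℝ] ℝ) {ι : Type*} [Fintype ι] [DecidableEq ι]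
    (f : ι → V) (hf : ∀ i j, B (f i) (f j) = if i = j then 1 else 0)
    (hc : Fintype.card ι = Module.finrank ℝ V) {v : V} (hv : ∀ i, B (f i) v = 0) : v = 0 := by
  let L : V →ₗ[ℝ] (ι → ℝ) := LinearMap.pi fun i => B (f i)
  have hL : Function.Surjective L := by
    intro c
    refine ⟨∑ i, c i • f i, ?_⟩
    funext j
    show B (f j) (∑ i, c i • f i) = c j
    rw [map_sum, Finset.sum_eq_single j]
    · rw [map_smul, hf, if_pos rfl, smul_eq_mul, mul_one]
    · intro b _ hb
      rw [map_smul, hf, if_neg hb.symm, smul_zero]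
    · intro h
      exact absurd (Finset.mem_univ j) h
  have hfr : Module.finrank ℝ V = Module.finrank ℝ (ι → ℝ) := by
    rw [Module.finrank_fintype_fun_eq_card, hc]
  have hinj : Function.Injective L :=
    (LinearMap.injective_iff_surjective_of_finrank_eq_finrank hfr).2 hL
  apply hinj
  rw [map_zero]
  funext i
  exact hv i

end Vale.Agent.P370.Hyd
end

section

/-!
Dimension and basis of the hydrogenic shells.
-/

namespace Vale.Agent.P370.Q

open MeasureTheory Finset ComplexConjugate Hyd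

theorem pe_eq (P : Poly3) (x : R3) : pe P x = ev P x := rfl

theorem TP_eq (κ : ℝ) (P Q : Poly3) : TP κ P Q = Hyd.TP κ P Q := by
  unfold TP Hyd.TP
  rw [mul_assoc]
  rfl

theorem TQ_eq (κ : ℝ) (P Q : Poly3) : TQ κ P Q = Hyd.TQ κ P Q := by
  unfold TQ Hyd.TQ
  have h2 : (MvPolynomial.C 2 : Poly3) = 2 := by
    rw [show (2 : ℝ) = ((2 : ℕ) : ℝ) by norm_num, map_natCast]
    norm_num
  rw [h2]
  rfl

theorem isShell_iff {n : ℕ} (hn : 1 ≤ n) {φ : R3 → ℝ} :
    IsShell n φ ↔ ∃ z ∈ Eig n, φ = xp (1 / (n : ℝ)) z.1 z.2 := by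
  have hdeg : ∀ P Q : Poly3, DegLe n P Q ↔ (P, Q) ∈ E n := by
    intro P Q
    unfold DegLe E
    rw [Submodule.mem_prod, mem_lt_iff hn]
    simp only
    refine and_congr Iff.rfl ?_
    rcases Nat.eq_or_lt_of_le hn with h | h
    · constructor
      · rintro (h1 | h1)
        · rw [h1]
          exact Submodule.zero_mem _
        · omega
      · intro h1
        left
        rw [← h] at h1
        exact lt_zero h1
    · rw [mem_lt_iff (by omega)]
      constructor
      · rintro (h1 | h1)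
        · rw [h1, MvPolynomial.totalDegree_zero]
          omega
        · omega
      · intro h1
        right
        omega
  constructor
  · rintro ⟨P, Q, h1, h2, h3, h4⟩
    refine ⟨(P, Q), ?_, ?_⟩
    · rw [mem_Eig]
      refine ⟨(hdeg P Q).1 h1, ?_⟩
      rw [TL_apply]
      rw [TP_eq] at h2
      rw [TQ_eq] at h3
      exact Prod.ext h2 h3
    · rw [h4, expPoly_eq]
  · rintro ⟨z, hz, rfl⟩
    rw [mem_Eig, TL_apply] at hz
    refine ⟨z.1, z.2, (hdeg z.1 z.2).2 hz.1, ?_, ?_, ?_⟩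
    · rw [TP_eq]
      exact congrArg Prod.fst hz.2
    · rw [TQ_eq]
      exact congrArg Prod.snd hz.2
    · rw [expPoly_eq]

theorem inv_pos' {k : ℕ} (hk : 1 ≤ k) : (0 : ℝ) < 1 / (k : ℝ) := by
  have : (0 : ℝ) < k := by exact_mod_cast hk
  positivity

/-- a nonzero exponential polynomial is a nonzero function -/
theorem expPoly_inj {κ : ℝ} {P Q : Poly3} (h : ∀ x, expPoly κ P Q x = 0) : P = 0 ∧ Q = 0 := by
  refine pair_eq_zero fun x => ?_
  have h1 := h x
  rw [expPoly_eq] at h1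
  unfold xp at h1
  rcases mul_eq_zero.1 h1 with h2 | h2
  · exact h2
  · exact absurd h2 (Real.exp_ne_zero _)

theorem IsShell.nice {n : ℕ} (hn : 1 ≤ n) {φ : R3 → ℝ} (hφ : IsShell n φ) : Nice φ := by
  obtain ⟨z, -, rfl⟩ := (isShell_iff hn).1 hφ
  exact nice_xp (inv_pos' hn) _ _

theorem dir_xp {κ : ℝ} (hκ : 0 < κ) (P Q : Poly3) {u : R3 → ℝ} (hu : Nice u) :
    kin (xpd κ P Q) (fun k x => pd k u x) = (1 / 2) * dir (xp κ P Q) u := by
  rw [dir_eq_sum (nice_xp hκ P Q) hu]
  unfold kin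
  congr 1
  refine Finset.sum_congr rfl fun k _ => integral_congr_ae ?_
  have hne : ∀ᵐ x : R3, x ≠ 0 := by
    rw [ae_iff]
    simp
  filter_upwards [hne] with x hx
  rw [← fderiv_xp κ P Q hx k]
  rfl

/-- eigenvalue equation of shell functions in form sense -/
theorem shell_form {n : ℕ} (hn : 1 ≤ n) {φ : R3 → ℝ} (hφ : IsShell n φ) {u : R3 → ℝ}
    (hu : Nice u) :
    (1 / 2) * dir φ u - rinv φ u = -(1 / (2 * (n : ℝ) ^ 2)) * ov φ u := by
  obtain ⟨z, hz, rfl⟩ := (isShell_iff hn).1 hφ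
  have h := toAdm_eigen (inv_pos' hn) (mem_Eig.1 hz).2 hu.toS
  have h1 : kinB (toAdm (inv_pos' hn) z) hu.toS = (1 / 2) * dir (xp (1 / (n : ℝ)) z.1 z.2) u :=
    dir_xp (inv_pos' hn) z.1 z.2 hu
  rw [h1] at h
  have h2 : -((1 / (n : ℝ)) ^ 2 / 2) = -(1 / (2 * (n : ℝ) ^ 2)) := by
    have : (0 : ℝ) < n := by exact_mod_cast hn
    field_simp
  rw [h2] at h
  exact h

/-- the overlap form on an eigenspace -/
noncomputable def EigB {n : ℕ} (hn : 1 ≤ n) : Eig n →ₗ[ℝ] Eig n →ₗ[ℝ] ℝ :=
  ipB.compl₁₂ ((toAdm (inv_pos' hn)).comp (Eig n).subtype)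
    ((toAdm (inv_pos' hn)).comp (Eig n).subtype)

theorem EigB_apply {n : ℕ} (hn : 1 ≤ n) (v w : Eig n) :
    EigB hn v w = ov (xp (1 / (n : ℝ)) v.1.1 v.1.2) (xp (1 / (n : ℝ)) w.1.1 w.1.2) := rfl

theorem EigB_pos {n : ℕ} (hn : 1 ≤ n) (v : Eig n) (hv : v ≠ 0) : 0 < EigB hn v v :=
  toAdm_pos (inv_pos' hn) fun h => hv (Subtype.ext h)

theorem finrank_Eig' {n : ℕ} (hn : 1 ≤ n) : Module.finrank ℝ (Eig n) = n ^ 2 := by
  obtain ⟨m, rfl⟩ : ∃ m, n = m + 1 := ⟨n - 1, by omega⟩
  exact finrank_Eig m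

/-- shell functions of different shells are orthogonal -/
theorem shell_ortho {k k' : ℕ} (hk : 1 ≤ k) (hk' : 1 ≤ k') (hne : k ≠ k') {φ ψ : R3 → ℝ}
    (hφ : IsShell k φ) (hψ : IsShell k' ψ) : ov φ ψ = 0 := by
  obtain ⟨z, hz, rfl⟩ := (isShell_iff hk).1 hφ
  obtain ⟨z', hz', rfl⟩ := (isShell_iff hk').1 hψ
  have h := orth_of_ne (toAdm_eigen (inv_pos' hk) (mem_Eig.1 hz).2)
    (toAdm_eigen (inv_pos' hk') (mem_Eig.1 hz').2) (fun h => hne ?_)
  · exact h
  · have h1 : (0 : ℝ) < k := by exact_mod_cast hk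
    have h2 : (0 : ℝ) < k' := by exact_mod_cast hk'
    have h3 : (1 / (k : ℝ)) ^ 2 = (1 / (k' : ℝ)) ^ 2 := by linarith
    have h4 : 1 / (k : ℝ) = 1 / (k' : ℝ) := by
      rwa [sq_eq_sq₀ (by positivity) (by positivity)] at h3
    have h5 : (k : ℝ) = k' := by
      rw [one_div, one_div, inv_inj] at h4
      exact h4
    exact_mod_cast h5

/-- bases of the shells below `n`, together with a prescribed orthonormal family in shell `n`,
extended to a basis -/
theorem exists_shellBasis (n K : ℕ) (hn : 1 ≤ n) (g : Fin K → R3 → ℝ)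
    (hg : ∀ i, IsShell n (g i)) (ho : ∀ i j, ov (g i) (g j) = if i = j then 1 else 0) :
    ∃ (C R : Type) (_ : Fintype C) (_ : Fintype R) (_ : DecidableEq C) (_ : DecidableEq R)
      (B : ShellBasis n (C ⊕ (Fin K ⊕ R))),
      (∀ i, B.χ (Sum.inr (Sum.inl i)) = g i) ∧ (∀ c, B.lev (Sum.inl c) < n) ∧
        (∀ o, B.lev (Sum.inr o) = n) := by
  have hz : ∀ i, ∃ z ∈ Eig n, g i = xp (1 / (n : ℝ)) z.1 z.2 := fun i =>
    (isShell_iff hn).1 (hg i)
  choose z hz1 hz2 using hz
  obtain ⟨r, t, hr, ht, hft⟩ := extend_orthonormal (EigB hn) (fun v w => ipB_comm _ _)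
    (EigB_pos hn) (fun i => (⟨z i, hz1 i⟩ : Eig n)) (fun i j => by
      rw [EigB_apply, ← ho i j, hz2 i, hz2 j])
  rw [finrank_Eig' hn] at hr
  have hlow : ∀ k : ℕ, ∃ f : Fin ((k + 1) ^ 2) → Eig (k + 1), ∀ i j,
      EigB (Nat.succ_pos k) (f i) (f j) = if i = j then 1 else 0 := fun k =>
    exists_orthonormal_family (EigB (Nat.succ_pos k)) (fun v w => ipB_comm _ _)
      (EigB_pos (Nat.succ_pos k)) (finrank_Eig k).ge
  choose f hf using hlow
  let C : Type := (k : Fin (n - 1)) × Fin ((k.1 + 1) ^ 2)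
  let R : Type := Fin r
  let χ : C ⊕ (Fin K ⊕ R) → R3 → ℝ := Sum.elim
    (fun c => xp (1 / ((c.1.1 + 1 : ℕ) : ℝ)) (f c.1.1 c.2).1.1 (f c.1.1 c.2).1.2)
    (Sum.elim g fun j => xp (1 / (n : ℝ)) (t j).1.1 (t j).1.2)
  let lev : C ⊕ (Fin K ⊕ R) → ℕ := Sum.elim (fun c => c.1.1 + 1) fun _ => n
  have hlev : ∀ a, 1 ≤ lev a := by
    rintro (c | o)
    · exact Nat.succ_pos _
    · exact hn
  have hmem : ∀ a, IsShell (lev a) (χ a) := by
    rintro (c | (i | j))
    · exact (isShell_iff (Nat.succ_pos _)).2 ⟨_, (f c.1.1 c.2).2, rfl⟩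
    · exact hg i
    · exact (isShell_iff hn).2 ⟨_, (t j).2, rfl⟩
  have hort : ∀ a b, ov (χ a) (χ b) = if a = b then 1 else 0 := by
    intro a b
    by_cases hl : lev a = lev b
    · rcases a with (⟨k, i⟩ | (i | j)) <;> rcases b with (⟨k', i'⟩ | (i' | j'))
      · have hk : k = k' := by
          refine Fin.ext ?_
          have : k.1 + 1 = k'.1 + 1 := hl
          omega
        subst hk
        have h1 := hf k i i'
        rw [EigB_apply] at h1
        show ov (xp _ _ _) (xp _ _ _) = _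
        rw [h1]
        by_cases hi : i = i'
        · subst hi
          rw [if_pos rfl, if_pos rfl]
        · rw [if_neg hi, if_neg]
          intro h
          apply hi
          have h2 := Sum.inl_injective h
          have h3 := (Sigma.mk.inj_iff.1 h2).2
          rwa [heq_eq_eq] at h3
      · exfalso
        have h1 : k.1 + 1 = n := hl
        have := k.2
        omega
      · exfalso
        have h1 : k.1 + 1 = n := hl
        have := k.2
        omega
      · exfalso
        have h1 : n = k'.1 + 1 := hl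
        have := k'.2
        omega
      · show ov (g i) (g i') = _
        rw [ho]
        by_cases hi : i = i'
        · subst hi
          rw [if_pos rfl, if_pos rfl]
        · rw [if_neg hi, if_neg]
          intro h
          apply hi
          simpa using h
      · have h1 := hft i j'
        rw [EigB_apply] at h1
        show ov (g i) (xp _ _ _) = _
        rw [hz2 i, h1, if_neg]
        intro h
        simp at h
      · exfalso
        have h1 : n = k'.1 + 1 := hl
        have := k'.2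
        omega
      · have h1 := hft i' j
        rw [EigB_apply] at h1
        show ov (xp _ _ _) (g i') = _
        have h2 : ∀ u v : R3 → ℝ, ov u v = ov v u := fun u v => by
          unfold ov
          simp only [mul_comm]
        rw [hz2 i', h2, h1, if_neg]
        intro h
        simp at h
      · have h1 := ht j j'
        rw [EigB_apply] at h1
        show ov (xp _ _ _) (xp _ _ _) = _
        rw [h1]
        by_cases hi : j = j'
        · subst hi
          rw [if_pos rfl, if_pos rfl]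
        · rw [if_neg hi, if_neg]
          intro h
          apply hi
          simpa using h
    · rw [shell_ortho (hlev a) (hlev b) hl (hmem a) (hmem b), if_neg]
      intro h
      exact hl (congrArg lev h)
  have hcard : ∀ k, 1 ≤ k → k ≤ n → (univ.filter (fun a => lev a = k)).card = k ^ 2 := by
    intro k hk1 hkn
    rw [Finset.card_filter, Fintype.sum_sum_type]
    have e1 : ∑ a : C, (if lev (Sum.inl a) = k then 1 else 0)
        = if k < n then k ^ 2 else 0 := by
      rw [Fintype.sum_sigma]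
      have e2 : ∀ i : Fin (n - 1), ∑ j : Fin ((i.1 + 1) ^ 2),
          (if lev (Sum.inl ⟨i, j⟩) = k then 1 else 0) = if i.1 + 1 = k then (i.1 + 1) ^ 2 else 0 := by
        intro i
        show ∑ j : Fin ((i.1 + 1) ^ 2), (if i.1 + 1 = k then 1 else 0) = _
        by_cases hi : i.1 + 1 = k
        · simp only [if_pos hi, Finset.sum_const, Finset.card_univ, Fintype.card_fin, smul_eq_mul,
            mul_one]
        · simp only [if_neg hi, Finset.sum_const_zero]
      simp only [e2]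
      by_cases hkn' : k < n
      · rw [if_pos hkn', Finset.sum_eq_single (⟨k - 1, by omega⟩ : Fin (n - 1))]
        · have : k - 1 + 1 = k := by omega
          rw [if_pos this, this]
        · intro b _ hb
          rw [if_neg]
          intro h
          apply hb
          refine Fin.ext ?_
          show b.1 = k - 1
          omega
        · intro h
          exact absurd (Finset.mem_univ _) h
      · rw [if_neg hkn']
        refine Finset.sum_eq_zero fun i _ => ?_
        rw [if_neg]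
        have := i.2
        omega
    have e3 : ∑ a : Fin K ⊕ R, (if lev (Sum.inr a) = k then 1 else 0)
        = if n = k then k ^ 2 else 0 := by
      show ∑ a : Fin K ⊕ R, (if n = k then 1 else 0) = _
      by_cases hi : n = k
      · simp only [if_pos hi, Finset.sum_const, Finset.card_univ, smul_eq_mul, mul_one]
        rw [Fintype.card_sum, Fintype.card_fin, Fintype.card_fin, hr, hi]
      · simp only [if_neg hi, Finset.sum_const_zero]
    rw [e1, e3]
    rcases Nat.lt_or_eq_of_le hkn with h | h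
    · rw [if_pos h, if_neg (by omega)]
      rfl
    · rw [if_neg (by omega), if_pos h.symm, zero_add]
  refine ⟨C, R, inferInstance, inferInstance, inferInstance, inferInstance,
    { χ := χ
      lev := lev
      lev_pos := hlev
      lev_le := ?_
      mem := hmem
      ortho := ?_
      card := ?_ }, fun i => rfl, ?_, fun o => rfl⟩
  · rintro (c | o)
    · have := c.1.2
      show c.1.1 + 1 ≤ n
      omega
    · exact le_rfl
  · intro a b
    convert hort a b
  · intro k h1 h2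
    convert hcard k h1 h2
  · intro c
    have := c.1.2
    show c.1.1 + 1 < n
    omega

/-- completeness of a shell basis in its shell -/
theorem shell_expand {n : ℕ} (hn : 1 ≤ n) {A : Type} [Fintype A] [DecidableEq A]
    (B : ShellBasis n A) {k : ℕ} (hk1 : 1 ≤ k) (hk : k ≤ n) {φ : R3 → ℝ} (hφ : IsShell k φ) :
    φ = fun x => ∑ a, (if B.lev a = k then ov (B.χ a) φ else 0) * B.χ a x := by
  obtain ⟨w, hw, rfl⟩ := (isShell_iff hk1).1 hφ
  have hz : ∀ a : {a // B.lev a = k}, ∃ z ∈ Eig k, B.χ a.1 = xp (1 / (k : ℝ)) z.1 z.2 := by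
    rintro ⟨a, ha⟩
    have := (isShell_iff (B.lev_pos a)).1 (B.mem a)
    rw [ha] at this
    exact this
  choose z hz1 hz2 using hz
  have horth : ∀ a b : {a // B.lev a = k},
      EigB hk1 ⟨z a, hz1 a⟩ ⟨z b, hz1 b⟩ = if a = b then 1 else 0 := by
    intro a b
    rw [EigB_apply]
    show ov (xp (1 / (k : ℝ)) (z a).1 (z a).2) (xp (1 / (k : ℝ)) (z b).1 (z b).2) = _
    rw [← hz2 a, ← hz2 b, B.ortho]
    simp only [Subtype.ext_iff]
  let v : Eig k := ⟨w, hw⟩ - ∑ a : {a // B.lev a = k},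
    (EigB hk1 ⟨z a, hz1 a⟩ ⟨w, hw⟩) • (⟨z a, hz1 a⟩ : Eig k)
  have hv : v = 0 := by
    refine orthonormal_complete (EigB hk1) (fun a : {a // B.lev a = k} => (⟨z a, hz1 a⟩ : Eig k))
      horth ?_ fun a => ?_
    · rw [finrank_Eig' hk1, Fintype.card_subtype]
      exact B.card k hk1 hk
    · show EigB hk1 ⟨z a, hz1 a⟩ (⟨w, hw⟩ - ∑ a : {a // B.lev a = k},
        (EigB hk1 ⟨z a, hz1 a⟩ ⟨w, hw⟩) • (⟨z a, hz1 a⟩ : Eig k)) = 0
      rw [map_sub, map_sum, Finset.sum_eq_single a]
      · rw [map_smul, horth, if_pos rfl, smul_eq_mul, mul_one, sub_self]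
      · intro b _ hb
        rw [map_smul, horth, if_neg hb.symm, smul_zero]
      · intro h
        exact absurd (Finset.mem_univ a) h
  have hw' : w = ∑ a : {a // B.lev a = k}, (EigB hk1 ⟨z a, hz1 a⟩ ⟨w, hw⟩) • z a := by
    have h1 := congrArg (Submodule.subtype (Eig k)) hv
    rw [map_sub, map_sum, map_zero, sub_eq_zero] at h1
    exact h1
  funext x
  have hx : ∀ y : Pl × Pl, xp (1 / (k : ℝ)) y.1 y.2 x = (toAdm (inv_pos' hk1) y).1.1 x :=
    fun y => rfl
  let evx : Pl × Pl →ₗ[ℝ] ℝ :=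
    { toFun := fun y => xp (1 / (k : ℝ)) y.1 y.2 x
      map_add' := fun y y' => by
        have := congrArg (fun u : AdmS => u.1.1 x) (map_add (toAdm (inv_pos' hk1)) y y')
        exact this
      map_smul' := fun c y => by
        have := congrArg (fun u : AdmS => u.1.1 x) (map_smul (toAdm (inv_pos' hk1)) c y)
        exact this }
  have h2 : evx w = ∑ a : {a // B.lev a = k}, (EigB hk1 ⟨z a, hz1 a⟩ ⟨w, hw⟩) * evx (z a) := by
    conv_lhs => rw [hw']
    rw [map_sum]
    exact Finset.sum_congr rfl fun a _ => by rw [map_smul, smul_eq_mul]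
  show evx w = _
  rw [h2]
  have h3 : ∀ a : {a // B.lev a = k}, (EigB hk1 ⟨z a, hz1 a⟩ ⟨w, hw⟩) * evx (z a)
      = (fun a : A => (if B.lev a = k then ov (B.χ a) (xp (1 / (k : ℝ)) w.1 w.2) else 0)
        * B.χ a x) a.1 := by
    intro a
    simp only
    rw [if_pos a.2, EigB_apply]
    show ov (xp (1 / (k : ℝ)) (z a).1 (z a).2) (xp (1 / (k : ℝ)) w.1 w.2) * _ = _
    rw [← hz2 a]
    congr 1
    rw [hz2 a]
    rfl
  rw [Finset.sum_congr rfl fun a _ => h3 a]
  rw [← Finset.sum_subtype (univ.filter fun a => B.lev a = k) (fun a => by simp)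
    (fun a : A => (if B.lev a = k then ov (B.χ a) (xp (1 / (k : ℝ)) w.1 w.2) else 0) * B.χ a x)]
  refine Finset.sum_subset (Finset.filter_subset _ _) fun a _ ha => ?_
  rw [if_neg, zero_mul]
  intro h
  exact ha (Finset.mem_filter.2 ⟨Finset.mem_univ a, h⟩)

end Vale.Agent.P370.Q
end

section

/-!
Core facts for `Bounds.lean`: Hardy's inequality and the ground state inequality for the class
`Nice`.
-/

namespace Vale.Agent.P370.Q

open MeasureTheory Finset ComplexConjugate Filter Topology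

theorem bd_hasDeriv {f : R3 → ℝ} (hf : Nice f) (k : Fin 3) {x : R3} (hx : x ≠ 0) :
    HasDerivAt (fun t : ℝ => f (x + t • Hyd.ei k)) (pd k f x) 0 := by
  have h1 : ContDiffAt ℝ 1 f x := hf.smooth.contDiffAt (isOpen_compl_singleton.mem_nhds hx)
  have h2 : HasFDerivAt f (fderiv ℝ f x) x := (h1.differentiableAt (by norm_num)).hasFDerivAt
  have h3 : HasDerivAt (fun t : ℝ => x + t • Hyd.ei k) (Hyd.ei k) 0 := by
    simpa using ((hasDerivAt_id (0:ℝ)).smul_const (Hyd.ei k)).const_add x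
  have h4 : HasFDerivAt f (fderiv ℝ f x) (x + (0:ℝ) • Hyd.ei k) := by simpa using h2
  exact h4.comp_hasDerivAt 0 h3

theorem bd_pd_cont {f : R3 → ℝ} (hf : Nice f) (k : Fin 3) : ContinuousOn (pd k f) {0}ᶜ := by
  have h := hf.smooth.continuousOn_fderiv_of_isOpen isOpen_compl_singleton (by norm_num)
  exact h.clm_apply continuousOn_const

theorem bd_bound {f : R3 → ℝ} (hf : Nice f) : ∃ C c : ℝ, 0 ≤ C ∧ 0 < c ∧ ∀ x, x ≠ 0 →
    |f x| ≤ C * Real.exp (-c * ‖x‖) ∧ ∀ k, |pd k f x| ≤ C * Real.exp (-c * ‖x‖) := by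
  obtain ⟨C, c, hc, h⟩ := hf.bound
  refine ⟨|C|, c, abs_nonneg _, hc, fun x hx => ?_⟩
  obtain ⟨h1, h2⟩ := h x hx
  have e : -(c * ‖x‖) = -c * ‖x‖ := by ring
  rw [e] at h1 h2
  have h3 : C * Real.exp (-c * ‖x‖) ≤ |C| * Real.exp (-c * ‖x‖) :=
    mul_le_mul_of_nonneg_right (le_abs_self C) (Real.exp_pos _).le
  refine ⟨h1.trans h3, fun k => ?_⟩
  refine le_trans ?_ (h2.trans h3)
  unfold pd
  rw [← Real.norm_eq_abs]
  refine ((fderiv ℝ f x).le_opNorm _).trans ?_
  simp

theorem bd_ae_ne (y : R3) : ∀ᵐ x : R3, x ≠ y := by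
  have h : volume ({y} : Set R3) = 0 := measure_singleton y
  exact compl_mem_ae_iff.2 h

theorem bd_integrable {G : R3 → ℝ} (hm : ContinuousOn G {0}ᶜ) {C c : ℝ} (hc : 0 < c)
    (h : ∀ x, x ≠ 0 → |G x| ≤ C * (1 + 1 / ‖x‖) * Real.exp (-c * ‖x‖)) : Integrable G := by
  have h1 : Integrable (fun x : R3 => C * Real.exp (-c * ‖x‖) +
      C * (Real.exp (-c * ‖x‖) / ‖x‖)) :=
    ((Hyd.integrable_exp hc).const_mul C).add ((Hyd.integrable_exp_div hc).const_mul C)
  refine h1.mono' (measurable_of_continuousOn_compl_singleton 0 hm).aestronglyMeasurable ?_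
  filter_upwards [bd_ae_ne 0] with x hx
  rw [Real.norm_eq_abs]
  refine (h x hx).trans (le_of_eq ?_)
  ring

theorem bd_exp_sq {c r : ℝ} (hc : 0 < c) (hr : 0 ≤ r) :
    Real.exp (-c * r) * Real.exp (-c * r) ≤ Real.exp (-c * r) := by
  have h : Real.exp (-c * r) ≤ 1 := Real.exp_le_one_iff.2 (by linarith only [mul_nonneg_of_nonpos_of_nonpos (le_of_lt (Mathlib.Tactic.Linarith.sub_neg_of_lt hc)) (Mathlib.Tactic.Linarith.sub_nonpos_of_le hr)])
  exact mul_le_of_le_one_right (Real.exp_pos _).le h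

/-- integration by parts against a vector field -/
theorem bd_div {f : R3 → ℝ} (hf : Nice f) (k : Fin 3) {F F' : R3 → ℝ}
    (hd : ∀ x, x ≠ 0 → HasDerivAt (fun t : ℝ => F (x + t • Hyd.ei k)) (F' x) 0)
    (hc : ContinuousOn F {0}ᶜ) (hc' : ContinuousOn F' {0}ᶜ) {B : ℝ}
    (hB : ∀ x, x ≠ 0 → |F x| ≤ B) (hB' : ∀ x, x ≠ 0 → |F' x| ≤ B * (1 + 1 / ‖x‖)) :
    Integrable (fun x => f x ^ 2 * F' x) ∧ Integrable (fun x => f x * pd k f x * F x) ∧
    ∫ x, f x ^ 2 * F' x = -2 * ∫ x, f x * pd k f x * F x := by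
  obtain ⟨C, c, hC, hc0, hb⟩ := bd_bound hf
  have hfc : ContinuousOn f {0}ᶜ := hf.cont.continuousOn
  have hpc := bd_pd_cont hf k
  have hone : ∀ x : R3, (1 : ℝ) ≤ 1 + 1 / ‖x‖ := fun x => by
    have : 0 ≤ 1 / ‖x‖ := by (clear * -; positivity)
    linarith
  have hf2 : ∀ x : R3, x ≠ 0 → f x ^ 2 ≤ C ^ 2 * Real.exp (-c * ‖x‖) := by
    intro x hx
    have h1 := (hb x hx).1
    calc f x ^ 2 = |f x| * |f x| := by rw [← sq, sq_abs]
      _ ≤ (C * Real.exp (-c * ‖x‖)) * (C * Real.exp (-c * ‖x‖)) :=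
        mul_le_mul h1 h1 (abs_nonneg _) (by (clear * - hC; positivity))
      _ = C ^ 2 * (Real.exp (-c * ‖x‖) * Real.exp (-c * ‖x‖)) := by ring
      _ ≤ C ^ 2 * Real.exp (-c * ‖x‖) :=
        mul_le_mul_of_nonneg_left (bd_exp_sq hc0 (norm_nonneg x)) (by (clear * -; positivity))
  have hfp : ∀ x : R3, x ≠ 0 → |f x * pd k f x| ≤ C ^ 2 * Real.exp (-c * ‖x‖) := by
    intro x hx
    have h1 := (hb x hx).1
    have h2 := (hb x hx).2 k
    calc |f x * pd k f x| = |f x| * |pd k f x| := abs_mul _ _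
      _ ≤ (C * Real.exp (-c * ‖x‖)) * (C * Real.exp (-c * ‖x‖)) :=
        mul_le_mul h1 h2 (abs_nonneg _) (by (clear * - hC; positivity))
      _ = C ^ 2 * (Real.exp (-c * ‖x‖) * Real.exp (-c * ‖x‖)) := by ring
      _ ≤ C ^ 2 * Real.exp (-c * ‖x‖) :=
        mul_le_mul_of_nonneg_left (bd_exp_sq hc0 (norm_nonneg x)) (by (clear * -; positivity))
  have hI1 : Integrable (fun x => f x ^ 2 * F' x) := by
    refine bd_integrable (C := C ^ 2 * B) (c := c) ((hfc.pow 2).mul hc') hc0 fun x hx => ?_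
    rw [abs_mul, abs_of_nonneg (sq_nonneg (f x))]
    calc f x ^ 2 * |F' x| ≤ (C ^ 2 * Real.exp (-c * ‖x‖)) * (B * (1 + 1 / ‖x‖)) :=
          mul_le_mul (hf2 x hx) (hB' x hx) (abs_nonneg _) (by (clear * -; positivity))
      _ = _ := by ring
  have hI2 : Integrable (fun x => f x * pd k f x * F x) := by
    refine bd_integrable (C := C ^ 2 * |B|) (c := c) ((hfc.mul hpc).mul hc) hc0 fun x hx => ?_
    rw [abs_mul]
    calc |f x * pd k f x| * |F x| ≤ (C ^ 2 * Real.exp (-c * ‖x‖)) * |B| :=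
          mul_le_mul (hfp x hx) ((hB x hx).trans (le_abs_self B)) (abs_nonneg _) (by (clear * -; positivity))
      _ = C ^ 2 * |B| * 1 * Real.exp (-c * ‖x‖) := by ring
      _ ≤ C ^ 2 * |B| * (1 + 1 / ‖x‖) * Real.exp (-c * ‖x‖) := by
          gcongr
          exact hone x
  have hG : Integrable (fun x => f x ^ 2 * F x) := by
    refine bd_integrable (C := C ^ 2 * |B|) (c := c) ((hfc.pow 2).mul hc) hc0 fun x hx => ?_
    rw [abs_mul, abs_of_nonneg (sq_nonneg (f x))]
    calc f x ^ 2 * |F x| ≤ (C ^ 2 * Real.exp (-c * ‖x‖)) * |B| :=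
          mul_le_mul (hf2 x hx) ((hB x hx).trans (le_abs_self B)) (abs_nonneg _) (by (clear * -; positivity))
      _ = C ^ 2 * |B| * 1 * Real.exp (-c * ‖x‖) := by ring
      _ ≤ C ^ 2 * |B| * (1 + 1 / ‖x‖) * Real.exp (-c * ‖x‖) := by
          gcongr
          exact hone x
  have h0 := Hyd.integral_dir_deriv k (fun x => f x ^ 2 * F x)
    (fun x => 2 * (f x * pd k f x * F x) + f x ^ 2 * F' x) hG
    ((hI2.const_mul 2).add hI1) (fun x hx => by
      have h1 := ((bd_hasDeriv hf k hx).pow 2).mul (hd x hx)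
      refine h1.congr_deriv ?_
      simp only [zero_smul, add_zero, Pi.pow_apply]
      push_cast
      ring)
    ((continuousOn_const.mul ((hfc.mul hpc).mul hc)).add ((hfc.pow 2).mul hc'))
  rw [integral_add (hI2.const_mul 2) hI1, integral_const_mul] at h0
  exact ⟨hI1, hI2, by linarith only [h0]⟩

theorem bd_integrable_pd {f g : R3 → ℝ} (hf : Nice f) (hg : Nice g) (k : Fin 3) :
    Integrable (fun x => pd k f x * pd k g x) := by
  obtain ⟨C, c, hC, hc0, hb⟩ := bd_bound hf
  obtain ⟨D, d, hD, hd0, hb'⟩ := bd_bound hg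
  refine bd_integrable (C := C * D) (c := c) ((bd_pd_cont hf k).mul (bd_pd_cont hg k)) hc0
    fun x hx => ?_
  rw [abs_mul]
  have h1 : Real.exp (-d * ‖x‖) ≤ 1 :=
    Real.exp_le_one_iff.2 (by linarith only [mul_nonneg_of_nonpos_of_nonpos (le_of_lt (Mathlib.Tactic.Linarith.sub_neg_of_lt hd0)) (Mathlib.Tactic.Linarith.sub_nonpos_of_le (norm_nonneg x))])
  have h2 : (1 : ℝ) ≤ 1 + 1 / ‖x‖ := by
    have : 0 ≤ 1 / ‖x‖ := by positivity
    linarith only [this]
  calc |pd k f x| * |pd k g x| ≤ (C * Real.exp (-c * ‖x‖)) * (D * 1) := by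
        refine mul_le_mul ((hb x hx).2 k) (((hb' x hx).2 k).trans ?_) (abs_nonneg _)
          (by (clear * - hC; positivity))
        exact mul_le_mul_of_nonneg_left h1 hD
    _ = C * D * 1 * Real.exp (-c * ‖x‖) := by ring
    _ ≤ C * D * (1 + 1 / ‖x‖) * Real.exp (-c * ‖x‖) := by gcongr

/-- ground state inequality of hydrogen -/
theorem bd_ground {f : R3 → ℝ} (hf : Nice f) (κ : ℝ) :
    2 * κ * rinv f f ≤ dir f f + κ ^ 2 * ov f f := by
  have hcoord : ∀ k : Fin 3, Continuous (fun x : R3 => x k) := fun k => by fun_prop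
  have hnc : Continuous (fun x : R3 => ‖x‖) := continuous_norm
  have hn0 : ∀ x ∈ ({0}ᶜ : Set R3), ‖x‖ ≠ 0 := fun x hx => norm_ne_zero_iff.2 hx
  have hle : ∀ (k : Fin 3) (x : R3), |x k| ≤ ‖x‖ := fun k x => by
    rw [← Real.norm_eq_abs]
    exact PiLp.norm_apply_le x k
  have key : ∀ k : Fin 3, _ := fun k => bd_div hf k (F := fun x => x k / ‖x‖)
    (F' := fun x => 1 / ‖x‖ - x k ^ 2 / ‖x‖ ^ 3) (B := 2)
    (fun x hx => by
      have hx0 : ‖x‖ ≠ 0 := norm_ne_zero_iff.2 hx
      have h1 : HasDerivAt (fun t : ℝ => (x + t • Hyd.ei k) k) 1 0 := by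
        have e : (fun t : ℝ => (x + t • Hyd.ei k) k) = fun t : ℝ => x k + t := by
          funext t
          simp [Hyd.ei]
        rw [e]
        exact (hasDerivAt_id (0 : ℝ)).const_add (x k)
      have h2 := Hyd.hasDerivAt_norm k x hx
      have h3 := h1.div h2 (by simpa using hx0)
      refine h3.congr_deriv ?_
      simp only [zero_smul, add_zero]
      field_simp)
    ((hcoord k).continuousOn.div hnc.continuousOn hn0)
    ((continuousOn_const.div hnc.continuousOn hn0).sub
      (((hcoord k).pow 2).continuousOn.div (hnc.pow 3).continuousOn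
        (fun x hx => pow_ne_zero 3 (hn0 x hx))))
    (fun x hx => by
      have hx0 : 0 < ‖x‖ := norm_pos_iff.2 hx
      rw [abs_div, abs_norm, div_le_iff₀ hx0]
      have := hle k x
      linarith)
    (fun x hx => by
      have hx0 : 0 < ‖x‖ := norm_pos_iff.2 hx
      have h1 : x k ^ 2 ≤ ‖x‖ ^ 2 := by
        rw [← sq_abs]
        exact pow_le_pow_left₀ (abs_nonneg _) (hle k x) 2
      have h2 : x k ^ 2 / ‖x‖ ^ 3 ≤ 1 / ‖x‖ := by
        rw [div_le_div_iff₀ (by positivity) hx0]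
        nlinarith only [h1, hx0]
      have h3 : 0 ≤ x k ^ 2 / ‖x‖ ^ 3 := by positivity
      have h4 : 0 < 1 / ‖x‖ := by positivity
      rw [abs_of_nonneg (by linarith only [h2])]
      linarith only [h3, h4])
  -- expand the square
  have hnn : 0 ≤ ∫ x, ∑ k, (pd k f x + κ * (f x * (x k / ‖x‖))) ^ 2 :=
    integral_nonneg fun x => sum_nonneg fun k _ => sq_nonneg _
  have hff := (nice_integrable_rinv hf hf)
  have hI0 : Integrable (fun x => f x * f x) := hff.2
  have hcalc : ∫ x, ∑ k, (pd k f x + κ * (f x * (x k / ‖x‖))) ^ 2 =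
      dir f f + 2 * κ * (∑ k : Fin 3, ∫ x, f x * pd k f x * (x k / ‖x‖)) + κ ^ 2 * ov f f := by
    have e1 : ∀ᵐ x : R3, ∑ k, (pd k f x + κ * (f x * (x k / ‖x‖))) ^ 2 =
        (∑ k, pd k f x * pd k f x) + 2 * κ * (∑ k, f x * pd k f x * (x k / ‖x‖)) +
          κ ^ 2 * (f x * f x) := by
      filter_upwards [bd_ae_ne 0] with x hx
      have hx0 : ‖x‖ ≠ 0 := norm_ne_zero_iff.2 hx
      have hs : (x 0 / ‖x‖) ^ 2 + (x 1 / ‖x‖) ^ 2 + (x 2 / ‖x‖) ^ 2 = 1 := by
        have h1 : x 0 ^ 2 + x 1 ^ 2 + x 2 ^ 2 = ‖x‖ ^ 2 := by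
          rw [EuclideanSpace.norm_sq_eq, Fin.sum_univ_three]
          simp
        field_simp
        exact h1
      rw [Fin.sum_univ_three, Fin.sum_univ_three, Fin.sum_univ_three]
      linear_combination κ ^ 2 * f x ^ 2 * hs
    rw [integral_congr_ae e1]
    have hA : Integrable (fun x => ∑ k, pd k f x * pd k f x) := nice_dir_integrable hf hf
    have hB : Integrable (fun x => ∑ k : Fin 3, f x * pd k f x * (x k / ‖x‖)) :=
      integrable_finset_sum _ fun k _ => (key k).2.1
    have hAB : Integrable (fun x => (∑ k, pd k f x * pd k f x) +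
        2 * κ * ∑ k : Fin 3, f x * pd k f x * (x k / ‖x‖)) := hA.add (hB.const_mul (2 * κ))
    rw [integral_add hAB (hI0.const_mul (κ ^ 2)),
      integral_add hA (hB.const_mul (2 * κ)), integral_const_mul, integral_const_mul,
      integral_finset_sum _ fun k _ => (key k).2.1]
    rfl
  have hdivsum : ∑ k : Fin 3, ∫ x, f x ^ 2 * (1 / ‖x‖ - x k ^ 2 / ‖x‖ ^ 3) = 2 * rinv f f := by
    rw [← integral_finset_sum _ fun k _ => (key k).1]
    unfold rinv
    rw [← integral_const_mul]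
    refine integral_congr_ae ?_
    filter_upwards [bd_ae_ne 0] with x hx
    have hx0 : ‖x‖ ≠ 0 := norm_ne_zero_iff.2 hx
    have h1 : x 0 ^ 2 + x 1 ^ 2 + x 2 ^ 2 = ‖x‖ ^ 2 := by
      rw [EuclideanSpace.norm_sq_eq, Fin.sum_univ_three]
      simp
    rw [Fin.sum_univ_three]
    have h2 : x 0 ^ 2 / ‖x‖ ^ 3 + x 1 ^ 2 / ‖x‖ ^ 3 + x 2 ^ 2 / ‖x‖ ^ 3 = 1 / ‖x‖ := by
      field_simp
      linear_combination h1
    linear_combination (-(f x ^ 2)) * h2
  have hsum : ∑ k : Fin 3, ∫ x, f x * pd k f x * (x k / ‖x‖) = -rinv f f := by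
    have h1 : ∀ k : Fin 3, ∫ x, f x * pd k f x * (x k / ‖x‖) =
        -(1 / 2) * ∫ x, f x ^ 2 * (1 / ‖x‖ - x k ^ 2 / ‖x‖ ^ 3) := by
      intro k
      rw [(key k).2.2]
      ring
    rw [sum_congr rfl fun k _ => h1 k, ← mul_sum, hdivsum]
    ring
  rw [hcalc, hsum] at hnn
  linarith only [hnn]

/-- regularised Hardy inequality -/
theorem bd_hardy_reg {f : R3 → ℝ} (hf : Nice f) (y : R3) {δ : ℝ} (hδ : 0 < δ) :
    Integrable (fun x => f x ^ 2 * (‖x - y‖ ^ 2 / (‖x - y‖ ^ 2 + δ ^ 2) ^ 2)) ∧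
    ∫ x, f x ^ 2 * (‖x - y‖ ^ 2 / (‖x - y‖ ^ 2 + δ ^ 2) ^ 2) ≤ 4 * dir f f := by
  have hs : ∀ x : R3, 0 < ‖x - y‖ ^ 2 + δ ^ 2 := fun x => by positivity
  have hcoord : ∀ k : Fin 3, Continuous (fun x : R3 => (x - y) k) := fun k => by fun_prop
  have hsc : Continuous (fun x : R3 => ‖x - y‖ ^ 2 + δ ^ 2) := by fun_prop
  have hle : ∀ (k : Fin 3) (x : R3), |(x - y) k| ≤ ‖x - y‖ := fun k x => by
    rw [← Real.norm_eq_abs]
    exact PiLp.norm_apply_le (x - y) k
  have hle2 : ∀ (k : Fin 3) (x : R3), (x - y) k ^ 2 ≤ ‖x - y‖ ^ 2 := fun k x => by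
    rw [← sq_abs]
    exact pow_le_pow_left₀ (abs_nonneg _) (hle k x) 2
  have hsum3 : ∀ x : R3, (x - y) 0 ^ 2 + (x - y) 1 ^ 2 + (x - y) 2 ^ 2 = ‖x - y‖ ^ 2 := fun x => by
    rw [EuclideanSpace.norm_sq_eq, Fin.sum_univ_three]
    simp
  have key : ∀ k : Fin 3, _ := fun k => bd_div hf k
    (F := fun x => (x - y) k / (‖x - y‖ ^ 2 + δ ^ 2))
    (F' := fun x => 1 / (‖x - y‖ ^ 2 + δ ^ 2) -
      2 * (x - y) k ^ 2 / (‖x - y‖ ^ 2 + δ ^ 2) ^ 2) (B := 1 / δ + 3 / δ ^ 2)
    (fun x hx => by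
      have h1 : HasDerivAt (fun t : ℝ => (x + t • Hyd.ei k - y) k) 1 0 := by
        have e : (fun t : ℝ => (x + t • Hyd.ei k - y) k) = fun t : ℝ => (x - y) k + t := by
          funext t
          simp [Hyd.ei]
          ring
        rw [e]
        exact (hasDerivAt_id (0 : ℝ)).const_add _
      have h2 : HasDerivAt (fun t : ℝ => ‖x + t • Hyd.ei k - y‖ ^ 2 + δ ^ 2)
          (2 * (x - y) k) 0 := by
        have e : (fun t : ℝ => ‖x + t • Hyd.ei k - y‖ ^ 2 + δ ^ 2) =
            fun t : ℝ => ‖x - y‖ ^ 2 + 2 * t * (x - y) k + t ^ 2 + δ ^ 2 := by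
          funext t
          have := Hyd.norm_add_smul_sq k (x - y) t
          rw [← this]
          congr 3
          abel
        rw [e]
        have h3 : HasDerivAt (fun t : ℝ => 2 * t * (x - y) k) (2 * (x - y) k) 0 := by
          have := ((hasDerivAt_id (0 : ℝ)).const_mul 2).mul_const ((x - y) k)
          simpa using this
        have h4 : HasDerivAt (fun t : ℝ => t ^ 2) 0 0 := by
          have := hasDerivAt_pow 2 (0 : ℝ)
          simpa using this
        have := ((h3.const_add (‖x - y‖ ^ 2)).add h4).add_const (δ ^ 2)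
        simpa using this
      have h3 := h1.div h2 (by simpa using (hs x).ne')
      refine h3.congr_deriv ?_
      simp only [zero_smul, add_zero]
      have := (hs x).ne'
      field_simp)
    ((hcoord k).div hsc (fun x => (hs x).ne')).continuousOn
    (((continuous_const.div hsc (fun x => (hs x).ne')).sub
      ((continuous_const.mul ((hcoord k).pow 2)).div (hsc.pow 2)
        (fun x => pow_ne_zero 2 (hs x).ne'))).continuousOn)
    (fun x hx => by
      rw [abs_div, abs_of_pos (hs x)]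
      have h1 := hle k x
      have h2 : |(x - y) k| / (‖x - y‖ ^ 2 + δ ^ 2) ≤ 1 / δ := by
        rw [div_le_div_iff₀ (hs x) hδ]
        nlinarith only [hδ, h1, sq_nonneg (‖x - y‖ - δ)]
      have h3 : 0 ≤ 3 / δ ^ 2 := by positivity
      linarith only [h2, h3])
    (fun x hx => by
      have h1 : 1 / (‖x - y‖ ^ 2 + δ ^ 2) ≤ 1 / δ ^ 2 :=
        one_div_le_one_div_of_le (by positivity) (by linarith only [sq_nonneg ‖x - y‖])
      have h2 : 2 * (x - y) k ^ 2 / (‖x - y‖ ^ 2 + δ ^ 2) ^ 2 ≤ 2 / δ ^ 2 := by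
        rw [div_le_div_iff₀ (by (clear * - hδ; positivity)) (by positivity)]
        have := hle2 k x
        linarith only [mul_nonneg (sq_nonneg ‖x - y‖) (sq_nonneg ‖x - y‖), mul_nonneg (sq_nonneg ‖x - y‖) (sq_nonneg δ), mul_nonneg (sq_nonneg δ) (sq_nonneg δ), mul_le_mul_of_nonneg_right this (sq_nonneg δ)]
      have h3 : 0 ≤ 1 / (‖x - y‖ ^ 2 + δ ^ 2) := by positivity
      have h4 : 0 ≤ 2 * (x - y) k ^ 2 / (‖x - y‖ ^ 2 + δ ^ 2) ^ 2 := by (clear * - hδ; positivity)
      have h5 : |1 / (‖x - y‖ ^ 2 + δ ^ 2) - 2 * (x - y) k ^ 2 / (‖x - y‖ ^ 2 + δ ^ 2) ^ 2| ≤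
          3 / δ ^ 2 := by
        have e : 3 / δ ^ 2 = 1 / δ ^ 2 + 2 / δ ^ 2 := by ring
        rw [abs_le, e]
        constructor <;> [(have : 0 ≤ 1 / δ ^ 2 := by positivity); skip]
        · linarith only [h1, h2, h3]
        · have : 0 ≤ 2 / δ ^ 2 := by positivity
          linarith only [h1, h2, h4]
      have h6 : (1 : ℝ) ≤ 1 + 1 / ‖x‖ := by
        have : 0 ≤ 1 / ‖x‖ := by positivity
        linarith only [this]
      have h7 : 3 / δ ^ 2 ≤ 1 / δ + 3 / δ ^ 2 := by
        have : 0 ≤ 1 / δ := by positivity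
        linarith only [this]
      calc _ ≤ 3 / δ ^ 2 := h5
        _ ≤ (1 / δ + 3 / δ ^ 2) * 1 := by rw [mul_one]; exact h7
        _ ≤ (1 / δ + 3 / δ ^ 2) * (1 + 1 / ‖x‖) :=
          mul_le_mul_of_nonneg_left h6 (by positivity))
  have hff := (nice_integrable_rinv hf hf)
  have hI0 : Integrable (fun x => f x * f x) := hff.2
  -- integrability of bounded multiples of `f ^ 2`
  have hI1 : Integrable (fun x => f x ^ 2 * (‖x - y‖ ^ 2 / (‖x - y‖ ^ 2 + δ ^ 2) ^ 2)) := by
    refine (hI0.const_mul (1 / δ ^ 2)).mono' ?_ (Eventually.of_forall fun x => ?_)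
    · exact ((hf.cont.pow 2).mul ((by fun_prop : Continuous fun x : R3 => ‖x - y‖ ^ 2).div
        (hsc.pow 2) (fun x => pow_ne_zero 2 (hs x).ne'))).aestronglyMeasurable
    · rw [Real.norm_of_nonneg (by (clear * - hδ; positivity))]
      have h1 : ‖x - y‖ ^ 2 / (‖x - y‖ ^ 2 + δ ^ 2) ^ 2 ≤ 1 / δ ^ 2 := by
        rw [div_le_div_iff₀ (by positivity) (by positivity)]
        linarith only [mul_nonneg (sq_nonneg ‖x - y‖) (sq_nonneg ‖x - y‖), mul_nonneg (sq_nonneg ‖x - y‖) (sq_nonneg δ), mul_nonneg (sq_nonneg δ) (sq_nonneg δ)]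
      calc f x ^ 2 * (‖x - y‖ ^ 2 / (‖x - y‖ ^ 2 + δ ^ 2) ^ 2) ≤ f x ^ 2 * (1 / δ ^ 2) :=
            mul_le_mul_of_nonneg_left h1 (sq_nonneg _)
        _ = 1 / δ ^ 2 * (f x * f x) := by ring
  refine ⟨hI1, ?_⟩
  have hnn : 0 ≤ ∫ x, ∑ k, (pd k f x +
      1 / 2 * (f x * ((x - y) k / (‖x - y‖ ^ 2 + δ ^ 2)))) ^ 2 :=
    integral_nonneg fun x => sum_nonneg fun k _ => sq_nonneg _
  have hcalc : ∫ x, ∑ k, (pd k f x + 1 / 2 * (f x * ((x - y) k / (‖x - y‖ ^ 2 + δ ^ 2)))) ^ 2 =
      dir f f + (∑ k : Fin 3, ∫ x, f x * pd k f x * ((x - y) k / (‖x - y‖ ^ 2 + δ ^ 2))) +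
        1 / 4 * ∫ x, f x ^ 2 * (‖x - y‖ ^ 2 / (‖x - y‖ ^ 2 + δ ^ 2) ^ 2) := by
    have e1 : ∀ x : R3, ∑ k, (pd k f x +
        1 / 2 * (f x * ((x - y) k / (‖x - y‖ ^ 2 + δ ^ 2)))) ^ 2 =
        (∑ k, pd k f x * pd k f x) +
          (∑ k, f x * pd k f x * ((x - y) k / (‖x - y‖ ^ 2 + δ ^ 2))) +
          1 / 4 * (f x ^ 2 * (‖x - y‖ ^ 2 / (‖x - y‖ ^ 2 + δ ^ 2) ^ 2)) := by
      intro x
      rw [Fin.sum_univ_three, Fin.sum_univ_three, Fin.sum_univ_three, ← hsum3 x]
      have := (hs x).ne'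
      rw [← hsum3 x] at this
      field_simp
      ring
    rw [integral_congr_ae (Eventually.of_forall e1)]
    have hA : Integrable (fun x => ∑ k, pd k f x * pd k f x) := nice_dir_integrable hf hf
    have hB : Integrable (fun x => ∑ k : Fin 3,
        f x * pd k f x * ((x - y) k / (‖x - y‖ ^ 2 + δ ^ 2))) :=
      integrable_finset_sum _ fun k _ => (key k).2.1
    have hAB : Integrable (fun x => (∑ k, pd k f x * pd k f x) +
        ∑ k : Fin 3, f x * pd k f x * ((x - y) k / (‖x - y‖ ^ 2 + δ ^ 2))) := hA.add hB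
    rw [integral_add hAB (hI1.const_mul (1 / 4)), integral_add hA hB, integral_const_mul,
      integral_finset_sum _ fun k _ => (key k).2.1]
    rfl
  have hdivsum : ∫ x, f x ^ 2 * (‖x - y‖ ^ 2 / (‖x - y‖ ^ 2 + δ ^ 2) ^ 2) ≤
      ∑ k : Fin 3, ∫ x, f x ^ 2 * (1 / (‖x - y‖ ^ 2 + δ ^ 2) -
        2 * (x - y) k ^ 2 / (‖x - y‖ ^ 2 + δ ^ 2) ^ 2) := by
    rw [← integral_finset_sum _ fun k _ => (key k).1]
    refine integral_mono hI1 (integrable_finset_sum _ fun k _ => (key k).1) fun x => ?_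
    simp only
    rw [Fin.sum_univ_three]
    have h2 : 2 * (x - y) 0 ^ 2 / (‖x - y‖ ^ 2 + δ ^ 2) ^ 2 +
        2 * (x - y) 1 ^ 2 / (‖x - y‖ ^ 2 + δ ^ 2) ^ 2 +
        2 * (x - y) 2 ^ 2 / (‖x - y‖ ^ 2 + δ ^ 2) ^ 2 =
        2 * (‖x - y‖ ^ 2 / (‖x - y‖ ^ 2 + δ ^ 2) ^ 2) := by
      rw [← add_div, ← add_div, ← mul_add, ← mul_add, hsum3 x]
      ring
    have h3 : ‖x - y‖ ^ 2 / (‖x - y‖ ^ 2 + δ ^ 2) ^ 2 ≤ 1 / (‖x - y‖ ^ 2 + δ ^ 2) := by
      rw [div_le_div_iff₀ (by positivity) (hs x)]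
      linarith only [mul_nonneg (sq_nonneg ‖x - y‖) (sq_nonneg δ), mul_nonneg (sq_nonneg δ) (sq_nonneg δ)]
    have h4 : ‖x - y‖ ^ 2 / (‖x - y‖ ^ 2 + δ ^ 2) ^ 2 ≤
        3 * (1 / (‖x - y‖ ^ 2 + δ ^ 2)) - 2 * (‖x - y‖ ^ 2 / (‖x - y‖ ^ 2 + δ ^ 2) ^ 2) := by
      linarith only [h3]
    calc f x ^ 2 * (‖x - y‖ ^ 2 / (‖x - y‖ ^ 2 + δ ^ 2) ^ 2) ≤
        f x ^ 2 * (3 * (1 / (‖x - y‖ ^ 2 + δ ^ 2)) -
          2 * (‖x - y‖ ^ 2 / (‖x - y‖ ^ 2 + δ ^ 2) ^ 2)) :=
          mul_le_mul_of_nonneg_left h4 (sq_nonneg _)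
      _ = _ := by linear_combination (f x ^ 2) * h2
  have hsum : ∑ k : Fin 3, ∫ x, f x * pd k f x * ((x - y) k / (‖x - y‖ ^ 2 + δ ^ 2)) =
      -(1 / 2) * ∑ k : Fin 3, ∫ x, f x ^ 2 * (1 / (‖x - y‖ ^ 2 + δ ^ 2) -
        2 * (x - y) k ^ 2 / (‖x - y‖ ^ 2 + δ ^ 2) ^ 2) := by
    rw [mul_sum]
    refine sum_congr rfl fun k _ => ?_
    rw [(key k).2.2]
    ring
  rw [hcalc, hsum] at hnn
  linarith only [hnn, hdivsum]

end Vale.Agent.P370.Q
end

section

/-!
Crude Coulomb bounds for shell functions (Hardy inequality).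
-/

namespace Vale.Agent.P370.Q

open MeasureTheory Finset ComplexConjugate

theorem bd_shell_nice {k : ℕ} (hk : 1 ≤ k) {φ : R3 → ℝ} (hφ : IsShell k φ) : Nice φ := by
  obtain ⟨P, Q, _, _, _, rfl⟩ := hφ
  exact nice_expPoly (by positivity) P Q

theorem bd_ov_nonneg (f : R3 → ℝ) : 0 ≤ ov f f := integral_nonneg fun x => mul_self_nonneg _

theorem bd_dir_nonneg (f : R3 → ℝ) : 0 ≤ dir f f :=
  integral_nonneg fun x => sum_nonneg fun k _ => mul_self_nonneg _

/-- gradient bound for shell functions -/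
theorem shell_dir_le {k : ℕ} (hk : 1 ≤ k) {φ : R3 → ℝ} (hφ : IsShell k φ) :
    dir φ φ ≤ 4 * ov φ φ := by
  have hn := bd_shell_nice hk hφ
  have h1 := shell_form hk hφ hn
  have h2 := bd_ground hn 2
  have h3 : 0 ≤ 1 / (2 * (k : ℝ) ^ 2) * ov φ φ := mul_nonneg (by positivity) (bd_ov_nonneg φ)
  linarith

/-- Hardy inequality -/
theorem hardy_nice {f : R3 → ℝ} (hf : Nice f) (y : R3) :
    Integrable (fun x => f x ^ 2 / dist x y ^ 2) ∧
      ∫ x, f x ^ 2 / dist x y ^ 2 ≤ 4 * dir f f := by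
  have hδ : ∀ n : ℕ, (0 : ℝ) < 1 / ((n : ℝ) + 1) := fun n => by positivity
  refine fatou_real (F := fun (n : ℕ) x => f x ^ 2 * (‖x - y‖ ^ 2 /
    (‖x - y‖ ^ 2 + (1 / ((n : ℝ) + 1)) ^ 2) ^ 2)) ?_ ?_ (fun n => (bd_hardy_reg hf y (hδ n)).1)
    (fun n x => by positivity) ?_ (fun n => (bd_hardy_reg hf y (hδ n)).2)
  · exact (hf.cont.pow 2).measurable.div
      ((by fun_prop : Continuous fun x : R3 => dist x y ^ 2).measurable)
  · intro x
    positivity
  · intro x
    by_cases hx : x = y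
    · left
      rw [hx, dist_self]
      norm_num
    · right
      have hd : 0 < ‖x - y‖ := norm_pos_iff.2 (sub_ne_zero.2 hx)
      have h1 : Filter.Tendsto (fun n : ℕ => 1 / ((n : ℝ) + 1)) Filter.atTop (nhds 0) :=
        tendsto_one_div_add_atTop_nhds_zero_nat
      have h2 : Filter.Tendsto (fun δ : ℝ => f x ^ 2 * (‖x - y‖ ^ 2 / (‖x - y‖ ^ 2 + δ ^ 2) ^ 2))
          (nhds 0) (nhds (f x ^ 2 * (‖x - y‖ ^ 2 / (‖x - y‖ ^ 2 + (0:ℝ) ^ 2) ^ 2))) := by
        have h3 : Continuous (fun δ : ℝ => f x ^ 2 *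
            (‖x - y‖ ^ 2 / (‖x - y‖ ^ 2 + δ ^ 2) ^ 2)) :=
          continuous_const.mul (continuous_const.div (by fun_prop) fun δ => by positivity)
        exact h3.tendsto 0
      have h3 : f x ^ 2 / dist x y ^ 2 =
          f x ^ 2 * (‖x - y‖ ^ 2 / (‖x - y‖ ^ 2 + (0:ℝ) ^ 2) ^ 2) := by
        rw [dist_eq_norm]
        field_simp
        ring
      rw [h3]
      exact h2.comp h1

/-- Cauchy-Schwarz -/
theorem bd_cs {F G : R3 → ℝ} (hFm : AEStronglyMeasurable F) (hGm : AEStronglyMeasurable G)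
    (hF : Integrable (fun x => F x ^ 2)) (hG : Integrable (fun x => G x ^ 2)) :
    Integrable (fun x => F x * G x) ∧
      ∫ x, |F x * G x| ≤ Real.sqrt (∫ x, F x ^ 2) * Real.sqrt (∫ x, G x ^ 2) := by
  have hI : Integrable (fun x => F x * G x) := by
    refine (hF.add hG).mono' (hFm.mul hGm) (Filter.Eventually.of_forall fun x => ?_)
    rw [Real.norm_eq_abs, abs_mul]
    simp only [Pi.add_apply]
    nlinarith only [sq_abs (F x), sq_abs (G x)]
  refine ⟨hI, ?_⟩
  have hI' : Integrable (fun x => |F x * G x|) := hI.norm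
  have hA : 0 ≤ ∫ x, F x ^ 2 := integral_nonneg fun x => sq_nonneg _
  have hB : 0 ≤ ∫ x, G x ^ 2 := integral_nonneg fun x => sq_nonneg _
  have hC : 0 ≤ ∫ x, |F x * G x| := integral_nonneg fun x => abs_nonneg _
  have hq : ∀ t : ℝ, 0 ≤ (∫ x, G x ^ 2) * (t * t) + (-2 * ∫ x, |F x * G x|) * t +
      ∫ x, F x ^ 2 := by
    intro t
    have h1 : 0 ≤ ∫ x, (|F x| - t * |G x|) ^ 2 := integral_nonneg fun x => sq_nonneg _
    have h2 : ∫ x, (|F x| - t * |G x|) ^ 2 =
        (∫ x, F x ^ 2) + (-2 * t) * (∫ x, |F x * G x|) + (t * t) * ∫ x, G x ^ 2 := by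
      have e : ∀ x, (|F x| - t * |G x|) ^ 2 =
          F x ^ 2 + (-2 * t) * |F x * G x| + (t * t) * G x ^ 2 := by
        intro x
        rw [abs_mul]
        linear_combination sq_abs (F x) + t ^ 2 * sq_abs (G x)
      rw [integral_congr_ae (Filter.Eventually.of_forall e)]
      have h3 : Integrable (fun x => F x ^ 2 + (-2 * t) * |F x * G x|) :=
        hF.add (hI'.const_mul _)
      rw [integral_add h3 (hG.const_mul _), integral_add hF (hI'.const_mul _),
        integral_const_mul, integral_const_mul]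
    rw [h2] at h1
    linarith
  have hd := discrim_le_zero hq
  unfold discrim at hd
  rw [← Real.sqrt_mul hA]
  refine Real.le_sqrt_of_sq_le ?_
  linarith only [hd]

theorem bd_dist_meas (y : R3) : Measurable (fun x : R3 => dist x y) :=
  (by fun_prop : Continuous fun x : R3 => dist x y).measurable

theorem bd_div_meas {f : R3 → ℝ} (hf : Nice f) (y : R3) :
    AEStronglyMeasurable (fun x => f x / dist x y) :=
  (hf.cont.measurable.div (bd_dist_meas y)).aestronglyMeasurable

theorem bd_sq_int {f : R3 → ℝ} (hf : Nice f) : Integrable (fun x => f x ^ 2) := by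
  refine (nice_integrable_rinv hf hf).2.congr (Filter.Eventually.of_forall fun x => ?_)
  simp only
  ring

theorem bd_ov_eq (f : R3 → ℝ) : ∫ x, f x ^ 2 = ov f f := by
  unfold ov
  refine integral_congr_ae (Filter.Eventually.of_forall fun x => ?_)
  simp only
  ring

theorem bd_div_sq {f : R3 → ℝ} (hf : Nice f) (y : R3) :
    Integrable (fun x => (f x / dist x y) ^ 2) ∧
      Real.sqrt (∫ x, (f x / dist x y) ^ 2) ≤ 2 * Real.sqrt (dir f f) := by
  have h := hardy_nice hf y
  simp only [← div_pow] at h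
  refine ⟨h.1, ?_⟩
  have e : 2 * Real.sqrt (dir f f) = Real.sqrt (4 * dir f f) := by
    rw [Real.sqrt_mul (by norm_num)]
    congr 1
    rw [show (4 : ℝ) = 2 ^ 2 by norm_num, Real.sqrt_sq (by norm_num)]
  rw [e]
  exact Real.sqrt_le_sqrt h.2

theorem bd_nuc_abs {f g : R3 → ℝ} (hf : Nice f) (hg : Nice g) (y : R3) :
    Integrable (fun x => f x / dist x y * g x) ∧
      ∫ x, |f x / dist x y * g x| ≤ 2 * Real.sqrt (dir f f) * Real.sqrt (ov g g) := by
  have h := bd_cs (bd_div_meas hf y) hg.cont.aestronglyMeasurable (bd_div_sq hf y).1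
    (bd_sq_int hg)
  refine ⟨h.1, h.2.trans ?_⟩
  rw [bd_ov_eq g]
  exact mul_le_mul_of_nonneg_right (bd_div_sq hf y).2 (Real.sqrt_nonneg _)

theorem nice_integrable_nuc {f g : R3 → ℝ} (hf : Nice f) (hg : Nice g) (y : R3) :
    Integrable (fun x => f x * g x / dist x y) := by
  refine (bd_nuc_abs hf hg y).1.congr (Filter.Eventually.of_forall fun x => ?_)
  simp only
  ring

theorem bd_nuc_le {f g : R3 → ℝ} (hf : Nice f) (hg : Nice g) (y : R3) :
    |nuc y f g| ≤ 2 * Real.sqrt (dir f f) * Real.sqrt (ov g g) := by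
  unfold nuc
  rw [← Real.norm_eq_abs]
  refine (norm_integral_le_integral_norm _).trans ?_
  refine le_trans (le_of_eq ?_) (bd_nuc_abs hf hg y).2
  refine integral_congr_ae (Filter.Eventually.of_forall fun x => ?_)
  simp only [Real.norm_eq_abs]
  congr 1
  ring

theorem bd_sqrt_dir_shell {k : ℕ} (hk : 1 ≤ k) {φ : R3 → ℝ} (hφ : IsShell k φ) :
    Real.sqrt (dir φ φ) ≤ 2 * Real.sqrt (ov φ φ) := by
  have e : 2 * Real.sqrt (ov φ φ) = Real.sqrt (4 * ov φ φ) := by
    rw [Real.sqrt_mul (by norm_num)]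
    congr 1
    rw [show (4 : ℝ) = 2 ^ 2 by norm_num, Real.sqrt_sq (by norm_num)]
  rw [e]
  exact Real.sqrt_le_sqrt (shell_dir_le hk hφ)

theorem gm_lip {k k' : ℕ} (hk : 1 ≤ k) (hk' : 1 ≤ k') {φ ψ : R3 → ℝ} (hφ : IsShell k φ)
    (hψ : IsShell k' ψ) (y y' : R3) :
    |gm y φ ψ - gm y' φ ψ| ≤ 16 * ‖y - y'‖ * Real.sqrt (ov φ φ * ov ψ ψ) := by
  have hn := bd_shell_nice hk hφ
  have hn' := bd_shell_nice hk' hψ
  have hr := (nice_integrable_rinv hn hn').1
  have hint : ∀ z : R3, Integrable (fun x => φ x * ψ x * (1 / ‖x‖ - 1 / dist x z)) := by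
    intro z
    refine (hr.sub (nice_integrable_nuc hn hn' z)).congr
      (Filter.Eventually.of_forall fun x => ?_)
    simp only [Pi.sub_apply]
    ring
  have h1 : gm y φ ψ - gm y' φ ψ = ∫ x, φ x * ψ x * (1 / dist x y' - 1 / dist x y) := by
    unfold gm
    rw [← integral_sub (hint y) (hint y')]
    refine integral_congr_ae (Filter.Eventually.of_forall fun x => ?_)
    simp only
    ring
  have hcs := bd_cs (bd_div_meas hn y) (bd_div_meas hn' y') (bd_div_sq hn y).1
    (bd_div_sq hn' y').1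
  have h2 : |∫ x, φ x * ψ x * (1 / dist x y' - 1 / dist x y)| ≤
      ∫ x, ‖y - y'‖ * |φ x / dist x y * (ψ x / dist x y')| := by
    rw [← Real.norm_eq_abs]
    refine norm_integral_le_of_norm_le (hcs.1.norm.const_mul ‖y - y'‖) ?_
    filter_upwards [bd_ae_ne y, bd_ae_ne y'] with x hx hx'
    have hd : 0 < dist x y := dist_pos.2 hx
    have hd' : 0 < dist x y' := dist_pos.2 hx'
    have h3 : |dist x y - dist x y'| ≤ ‖y - y'‖ := by
      rw [← dist_eq_norm, dist_comm x y, dist_comm x y']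
      exact abs_dist_sub_le y y' x
    have h4 : φ x * ψ x * (1 / dist x y' - 1 / dist x y) =
        (dist x y - dist x y') * (φ x / dist x y * (ψ x / dist x y')) := by
      field_simp
    rw [h4, norm_mul, Real.norm_eq_abs, Real.norm_eq_abs]
    exact mul_le_mul_of_nonneg_right h3 (abs_nonneg _)
  rw [h1]
  refine h2.trans ?_
  rw [integral_const_mul]
  have h5 : ∫ x, |φ x / dist x y * (ψ x / dist x y')| ≤ 16 * Real.sqrt (ov φ φ * ov ψ ψ) := by
    refine hcs.2.trans ?_
    have a1 := (bd_div_sq hn y).2.trans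
      (mul_le_mul_of_nonneg_left (bd_sqrt_dir_shell hk hφ) zero_le_two)
    have a2 := (bd_div_sq hn' y').2.trans
      (mul_le_mul_of_nonneg_left (bd_sqrt_dir_shell hk' hψ) zero_le_two)
    calc _ ≤ (2 * (2 * Real.sqrt (ov φ φ))) * (2 * (2 * Real.sqrt (ov ψ ψ))) :=
          mul_le_mul a1 a2 (Real.sqrt_nonneg _) (by positivity)
      _ = 16 * (Real.sqrt (ov φ φ) * Real.sqrt (ov ψ ψ)) := by ring
      _ = _ := by rw [Real.sqrt_mul (bd_ov_nonneg φ)]
  calc ‖y - y'‖ * ∫ x, |φ x / dist x y * (ψ x / dist x y')| ≤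
      ‖y - y'‖ * (16 * Real.sqrt (ov φ φ * ov ψ ψ)) :=
        mul_le_mul_of_nonneg_left h5 (norm_nonneg _)
    _ = _ := by ring

theorem gm_zero (φ ψ : R3 → ℝ) : gm 0 φ ψ = 0 := by
  simp [gm]

theorem gm_bound {k k' : ℕ} (hk : 1 ≤ k) (hk' : 1 ≤ k') {φ ψ : R3 → ℝ} (hφ : IsShell k φ)
    (hψ : IsShell k' ψ) (y : R3) :
    |gm y φ ψ| ≤ 16 * ‖y‖ * Real.sqrt (ov φ φ * ov ψ ψ) := by
  have h := gm_lip hk hk' hφ hψ y 0
  rwa [gm_zero, sub_zero, sub_zero] at h

theorem bd_prod_abs {f g : R3 → ℝ} (hf : Nice f) (hg : Nice g) :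
    ∫ x, |f x * g x| ≤ Real.sqrt (ov f f) * Real.sqrt (ov g g) := by
  have h := (bd_cs hf.cont.aestronglyMeasurable hg.cont.aestronglyMeasurable (bd_sq_int hf)
    (bd_sq_int hg)).2
  rwa [bd_ov_eq, bd_ov_eq] at h

/-- general bounds for Coulomb integrals of shell functions -/
theorem coul_shell {k1 k2 k3 k4 : ℕ} (h1 : 1 ≤ k1) (h2 : 1 ≤ k2) (h3 : 1 ≤ k3) (h4 : 1 ≤ k4)
    {f1 f2 f3 f4 : R3 → ℝ} (H1 : IsShell k1 f1) (H2 : IsShell k2 f2) (H3 : IsShell k3 f3)
    (H4 : IsShell k4 f4) :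
    |coul f1 f2 f3 f4| ≤ 4 * Real.sqrt (ov f1 f1 * ov f2 f2 * ov f3 f3 * ov f4 f4) := by
  have n1 := bd_shell_nice h1 H1
  have n2 := bd_shell_nice h2 H2
  have n3 := bd_shell_nice h3 H3
  have n4 := bd_shell_nice h4 H4
  have hI : Integrable (fun y => f3 y * f4 y) := (nice_integrable_rinv n3 n4).2
  have hb : ∀ y, |nuc y f1 f2| ≤ 4 * Real.sqrt (ov f1 f1) * Real.sqrt (ov f2 f2) := by
    intro y
    refine (bd_nuc_le n1 n2 y).trans (mul_le_mul_of_nonneg_right ?_ (Real.sqrt_nonneg _))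
    have := bd_sqrt_dir_shell h1 H1
    linarith only [this]
  unfold coul
  rw [← Real.norm_eq_abs]
  refine (norm_integral_le_of_norm_le (hI.norm.const_mul
    (4 * Real.sqrt (ov f1 f1) * Real.sqrt (ov f2 f2)))
    (Filter.Eventually.of_forall fun y => ?_)).trans ?_
  · rw [norm_mul]
    exact mul_le_mul_of_nonneg_right (hb y) (norm_nonneg _)
  · rw [integral_const_mul]
    have e : Real.sqrt (ov f1 f1 * ov f2 f2 * ov f3 f3 * ov f4 f4) =
        Real.sqrt (ov f1 f1) * Real.sqrt (ov f2 f2) * (Real.sqrt (ov f3 f3) *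
          Real.sqrt (ov f4 f4)) := by
      rw [Real.sqrt_mul (mul_nonneg (mul_nonneg (bd_ov_nonneg _) (bd_ov_nonneg _))
        (bd_ov_nonneg _)), Real.sqrt_mul (mul_nonneg (bd_ov_nonneg _) (bd_ov_nonneg _)),
        Real.sqrt_mul (bd_ov_nonneg _)]
      ring
    rw [e]
    have h5 := bd_prod_abs n3 n4
    calc 4 * Real.sqrt (ov f1 f1) * Real.sqrt (ov f2 f2) * ∫ y, ‖f3 y * f4 y‖ ≤
        4 * Real.sqrt (ov f1 f1) * Real.sqrt (ov f2 f2) *
          (Real.sqrt (ov f3 f3) * Real.sqrt (ov f4 f4)) :=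
          mul_le_mul_of_nonneg_left h5 (by positivity)
      _ = _ := by ring

theorem bd_nuc_meas {f g : R3 → ℝ} (hf : Nice f) (hg : Nice g) :
    AEStronglyMeasurable (fun y => nuc y f g) := by
  have h1 : Measurable (fun p : R3 × R3 => f p.2 * g p.2 / dist p.2 p.1) :=
    ((hf.cont.comp continuous_snd).mul (hg.cont.comp continuous_snd)).measurable.div
      ((by fun_prop : Continuous fun p : R3 × R3 => dist p.2 p.1).measurable)
  exact (h1.stronglyMeasurable.integral_prod_right).aestronglyMeasurable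

theorem bd_coul_int {f g f' g' : R3 → ℝ} (hf : Nice f) (hg : Nice g) (hf' : Nice f')
    (hg' : Nice g') : Integrable (fun y => nuc y f g * (f' y * g' y)) := by
  refine (nice_integrable_rinv hf' hg').2.bdd_mul (c := 2 * Real.sqrt (dir f f) *
    Real.sqrt (ov g g)) (bd_nuc_meas hf hg) (Filter.Eventually.of_forall fun y => ?_)
  rw [Real.norm_eq_abs]
  exact bd_nuc_le hf hg y

/-- multilinearity in the first argument -/
theorem coul_sum_left {ι : Type} (s : Finset ι) (a : ι → ℝ) (f : ι → R3 → ℝ)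
    (hf : ∀ i ∈ s, Nice (f i)) {g f' g' : R3 → ℝ} (hg : Nice g) (hf' : Nice f') (hg' : Nice g') :
    coul (fun x => ∑ i ∈ s, a i * f i x) g f' g' = ∑ i ∈ s, a i * coul (f i) g f' g' := by
  have h1 : ∀ y, nuc y (fun x => ∑ i ∈ s, a i * f i x) g = ∑ i ∈ s, a i * nuc y (f i) g := by
    intro y
    unfold nuc
    have e : ∀ x, (∑ i ∈ s, a i * f i x) * g x / dist x y =
        ∑ i ∈ s, a i * (f i x * g x / dist x y) := by
      intro x
      rw [sum_mul, sum_div]
      refine sum_congr rfl fun i _ => ?_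
      ring
    rw [integral_congr_ae (Filter.Eventually.of_forall e),
      integral_finset_sum _ fun i hi => (nice_integrable_nuc (hf i hi) hg y).const_mul _]
    refine sum_congr rfl fun i _ => ?_
    rw [integral_const_mul]
  unfold coul
  have e2 : ∀ y, nuc y (fun x => ∑ i ∈ s, a i * f i x) g * (f' y * g' y) =
      ∑ i ∈ s, a i * (nuc y (f i) g * (f' y * g' y)) := by
    intro y
    rw [h1, sum_mul]
    refine sum_congr rfl fun i _ => ?_
    ring
  rw [integral_congr_ae (Filter.Eventually.of_forall e2),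
    integral_finset_sum _ fun i hi => (bd_coul_int (hf i hi) hg hf' hg').const_mul _]
  refine sum_congr rfl fun i _ => ?_
  rw [integral_const_mul]

theorem coul_symm1 (f g f' g' : R3 → ℝ) : coul f g f' g' = coul g f f' g' := by
  unfold coul nuc
  simp only [mul_comm (f _) (g _)]

theorem coul_symm2 {f g f' g' : R3 → ℝ} (hf : Nice f) (hg : Nice g) (hf' : Nice f')
    (hg' : Nice g') : coul f g f' g' = coul f' g' f g := by
  have hm : Measurable (fun p : R3 × R3 => f p.2 * g p.2 / dist p.2 p.1 * (f' p.1 * g' p.1)) :=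
    (((hf.cont.comp continuous_snd).mul (hg.cont.comp continuous_snd)).measurable.div
      ((by fun_prop : Continuous fun p : R3 × R3 => dist p.2 p.1).measurable)).mul
      ((hf'.cont.comp continuous_fst).mul (hg'.cont.comp continuous_fst)).measurable
  have hint : Integrable (fun p : R3 × R3 => f p.2 * g p.2 / dist p.2 p.1 *
      (f' p.1 * g' p.1)) (volume.prod volume) := by
    rw [integrable_prod_iff hm.aestronglyMeasurable]
    refine ⟨Filter.Eventually.of_forall fun y => ?_, ?_⟩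
    · show Integrable (fun x => f x * g x / dist x y * (f' y * g' y))
      exact (nice_integrable_nuc hf hg y).mul_const _
    have hI : Integrable (fun y => f' y * g' y) := (nice_integrable_rinv hf' hg').2
    refine (hI.norm.const_mul (2 * Real.sqrt (dir f f) * Real.sqrt (ov g g))).mono'
      (hm.aestronglyMeasurable.norm.integral_prod_right') (Filter.Eventually.of_forall fun y => ?_)
    rw [Real.norm_of_nonneg (integral_nonneg fun x => norm_nonneg _)]
    have e : ∀ x, ‖f x * g x / dist x y * (f' y * g' y)‖ =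
        |f x / dist x y * g x| * ‖f' y * g' y‖ := by
      intro x
      rw [norm_mul, Real.norm_eq_abs]
      congr 2
      ring
    simp only [e]
    rw [integral_mul_const]
    exact mul_le_mul_of_nonneg_right (bd_nuc_abs hf hg y).2 (norm_nonneg _)
  calc coul f g f' g' = ∫ y, ∫ x, f x * g x / dist x y * (f' y * g' y) := by
        unfold coul nuc
        refine integral_congr_ae (Filter.Eventually.of_forall fun y => ?_)
        simp only
        rw [integral_mul_const]
    _ = ∫ x, ∫ y, f x * g x / dist x y * (f' y * g' y) := integral_integral_swap hint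
    _ = coul f' g' f g := by
        unfold coul nuc
        refine integral_congr_ae (Filter.Eventually.of_forall fun x => ?_)
        simp only
        rw [← integral_mul_const]
        refine integral_congr_ae (Filter.Eventually.of_forall fun y => ?_)
        simp only
        rw [dist_comm x y]
        ring

/-! ### finite combinations -/

theorem bd_nice_zero : Nice (fun _ : R3 => (0 : ℝ)) :=
  nice_test contDiff_const HasCompactSupport.zero

theorem bd_nice_sum {ι : Type} (s : Finset ι) (c : ι → ℝ) {f : ι → R3 → ℝ}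
    (hf : ∀ i, Nice (f i)) : Nice (fun x => ∑ i ∈ s, c i * f i x) := by
  classical
  induction s using Finset.induction_on with
  | empty =>
    simp only [sum_empty]
    exact bd_nice_zero
  | insert i s hi ih =>
    simp only [sum_insert hi]
    exact nice_add (nice_smul (hf i) (c i)) ih

theorem bd_pd_sum {ι : Type} (s : Finset ι) (c : ι → ℝ) {f : ι → R3 → ℝ}
    (hf : ∀ i, Nice (f i)) (k : Fin 3) {x : R3} (hx : x ≠ 0) :
    pd k (fun x => ∑ i ∈ s, c i * f i x) x = ∑ i ∈ s, c i * pd k (f i) x := by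
  have hd : ∀ i, DifferentiableAt ℝ (f i) x := fun i =>
    ((hf i).smooth.contDiffAt (isOpen_compl_singleton.mem_nhds hx)).differentiableAt
      (by norm_num)
  unfold pd
  have h1 : HasFDerivAt (fun x => ∑ i ∈ s, c i * f i x) (∑ i ∈ s, c i • fderiv ℝ (f i) x) x :=
    HasFDerivAt.fun_sum fun i _ => (hd i).hasFDerivAt.const_mul (c i)
  rw [h1.fderiv]
  simp

theorem bd_dir_sum {ι : Type} [Fintype ι] (c : ι → ℝ) {f : ι → R3 → ℝ}
    (hf : ∀ i, Nice (f i)) (hd : ∀ i, dir (f i) (f i) ≤ 4) :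
    dir (fun x => ∑ i, c i * f i x) (fun x => ∑ i, c i * f i x) ≤
      4 * Fintype.card ι * ∑ i, c i ^ 2 := by
  have hI : ∀ i, Integrable (fun x => ∑ k, pd k (f i) x * pd k (f i) x) := fun i =>
    nice_dir_integrable (hf i) (hf i)
  have h1 : dir (fun x => ∑ i, c i * f i x) (fun x => ∑ i, c i * f i x) ≤
      ∫ x, (Fintype.card ι : ℝ) * ∑ i, c i ^ 2 * ∑ k, pd k (f i) x * pd k (f i) x := by
    unfold dir
    refine integral_mono_ae (nice_dir_integrable (bd_nice_sum _ c hf) (bd_nice_sum _ c hf))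
      ((integrable_finset_sum _ fun i _ => (hI i).const_mul _).const_mul _) ?_
    filter_upwards [bd_ae_ne 0] with x hx
    simp only [bd_pd_sum _ c hf _ hx]
    have e3 : (Fintype.card ι : ℝ) * ∑ i, c i ^ 2 * ∑ k, pd k (f i) x * pd k (f i) x =
        ∑ k : Fin 3, (Fintype.card ι : ℝ) * ∑ i, c i ^ 2 * (pd k (f i) x * pd k (f i) x) := by
      simp only [mul_sum]
      rw [sum_comm]
    rw [e3]
    refine sum_le_sum fun k _ => ?_
    have h2 := sq_sum_le_card_mul_sum_sq (s := (univ : Finset ι)) (f := fun i => c i * pd k (f i) x)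
    rw [card_univ] at h2
    calc (∑ i, c i * pd k (f i) x) * ∑ i, c i * pd k (f i) x =
        (∑ i, c i * pd k (f i) x) ^ 2 := by ring
      _ ≤ (Fintype.card ι : ℝ) * ∑ i, (c i * pd k (f i) x) ^ 2 := h2
      _ = _ := by
        congr 1
        refine sum_congr rfl fun i _ => ?_
        ring
  refine h1.trans ?_
  rw [integral_const_mul, integral_finset_sum _ fun i _ => (hI i).const_mul _]
  have h3 : ∑ i, ∫ x, c i ^ 2 * ∑ k, pd k (f i) x * pd k (f i) x ≤ ∑ i, c i ^ 2 * 4 := by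
    refine sum_le_sum fun i _ => ?_
    rw [integral_const_mul]
    exact mul_le_mul_of_nonneg_left (hd i) (sq_nonneg _)
  calc (Fintype.card ι : ℝ) * ∑ i, ∫ x, c i ^ 2 * ∑ k, pd k (f i) x * pd k (f i) x ≤
      (Fintype.card ι : ℝ) * ∑ i, c i ^ 2 * 4 :=
        mul_le_mul_of_nonneg_left h3 (Nat.cast_nonneg _)
    _ = _ := by rw [← sum_mul]; ring

theorem bd_ov_sum {ι : Type} [Fintype ι] [DecidableEq ι] (c : ι → ℝ) {f : ι → R3 → ℝ}
    (hf : ∀ i, Nice (f i)) (ho : ∀ i j, ov (f i) (f j) = if i = j then 1 else 0) :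
    ov (fun x => ∑ i, c i * f i x) (fun x => ∑ i, c i * f i x) = ∑ i, c i ^ 2 := by
  have hI : ∀ i j, Integrable (fun x => f i x * f j x) := fun i j =>
    (nice_integrable_rinv (hf i) (hf j)).2
  unfold ov
  have e : ∀ x, (∑ i, c i * f i x) * (∑ i, c i * f i x) =
      ∑ i, ∑ j, c i * c j * (f i x * f j x) := by
    intro x
    rw [sum_mul_sum]
    refine sum_congr rfl fun i _ => sum_congr rfl fun j _ => ?_
    ring
  rw [integral_congr_ae (Filter.Eventually.of_forall e),
    integral_finset_sum _ fun i _ => integrable_finset_sum _ fun j _ => (hI i j).const_mul _]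
  refine sum_congr rfl fun i _ => ?_
  rw [integral_finset_sum _ fun j _ => (hI i j).const_mul _]
  have h1 : ∀ j, ∫ x, c i * c j * (f i x * f j x) = if i = j then c i * c j else 0 := by
    intro j
    rw [integral_const_mul]
    have := ho i j
    unfold ov at this
    rw [this]
    split_ifs <;> simp
  rw [sum_congr rfl fun j _ => h1 j, sum_ite_eq univ i]
  simp only [mem_univ, if_true]
  ring

/-- pairs: the Coulomb repulsion as a form on pair functions -/
theorem coul_pair_bounds {n : ℕ} {A : Type} [Fintype A] [DecidableEq A] (B : ShellBasis n A)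
    (x : A → A → ℝ) :
    0 ≤ qf2 (coulM B.χ) x ∧ qf2 (coulM B.χ) x ≤ 4 * Fintype.card A * ∑ p, ∑ q, x p q ^ 2 := by
  have hN : ∀ a, Nice (B.χ a) := fun a => bd_shell_nice (B.lev_pos a) (B.mem a)
  have hD : ∀ a, dir (B.χ a) (B.χ a) ≤ 4 := by
    intro a
    have h1 := shell_dir_le (B.lev_pos a) (B.mem a)
    rw [B.ortho a a, if_pos rfl] at h1
    linarith
  -- the coefficients
  set cf : R3 → A → ℝ := fun y p => ∑ q, x p q * B.χ q y with hcf
  have hnuc : ∀ y, ∑ p, ∑ a, nuc y (B.χ p) (B.χ a) * (cf y p * cf y a) =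
      nuc y (fun z => ∑ p, cf y p * B.χ p z) (fun z => ∑ p, cf y p * B.χ p z) := by
    intro y
    unfold nuc
    have e : ∀ z, (∑ p, cf y p * B.χ p z) * (∑ p, cf y p * B.χ p z) / dist z y =
        ∑ p, ∑ a, B.χ p z * B.χ a z / dist z y * (cf y p * cf y a) := by
      intro z
      rw [sum_mul_sum, sum_div]
      refine sum_congr rfl fun p _ => ?_
      rw [sum_div]
      refine sum_congr rfl fun a _ => ?_
      ring
    rw [integral_congr_ae (Filter.Eventually.of_forall e), integral_finset_sum _ fun p _ =>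
      integrable_finset_sum _ fun a _ => (nice_integrable_nuc (hN p) (hN a) y).mul_const _]
    refine sum_congr rfl fun p _ => ?_
    rw [integral_finset_sum _ fun a _ => (nice_integrable_nuc (hN p) (hN a) y).mul_const _]
    refine sum_congr rfl fun a _ => ?_
    rw [integral_mul_const]
  -- the form as an integral
  have hqf : qf2 (coulM B.χ) x = ∫ y, ∑ p, ∑ a, nuc y (B.χ p) (B.χ a) * (cf y p * cf y a) := by
    have hI : ∀ p a q b, Integrable (fun y => nuc y (B.χ p) (B.χ a) * (B.χ q y * B.χ b y) *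
        x p q * x a b) := fun p a q b =>
      ((bd_coul_int (hN p) (hN a) (hN q) (hN b)).mul_const _).mul_const _
    have e : ∀ y, ∑ p, ∑ a, nuc y (B.χ p) (B.χ a) * (cf y p * cf y a) =
        ∑ p, ∑ a, ∑ q, ∑ b, nuc y (B.χ p) (B.χ a) * (B.χ q y * B.χ b y) * x p q * x a b := by
      intro y
      refine sum_congr rfl fun p _ => sum_congr rfl fun a _ => ?_
      simp only [hcf]
      rw [sum_mul_sum, mul_sum]
      refine sum_congr rfl fun q _ => ?_
      rw [mul_sum]
      refine sum_congr rfl fun b _ => ?_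
      ring
    rw [integral_congr_ae (Filter.Eventually.of_forall e), integral_finset_sum _ fun p _ =>
      integrable_finset_sum _ fun a _ => integrable_finset_sum _ fun q _ =>
        integrable_finset_sum _ fun b _ => hI p a q b]
    unfold qf2
    refine sum_congr rfl fun p _ => ?_
    rw [integral_finset_sum _ fun a _ => integrable_finset_sum _ fun q _ =>
        integrable_finset_sum _ fun b _ => hI p a q b]
    refine sum_congr rfl fun a _ => ?_
    rw [integral_finset_sum _ fun q _ => integrable_finset_sum _ fun b _ => hI p a q b]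
    refine sum_congr rfl fun q _ => ?_
    rw [integral_finset_sum _ fun b _ => hI p a q b]
    refine sum_congr rfl fun b _ => ?_
    rw [integral_mul_const, integral_mul_const]
    rfl
  rw [hqf]
  constructor
  · refine integral_nonneg fun y => ?_
    simp only [Pi.zero_apply]
    rw [hnuc]
    exact integral_nonneg fun z => div_nonneg (mul_self_nonneg _) dist_nonneg
  · -- upper bound
    have hcI : Integrable (fun y => ∑ p, cf y p ^ 2) :=
      integrable_finset_sum _ fun p _ => bd_sq_int (bd_nice_sum univ (x p) hN)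
    have hup : ∀ y, ∑ p, ∑ a, nuc y (B.χ p) (B.χ a) * (cf y p * cf y a) ≤
        4 * Fintype.card A * ∑ p, cf y p ^ 2 := by
      intro y
      rw [hnuc]
      have hu := bd_nice_sum univ (cf y) hN
      have h1 := (le_abs_self _).trans (bd_nuc_le hu hu y)
      refine h1.trans ?_
      rw [bd_ov_sum (cf y) hN B.ortho]
      have h2 := bd_dir_sum (cf y) hN hD
      have hS : 0 ≤ ∑ p, cf y p ^ 2 := sum_nonneg fun p _ => sq_nonneg _
      have h3 : Real.sqrt (dir (fun z => ∑ p, cf y p * B.χ p z)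
          (fun z => ∑ p, cf y p * B.χ p z)) ≤
          2 * (Fintype.card A : ℝ) * Real.sqrt (∑ p, cf y p ^ 2) := by
        refine Real.sqrt_le_iff.2 ⟨by positivity, h2.trans ?_⟩
        rw [mul_pow, Real.sq_sqrt hS]
        refine mul_le_mul_of_nonneg_right ?_ hS
        have h4 : (Fintype.card A : ℝ) ≤ (Fintype.card A : ℝ) ^ 2 := by
          exact_mod_cast Nat.le_self_pow (by norm_num) _
        linarith only [h4]
      calc 2 * Real.sqrt (dir (fun z => ∑ p, cf y p * B.χ p z)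
            (fun z => ∑ p, cf y p * B.χ p z)) * Real.sqrt (∑ p, cf y p ^ 2) ≤
          2 * (2 * (Fintype.card A : ℝ) * Real.sqrt (∑ p, cf y p ^ 2)) *
            Real.sqrt (∑ p, cf y p ^ 2) :=
            mul_le_mul_of_nonneg_right (mul_le_mul_of_nonneg_left h3 zero_le_two)
              (Real.sqrt_nonneg _)
        _ = 4 * Fintype.card A * (Real.sqrt (∑ p, cf y p ^ 2) *
            Real.sqrt (∑ p, cf y p ^ 2)) := by ring
        _ = _ := by rw [Real.mul_self_sqrt hS]
    have hLI : Integrable (fun y => ∑ p, ∑ a, nuc y (B.χ p) (B.χ a) * (cf y p * cf y a)) := by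
      refine integrable_finset_sum _ fun p _ => integrable_finset_sum _ fun a _ => ?_
      exact bd_coul_int (hN p) (hN a) (bd_nice_sum univ (x p) hN) (bd_nice_sum univ (x a) hN)
    refine (integral_mono hLI (hcI.const_mul _) hup).trans ?_
    rw [integral_const_mul, integral_finset_sum _ fun p _ =>
      bd_sq_int (bd_nice_sum univ (x p) hN)]
    refine mul_le_mul_of_nonneg_left (le_of_eq ?_) (by positivity)
    refine sum_congr rfl fun p _ => ?_
    have := bd_ov_sum (x p) hN B.ortho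
    rw [← this]
    exact bd_ov_eq _

end Vale.Agent.P370.Q
end

section

/-! Completeness of the explicit orbitals of one shell, isolation of the top subshell. -/

namespace Vale.Agent.P370.Hyd

open MeasureTheory Filter Topology MvPolynomial

theorem kap_eq (k : ℕ) : kap k = 1 / ((k + 1 : ℕ) : ℝ) := by
  unfold kap
  push_cast
  rfl

theorem pw_mem_E {k l : ℕ} {h : Pl} (hh : h.IsHomogeneous l) {j : ℕ} (hj : j + l ≤ k) :
    pw h j ∈ E (k + 1) := by
  unfold pw
  have h1 := isHomogeneous_nsq_pow_mul hh (j / 2)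
  by_cases he : Even j
  · rw [if_pos he]
    refine ⟨isHomogeneous_mem_lt h1 ?_, Submodule.zero_mem _⟩
    omega
  · rw [if_neg he]
    refine ⟨Submodule.zero_mem _, isHomogeneous_mem_lt h1 ?_⟩
    rw [Nat.not_even_iff_odd] at he
    obtain ⟨i, rfl⟩ := he
    omega

theorem zf_mem_E {k l : ℕ} (κ : ℝ) {h : Pl} (hh : h.IsHomogeneous l) :
    zf κ l (k + 1 - l) h ∈ E (k + 1) := by
  unfold zf
  refine Submodule.sum_mem _ fun j hj => Submodule.smul_mem _ _ (pw_mem_E hh ?_)
  have := Finset.mem_range.1 hj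
  omega

theorem zf_mem_Eig {k l : ℕ} (hl : l ≤ k) {h : Pl} (hh : h ∈ Harm l) :
    zf (kap k) l (k + 1 - l) h ∈ Eig (k + 1) := by
  rw [mem_Eig, ← kap_eq]
  exact ⟨zf_mem_E _ (mem_Harm.1 hh).1, TL_zf' hl hh⟩

/-- labels of the orbitals of shell `k + 1` -/
abbrev Sub (k : ℕ) : Type := (l : Fin (k + 1)) × Fin (2 * l.1 + 1)

theorem card_Sub (k : ℕ) : Fintype.card (Sub k) = (k + 1) ^ 2 := by
  have h1 : ∀ k : ℕ, ∑ l ∈ Finset.range (k + 1), (2 * l + 1) = (k + 1) ^ 2 := by
    intro k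
    induction k with
    | zero => simp
    | succ k ih =>
      rw [Finset.sum_range_succ, ih]
      ring
  rw [Fintype.card_sigma, ← h1, ← Fin.sum_univ_eq_sum_range]
  simp

variable {p : (l : ℕ) → Fin (2 * l + 1) → Pl}

/-- coefficient pairs of the normalised orbitals -/
noncomputable def zo (p : (l : ℕ) → Fin (2 * l + 1) → Pl) (k : ℕ) (a : Sub k) : Pl × Pl :=
  (Real.sqrt (radN k a.1))⁻¹ • zf (kap k) a.1 (k + 1 - a.1) (p a.1 a.2)

theorem zo_mem (hp : HarmFam p) (k : ℕ) (a : Sub k) : zo p k a ∈ Eig (k + 1) :=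
  Submodule.smul_mem _ _ (zf_mem_Eig (by have := a.1.2; omega) (hp.mem _ _))

/-- the normalised orbitals -/
noncomputable def go (p : (l : ℕ) → Fin (2 * l + 1) → Pl) (k : ℕ) (a : Sub k) : AdmS :=
  toAdm (kap_pos k) (zo p k a)

theorem go_eq (k : ℕ) (a : Sub k) :
    go p k a = (Real.sqrt (radN k a.1))⁻¹ • gS k a.1 (p a.1 a.2) := by
  unfold go zo
  rw [map_smul]
  rfl

theorem bil_go (B : AdmS →ₗ[ℝ] AdmS →ₗ[ℝ] ℝ) (w : ℕ → ℕ → ℝ)
    (h1 : ∀ {k l : ℕ} {h h' : Pl}, h.IsHomogeneous l → h'.IsHomogeneous l →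
      B (gS k l h) (gS k l h') = sph h h' * w k l)
    (h2 : ∀ {k l l' : ℕ} {h h' : Pl}, l ≠ l' → h ∈ Harm l → h' ∈ Harm l' →
      B (gS k l h) (gS k l' h') = 0) (hp : HarmFam p) (k : ℕ) (a b : Sub k) :
    B (go p k a) (go p k b) = if a = b then w k a.1 / radN k a.1 else 0 := by
  obtain ⟨l, i⟩ := a
  obtain ⟨l', i'⟩ := b
  rw [go_eq, go_eq, map_smul, map_smul, LinearMap.smul_apply, smul_eq_mul, smul_eq_mul]
  simp only
  by_cases hl : l = l'
  · subst hl
    rw [h1 (mem_Harm.1 (hp.mem _ _)).1 (mem_Harm.1 (hp.mem _ _)).1, hp.orth]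
    have h3 := radN_pos (k := k) (l := l) (by omega)
    by_cases hi : i = i'
    · subst hi
      rw [if_pos rfl, if_pos rfl, one_mul]
      have h4 := Real.mul_self_sqrt h3.le
      have h5 : Real.sqrt (radN k l) ≠ 0 := (Real.sqrt_pos.2 h3).ne'
      have h6 : (Real.sqrt (radN k l))⁻¹ * ((Real.sqrt (radN k l))⁻¹ * w k l)
          = w k l / (Real.sqrt (radN k l) * Real.sqrt (radN k l)) := by
        field_simp
      rw [h6, h4]
    · rw [if_neg hi, if_neg, zero_mul, mul_zero, mul_zero]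
      intro h
      apply hi
      simpa using h
  · rw [h2 (fun h => hl (Fin.ext h)) (hp.mem _ _) (hp.mem _ _), mul_zero, mul_zero, if_neg]
    intro h
    apply hl
    exact (Sigma.mk.inj_iff.1 h).1

theorem ipB_go (hp : HarmFam p) (k : ℕ) (a b : Sub k) :
    ipB (go p k a) (go p k b) = if a = b then 1 else 0 := by
  rw [bil_go ipB radN (fun hh hh' => ipB_gS_self hh hh') (fun hl hh hh' => by
    rw [ipB_gS (mem_Harm.1 hh).1 (mem_Harm.1 hh').1, sph_orth hl hh hh', zero_mul]) hp]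
  by_cases h : a = b
  · rw [if_pos h, if_pos h, div_self]
    exact (radN_pos (by have := a.1.2; omega)).ne'
  · rw [if_neg h, if_neg h]

theorem VB_go {ρ : ℝ} (hρ : 0 < ρ) (hp : HarmFam p) (k : ℕ) (a b : Sub k) :
    VB hρ (go p k a) (go p k b) = if a = b then beta ρ k a.1 / radN k a.1 else 0 :=
  bil_go (VB hρ) (beta ρ) (fun hh hh' => VB_gS_self hρ hh hh') (fun hl hh hh' => by
    rw [VB_gS hρ (mem_Harm.1 hh).1 (mem_Harm.1 hh').1, sph_orth hl hh hh', zero_mul]) hp k a b

/-- completeness of the orbitals in their shell -/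
theorem Eig_expand (hp : HarmFam p) (k : ℕ) {z : Pl × Pl} (hz : z ∈ Eig (k + 1)) :
    z = ∑ a, ipB (go p k a) (toAdm (kap_pos k) z) • zo p k a := by
  classical
  let B : Eig (k + 1) →ₗ[ℝ] Eig (k + 1) →ₗ[ℝ] ℝ :=
    ipB.compl₁₂ ((toAdm (kap_pos k)).comp (Eig (k + 1)).subtype)
      ((toAdm (kap_pos k)).comp (Eig (k + 1)).subtype)
  have hB : ∀ v w : Eig (k + 1), B v w = ipB (toAdm (kap_pos k) v) (toAdm (kap_pos k) w) :=
    fun _ _ => rfl
  have horth : ∀ a b : Sub k, B ⟨zo p k a, zo_mem hp k a⟩ ⟨zo p k b, zo_mem hp k b⟩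
      = if a = b then 1 else 0 := fun a b => ipB_go hp k a b
  let v : Eig (k + 1) := ⟨z, hz⟩ - ∑ a : Sub k,
    (ipB (go p k a) (toAdm (kap_pos k) z)) • (⟨zo p k a, zo_mem hp k a⟩ : Eig (k + 1))
  have hv : v = 0 := by
    refine orthonormal_complete B (fun a : Sub k => (⟨zo p k a, zo_mem hp k a⟩ : Eig (k + 1)))
      horth ?_ fun a => ?_
    · rw [finrank_Eig, card_Sub]
    · show B ⟨zo p k a, zo_mem hp k a⟩ (⟨z, hz⟩ - ∑ a : Sub k,
        (ipB (go p k a) (toAdm (kap_pos k) z)) • (⟨zo p k a, zo_mem hp k a⟩ : Eig (k + 1))) = 0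
      rw [map_sub, map_sum, Finset.sum_eq_single a]
      · rw [map_smul, horth, if_pos rfl, smul_eq_mul, mul_one]
        exact sub_self _
      · intro b _ hb
        rw [map_smul, horth, if_neg hb.symm, smul_zero]
      · intro h
        exact absurd (Finset.mem_univ a) h
  have h1 := congrArg (Submodule.subtype (Eig (k + 1))) hv
  rw [map_sub, map_sum, map_zero, sub_eq_zero] at h1
  exact h1

theorem harm_cast {l k : ℕ} (h : l = k) {P : Pl} (hP : P ∈ Harm l) : P ∈ Harm k := h ▸ hP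

/-- quadratic forms on combinations of orbitals -/
theorem bil_comb (B : AdmS →ₗ[ℝ] AdmS →ₗ[ℝ] ℝ) (k : ℕ) (w : Sub k → ℝ)
    (h : ∀ a b : Sub k, B (go p k a) (go p k b) = if a = b then w a else 0)
    (s : Finset (Sub k)) (c : Sub k → ℝ) :
    B (∑ a ∈ s, c a • go p k a) (∑ a ∈ s, c a • go p k a) = ∑ a ∈ s, c a ^ 2 * w a := by
  classical
  have e : B (∑ a ∈ s, c a • go p k a) = ∑ a ∈ s, B (c a • go p k a) := map_sum _ _ _
  rw [e, LinearMap.sum_apply]
  refine Finset.sum_congr rfl fun a ha => ?_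
  rw [map_smul, LinearMap.smul_apply, map_sum, Finset.sum_eq_single a]
  · rw [map_smul, h, if_pos rfl, smul_eq_mul, smul_eq_mul]
    ring
  · intro b _ hb
    rw [map_smul, h, if_neg hb.symm, smul_zero]
  · intro h'
    exact absurd ha h'

/-- **Isolation of the top subshell.** -/
theorem isolation_aux {k : ℕ} {ρ : ℝ} (hρ : 0 < ρ) (hρ2 : ρ ≤ 1 / 2 ^ (8 * (k + 1) ^ 2))
    {z : Pl × Pl} (hz : z ∈ Eig (k + 1)) :
    ∃ (P : Pl) (z2 : Pl × Pl), P ∈ Harm k ∧ z2 ∈ Eig (k + 1) ∧ z = (P, 0) + z2 ∧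
      (∀ P' ∈ Harm k, ipB (toAdm (kap_pos k) z2) (toAdm (kap_pos k) (P', 0)) = 0) ∧
      (∀ P' ∈ Harm k, VB hρ (toAdm (kap_pos k) z2) (toAdm (kap_pos k) (P', 0)) = 0) ∧
      2 * (ρ ^ (2 * k) / 2 ^ (16 * (k + 1) ^ 2)) *
        ipB (toAdm (kap_pos k) z2) (toAdm (kap_pos k) z2)
        ≤ VB hρ (toAdm (kap_pos k) z2) (toAdm (kap_pos k) z2) := by
  classical
  obtain ⟨p, hp⟩ := exists_harmFam
  have hexp := Eig_expand hp k hz
  obtain ⟨c, hc⟩ : ∃ c : Sub k → ℝ, ∀ a, c a = ipB (go p k a) (toAdm (kap_pos k) z) :=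
    ⟨_, fun _ => rfl⟩
  simp only [← hc] at hexp
  have htop : ∀ P' : Pl, gS k k P' = toAdm (kap_pos k) (P', 0) := by
    intro P'
    have e : k + 1 - k = 1 := by omega
    have e2 : zf (kap k) k (k + 1 - k) P' = (P', 0) := by
      unfold zf pw
      rw [e, Finset.sum_range_one]
      simp [cf]
    have e3 : gS k k P' = toAdm (kap_pos k) (zf (kap k) k (k + 1 - k) P') := rfl
    rw [e3, e2]
  -- top part
  have htopz : ∀ a : Sub k, a.1.1 = k → zo p k a
      = ((Real.sqrt (radN k a.1))⁻¹ • p a.1 a.2, 0) := by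
    intro a ha
    unfold zo
    have e2 : zf (kap k) a.1.1 (k + 1 - a.1.1) (p a.1 a.2) = (p a.1 a.2, 0) := by
      have e : k + 1 - a.1.1 = 1 := by omega
      unfold zf pw
      rw [e, Finset.sum_range_one]
      simp [cf]
    rw [e2]
    simp
  let top : Finset (Sub k) := Finset.univ.filter fun a => a.1.1 = k
  let low : Finset (Sub k) := Finset.univ.filter fun a => ¬ a.1.1 = k
  let P : Pl := ∑ a ∈ top, c a • ((Real.sqrt (radN k a.1))⁻¹ • p a.1 a.2)
  let z2 : Pl × Pl := ∑ a ∈ low, c a • zo p k a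
  have hP : P ∈ Harm k := by
    refine Submodule.sum_mem _ fun a ha => Submodule.smul_mem _ _ (Submodule.smul_mem _ _ ?_)
    exact harm_cast (Finset.mem_filter.1 ha).2 (hp.mem a.1 a.2)
  have hz2 : z2 ∈ Eig (k + 1) :=
    Submodule.sum_mem _ fun a _ => Submodule.smul_mem _ _ (zo_mem hp k a)
  have hsplit : z = (P, 0) + z2 := by
    have h1 : ((P, 0) : Pl × Pl) = ∑ a ∈ top, c a • zo p k a := by
      have h2 : ∀ a ∈ top, c a • zo p k a
          = (c a • ((Real.sqrt (radN k a.1))⁻¹ • p a.1 a.2), (0 : Pl)) := by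
        intro a ha
        rw [htopz a (Finset.mem_filter.1 ha).2]
        simp
      rw [Finset.sum_congr rfl h2]
      refine Prod.ext ?_ ?_
      · rw [Prod.fst_sum]
      · rw [Prod.snd_sum]
        simp
    rw [h1, hexp]
    exact (Finset.sum_filter_add_sum_filter_not _ _ _).symm
  have hA : toAdm (kap_pos k) z2 = ∑ a ∈ low, c a • go p k a := by
    show toAdm (kap_pos k) (∑ a ∈ low, c a • zo p k a) = _
    rw [map_sum]
    exact Finset.sum_congr rfl fun a _ => by rw [map_smul]; rfl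
  refine ⟨P, z2, hP, hz2, hsplit, ?_, ?_, ?_⟩
  · intro P' hP'
    rw [hA, map_sum, LinearMap.sum_apply, ← htop]
    refine Finset.sum_eq_zero fun a ha => ?_
    have hne : a.1.1 ≠ k := (Finset.mem_filter.1 ha).2
    rw [map_smul, LinearMap.smul_apply, go_eq, map_smul, LinearMap.smul_apply,
      ipB_gS (mem_Harm.1 (hp.mem _ _)).1 (mem_Harm.1 hP').1, sph_orth hne (hp.mem _ _) hP',
      zero_mul, smul_zero, smul_zero]
  · intro P' hP'
    rw [hA, map_sum, LinearMap.sum_apply, ← htop]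
    refine Finset.sum_eq_zero fun a ha => ?_
    have hne : a.1.1 ≠ k := (Finset.mem_filter.1 ha).2
    rw [map_smul, LinearMap.smul_apply, go_eq, map_smul, LinearMap.smul_apply,
      VB_gS hρ (mem_Harm.1 (hp.mem _ _)).1 (mem_Harm.1 hP').1, sph_orth hne (hp.mem _ _) hP',
      zero_mul, smul_zero, smul_zero]
  · rw [hA, bil_comb ipB k (fun _ => 1) (fun a b => ipB_go hp k a b) low c,
      bil_comb (VB hρ) k (fun a => beta ρ k a.1 / radN k a.1) (fun a b => VB_go hρ hp k a b) low c,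
      Finset.mul_sum]
    refine Finset.sum_le_sum fun a ha => ?_
    have hne : a.1.1 ≠ k := (Finset.mem_filter.1 ha).2
    have hlt : a.1.1 < k := by
      have := a.1.2
      omega
    rw [mul_one, mul_comm]
    exact mul_le_mul_of_nonneg_left (beta_div_radN hlt hρ hρ2) (sq_nonneg _)

end Vale.Agent.P370.Hyd
end

section

/-!
The word `build k s th` encodes the instance `inst k s th`; validity; ground energy.
-/

namespace Vale.Agent.P370.Q.Alg

open MeasureTheory Finset

theorem encRat_dyadic (m : ℤ) (e : ℕ) (hm : m % 2 = 1) :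
    encRat ((m : ℚ) / 2 ^ e) = encDy m e := by
  have hpos : (0 : ℤ) < ((2 ^ e : ℕ) : ℤ) := by positivity
  have hcop : Nat.Coprime m.natAbs ((2 ^ e : ℕ) : ℤ).natAbs := by
    rw [Int.natAbs_natCast]
    apply Nat.Coprime.pow_right
    rw [Nat.coprime_two_right]
    rw [Int.natAbs_odd]
    exact Int.odd_iff.2 hm
  have h1 : ((m : ℚ) / 2 ^ e) = (m : ℚ) / (((2 ^ e : ℕ) : ℤ) : ℚ) := by push_cast; rfl
  have hnum : ((m : ℚ) / 2 ^ e).num = m := by
    rw [h1]
    exact Rat.num_div_eq_of_coprime hpos hcop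
  have hden : ((m : ℚ) / 2 ^ e).den = 2 ^ e := by
    rw [h1]
    have h2 := Rat.den_div_eq_of_coprime hpos hcop
    exact_mod_cast h2
  have hlt : decide ((m : ℚ) / 2 ^ e < 0) = decide (m < 0) := by
    apply decide_eq_decide.2
    rw [← Rat.num_neg, hnum]
  unfold encRat encDy
  rw [hnum, hden, hlt]

theorem encRat_int (m : ℤ) : encRat (m : ℚ) = encZ m := by
  have hlt : decide ((m : ℚ) < 0) = decide (m < 0) := by
    apply decide_eq_decide.2
    exact_mod_cast Iff.rfl
  unfold encRat encZ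
  rw [Rat.num_intCast, Rat.den_intCast, hlt]

theorem finRange_flatMap {γ : Type} (n : ℕ) (F : ℕ → List γ) :
    (List.finRange n).flatMap (fun β : Fin n => F (β : ℕ)) = (List.range n).flatMap F := by
  rw [← List.map_coe_finRange_eq_range, List.flatMap_map]

theorem finRange_succ_flatMap {γ : Type} (n : ℕ) (P : Fin (n + 1) → List γ) :
    (List.finRange (n + 1)).flatMap P = P 0 ++ (List.finRange n).flatMap (fun β => P β.succ) := by
  rw [List.finRange_succ, List.flatMap_cons, List.flatMap_map]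

theorem numer_odd (k a b c : ℕ) : numer k a b c % 2 = 1 := by
  unfold numer
  omega

theorem encInstance_inst (k : ℕ) (s : List ℕ) (th : ℤ) :
    encInstance (inst k s th) = build k s th := by
  have h0 : encRat 0 = encZ 0 := by
    have := encRat_int 0
    simpa using this
  have h1 : encRat (inst k s th).a = encZ th := encRat_int th
  have h2 : encRat (inst k s th).b = encZ (th + 1) := by
    have := encRat_int (th + 1)
    rw [← this]
    show encRat ((th : ℚ) + 1) = _
    push_cast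
    rfl
  have h3 : (List.finRange (inst k s th).M).flatMap (fun α => true ::
      (encRat ((inst k s th).pos α 0) ++ encRat ((inst k s th).pos α 1) ++
        encRat ((inst k s th).pos α 2) ++ encNat ((inst k s th).charge α))) =
      (true :: (encZ 0 ++ encZ 0 ++ encZ 0 ++ encNat (aT k - chgSum k s))) ++
      ((List.range (aD k * aD k)).flatMap fun β =>
        true :: (encDy (numer k (β / aD k) (β % aD k) 0) (bexp k) ++
          encDy (numer k (β / aD k) (β % aD k) 1) (bexp k) ++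
          encDy (numer k (β / aD k) (β % aD k) 2) (bexp k) ++
          encNat (chg k s (β / aD k) (β % aD k)))) := by
    refine (finRange_succ_flatMap (aD k * aD k) _).trans ?_
    refine congrArg₂ (· ++ ·) ?_ ?_
    · show true :: (encRat 0 ++ encRat 0 ++ encRat 0 ++ encNat (aT k - chgSum k s)) = _
      rw [h0]
    · rw [← finRange_flatMap]
      congr 1
      funext β
      show true :: (encRat ((numer k (β / aD k) (β % aD k) ((0 : Fin 3) : ℕ) : ℚ) / 2 ^ bexp k) ++
        encRat ((numer k (β / aD k) (β % aD k) ((1 : Fin 3) : ℕ) : ℚ) / 2 ^ bexp k) ++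
        encRat ((numer k (β / aD k) (β % aD k) ((2 : Fin 3) : ℕ) : ℚ) / 2 ^ bexp k) ++
        encNat (chg k s (β / aD k) (β % aD k))) = _
      rw [encRat_dyadic _ _ (numer_odd _ _ _ _), encRat_dyadic _ _ (numer_odd _ _ _ _),
        encRat_dyadic _ _ (numer_odd _ _ _ _)]
      rfl
  unfold encInstance build
  rw [h1, h2, h3]
  rfl

theorem aD_pos (k : ℕ) : 0 < aD k := by
  unfold aD an
  positivity

theorem numer_inj (k a b a' b' c : ℕ) (h1 : a * aD k + b < aD k * aD k)
    (h2 : a' * aD k + b' < aD k * aD k) (h : numer k a b c = numer k a' b' c) :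
    a * aD k + b = a' * aD k + b' := by
  unfold numer at h
  have h3 : crd k a b c * (aD k : ℤ) ^ 2 + (a * aD k + b) =
      crd k a' b' c * (aD k : ℤ) ^ 2 + (a' * aD k + b') := by omega
  have h4 : (crd k a b c * (aD k : ℤ) ^ 2 + (a * aD k + b)) % (aD k : ℤ) ^ 2 =
      (crd k a' b' c * (aD k : ℤ) ^ 2 + (a' * aD k + b')) % (aD k : ℤ) ^ 2 := by rw [h3]
  have h5 : ∀ x y D : ℤ, (x * D + y) % D = y % D := fun x y D => by
    rw [add_comm, Int.add_mul_emod_self_right]
  rw [h5, h5, Int.emod_eq_of_lt (by positivity) (by rw [pow_two]; exact_mod_cast h1),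
    Int.emod_eq_of_lt (by positivity) (by rw [pow_two]; exact_mod_cast h2)] at h4
  exact_mod_cast h4

theorem inst_valid (k : ℕ) (hk : 1 ≤ k) (s : List ℕ) (th : ℤ)
    (h1 : ∀ a b, a < aD k → b < aD k → 1 ≤ chg k s a b) (h2 : chgSum k s < aT k) :
    (inst k s th).Valid := by
  have hD := aD_pos k
  refine ⟨?_, ?_, ?_, ?_, ?_⟩
  · show 1 ≤ aD k * aD k + 1
    omega
  · show Function.Injective (Fin.cons 0 (fun (β : Fin (aD k * aD k)) (c : Fin 3) =>
      (numer k (β / aD k) (β % aD k) c : ℚ) / 2 ^ bexp k) :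
        Fin (aD k * aD k + 1) → Fin 3 → ℚ)
    rw [Fin.cons_injective_iff]
    constructor
    · rintro ⟨β, hβ⟩
      have h3 := congrFun hβ 0
      simp only [Pi.zero_apply] at h3
      rw [div_eq_zero_iff] at h3
      rcases h3 with h3 | h3
      · have h4 : numer k (β / aD k) (β % aD k) ((0 : Fin 3) : ℕ) = 0 := by exact_mod_cast h3
        have h5 := numer_odd k (β / aD k) (β % aD k) ((0 : Fin 3) : ℕ)
        rw [h4] at h5
        omega
      · exact absurd h3 (by positivity)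
    · intro β β' hβ
      have h3 := congrFun hβ 0
      simp only at h3
      rw [div_left_inj' (by positivity)] at h3
      have h4 : numer k (β / aD k) (β % aD k) ((0 : Fin 3) : ℕ) =
          numer k (β' / aD k) (β' % aD k) ((0 : Fin 3) : ℕ) := by exact_mod_cast h3
      have e1 : (β : ℕ) / aD k * aD k + β % aD k = β := Nat.div_add_mod' _ _
      have e2 : (β' : ℕ) / aD k * aD k + β' % aD k = β' := Nat.div_add_mod' _ _
      have h5 := numer_inj k _ _ _ _ _ (by rw [e1]; exact β.2) (by rw [e2]; exact β'.2) h4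
      rw [e1, e2] at h5
      exact Fin.ext h5
  · intro α
    refine Fin.cases ?_ (fun β => ?_) α
    · show 1 ≤ aT k - chgSum k s
      omega
    · show 1 ≤ chg k s (β / aD k) (β % aD k)
      exact h1 _ _ (Nat.div_lt_of_lt_mul β.2) (Nat.mod_lt _ hD)
  · show 1 ≤ aN k
    unfold aN aK
    have : 0 < 2 ^ k := by positivity
    omega
  · show (th : ℚ) < (th : ℚ) + 1
    linarith

theorem listSum_range_eq (n : ℕ) (f : ℕ → ℕ) :
    ((List.range n).map f).sum = ∑ i ∈ range n, f i := by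
  induction n with
  | zero => simp
  | succ n ih => rw [List.range_succ, List.map_append, List.sum_append, ih, sum_range_succ]; simp

theorem chgSum_eq (k : ℕ) (s : List ℕ) :
    chgSum k s = ∑ β : Fin (pD k * pD k), chg k s (β / aD k) (β % aD k) := by
  unfold chgSum
  rw [listSum_range_eq]
  exact Finset.sum_range (fun β => chg k s (β / aD k) (β % aD k))

/-- the ground energy in terms of the scaled positions -/
theorem inst_E0 (k : ℕ) (s : List ℕ) (th : ℤ) (hN : aN k = pN k) :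
    (inst k s th).E0 = groundEnergy (M := pD k * pD k + 1)
      (Fin.cons 0 (fun β : Fin (pD k * pD k) => (1 / (pT k : ℝ)) •
        (WithLp.toLp 2 (fun c : Fin 3 =>
          (pT k : ℝ) * ((numer k (β / aD k) (β % aD k) c : ℝ) / 2 ^ bexp k)) : R3)))
      (Fin.cons (pT k - ∑ β : Fin (pD k * pD k), chg k s (β / aD k) (β % aD k))
        (fun β => chg k s (β / aD k) (β % aD k))) (pN k) := by
  have hT : (pT k : ℝ) ≠ 0 := by
    have : 0 < pT k := by unfold pT; positivity
    positivity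
  have e1 : (fun α => WithLp.toLp 2 (fun c => (((inst k s th).pos α c : ℚ) : ℝ)) :
      Fin (pD k * pD k + 1) → R3) =
      (Fin.cons 0 (fun β : Fin (pD k * pD k) => (1 / (pT k : ℝ)) •
        (WithLp.toLp 2 (fun c : Fin 3 =>
          (pT k : ℝ) * ((numer k (β / aD k) (β % aD k) c : ℝ) / 2 ^ bexp k)) : R3))) := by
    funext α
    refine Fin.cases ?_ (fun β => ?_) α
    · rw [Fin.cons_zero]
      ext c
      show (((0 : ℚ)) : ℝ) = 0
      simp
    · rw [Fin.cons_succ]
      ext c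
      show ((((numer k (β / aD k) (β % aD k) c : ℤ) : ℚ) / 2 ^ bexp k : ℚ) : ℝ) =
        (1 / (pT k : ℝ)) * ((pT k : ℝ) * ((numer k (β / aD k) (β % aD k) c : ℝ) / 2 ^ bexp k))
      push_cast
      field_simp
  have e2 : (inst k s th).charge = (Fin.cons (pT k - ∑ β : Fin (pD k * pD k),
      chg k s (β / aD k) (β % aD k)) (fun β => chg k s (β / aD k) (β % aD k)) :
        Fin (pD k * pD k + 1) → ℕ) := by
    rw [← chgSum_eq]
    rfl
  rw [← hN, ← e1, ← e2]
  rfl

theorem build_length (k : ℕ) (s : List ℕ) (th : ℤ) : 1 ≤ (build k s th).length := by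
  simp [build]

/-- the queried word is a yes or no instance of the promise problem -/
theorem build_promise (k : ℕ) (hk : 1 ≤ k) (s : List ℕ) (th : ℤ) (c : ℕ)
    (h1 : ∀ a b, a < aD k → b < aD k → 1 ≤ chg k s a b) (h2 : chgSum k s < aT k) (E : ℝ)
    (hE : (inst k s th).E0 = (E : EReal)) :
    (E ≤ th → build k s th ∈ (electronicStructure c).yes) ∧
    ((th : ℝ) + 1 ≤ E → build k s th ∈ (electronicStructure c).no) := by
  have hv := inst_valid k hk s th h1 h2
  have he := encInstance_inst k s th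
  have hgap : 1 / ((build k s th).length : ℚ) ^ c ≤ (inst k s th).b - (inst k s th).a := by
    have e1 : (inst k s th).b - (inst k s th).a = 1 := by
      show ((th : ℚ) + 1) - (th : ℚ) = 1
      ring
    rw [e1]
    have h3 : (1 : ℚ) ≤ (build k s th).length := by exact_mod_cast build_length k s th
    have h4 : (1 : ℚ) ≤ ((build k s th).length : ℚ) ^ c := one_le_pow₀ h3
    rw [div_le_one (by positivity)]
    exact h4
  constructor
  · intro h
    refine ⟨inst k s th, hv, he, hgap, ?_⟩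
    rw [hE]
    have e2 : (((inst k s th).a : ℚ) : ℝ) = (th : ℝ) := by
      show (((th : ℤ) : ℚ) : ℝ) = (th : ℝ)
      push_cast
      rfl
    rw [e2]
    exact_mod_cast h
  · intro h
    refine ⟨inst k s th, hv, he, hgap, ?_⟩
    rw [hE]
    have e2 : (((inst k s th).b : ℚ) : ℝ) = (th : ℝ) + 1 := by
      show ((((th : ℤ) : ℚ) + 1 : ℚ) : ℝ) = (th : ℝ) + 1
      push_cast
      rfl
    rw [e2]
    exact_mod_cast h

end Vale.Agent.P370.Q.Alg
end
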