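import Vale.Agent.P370.MathlibUsed
import Vale.Agent.P370.Bdl.B3
import Vale.Agent.P370.Bdl.B2
import Vale.Agent.P370.QStmt

set_option linter.all false

section

open MeasureTheory

namespace Vale.Agent.P370

abbrev E3 := EuclideanSpace ℝ (Fin 3)

theorem ibp_body {V : Type*} [NormedAddCommGroup V] [NormedSpace ℝ V] [FiniteDimensional ℝ V]
    [MeasurableSpace V] [BorelSpace V] (μ : Measure V) [μ.IsAddHaarMeasure]
    (g : V → ℂ) (hg : ContDiff ℝ 1 g) (hc : HasCompactSupport g)
    (l : V →L[ℝ] E3) (v : Fin 3 → V) (hv : ∀ c, l (v c) = EuclideanSpace.single c 1)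
    (G : Fin 3 → E3 → ℝ) (hG : ∀ c, ContDiff ℝ 1 (G c)) :
    ∫ x, (∑ c, (fderiv ℝ (G c) (l x) (EuclideanSpace.single c 1) - G c (l x) ^ 2)) * ‖g x‖ ^ 2 ∂μ
      ≤ ∫ x, ∑ c, ‖fderiv ℝ g x (v c)‖ ^ 2 ∂μ := by
  have hn : Continuous (fun x => ‖g x‖ ^ 2) := by have := hg.continuous; fun_prop
  have hnc : HasCompactSupport (fun x => ‖g x‖ ^ 2) :=
    hc.comp_left (g := fun z : ℂ => ‖z‖ ^ 2) (by simp only [norm_zero, ne_eq, OfNat.ofNat_ne_zero, not_false_eq_true, zero_pow])
  have hgdc : ∀ w, HasCompactSupport (fun x => fderiv ℝ g x w) := fun w => by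
    have := hc.fderiv (𝕜 := ℝ)
    exact this.comp_left (g := fun (L : V →L[ℝ] ℂ) => L w) (by simp)
  have cgd : ∀ w, Continuous (fun x => fderiv ℝ g x w) := fun w =>
    (hg.continuous_fderiv (by norm_num)).clm_apply continuous_const
  have cG : ∀ c, Continuous (fun x => G c (l x)) := fun c =>
    (hG c).continuous.comp l.continuous
  have cGd : ∀ c, Continuous (fun x => fderiv ℝ (G c) (l x) (EuclideanSpace.single c 1)) :=
    fun c => (((hG c).continuous_fderiv (by norm_num)).comp l.continuous).clm_apply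
      continuous_const
  have h1 : ∀ c, ∫ x, (fderiv ℝ (G c) (l x) (EuclideanSpace.single c 1) - G c (l x) ^ 2)
      * ‖g x‖ ^ 2 ∂μ ≤ ∫ x, ‖fderiv ℝ g x (v c)‖ ^ 2 ∂μ := by
    intro c
    have := ibp_dir μ g hg hc (fun x => G c (l x)) ((hG c).comp l.contDiff) (v c)
    refine le_trans (le_of_eq ?_) this
    congr 1
    ext x
    congr 2
    have hd : HasFDerivAt (fun x => G c (l x)) ((fderiv ℝ (G c) (l x)).comp l) x :=
      (((hG c).differentiable (by norm_num)) (l x)).hasFDerivAt.comp x l.hasFDerivAt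
    rw [hd.fderiv]
    simp only [ContinuousLinearMap.comp_apply, hv]
  calc _ = ∑ c, ∫ x, (fderiv ℝ (G c) (l x) (EuclideanSpace.single c 1) - G c (l x) ^ 2)
      * ‖g x‖ ^ 2 ∂μ := by
        rw [← integral_finsetSum]
        · congr 1; ext x; rw [Finset.sum_mul]
        · intro c _
          exact Continuous.integrable_of_hasCompactSupport
            (((cGd c).sub ((cG c).pow 2)).mul hn) hnc.mul_left
    _ ≤ ∑ c, ∫ x, ‖fderiv ℝ g x (v c)‖ ^ 2 ∂μ := Finset.sum_le_sum fun c _ => h1 c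
    _ = _ := by
        rw [← integral_finsetSum]
        intro c _
        apply Continuous.integrable_of_hasCompactSupport
        · have := cgd (v c); (clear * - hg; fun_prop)
        · exact (hgdc (v c)).comp_left (g := fun z : ℂ => ‖z‖ ^ 2) (by simp)

/-- regularised radius -/
noncomputable def sreg (δ : ℝ) (y : E3) : ℝ := Real.sqrt (‖y‖ ^ 2 + δ ^ 2)

theorem sreg_pos {δ : ℝ} (hδ : 0 < δ) (y : E3) : 0 < sreg δ y :=
  Real.sqrt_pos.2 (by positivity)

theorem sreg_sq (δ : ℝ) (y : E3) : sreg δ y ^ 2 = ‖y‖ ^ 2 + δ ^ 2 :=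
  Real.sq_sqrt (by (clear * -; positivity))

theorem norm_le_sreg (δ : ℝ) (y : E3) : ‖y‖ ≤ sreg δ y :=
  Real.le_sqrt_of_sq_le (by nlinarith [sq_nonneg δ])

theorem le_sreg {δ : ℝ} (y : E3) : δ ≤ sreg δ y :=
  Real.le_sqrt_of_sq_le (by nlinarith [sq_nonneg ‖y‖])

/-- component of the radial vector field -/
noncomputable def fld (h : ℝ → ℝ) (δ : ℝ) (c : Fin 3) (y : E3) : ℝ :=
  h (‖y‖ ^ 2) * y c / sreg δ y

theorem contDiff_sreg {δ : ℝ} (hδ : 0 < δ) {n} : ContDiff ℝ n (sreg δ) := by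
  unfold sreg
  apply ContDiff.sqrt
  · exact (contDiff_norm_sq ℝ).add contDiff_const
  · intro y; positivity

theorem contDiff_fld {h : ℝ → ℝ} (hh : ContDiff ℝ 1 h) {δ : ℝ} (hδ : 0 < δ) (c : Fin 3) :
    ContDiff ℝ 1 (fld h δ c) := by
  unfold fld
  apply ContDiff.div
  · apply ContDiff.mul
    · exact hh.comp (contDiff_norm_sq ℝ)
    · fun_prop
  · exact contDiff_sreg hδ
  · intro y; exact (sreg_pos hδ y).ne'

theorem hasFDerivAt_sreg {δ : ℝ} (hδ : 0 < δ) (y : E3) :
    HasFDerivAt (sreg δ) ((1 / sreg δ y) • (innerSL ℝ y)) y := by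
  have h1 : HasFDerivAt (fun y : E3 => ‖y‖ ^ 2 + δ ^ 2) (2 • (innerSL ℝ y)) y :=
    (hasStrictFDerivAt_norm_sq y).hasFDerivAt.add_const _
  have h2 := h1.sqrt (by positivity)
  refine h2.congr_fderiv ?_
  ext w
  simp only [sreg]
  have : Real.sqrt (‖y‖ ^ 2 + δ ^ 2) ≠ 0 := (sreg_pos hδ y).ne'
  simp only [one_div, mul_inv_rev, smul_apply, coe_innerSL_apply, nsmul_eq_mul, Nat.cast_ofNat, smul_eq_mul]
  field_simp

theorem fderiv_fld {h h' : ℝ → ℝ} (hh : ∀ t, HasDerivAt h (h' t) t) {δ : ℝ} (hδ : 0 < δ)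
    (c : Fin 3) (y : E3) :
    fderiv ℝ (fld h δ c) y (EuclideanSpace.single c 1)
      = h (‖y‖ ^ 2) / sreg δ y + 2 * h' (‖y‖ ^ 2) * (y c) ^ 2 / sreg δ y
        - h (‖y‖ ^ 2) * (y c) ^ 2 / sreg δ y ^ 3 := by
  have hs : sreg δ y ≠ 0 := (sreg_pos hδ y).ne'
  have h1 : HasFDerivAt (fun y : E3 => ‖y‖ ^ 2) (2 • (innerSL ℝ y)) y :=
    (hasStrictFDerivAt_norm_sq y).hasFDerivAt
  have h2 : HasFDerivAt (fun y : E3 => h (‖y‖ ^ 2)) (h' (‖y‖ ^ 2) • (2 • (innerSL ℝ y))) y :=
    (hh (‖y‖ ^ 2)).comp_hasFDerivAt y h1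
  have h3 : HasFDerivAt (fun y : E3 => y c) (EuclideanSpace.proj c : E3 →L[ℝ] ℝ) y :=
    (EuclideanSpace.proj c : E3 →L[ℝ] ℝ).hasFDerivAt
  have hinv : HasFDerivAt (fun y : E3 => (sreg δ y)⁻¹)
      ((-(sreg δ y ^ 2)⁻¹) • ((1 / sreg δ y) • (innerSL ℝ y))) y :=
    (hasDerivAt_inv hs).comp_hasFDerivAt y (hasFDerivAt_sreg hδ y)
  have h4 := (h2.mul h3).mul hinv
  have h5 : fld h δ c = ((fun y : E3 => h (‖y‖ ^ 2)) * fun y => y c) * fun y => (sreg δ y)⁻¹ := by
    ext y; simp only [fld, div_eq_mul_inv, Pi.mul_apply]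
  rw [h5, h4.fderiv]
  have e1 : inner ℝ y (EuclideanSpace.single c (1:ℝ)) = y c := by
    simp only [EuclideanSpace.inner_single_right, Real.ringHom_apply, one_mul]
  simp [e1]
  field_simp
  ring

theorem div_fld {h h' : ℝ → ℝ} (hh : ∀ t, HasDerivAt h (h' t) t) {δ : ℝ} (hδ : 0 < δ)
    (y : E3) :
    ∑ c, fderiv ℝ (fld h δ c) y (EuclideanSpace.single c 1)
      = 3 * h (‖y‖ ^ 2) / sreg δ y + 2 * h' (‖y‖ ^ 2) * ‖y‖ ^ 2 / sreg δ y
        - h (‖y‖ ^ 2) * ‖y‖ ^ 2 / sreg δ y ^ 3 := by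
  simp_rw [fderiv_fld hh hδ]
  rw [EuclideanSpace.real_norm_sq_eq]
  simp only [Fin.sum_univ_three]
  ring

theorem sq_fld (h : ℝ → ℝ) (δ : ℝ) (y : E3) :
    ∑ c, fld h δ c y ^ 2 = h (‖y‖ ^ 2) ^ 2 * ‖y‖ ^ 2 / sreg δ y ^ 2 := by
  simp only [fld]
  rw [EuclideanSpace.real_norm_sq_eq]
  simp only [Fin.sum_univ_three]
  ring

end Vale.Agent.P370
end

section

open MeasureTheory Filter Topology

namespace Vale.Agent.P370

section
variable {V : Type*} [NormedAddCommGroup V] [NormedSpace ℝ V] [FiniteDimensional ℝ V]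
    [MeasurableSpace V] [BorelSpace V]

theorem ibp_centers (μ : Measure V) [μ.IsAddHaarMeasure]
    (g : V → ℂ) (hg : ContDiff ℝ 1 g) (hc : HasCompactSupport g)
    (l : V →L[ℝ] E3) (v : Fin 3 → V) (hv : ∀ c, l (v c) = EuclideanSpace.single c 1)
    {ι : Type*} [Fintype ι] (R : ι → E3)
    {h h' : ℝ → ℝ} (hh1 : ContDiff ℝ 1 h) (hh : ∀ t, HasDerivAt h (h' t) t) {δ : ℝ} (hδ : 0 < δ) :
    ∫ x, ((∑ a, (3 * h (‖l x - R a‖ ^ 2) / sreg δ (l x - R a)
          + 2 * h' (‖l x - R a‖ ^ 2) * ‖l x - R a‖ ^ 2 / sreg δ (l x - R a)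
          - h (‖l x - R a‖ ^ 2) * ‖l x - R a‖ ^ 2 / sreg δ (l x - R a) ^ 3))
        - ∑ c, (∑ a, fld h δ c (l x - R a)) ^ 2) * ‖g x‖ ^ 2 ∂μ
      ≤ ∫ x, ∑ c, ‖fderiv ℝ g x (v c)‖ ^ 2 ∂μ := by
  have hG : ∀ c, ContDiff ℝ 1 (fun y : E3 => ∑ a, fld h δ c (y - R a)) := by
    intro c
    apply ContDiff.sum
    intro a _
    exact (contDiff_fld hh1 hδ c).comp (contDiff_id.sub contDiff_const)
  have := ibp_body μ g hg hc l v hv (fun c y => ∑ a, fld h δ c (y - R a)) hG
  refine le_trans (le_of_eq ?_) this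
  congr 1
  ext x
  congr 1
  have hd : ∀ c, fderiv ℝ (fun y : E3 => ∑ a, fld h δ c (y - R a)) (l x)
      (EuclideanSpace.single c 1)
      = ∑ a, fderiv ℝ (fld h δ c) (l x - R a) (EuclideanSpace.single c 1) := by
    intro c
    have h1 : ∀ a, HasFDerivAt (fun y : E3 => fld h δ c (y - R a))
        (fderiv ℝ (fld h δ c) (l x - R a)) (l x) := by
      intro a
      have h2 : HasFDerivAt (fld h δ c) (fderiv ℝ (fld h δ c) (l x - R a)) (l x - R a) :=
        ((contDiff_fld hh1 hδ c).differentiable (by norm_num) _).hasFDerivAt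
      have h3 : HasFDerivAt (fun y : E3 => y - R a) (ContinuousLinearMap.id ℝ E3) (l x) :=
        (hasFDerivAt_id _).sub_const _
      have h5 := h2.comp (l x) h3
      rw [ContinuousLinearMap.comp_id] at h5
      exact h5
    have h4 : HasFDerivAt (fun y : E3 => ∑ a, fld h δ c (y - R a))
        (∑ a, fderiv ℝ (fld h δ c) (l x - R a)) (l x) :=
      HasFDerivAt.fun_sum fun a _ => h1 a
    rw [h4.fderiv]
    simp only [sum_apply]
  have e1 : ∑ c, ((fderiv ℝ (fun y : E3 => ∑ a, fld h δ c (y - R a)) (l x))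
      (EuclideanSpace.single c 1) - (∑ a, fld h δ c (l x - R a)) ^ 2)
      = ∑ a, ∑ c, fderiv ℝ (fld h δ c) (l x - R a) (EuclideanSpace.single c 1)
        - ∑ c, (∑ a, fld h δ c (l x - R a)) ^ 2 := by
    rw [Finset.sum_sub_distrib, Finset.sum_comm]
    simp_rw [hd]
  rw [e1]
  congr 1
  refine Finset.sum_congr rfl fun a _ => ?_
  rw [div_fld hh hδ]

/-- Hydrogen-type bound with regularised Coulomb potential. -/
theorem hydrogen_reg (μ : Measure V) [μ.IsAddHaarMeasure]
    (g : V → ℂ) (hg : ContDiff ℝ 1 g) (hc : HasCompactSupport g)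
    (l : V →L[ℝ] E3) (v : Fin 3 → V) (hv : ∀ c, l (v c) = EuclideanSpace.single c 1)
    (w : E3) {δ : ℝ} (hδ : 0 < δ) (κ : ℝ) (hκ : 0 ≤ κ) :
    ∫ x, 2 * κ / sreg δ (l x - w) * ‖g x‖ ^ 2 ∂μ
      ≤ ∫ x, ∑ c, ‖fderiv ℝ g x (v c)‖ ^ 2 ∂μ + κ ^ 2 * ∫ x, ‖g x‖ ^ 2 ∂μ := by
  have h1 := ibp_centers μ g hg hc l v hv (fun _ : Unit => w) (h := fun _ => κ)
    (h' := fun _ => 0) contDiff_const (fun t => hasDerivAt_const t κ) hδ
  have hn : Continuous (fun x => ‖g x‖ ^ 2) := by have := hg.continuous; fun_prop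
  have hnc : HasCompactSupport (fun x => ‖g x‖ ^ 2) :=
    hc.comp_left (g := fun z : ℂ => ‖z‖ ^ 2) (by simp only [norm_zero, ne_eq, OfNat.ofNat_ne_zero, not_false_eq_true, zero_pow])
  have cs : Continuous (fun x => sreg δ (l x - w)) :=
    (contDiff_sreg hδ (n := 0)).continuous.comp (by (clear * -; fun_prop))
  have hs : ∀ x, sreg δ (l x - w) ≠ 0 := fun x => (sreg_pos hδ _).ne'
  have i1 : Integrable (fun x => 2 * κ / sreg δ (l x - w) * ‖g x‖ ^ 2) μ := by
    apply Continuous.integrable_of_hasCompactSupport _ hnc.mul_left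
    exact (continuous_const.div cs hs).mul hn
  have i2 : Integrable (fun x => ‖g x‖ ^ 2) μ := hn.integrable_of_hasCompactSupport hnc
  have i3 : Integrable (fun x => (2 * κ / sreg δ (l x - w) - κ ^ 2) * ‖g x‖ ^ 2) μ := by
    apply Continuous.integrable_of_hasCompactSupport _ hnc.mul_left
    exact ((continuous_const.div cs hs).sub continuous_const).mul hn
  have h2 : ∫ x, (2 * κ / sreg δ (l x - w) - κ ^ 2) * ‖g x‖ ^ 2 ∂μ
      ≤ ∫ x, ∑ c, ‖fderiv ℝ g x (v c)‖ ^ 2 ∂μ := by
    refine le_trans ?_ h1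
    apply integral_mono i3
    · apply Continuous.integrable_of_hasCompactSupport _ hnc.mul_left
      have cf : ∀ c, Continuous (fun x => fld (fun _ => κ) δ c (l x - w)) := fun c =>
        (contDiff_fld contDiff_const hδ c).continuous.comp (by fun_prop)
      have cl : Continuous (fun x => ‖l x - w‖ ^ 2) := by fun_prop
      apply Continuous.mul _ hn
      apply Continuous.sub
      · apply continuous_finsetSum
        intro _ _
        apply Continuous.sub
        · apply Continuous.add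
          · exact continuous_const.div cs hs
          · exact (continuous_const.mul cl).div cs hs
        · exact (continuous_const.mul cl).div (cs.pow 3) (fun x => pow_ne_zero 3 (hs x))
      · apply continuous_finsetSum
        intro c _
        apply Continuous.pow
        apply continuous_finsetSum
        intro _ _
        exact cf c
    · intro x
      apply mul_le_mul_of_nonneg_right _ (by positivity)
      simp only [Finset.univ_unique, Finset.sum_singleton, mul_zero, zero_mul, zero_div, add_zero]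
      have e1 := sq_fld (fun _ => κ) δ (l x - w)
      rw [e1]
      have hp := sreg_pos hδ (l x - w)
      have hsq := sreg_sq δ (l x - w)
      set s := sreg δ (l x - w) with hsdef
      set r := ‖l x - w‖
      have hrs : r ^ 2 ≤ s ^ 2 := by linarith only [hsq, sq_nonneg δ]
      have e2 : κ * r ^ 2 / s ^ 3 ≤ κ / s := by
        rw [div_le_div_iff₀ (by (clear * - hp; positivity)) hp]
        linarith only [mul_le_mul_of_nonneg_left hrs (mul_nonneg hκ hp.le)]
      have e3 : κ ^ 2 * r ^ 2 / s ^ 2 ≤ κ ^ 2 := by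
        rw [div_le_iff₀ (by positivity)]
        exact mul_le_mul_of_nonneg_left hrs (by (clear * -; positivity))
      have e4 : 3 * κ / s = 2 * κ / s + κ / s := by ring
      linarith only [e2, e3, e4]
  have h3 : ∫ x, (2 * κ / sreg δ (l x - w) - κ ^ 2) * ‖g x‖ ^ 2 ∂μ
      = ∫ x, 2 * κ / sreg δ (l x - w) * ‖g x‖ ^ 2 ∂μ - κ ^ 2 * ∫ x, ‖g x‖ ^ 2 ∂μ := by
    rw [← integral_const_mul, ← integral_sub i1 (i2.const_mul _)]
    congr 1; ext x; ring
  linarith only [h2, h3]

theorem tendsto_sreg_seq (y : E3) :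
    Tendsto (fun n : ℕ => sreg (1 / ((n : ℝ) + 1)) y) atTop (𝓝 ‖y‖) := by
  have h1 : Tendsto (fun n : ℕ => 1 / ((n : ℝ) + 1)) atTop (𝓝 0) :=
    tendsto_one_div_add_atTop_nhds_zero_nat
  have h2 : Tendsto (fun δ : ℝ => sreg δ y) (𝓝 0) (𝓝 (sreg 0 y)) := by
    have : Continuous (fun δ : ℝ => sreg δ y) := by unfold sreg; fun_prop
    exact this.tendsto 0
  have h3 : sreg 0 y = ‖y‖ := by simp only [sreg, ne_eq, OfNat.ofNat_ne_zero, not_false_eq_true, zero_pow, add_zero, norm_nonneg, Real.sqrt_sq]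
  rw [← h3]
  exact h2.comp h1

theorem coulomb_integrable (μ : Measure V) [μ.IsAddHaarMeasure]
    (g : V → ℂ) (hg : ContDiff ℝ 1 g) (hc : HasCompactSupport g)
    (l : V →L[ℝ] E3) (v : Fin 3 → V) (hv : ∀ c, l (v c) = EuclideanSpace.single c 1)
    (w : E3) : Integrable (fun x => ‖g x‖ ^ 2 / ‖l x - w‖) μ := by
  have hn : Continuous (fun x => ‖g x‖ ^ 2) := by have := hg.continuous; fun_prop
  have hnc : HasCompactSupport (fun x => ‖g x‖ ^ 2) :=
    hc.comp_left (g := fun z : ℂ => ‖z‖ ^ 2) (by simp)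
  have hl : Continuous (fun x => ‖l x - w‖) := by (clear * -; fun_prop)
  have hdn : ∀ n : ℕ, (0:ℝ) < 1 / ((n : ℝ) + 1) := fun n => by positivity
  refine (fatou_real (F := fun n x => ‖g x‖ ^ 2 / sreg (1 / ((n : ℝ) + 1)) (l x - w))
    (K := (∫ x, ∑ c, ‖fderiv ℝ g x (v c)‖ ^ 2 ∂μ + 1 ^ 2 * ∫ x, ‖g x‖ ^ 2 ∂μ) / 2)
    ?_ ?_ ?_ ?_ ?_ ?_).1
  · exact hn.measurable.div hl.measurable
  · intro x; positivity
  · intro n
    have cs : Continuous (fun x => sreg (1 / ((n : ℝ) + 1)) (l x - w)) :=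
      (contDiff_sreg (hdn n) (n := 0)).continuous.comp (by fun_prop)
    have : (fun x => ‖g x‖ ^ 2 / sreg (1 / ((n : ℝ) + 1)) (l x - w))
        = fun x => (sreg (1 / ((n : ℝ) + 1)) (l x - w))⁻¹ * ‖g x‖ ^ 2 := by
      ext x; rw [div_eq_inv_mul]
    rw [this]
    exact Continuous.integrable_of_hasCompactSupport
      ((cs.inv₀ (fun x => (sreg_pos (hdn n) _).ne')).mul hn) hnc.mul_left
  · intro n x
    have := sreg_pos (hdn n) (l x - w)
    (clear * - this; positivity)
  · intro x
    by_cases h0 : l x - w = 0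
    · left; rw [h0]; simp only [norm_zero, div_zero]
    · right
      have h1 : ‖l x - w‖ ≠ 0 := norm_ne_zero_iff.2 h0
      exact (tendsto_const_nhds).div (tendsto_sreg_seq _) h1
  · intro n
    have := hydrogen_reg μ g hg hc l v hv w (hdn n) 1 (by norm_num)
    have e : ∫ x, 2 * 1 / sreg (1 / ((n : ℝ) + 1)) (l x - w) * ‖g x‖ ^ 2 ∂μ
        = 2 * ∫ x, ‖g x‖ ^ 2 / sreg (1 / ((n : ℝ) + 1)) (l x - w) ∂μ := by
      rw [← integral_const_mul]
      congr 1; ext x; ring
    rw [e] at this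
    linarith only [this]

theorem sq_sum_of_mul_zero {ι : Type*} [Fintype ι] (f : ι → ℝ)
    (hf : ∀ a b, a ≠ b → f a * f b = 0) : (∑ a, f a) ^ 2 = ∑ a, f a ^ 2 := by
  classical
  rw [sq, Finset.sum_mul_sum]
  refine Finset.sum_congr rfl fun a _ => ?_
  rw [Finset.sum_eq_single a]
  · ring
  · intro b _ hb; exact hf a b hb.symm
  · intro h; exact absurd (Finset.mem_univ a) h

theorem onebody_lower_aux (μ : Measure V) [μ.IsAddHaarMeasure]
    (g : V → ℂ) (hg : ContDiff ℝ 1 g) (hc : HasCompactSupport g)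
    (l : V →L[ℝ] E3) (v : Fin 3 → V) (hv : ∀ c, l (v c) = EuclideanSpace.single c 1)
    {ι : Type*} [Fintype ι] (R : ι → E3) {ρ : ℝ} (hρ : 0 < ρ)
    (hR : ∀ a b, a ≠ b → 2 * ρ ≤ ‖R a - R b‖) {δ : ℝ} (hδ : 0 < δ) :
    ∫ x, (∑ a, 2 * tau ρ (‖l x - R a‖ ^ 2) ^ 2 / sreg δ (l x - R a)) * ‖g x‖ ^ 2 ∂μ
      ≤ ∫ x, ∑ c, ‖fderiv ℝ g x (v c)‖ ^ 2 ∂μ +
        ∫ x, (∑ a, (4 * ‖l x - R a‖ / ρ ^ 2 * tau ρ (‖l x - R a‖ ^ 2)
          + tau ρ (‖l x - R a‖ ^ 2) ^ 4)) * ‖g x‖ ^ 2 ∂μ := by
  have h1 := ibp_centers μ g hg hc l v hv R (contDiff_tau_sq ρ) (hasDerivAt_tau_sq ρ) hδ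
  have hn : Continuous (fun x => ‖g x‖ ^ 2) := by have := hg.continuous; fun_prop
  have hnc : HasCompactSupport (fun x => ‖g x‖ ^ 2) :=
    hc.comp_left (g := fun z : ℂ => ‖z‖ ^ 2) (by simp)
  have cs : ∀ a, Continuous (fun x => sreg δ (l x - R a)) := fun a =>
    (contDiff_sreg hδ (n := 0)).continuous.comp (by (clear * -; fun_prop))
  have hs : ∀ a x, sreg δ (l x - R a) ≠ 0 := fun a x => (sreg_pos hδ _).ne'
  have cl : ∀ a, Continuous (fun x => ‖l x - R a‖) := fun a => by (clear * -; fun_prop)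
  have ct : ∀ a, Continuous (fun x => tau ρ (‖l x - R a‖ ^ 2)) := fun a =>
    (continuous_tau ρ).comp ((cl a).pow 2)
  have cP : Continuous (fun x => ∑ a, 2 * tau ρ (‖l x - R a‖ ^ 2) ^ 2 / sreg δ (l x - R a)) := by
    apply continuous_finsetSum
    intro a _
    exact (continuous_const.mul ((ct a).pow 2)).div (cs a) (hs a)
  have cQ : Continuous (fun x => ∑ a, (4 * ‖l x - R a‖ / ρ ^ 2 * tau ρ (‖l x - R a‖ ^ 2)
          + tau ρ (‖l x - R a‖ ^ 2) ^ 4)) := by
    apply continuous_finsetSum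
    intro a _
    exact (((continuous_const.mul (cl a)).div_const _).mul (ct a)).add ((ct a).pow 4)
  have cf : ∀ c a, Continuous (fun x => fld (fun t => tau ρ t ^ 2) δ c (l x - R a)) := fun c a =>
    (contDiff_fld (contDiff_tau_sq ρ) hδ c).continuous.comp (by (clear * -; fun_prop))
  have iP : Integrable (fun x => (∑ a, 2 * tau ρ (‖l x - R a‖ ^ 2) ^ 2 / sreg δ (l x - R a))
      * ‖g x‖ ^ 2) μ := (cP.mul hn).integrable_of_hasCompactSupport (μ := μ) hnc.mul_left
  have iQ : Integrable (fun x => (∑ a, (4 * ‖l x - R a‖ / ρ ^ 2 * tau ρ (‖l x - R a‖ ^ 2)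
      + tau ρ (‖l x - R a‖ ^ 2) ^ 4)) * ‖g x‖ ^ 2) μ :=
    (cQ.mul hn).integrable_of_hasCompactSupport (μ := μ) hnc.mul_left
  rw [← sub_le_iff_le_add, ← integral_sub iP iQ]
  refine le_trans ?_ h1
  apply integral_mono (iP.sub iQ)
  · apply Continuous.integrable_of_hasCompactSupport _ hnc.mul_left
    apply Continuous.mul _ hn
    apply Continuous.sub
    · apply continuous_finsetSum
      intro a _
      apply Continuous.sub
      · apply Continuous.add
        · exact (continuous_const.mul ((ct a).pow 2)).div (cs a) (hs a)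
        · exact ((continuous_const.mul (continuous_const.mul (ct a))).mul ((cl a).pow 2)).div
            (cs a) (hs a)
      · exact (((ct a).pow 2).mul ((cl a).pow 2)).div ((cs a).pow 3)
          (fun x => pow_ne_zero 3 (hs a x))
    · apply continuous_finsetSum
      intro c _
      apply Continuous.pow
      apply continuous_finsetSum
      intro a _
      exact cf c a
  · intro x
    have hz : ∀ a b, a ≠ b → tau ρ (‖l x - R a‖ ^ 2) * tau ρ (‖l x - R b‖ ^ 2) = 0 := by
      intro a b hab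
      by_cases ha : ρ ≤ ‖l x - R a‖
      · rw [tau_eq_zero hρ (by (clear * - hρ ha; gcongr)), zero_mul]
      · have hb : ρ ≤ ‖l x - R b‖ := by
          have h2 := hR a b hab
          have h3 : ‖R a - R b‖ ≤ ‖l x - R b‖ + ‖l x - R a‖ := by
            calc ‖R a - R b‖ = ‖(l x - R b) - (l x - R a)‖ := by congr 1; abel
              _ ≤ _ := norm_sub_le _ _
          push Not at ha
          linarith only [h2, h3, ha]
        rw [tau_eq_zero hρ (t := ‖l x - R b‖ ^ 2) (by (clear * - hρ hb; gcongr)), mul_zero]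
    simp only [Pi.sub_apply]
    rw [← sub_mul]
    apply mul_le_mul_of_nonneg_right _ (by (clear * -; positivity))
    have e1 : ∑ c, (∑ a, fld (fun t => tau ρ t ^ 2) δ c (l x - R a)) ^ 2
        = ∑ a, (tau ρ (‖l x - R a‖ ^ 2) ^ 2) ^ 2 * ‖l x - R a‖ ^ 2 / sreg δ (l x - R a) ^ 2 := by
      have : ∀ c, (∑ a, fld (fun t => tau ρ t ^ 2) δ c (l x - R a)) ^ 2
          = ∑ a, fld (fun t => tau ρ t ^ 2) δ c (l x - R a) ^ 2 := by
        intro c
        apply sq_sum_of_mul_zero
        intro a b hab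
        simp only [fld]
        have := hz a b hab
        calc _ = (tau ρ (‖l x - R a‖ ^ 2) * tau ρ (‖l x - R b‖ ^ 2)) ^ 2
            * ((l x - R a) c * (l x - R b) c / (sreg δ (l x - R a) * sreg δ (l x - R b))) := by
              ring
          _ = 0 := by rw [this]; ring
      simp_rw [this]
      rw [Finset.sum_comm]
      refine Finset.sum_congr rfl fun a _ => ?_
      rw [sq_fld]
    rw [e1, ← Finset.sum_sub_distrib, ← Finset.sum_sub_distrib]
    apply Finset.sum_le_sum
    intro a _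
    have hp := sreg_pos hδ (l x - R a)
    have hsq := sreg_sq δ (l x - R a)
    have hns := norm_le_sreg δ (l x - R a)
    have ht0 := tau_nonneg ρ (‖l x - R a‖ ^ 2)
    have hr0 := norm_nonneg (l x - R a)
    set s := sreg δ (l x - R a) with hsdef
    set r := ‖l x - R a‖
    set t := tau ρ (r ^ 2)
    have hrs : r ^ 2 ≤ s ^ 2 := by linarith only [hsq, sq_nonneg δ]
    have e2 : t ^ 2 * r ^ 2 / s ^ 3 ≤ t ^ 2 / s := by
      rw [div_le_div_iff₀ (by (clear * - hp; positivity)) hp]
      linarith only [mul_le_mul_of_nonneg_left hrs (mul_nonneg (sq_nonneg t) hp.le)]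
    have e3 : (t ^ 2) ^ 2 * r ^ 2 / s ^ 2 ≤ t ^ 4 := by
      rw [div_le_iff₀ (by (clear * - hp; positivity))]
      linarith only [mul_le_mul_of_nonneg_left hrs (by positivity : 0 ≤ t ^ 4)]
    have e4 : 3 * t ^ 2 / s = 2 * t ^ 2 / s + t ^ 2 / s := by ring
    have e5 : -(4 * r / ρ ^ 2 * t) ≤ 2 * (-(2 / ρ ^ 2) * t) * r ^ 2 / s := by
      have h6 : r ^ 2 / s ≤ r := by
        rw [div_le_iff₀ hp]; nlinarith only [hr0, hns]
      have h7 : 2 * (-(2 / ρ ^ 2) * t) * r ^ 2 / s = -(4 / ρ ^ 2 * t * (r ^ 2 / s)) := by ring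
      have h8 : 4 * r / ρ ^ 2 * t = 4 / ρ ^ 2 * t * r := by ring
      rw [h7, h8]
      apply neg_le_neg
      apply mul_le_mul_of_nonneg_left h6 (by (clear * - hρ ht0; positivity))
    linarith only [e2, e3, e4, e5]

end

end Vale.Agent.P370
end

section

open MeasureTheory Filter Topology

namespace Vale.Agent.P370

/-- effective one-centre potential -/
noncomputable def ueff (ρ r : ℝ) : ℝ :=
  tau ρ (r ^ 2) ^ 2 / r - 2 * r / ρ ^ 2 * tau ρ (r ^ 2) - tau ρ (r ^ 2) ^ 4 / 2 - 1 / r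

theorem ueff_far {ρ r : ℝ} (hρ : 0 < ρ) (h : ρ ≤ r) : ueff ρ r = -(1 / r) := by
  unfold ueff
  rw [tau_eq_zero hρ (by gcongr)]
  ring

theorem ueff_near {ρ r : ℝ} (hρ : 0 < ρ) (hr : 0 ≤ r) (h : r ≤ ρ) :
    -(1 / 2) - 8 / ρ ^ 2 ≤ ueff ρ r := by
  have ht : tau ρ (r ^ 2) = 1 - (r / ρ) ^ 2 := by
    unfold tau
    rw [div_pow]
    apply max_eq_right
    have : r ^ 2 / ρ ^ 2 ≤ 1 := by rw [div_le_one (by positivity)]; (clear * - hr h; gcongr)
    linarith only [this]
  set y := r / ρ with hy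
  have hy0 : 0 ≤ y := by (clear * - hr hρ; positivity)
  have hy1 : y ≤ 1 := by rw [hy, div_le_one hρ]; exact h
  have hry : r = y * ρ := by rw [hy]; field_simp
  have e1 : (1 - y ^ 2) ^ 2 / r - 1 / r = - (y * (2 - y ^ 2) / ρ) := by
    rcases eq_or_lt_of_le hy0 with h0 | h0
    · rw [← h0] at hry ⊢
      rw [hry]; simp only [ne_eq, OfNat.ofNat_ne_zero, not_false_eq_true, zero_pow, sub_zero, one_pow, zero_mul, div_zero, sub_self, zero_div, neg_zero]
    · rw [hry]
      field_simp
      ring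
  have e2 : 2 * r / ρ ^ 2 * (1 - y ^ 2) = 2 * y * (1 - y ^ 2) / ρ := by
    rw [hry]; (clear * - hρ; field_simp)
  unfold ueff
  rw [ht]
  have e3 : (1 - y ^ 2) ^ 2 / r - 2 * r / ρ ^ 2 * (1 - y ^ 2) - (1 - y ^ 2) ^ 4 / 2 - 1 / r
      = -(y * (2 - y ^ 2) / ρ) - 2 * y * (1 - y ^ 2) / ρ - (1 - y ^ 2) ^ 4 / 2 := by
    rw [e2, ← e1]; ring
  rw [e3]
  have e4 : -(y * (2 - y ^ 2) / ρ) - 2 * y * (1 - y ^ 2) / ρ
      = -(y / ρ) * (4 - 3 * y ^ 2) := by field_simp; ring
  have e5 : -(4 * (y / ρ)) ≤ -(y / ρ) * (4 - 3 * y ^ 2) := by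
    have : 0 ≤ y / ρ := by (clear * - hr hρ; positivity)
    linarith only [mul_nonneg this (sq_nonneg y)]
  have e6 : (1 - y ^ 2) ^ 4 ≤ 1 - y ^ 2 := by
    have h1 : 0 ≤ 1 - y ^ 2 := by nlinarith only [hy1, hy0]
    have h2 : 1 - y ^ 2 ≤ 1 := by linarith only [sq_nonneg y]
    calc (1 - y ^ 2) ^ 4 ≤ (1 - y ^ 2) ^ 1 := pow_le_pow_of_le_one h1 h2 (by norm_num)
      _ = _ := pow_one _
  have e7 : 8 / ρ ^ 2 = 8 * (1 / ρ) ^ 2 := by ring
  have e8 : 4 * (y / ρ) = 4 * y * (1 / ρ) := by ring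
  rw [e4, e7]
  rw [e8] at e5
  linarith only [e5, e6, sq_nonneg (y - 4 * (1 / ρ))]

section
variable {V : Type*} [NormedAddCommGroup V] [NormedSpace ℝ V] [FiniteDimensional ℝ V]
    [MeasurableSpace V] [BorelSpace V]

theorem onebody_lower (μ : Measure V) [μ.IsAddHaarMeasure]
    (g : V → ℂ) (hg : ContDiff ℝ 1 g) (hc : HasCompactSupport g)
    (l : V →L[ℝ] E3) (v : Fin 3 → V) (hv : ∀ c, l (v c) = EuclideanSpace.single c 1)
    {ι : Type*} [Fintype ι] (R : ι → E3) {ρ : ℝ} (hρ : 0 < ρ)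
    (hR : ∀ a b, a ≠ b → 2 * ρ ≤ ‖R a - R b‖) :
    Integrable (fun x => (∑ a, ueff ρ ‖l x - R a‖) * ‖g x‖ ^ 2) μ ∧
    ∫ x, (∑ a, ueff ρ ‖l x - R a‖) * ‖g x‖ ^ 2 ∂μ
      ≤ 1 / 2 * ∫ x, ∑ c, ‖fderiv ℝ g x (v c)‖ ^ 2 ∂μ
        - ∫ x, ∑ a, ‖g x‖ ^ 2 / ‖l x - R a‖ ∂μ := by
  have hn : Continuous (fun x => ‖g x‖ ^ 2) := by have := hg.continuous; fun_prop
  have hnc : HasCompactSupport (fun x => ‖g x‖ ^ 2) :=
    hc.comp_left (g := fun z : ℂ => ‖z‖ ^ 2) (by simp only [norm_zero, ne_eq, OfNat.ofNat_ne_zero, not_false_eq_true, zero_pow])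
  have cl : ∀ a, Continuous (fun x => ‖l x - R a‖) := fun a => by (clear * -; fun_prop)
  have ct : ∀ a, Continuous (fun x => tau ρ (‖l x - R a‖ ^ 2)) := fun a =>
    (continuous_tau ρ).comp ((cl a).pow 2)
  have cQ : Continuous (fun x => ∑ a, (4 * ‖l x - R a‖ / ρ ^ 2 * tau ρ (‖l x - R a‖ ^ 2)
          + tau ρ (‖l x - R a‖ ^ 2) ^ 4)) := by
    apply continuous_finsetSum
    intro a _
    exact (((continuous_const.mul (cl a)).div_const _).mul (ct a)).add ((ct a).pow 4)
  have iQ : Integrable (fun x => (∑ a, (4 * ‖l x - R a‖ / ρ ^ 2 * tau ρ (‖l x - R a‖ ^ 2)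
      + tau ρ (‖l x - R a‖ ^ 2) ^ 4)) * ‖g x‖ ^ 2) μ :=
    (cQ.mul hn).integrable_of_hasCompactSupport (μ := μ) hnc.mul_left
  have hdn : ∀ n : ℕ, (0:ℝ) < 1 / ((n : ℝ) + 1) := fun n => by positivity
  refine (fun hF => ?_) (fatou_real (μ := μ)
    (f := fun x => (∑ a, 2 * tau ρ (‖l x - R a‖ ^ 2) ^ 2 / ‖l x - R a‖) * ‖g x‖ ^ 2)
    (F := fun n x => (∑ a, 2 * tau ρ (‖l x - R a‖ ^ 2) ^ 2 /
      sreg (1 / ((n : ℝ) + 1)) (l x - R a)) * ‖g x‖ ^ 2)
    (K := ∫ x, ∑ c, ‖fderiv ℝ g x (v c)‖ ^ 2 ∂μ +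
        ∫ x, (∑ a, (4 * ‖l x - R a‖ / ρ ^ 2 * tau ρ (‖l x - R a‖ ^ 2)
          + tau ρ (‖l x - R a‖ ^ 2) ^ 4)) * ‖g x‖ ^ 2 ∂μ)
    ?_ ?_ ?_ ?_ ?_
    (fun n => onebody_lower_aux μ g hg hc l v hv R hρ hR (hdn n)))
  · obtain ⟨hI, hle⟩ := hF
    have iC : ∀ a, Integrable (fun x => ‖g x‖ ^ 2 / ‖l x - R a‖) μ := fun a =>
      coulomb_integrable μ g hg hc l v hv (R a)
    have iCs : Integrable (fun x => ∑ a, ‖g x‖ ^ 2 / ‖l x - R a‖) μ :=
      integrable_finsetSum _ fun a _ => iC a
    have hpt : (fun x => (∑ a, ueff ρ ‖l x - R a‖) * ‖g x‖ ^ 2)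
        = fun x => 1 / 2 * ((∑ a, 2 * tau ρ (‖l x - R a‖ ^ 2) ^ 2 / ‖l x - R a‖) * ‖g x‖ ^ 2)
          - 1 / 2 * ((∑ a, (4 * ‖l x - R a‖ / ρ ^ 2 * tau ρ (‖l x - R a‖ ^ 2)
          + tau ρ (‖l x - R a‖ ^ 2) ^ 4)) * ‖g x‖ ^ 2) - ∑ a, ‖g x‖ ^ 2 / ‖l x - R a‖ := by
      ext x
      rw [← mul_assoc, ← mul_assoc, Finset.mul_sum, Finset.mul_sum]
      have : ∑ a, ‖g x‖ ^ 2 / ‖l x - R a‖ = (∑ a, 1 / ‖l x - R a‖) * ‖g x‖ ^ 2 := by
        rw [Finset.sum_mul]
        refine Finset.sum_congr rfl fun a _ => by ring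
      rw [this, ← sub_mul, ← sub_mul, ← Finset.sum_sub_distrib, ← Finset.sum_sub_distrib]
      congr 1
      refine Finset.sum_congr rfl fun a _ => ?_
      unfold ueff
      ring
    have i1 : Integrable (fun x => 1 / 2 * ((∑ a, 2 * tau ρ (‖l x - R a‖ ^ 2) ^ 2 /
          ‖l x - R a‖) * ‖g x‖ ^ 2)
          - 1 / 2 * ((∑ a, (4 * ‖l x - R a‖ / ρ ^ 2 * tau ρ (‖l x - R a‖ ^ 2)
          + tau ρ (‖l x - R a‖ ^ 2) ^ 4)) * ‖g x‖ ^ 2)) μ :=
      (hI.const_mul (1 / 2)).sub (iQ.const_mul (1 / 2))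
    constructor
    · rw [hpt]
      exact i1.sub iCs
    · rw [hpt, integral_sub i1 iCs, integral_sub (hI.const_mul _) (iQ.const_mul _), integral_const_mul, integral_const_mul]
      linarith only [hle]
  · apply Measurable.mul _ hn.measurable
    apply Finset.measurable_sum
    intro a _
    exact ((ct a).measurable.pow_const 2 |>.const_mul 2).div (cl a).measurable
  · intro x; (clear * -; positivity)
  · intro n
    have cs : ∀ a, Continuous (fun x => sreg (1 / ((n : ℝ) + 1)) (l x - R a)) := fun a =>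
      (contDiff_sreg (hdn n) (n := 0)).continuous.comp (by (clear * -; fun_prop))
    apply Continuous.integrable_of_hasCompactSupport _ hnc.mul_left
    apply Continuous.mul _ hn
    apply continuous_finsetSum
    intro a _
    exact (continuous_const.mul ((ct a).pow 2)).div (cs a) (fun x => (sreg_pos (hdn n) _).ne')
  · intro n x
    apply mul_nonneg _ (by (clear * -; positivity))
    apply Finset.sum_nonneg
    intro a _
    have := sreg_pos (hdn n) (l x - R a)
    (clear * - this; positivity)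
  · intro x
    by_cases h0 : ∃ a, l x - R a = 0
    · left
      obtain ⟨a, ha⟩ := h0
      have : ∑ b, 2 * tau ρ (‖l x - R b‖ ^ 2) ^ 2 / ‖l x - R b‖ = 0 := by
        apply Finset.sum_eq_zero
        intro b _
        by_cases hab : a = b
        · subst hab; rw [ha]; simp only [norm_zero, ne_eq, OfNat.ofNat_ne_zero, not_false_eq_true, zero_pow, div_zero]
        · have h1 : l x = R a := sub_eq_zero.1 ha
          have h2 := hR a b hab
          rw [h1, tau_eq_zero hρ (t := ‖R a - R b‖ ^ 2) (by gcongr; linarith only [hρ, h2])]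
          simp only [ne_eq, OfNat.ofNat_ne_zero, not_false_eq_true, zero_pow, mul_zero, zero_div]
      rw [this, zero_mul]
    · right
      push Not at h0
      apply Tendsto.mul_const
      apply tendsto_finsetSum
      intro a _
      have h1 : ‖l x - R a‖ ≠ 0 := norm_ne_zero_iff.2 (h0 a)
      exact (tendsto_const_nhds).div (tendsto_sreg_seq _) h1

end

end Vale.Agent.P370
end

section

open MeasureTheory Filter Topology

namespace Vale.Agent.P370

theorem sum_Ioi_eq_half {N : ℕ} (f : Fin N → Fin N → ℝ) (hf : ∀ i j, f i j = f j i) :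
    ∑ i, ∑ j ∈ Finset.Ioi i, f i j = ∑ i, (1 / 2) * ∑ j ∈ Finset.univ.erase i, f i j := by
  have h1 : ∀ i : Fin N, ∑ j ∈ Finset.univ.erase i, f i j
      = ∑ j ∈ Finset.Ioi i, f i j + ∑ j ∈ Finset.Iio i, f i j := by
    intro i
    rw [← Finset.sum_union]
    · apply Finset.sum_congr _ (fun _ _ => rfl)
      ext j
      simp only [Finset.mem_erase, Finset.mem_univ, and_true, Finset.mem_union, Finset.mem_Ioi, Finset.mem_Iio]
      constructor
      · intro h; rcases lt_or_gt_of_ne h with h | h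
        · right; exact h
        · left; exact h
      · rintro (h | h)
        · exact h.ne'
        · exact h.ne
    · rw [Finset.disjoint_left]
      intro j h1 h2
      simp only [Finset.mem_Ioi, Finset.mem_Iio] at h1 h2
      exact absurd h1 (not_lt.2 h2.le)
  have h2 : ∑ i, ∑ j ∈ Finset.Iio i, f i j = ∑ i, ∑ j ∈ Finset.Ioi i, f i j := by
    rw [Finset.sum_comm' (t' := Finset.univ) (s' := fun j => Finset.Ioi j)]
    · apply Finset.sum_congr rfl; intro i _
      apply Finset.sum_congr rfl; intro j _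
      exact hf _ _
    · intro x y; simp only [Finset.mem_univ, Finset.mem_Iio, true_and, Finset.mem_Ioi, and_true]
  simp_rw [h1, mul_add]
  rw [Finset.sum_add_distrib, ← Finset.mul_sum, ← Finset.mul_sum, h2]
  ring

theorem pair_identity {ι : Type*} [Fintype ι] [DecidableEq ι] (w : ι → ι → ℝ)
    (hw : ∀ a b, w a b = w b a) (S : Finset ι) :
    ∑ a ∈ S, (-(∑ b ∈ Finset.univ.erase a, w a b) + (1 / 2) * ∑ b ∈ S.erase a, w a b)
      = -((1 / 2) * ∑ a, ∑ b ∈ Finset.univ.erase a, w a b)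
        + (1 / 2) * ∑ a ∈ Sᶜ, ∑ b ∈ Sᶜ.erase a, w a b := by
  set u : ι → ι → ℝ := fun a b => if a = b then 0 else w a b with hu
  have hus : ∀ a b, u a b = u b a := by
    intro a b
    simp only [hu]
    by_cases h : a = b
    · subst h; rfl
    · rw [if_neg h, if_neg (Ne.symm h), hw]
  have he : ∀ (T : Finset ι) (a : ι), ∑ b ∈ T.erase a, w a b = ∑ b ∈ T, u a b := by
    intro T a
    by_cases ha : a ∈ T
    · rw [← Finset.add_sum_erase T _ ha]
      have : u a a = 0 := by simp only [hu, ↓reduceIte]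
      rw [this, zero_add]
      apply Finset.sum_congr rfl
      intro b hb
      simp only [hu]
      rw [if_neg (Finset.ne_of_mem_erase hb).symm]
    · rw [Finset.erase_eq_of_notMem ha]
      apply Finset.sum_congr rfl
      intro b hb
      simp only [hu]
      rw [if_neg]
      rintro rfl; exact ha hb
  simp_rw [he]
  rw [Finset.sum_add_distrib, Finset.sum_neg_distrib, ← Finset.mul_sum]
  have hsplit : ∀ (T : Finset ι), ∑ a ∈ T, ∑ b, u a b
      = ∑ a ∈ T, ∑ b ∈ S, u a b + ∑ a ∈ T, ∑ b ∈ Sᶜ, u a b := by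
    intro T
    rw [← Finset.sum_add_distrib]
    apply Finset.sum_congr rfl
    intro a _
    rw [Finset.sum_add_sum_compl]
  have hfull : ∑ a, ∑ b, u a b = ∑ a ∈ S, ∑ b, u a b + ∑ a ∈ Sᶜ, ∑ b, u a b := by
    rw [Finset.sum_add_sum_compl]
  have hcomm : ∑ a ∈ Sᶜ, ∑ b ∈ S, u a b = ∑ a ∈ S, ∑ b ∈ Sᶜ, u a b := by
    rw [Finset.sum_comm]
    apply Finset.sum_congr rfl; intro a _
    apply Finset.sum_congr rfl; intro b _
    exact hus _ _
  rw [hfull, hsplit, hsplit, hcomm]
  ring

theorem pairEnergy_mono {ι : Type*} [DecidableEq ι] (R : ι → R3) {T T' : Finset ι} (h : T ⊆ T') :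
    pairEnergy R T ≤ pairEnergy R T' := by
  unfold pairEnergy
  apply mul_le_mul_of_nonneg_left _ (by norm_num)
  calc ∑ α ∈ T, ∑ β ∈ T.erase α, 1 / dist (R α) (R β)
      ≤ ∑ α ∈ T, ∑ β ∈ T'.erase α, 1 / dist (R α) (R β) := by
        apply Finset.sum_le_sum
        intro a _
        apply Finset.sum_le_sum_of_subset_of_nonneg (Finset.erase_subset_erase _ h)
        intros; positivity
    _ ≤ _ := by
        apply Finset.sum_le_sum_of_subset_of_nonneg h
        intros
        apply Finset.sum_nonneg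
        intros; (clear * -; positivity)

theorem pointwise_lower' {M N : ℕ} (hNM : N ≤ M) (R : Fin M → R3) (D ρ θ : ℝ) (hρ : 4 ≤ ρ)
    (hMρ : (M : ℝ) ≤ ρ) (hD : 16 * M * ρ ≤ D)
    (hsep : ∀ α β, α ≠ β → D ≤ dist (R α) (R β))
    (hθ : ∀ T : Finset (Fin M), T.card = M - N → θ ≤ pairEnergy R T)
    (X : Fin N → R3) (hX : ∀ i j, i ≠ j → X i ≠ X j) :
    -(N : ℝ) / 2 - pairEnergy R Finset.univ + θ - 5 * (M / ρ ^ 2 + M ^ 2 * ρ / D ^ 2) ≤
      ∑ i, (∑ α, ueff (2 * ρ) ‖X i - R α‖) +
        ∑ i, ∑ j ∈ Finset.Ioi i, 1 / dist (X i) (X j) := by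
  classical
  -- trivial case
  rcases Nat.eq_zero_or_pos M with hM0 | hM0
  · subst hM0
    obtain rfl : N = 0 := by omega
    have := hθ ∅ (by simp only [Finset.card_empty, tsub_self])
    simp only [pairEnergy, one_div, Finset.notMem_empty, not_false_eq_true, Finset.erase_eq_of_notMem, Finset.sum_empty, Finset.sum_const_zero, mul_zero, CharP.cast_eq_zero, neg_zero, zero_div, Finset.univ_eq_empty, sub_self, zero_add, ne_eq, OfNat.ofNat_ne_zero, zero_pow, zero_mul, add_zero, sub_zero, ge_iff_le] at this ⊢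
    (clear * - this; linarith)
  have hM1 : (1:ℝ) ≤ M := by exact_mod_cast hM0
  have hρ0 : 0 < ρ := by linarith only [hρ]
  have hD0 : 0 < D := lt_of_lt_of_le (by (clear * - hM0 hρ; positivity)) hD
  have hρD : 16 * ρ ≤ D := le_trans (by nlinarith only [hM1, hρ]) hD
  have herr0 : 0 ≤ 5 * (M / ρ ^ 2 + M ^ 2 * ρ / D ^ 2) := by positivity
  rcases Nat.eq_zero_or_pos N with hN0 | hN0
  · subst hN0
    have := hθ Finset.univ (by simp only [Finset.card_univ, Fintype.card_fin, tsub_zero])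
    simp only [CharP.cast_eq_zero, neg_zero, zero_div, zero_sub, Finset.univ_eq_empty, Finset.sum_empty, one_div, add_zero, tsub_le_iff_right, zero_add, neg_add_le_iff_le_add, ge_iff_le]
    linarith only [herr0, this]
  have hne : Nonempty (Fin N) := ⟨⟨0, hN0⟩⟩
  rw [sum_Ioi_eq_half (fun i j => 1 / dist (X i) (X j)) (fun i j => by rw [dist_comm]),
    ← Finset.sum_add_distrib]
  -- nearness
  have huniq : ∀ i α β, ‖X i - R α‖ < 2 * ρ → ‖X i - R β‖ < 2 * ρ → α = β := by
    intro i α β h1 h2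
    by_contra hab
    have h3 := hsep α β hab
    rw [dist_eq_norm] at h3
    have h4 : ‖R α - R β‖ ≤ ‖X i - R β‖ + ‖X i - R α‖ := by
      calc ‖R α - R β‖ = ‖(X i - R β) - (X i - R α)‖ := by congr 1; abel
        _ ≤ _ := norm_sub_le _ _
    linarith only [hρ, hρD, h1, h2, h3, h4]
  set S : Finset (Fin M) := Finset.univ.filter (fun α => ∃ i, ‖X i - R α‖ < 2 * ρ) with hS
  have hSm : ∀ α, α ∈ S ↔ ∃ i, ‖X i - R α‖ < 2 * ρ := by intro α; simp only [hS, Finset.mem_filter, Finset.mem_univ, true_and]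
  have hprim : ∀ α ∈ S, ∃ i : Fin N, ‖X i - R α‖ < 2 * ρ := fun α h => (hSm α).1 h
  choose! p hp using hprim
  have hpinj : Set.InjOn p (S : Set (Fin M)) := by
    intro a ha b hb hab
    have h1 := hp a ha
    have h2 := hp b hb
    rw [← hab] at h2
    exact huniq _ _ _ h1 h2
  -- distances from a near electron to the other nuclei
  have hfar : ∀ i α, ‖X i - R α‖ < 2 * ρ → ∀ β, β ≠ α →
      dist (R α) (R β) - 2 * ρ ≤ ‖X i - R β‖ := by
    intro i α h1 β hβ
    rw [dist_eq_norm]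
    have h4 : ‖R α - R β‖ ≤ ‖X i - R β‖ + ‖X i - R α‖ := by
      calc ‖R α - R β‖ = ‖(X i - R β) - (X i - R α)‖ := by congr 1; abel
        _ ≤ _ := norm_sub_le _ _
    linarith only [h1, h4]
  have hinv1 : ∀ d : ℝ, D ≤ d → ∀ r : ℝ, d - 2 * ρ ≤ r → 1 / r ≤ 1 / d + 16 / 7 * ρ / D ^ 2 := by
    intro d hd r hr
    have hd0 : 0 < d := by linarith only [hρ, hρD, hd]
    have h1 : 0 < d - 2 * ρ := by linarith only [hρ, hρD, hd]
    calc 1 / r ≤ 1 / (d - 2 * ρ) := one_div_le_one_div_of_le h1 hr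
      _ = 1 / d + 2 * ρ / (d * (d - 2 * ρ)) := by field_simp; ring
      _ ≤ 1 / d + 16 / 7 * ρ / D ^ 2 := by
          have h2 : 7 / 8 * D ^ 2 ≤ d * (d - 2 * ρ) := by
            have : 7 / 8 * D ≤ d - 2 * ρ := by linarith only [hρD, hd]
            nlinarith only [hD0, hρD, hd]
          have h3 : 2 * ρ / (d * (d - 2 * ρ)) ≤ 2 * ρ / (7 / 8 * D ^ 2) := by
            (clear * - hρ hD0 h2; gcongr)
          have h4 : 2 * ρ / (7 / 8 * D ^ 2) = 16 / 7 * ρ / D ^ 2 := by
            field_simp; norm_num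
          linarith only [h3, h4]
  have hinv2 : ∀ d : ℝ, D ≤ d → ∀ r : ℝ, 0 < r → r ≤ d + 4 * ρ →
      1 / d - 4 * ρ / D ^ 2 ≤ 1 / r := by
    intro d hd r hr0 hr
    have hd0 : 0 < d := by linarith only [hρ, hρD, hd]
    calc 1 / d - 4 * ρ / D ^ 2 ≤ 1 / d - 4 * ρ / (d * (d + 4 * ρ)) := by
          gcongr
          nlinarith only [hρ, hd, hD0]
      _ = 1 / (d + 4 * ρ) := by field_simp; ring
      _ ≤ 1 / r := one_div_le_one_div_of_le hr0 hr
  -- nuclear part for near electrons
  have hU : ∀ i α, ‖X i - R α‖ < 2 * ρ → -(1 / 2) - 2 / ρ ^ 2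
      - ∑ β ∈ Finset.univ.erase α, 1 / ‖X i - R β‖ ≤ ∑ β, ueff (2 * ρ) ‖X i - R β‖ := by
    intro i α h1
    rw [← Finset.add_sum_erase Finset.univ _ (Finset.mem_univ α), sub_eq_add_neg _ (Finset.sum _ _),
      ← Finset.sum_neg_distrib]
    apply add_le_add
    · have := ueff_near (ρ := 2 * ρ) (by positivity) (norm_nonneg _) h1.le
      refine le_trans (le_of_eq ?_) this
      field_simp; ring
    · apply Finset.sum_le_sum
      intro β hβ
      have hβ' := Finset.ne_of_mem_erase hβ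
      have h2 := hfar i α h1 β hβ'
      have h3 := hsep α β (Ne.symm hβ')
      rw [ueff_far (by positivity) (by linarith only [hρ, hρD, h2, h3])]
  -- bounds per electron
  have hother : ∀ i, i ∉ S.image p → -(1 / 2) - 2 / ρ ^ 2 ≤
      ∑ α, ueff (2 * ρ) ‖X i - R α‖
        + 1 / 2 * ∑ j ∈ Finset.univ.erase i, 1 / dist (X i) (X j) := by
    intro i hi
    by_cases hn : ∃ α, ‖X i - R α‖ < 2 * ρ
    · obtain ⟨α, hα⟩ := hn
      have hαS : α ∈ S := (hSm α).2 ⟨i, hα⟩
      have hip : p α ≠ i := by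
        intro h; apply hi; rw [← h]; exact Finset.mem_image_of_mem p hαS
      have h1 := hU i α hα
      have h2 : ∑ β ∈ Finset.univ.erase α, 1 / ‖X i - R β‖ ≤ 1 / (8 * ρ) := by
        calc ∑ β ∈ Finset.univ.erase α, 1 / ‖X i - R β‖
            ≤ ∑ β ∈ Finset.univ.erase α, 1 / (8 * M * ρ) := by
              apply Finset.sum_le_sum
              intro β hβ
              have hβ' := Finset.ne_of_mem_erase hβ
              have h2 := hfar i α hα β hβ'
              have h3 := hsep α β (Ne.symm hβ')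
              apply one_div_le_one_div_of_le (by positivity)
              have : 2 * ρ ≤ 8 * M * ρ := by nlinarith only [hM1, hρ]
              linarith only [hρ, hD, hρD, h2, h3]
          _ ≤ ∑ β : Fin M, 1 / (8 * M * ρ) := by
              apply Finset.sum_le_sum_of_subset_of_nonneg (Finset.erase_subset _ _)
              intros; positivity
          _ = 1 / (8 * ρ) := by
              rw [Finset.sum_const, Finset.card_univ, Fintype.card_fin, nsmul_eq_mul]
              field_simp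
      have h3 : 1 / (4 * ρ) ≤ ∑ j ∈ Finset.univ.erase i, 1 / dist (X i) (X j) := by
        have h4 : 1 / (4 * ρ) ≤ 1 / dist (X i) (X (p α)) := by
          apply one_div_le_one_div_of_le (dist_pos.2 (hX _ _ (Ne.symm hip)))
          rw [dist_eq_norm]
          have h5 := hp α hαS
          calc ‖X i - X (p α)‖ = ‖(X i - R α) - (X (p α) - R α)‖ := by congr 1; abel
            _ ≤ ‖X i - R α‖ + ‖X (p α) - R α‖ := norm_sub_le _ _
            _ ≤ 4 * ρ := by linarith only [hα, h5]
        refine le_trans h4 ?_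
        apply Finset.single_le_sum (f := fun j => 1 / dist (X i) (X j))
          (fun j _ => by (clear * -; positivity))
        simp [hip]
      have h6 : 1 / (8 * ρ) = 1 / 2 * (1 / (4 * ρ)) := by field_simp; norm_num
      linarith only [h1, h2, h3, h6]
    · push Not at hn
      have h1 : ∑ α, ueff (2 * ρ) ‖X i - R α‖ = -∑ α, 1 / ‖X i - R α‖ := by
        rw [← Finset.sum_neg_distrib]
        apply Finset.sum_congr rfl
        intro α _
        rw [ueff_far (by positivity) (hn α)]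
      have h2 : ∑ α, 1 / ‖X i - R α‖ ≤ 1 / 2 := by
        calc ∑ α, 1 / ‖X i - R α‖ ≤ ∑ α : Fin M, 1 / (2 * ρ) := by
              apply Finset.sum_le_sum
              intro α _
              exact one_div_le_one_div_of_le (by positivity) (hn α)
          _ = M / (2 * ρ) := by
              rw [Finset.sum_const, Finset.card_univ, Fintype.card_fin, nsmul_eq_mul]; ring
          _ ≤ 1 / 2 := by
              rw [div_le_div_iff₀ (by positivity) (by norm_num)]; linarith only [hMρ]
      have h3 : 0 ≤ ∑ j ∈ Finset.univ.erase i, 1 / dist (X i) (X j) :=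
        Finset.sum_nonneg fun j _ => by (clear * -; positivity)
      have h4 : 0 ≤ 2 / ρ ^ 2 := by positivity
      rw [h1]
      linarith only [h2, h3, h4]
  have hprimary : ∀ α ∈ S, -(1 / 2) - 2 / ρ ^ 2
      + ((-(∑ β ∈ Finset.univ.erase α, 1 / dist (R α) (R β))
        + 1 / 2 * ∑ β ∈ S.erase α, 1 / dist (R α) (R β))
        - M * (30 / 7 * ρ / D ^ 2)) ≤
      ∑ β, ueff (2 * ρ) ‖X (p α) - R β‖
        + 1 / 2 * ∑ j ∈ Finset.univ.erase (p α), 1 / dist (X (p α)) (X j) := by
    intro α hα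
    have h1 := hU (p α) α (hp α hα)
    have h2 : ∑ β ∈ Finset.univ.erase α, 1 / ‖X (p α) - R β‖
        ≤ ∑ β ∈ Finset.univ.erase α, 1 / dist (R α) (R β) + M * (16 / 7 * ρ / D ^ 2) := by
      calc ∑ β ∈ Finset.univ.erase α, 1 / ‖X (p α) - R β‖
          ≤ ∑ β ∈ Finset.univ.erase α, (1 / dist (R α) (R β) + 16 / 7 * ρ / D ^ 2) := by
            apply Finset.sum_le_sum
            intro β hβ
            have hβ' := Finset.ne_of_mem_erase hβ
            exact hinv1 _ (hsep α β (Ne.symm hβ')) _ (hfar _ _ (hp α hα) _ hβ')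
        _ = ∑ β ∈ Finset.univ.erase α, 1 / dist (R α) (R β)
            + ((Finset.univ.erase α).card : ℝ) * (16 / 7 * ρ / D ^ 2) := by
            rw [Finset.sum_add_distrib, Finset.sum_const, nsmul_eq_mul]
        _ ≤ _ := by
            gcongr
            have := Finset.card_le_univ (Finset.univ.erase α)
            rwa [Fintype.card_fin] at this
    have h3 : ∑ β ∈ S.erase α, 1 / dist (R α) (R β) - M * (4 * ρ / D ^ 2)
        ≤ ∑ j ∈ Finset.univ.erase (p α), 1 / dist (X (p α)) (X j) := by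
      calc ∑ β ∈ S.erase α, 1 / dist (R α) (R β) - M * (4 * ρ / D ^ 2)
          ≤ ∑ β ∈ S.erase α, 1 / dist (R α) (R β) - ((S.erase α).card : ℝ) * (4 * ρ / D ^ 2) := by
            gcongr
            have := Finset.card_le_univ (S.erase α)
            rwa [Fintype.card_fin] at this
        _ = ∑ β ∈ S.erase α, (1 / dist (R α) (R β) - 4 * ρ / D ^ 2) := by
            rw [Finset.sum_sub_distrib, Finset.sum_const, nsmul_eq_mul]
        _ ≤ ∑ β ∈ S.erase α, 1 / dist (X (p α)) (X (p β)) := by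
            apply Finset.sum_le_sum
            intro β hβ
            have hβ' := Finset.ne_of_mem_erase hβ
            have hβS := Finset.mem_of_mem_erase hβ
            have hpp : p α ≠ p β := fun h => hβ' (hpinj hα hβS h).symm
            apply hinv2 _ (hsep α β (Ne.symm hβ')) _ (dist_pos.2 (hX _ _ hpp))
            have h5 := hp α hα
            have h6 := hp β hβS
            rw [dist_eq_norm, dist_eq_norm]
            calc ‖X (p α) - X (p β)‖
                = ‖(X (p α) - R α) - (X (p β) - R β) + (R α - R β)‖ := by congr 1; abel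
              _ ≤ ‖(X (p α) - R α) - (X (p β) - R β)‖ + ‖R α - R β‖ := norm_add_le _ _
              _ ≤ ‖X (p α) - R α‖ + ‖X (p β) - R β‖ + ‖R α - R β‖ := by
                  gcongr; exact norm_sub_le _ _
              _ ≤ ‖R α - R β‖ + 4 * ρ := by linarith only [h5, h6]
        _ = ∑ j ∈ (S.erase α).image p, 1 / dist (X (p α)) (X j) := by
            rw [Finset.sum_image]
            intro a ha b hb hab
            exact hpinj (Finset.mem_of_mem_erase ha) (Finset.mem_of_mem_erase hb) hab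
        _ ≤ _ := by
            apply Finset.sum_le_sum_of_subset_of_nonneg
            · intro j hj
              obtain ⟨β, hβ, rfl⟩ := Finset.mem_image.1 hj
              have hβ' := Finset.ne_of_mem_erase hβ
              have hβS := Finset.mem_of_mem_erase hβ
              simp only [Finset.mem_erase, Finset.mem_univ, and_true]
              intro h; exact hβ' (hpinj hβS hα h)
            · intros; (clear * -; positivity)
    have h4 : (M:ℝ) * (30 / 7 * ρ / D ^ 2) = M * (16 / 7 * ρ / D ^ 2)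
        + 1 / 2 * (M * (4 * ρ / D ^ 2)) := by ring
    linarith only [h1, h2, h3, h4]
  -- sum up
  have hcardS : S.card ≤ N := by
    have := Finset.card_le_univ (S.image p)
    rw [Fintype.card_fin, Finset.card_image_of_injOn hpinj] at this
    exact this
  have hsum : -(N:ℝ) / 2 - 2 * N / ρ ^ 2
      + (∑ α ∈ S, (-(∑ β ∈ Finset.univ.erase α, 1 / dist (R α) (R β))
        + 1 / 2 * ∑ β ∈ S.erase α, 1 / dist (R α) (R β)) - S.card * (M * (30 / 7 * ρ / D ^ 2))) ≤
      ∑ i, (∑ α, ueff (2 * ρ) ‖X i - R α‖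
        + 1 / 2 * ∑ j ∈ Finset.univ.erase i, 1 / dist (X i) (X j)) := by
    rw [← Finset.sum_add_sum_compl (S.image p), Finset.sum_image hpinj]
    have h1 := Finset.sum_le_sum hprimary
    have h2 : ∑ i ∈ (S.image p)ᶜ, (-(1 / 2) - 2 / ρ ^ 2) ≤
        ∑ i ∈ (S.image p)ᶜ, (∑ α, ueff (2 * ρ) ‖X i - R α‖
        + 1 / 2 * ∑ j ∈ Finset.univ.erase i, 1 / dist (X i) (X j)) := by
      apply Finset.sum_le_sum
      intro i hi
      exact hother i (Finset.mem_compl.1 hi)
    rw [Finset.sum_const, Finset.card_compl, Fintype.card_fin,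
      Finset.card_image_of_injOn hpinj, nsmul_eq_mul, Nat.cast_sub hcardS] at h2
    have haux : ∀ (c0 K : ℝ) (A : Fin M → ℝ), ∑ α ∈ S, (c0 + (A α - K))
        = S.card * c0 + (∑ α ∈ S, A α - S.card * K) := by
      intro c0 K A
      rw [Finset.sum_add_distrib, Finset.sum_sub_distrib, Finset.sum_const, Finset.sum_const,
        nsmul_eq_mul, nsmul_eq_mul]
    rw [haux] at h1
    have h3 : (N:ℝ) * (-(1 / 2) - 2 / ρ ^ 2) = -(N:ℝ) / 2 - 2 * N / ρ ^ 2 := by ring
    linarith
  refine le_trans ?_ hsum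
  rw [pair_identity (fun a b => 1 / dist (R a) (R b)) (fun a b => by rw [dist_comm]) S]
  have hT : θ ≤ pairEnergy R Sᶜ := by
    have hc : M - N ≤ (Sᶜ).card := by
      rw [Finset.card_compl, Fintype.card_fin]; (clear * - hNM hcardS; omega)
    obtain ⟨T, hTs, hTc⟩ := Finset.exists_subset_card_eq hc
    exact le_trans (hθ T hTc) (pairEnergy_mono R hTs)
  have e1 : pairEnergy R Finset.univ = 1 / 2 * ∑ a, ∑ b ∈ Finset.univ.erase a,
      1 / dist (R a) (R b) := rfl
  have e2 : pairEnergy R Sᶜ = 1 / 2 * ∑ a ∈ Sᶜ, ∑ b ∈ Sᶜ.erase a, 1 / dist (R a) (R b) := rfl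
  rw [← e1, ← e2]
  have hN' : (N:ℝ) ≤ M := by exact_mod_cast hNM
  have hS' : (S.card:ℝ) ≤ N := by exact_mod_cast hcardS
  have e3 : 2 * (N:ℝ) / ρ ^ 2 ≤ 5 * (M / ρ ^ 2) := by
    rw [← mul_div_assoc]; gcongr; linarith only []
  have e4 : (S.card:ℝ) * (M * (30 / 7 * ρ / D ^ 2)) ≤ 5 * (M ^ 2 * ρ / D ^ 2) := by
    have : (S.card:ℝ) * (M * (30 / 7 * ρ / D ^ 2)) ≤ M * (M * (5 * ρ / D ^ 2)) := by
      gcongr
      · linarith only [hNM, hcardS]
      · norm_num
    refine le_trans this (le_of_eq ?_)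
    ring
  linarith only [hT, e3, e4]

end Vale.Agent.P370
end

section

set_option linter.all false

/-!
Integer weights close to the real couplings (H9A).
-/

namespace Vale.Agent.P370.H

open Finset ComplexConjugate

/-- sums over ordered pairs of a symmetric function -/
private lemma sum_sym {K : ℕ} (F : Fin K → Fin K → ℝ) (hF : ∀ i j, F i j = F j i) :
    ∑ i, ∑ j, (if i = j then 0 else F i j) = 2 * ∑ i, ∑ j ∈ Ioi i, F i j := by
  have h1 : ∀ i j, (if i = j then 0 else F i j)
      = (if i < j then F i j else 0) + (if j < i then F i j else 0) := by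
    intro i j
    rcases lt_trichotomy i j with h | h | h
    · rw [if_neg h.ne, if_pos h, if_neg h.asymm, add_zero]
    · subst h; simp
    · rw [if_neg h.ne', if_neg h.asymm, if_pos h, zero_add]
  have h2 : ∑ i, ∑ j, (if j < i then F i j else 0) = ∑ i, ∑ j, (if i < j then F i j else 0) := by
    rw [Finset.sum_comm]
    refine Finset.sum_congr rfl fun i _ => Finset.sum_congr rfl fun j _ => ?_
    rw [hF]
  have h3 : ∀ i, ∑ j ∈ Ioi i, F i j = ∑ j, (if i < j then F i j else 0) := by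
    intro i
    rw [← Finset.sum_filter]
    refine Finset.sum_congr ?_ fun _ _ => rfl
    ext j; simp only [mem_Ioi, mem_filter, mem_univ, true_and]
  calc ∑ i, ∑ j, (if i = j then 0 else F i j)
      = ∑ i, ∑ j, ((if i < j then F i j else 0) + (if j < i then F i j else 0)) :=
        Finset.sum_congr rfl fun i _ => Finset.sum_congr rfl fun j _ => h1 i j
    _ = ∑ i, ∑ j, (if i < j then F i j else 0) + ∑ i, ∑ j, (if j < i then F i j else 0) := by
        simp only [Finset.sum_add_distrib]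
    _ = 2 * ∑ i, ∑ j ∈ Ioi i, F i j := by
        rw [h2, two_mul, Finset.sum_congr rfl fun i _ => h3 i]

/-- overlap with the swapped state -/
private noncomputable def ov {I : Type} [Fintype I] [DecidableEq I] (Φ : SSt I) (p q : I) : ℝ :=
  (∑ t, conj (Φ t) * Φ (t ∘ Equiv.swap p q)).re

private lemma ov_comm {I : Type} [Fintype I] [DecidableEq I] (Φ : SSt I) (p q : I) :
    ov Φ p q = ov Φ q p := by
  unfold ov
  rw [Equiv.swap_comm]

private lemma comp_swap_swap {I : Type} [DecidableEq I] (p q : I) (t : I → Fin 2) :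
    (t ∘ Equiv.swap p q) ∘ Equiv.swap p q = t := by
  funext x
  simp

private lemma ov_abs {I : Type} [Fintype I] [DecidableEq I] (Φ : SSt I) (p q : I) :
    |ov Φ p q| ≤ snorm2 Φ := by
  let τ : (I → Fin 2) ≃ (I → Fin 2) :=
    { toFun := fun t => t ∘ Equiv.swap p q
      invFun := fun t => t ∘ Equiv.swap p q
      left_inv := fun t => comp_swap_swap p q t
      right_inv := fun t => comp_swap_swap p q t }
  have hτ : ∑ t, ‖Φ (t ∘ Equiv.swap p q)‖ ^ 2 = ∑ t, ‖Φ t‖ ^ 2 :=
    Equiv.sum_comp τ fun t => ‖Φ t‖ ^ 2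
  have h1 : |ov Φ p q| ≤ ∑ t, ‖Φ t‖ * ‖Φ (t ∘ Equiv.swap p q)‖ := by
    refine (Complex.abs_re_le_norm _).trans ((norm_sum_le _ _).trans (le_of_eq ?_))
    refine Finset.sum_congr rfl fun t _ => ?_
    rw [norm_mul, RCLike.norm_conj]
  have h2 : ∑ t, ‖Φ t‖ * ‖Φ (t ∘ Equiv.swap p q)‖ ≤
      ∑ t, (‖Φ t‖ ^ 2 + ‖Φ (t ∘ Equiv.swap p q)‖ ^ 2) / 2 := by
    refine Finset.sum_le_sum fun t _ => ?_
    (clear * -; nlinarith [sq_nonneg (‖Φ t‖ - ‖Φ (t ∘ Equiv.swap p q)‖)])
  refine (h1.trans h2).trans (le_of_eq ?_)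
  rw [← Finset.sum_div, Finset.sum_add_distrib, hτ]
  unfold snorm2
  ring

private lemma snorm2_nn {I : Type} [Fintype I] [DecidableEq I] (Φ : SSt I) : 0 ≤ snorm2 Φ :=
  Finset.sum_nonneg fun _ _ => by positivity

private lemma sip_dotS {I : Type} [Fintype I] [DecidableEq I] (Φ : SSt I) (p q : I) :
    (sip Φ (dotS p q Φ)).re = 1 / 2 * ov Φ p q - 1 / 4 * snorm2 Φ := by
  have h : sip Φ (dotS p q Φ) = (1 / 2 : ℝ) * (∑ t, conj (Φ t) * Φ (t ∘ Equiv.swap p q))
      - ((1 / 4 * snorm2 Φ : ℝ) : ℂ) := by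
    unfold sip dotS snorm2
    push_cast
    rw [Finset.mul_sum, Finset.mul_sum, ← Finset.sum_sub_distrib]
    refine Finset.sum_congr rfl fun t _ => ?_
    have h2 : ((‖Φ t‖ : ℝ) : ℂ) ^ 2 = conj (Φ t) * Φ t := by
      rw [← Complex.normSq_eq_conj_mul_self, Complex.normSq_eq_norm_sq]
      push_cast
      rfl
    rw [h2]
    ring
  rw [h, Complex.sub_re, Complex.re_ofReal_mul, Complex.ofReal_re]
  rfl

private lemma hs_eq {I : Type} [Fintype I] [DecidableEq I] (J : I → I → ℝ) (Φ : SSt I) :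
    4 * hs J Φ = ∑ p, ∑ q, (if p = q then 0 else J p q * (ov Φ p q - snorm2 Φ / 2)) := by
  unfold hs
  rw [← mul_assoc, Finset.mul_sum]
  refine Finset.sum_congr rfl fun p _ => ?_
  rw [Finset.mul_sum]
  refine Finset.sum_congr rfl fun q _ => ?_
  split_ifs with h
  · simp only [one_div, mul_zero]
  · rw [sip_dotS]; ring

private lemma swap_conj {A B : Type} [DecidableEq A] [DecidableEq B] (σ : A ≃ B) (i j : B)
    (s : B → Fin 2) :
    (s ∘ Equiv.swap i j) ∘ σ = (s ∘ σ) ∘ Equiv.swap (σ.symm i) (σ.symm j) := by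
  funext x
  simp only [Function.comp_apply]
  congr 1
  by_cases h1 : x = σ.symm i
  · subst h1; simp
  · by_cases h2 : x = σ.symm j
    · subst h2; simp
    · rw [Equiv.swap_apply_of_ne_of_ne h1 h2, Equiv.swap_apply_of_ne_of_ne]
      · exact fun h => h1 (by rw [← h]; simp)
      · exact fun h => h2 (by rw [← h]; simp)

/-- integer weights close to the real couplings -/
theorem heis_close (n K : ℕ) (hK : K = n * 4) (mm : ℕ → ℕ → ℕ)
    (J : Fin n × Fin 4 → Fin n × Fin 4 → ℝ) (hJ : ∀ p q, J p q = J q p)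
    (hm : ∀ p q : Fin n × Fin 4, p ≠ q →
      |(mm (4 * (p.1 : ℕ) + (p.2 : ℕ)) (4 * (q.1 : ℕ) + (q.2 : ℕ)) : ℝ) - J p q| ≤ 3) :
    ∃ e : SSt (Fin n × Fin 4) ≃ ((Fin K → Fin 2) → ℂ), ∀ Φ,
      ∑ s, ‖e Φ s‖ ^ 2 = snorm2 Φ ∧
      |heisenbergForm mm (e Φ) - 4 * hs J Φ| ≤ 9 * (K : ℝ) ^ 2 / 2 * snorm2 Φ := by
  subst hK
  let σ : Fin n × Fin 4 ≃ Fin (n * 4) := finProdFinEquiv
  have hσ : ∀ i : Fin (n * 4), 4 * ((σ.symm i).1 : ℕ) + ((σ.symm i).2 : ℕ) = (i : ℕ) := by
    intro i
    have h := finProdFinEquiv_apply_val (σ.symm i)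
    have h2 : finProdFinEquiv (σ.symm i) = i := σ.apply_symm_apply i
    rw [h2] at h
    rw [h]; ring
  let τ : (Fin (n * 4) → Fin 2) ≃ (Fin n × Fin 4 → Fin 2) :=
    { toFun := fun s => s ∘ σ
      invFun := fun t => t ∘ σ.symm
      left_inv := fun s => by funext x; simp only [Function.comp_apply, Equiv.apply_symm_apply]
      right_inv := fun t => by funext x; simp only [Function.comp_apply, Equiv.symm_apply_apply] }
  let e : SSt (Fin n × Fin 4) ≃ ((Fin (n * 4) → Fin 2) → ℂ) :=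
    { toFun := fun Φ s => Φ (τ s)
      invFun := fun φ t => φ (τ.symm t)
      left_inv := fun Φ => by funext t; exact congrArg Φ (τ.apply_symm_apply t)
      right_inv := fun φ => by funext s; exact congrArg φ (τ.symm_apply_apply s) }
  refine ⟨e, fun Φ => ?_⟩
  have he : ∀ s, e Φ s = Φ (s ∘ σ) := fun s => rfl
  have hnorm : ∑ s, ‖e Φ s‖ ^ 2 = snorm2 Φ := Equiv.sum_comp τ fun t => ‖Φ t‖ ^ 2
  refine ⟨hnorm, ?_⟩
  have hov : ∀ i j : Fin (n * 4), (∑ s, conj (e Φ s) * e Φ (s ∘ Equiv.swap i j)).re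
      = ov Φ (σ.symm i) (σ.symm j) := by
    intro i j
    unfold ov
    congr 1
    rw [← Equiv.sum_comp τ fun t => conj (Φ t) * Φ (t ∘ Equiv.swap (σ.symm i) (σ.symm j))]
    refine Finset.sum_congr rfl fun s _ => ?_
    rw [he, he, swap_conj]
    rfl
  have h1 : heisenbergForm mm (e Φ) = ∑ i : Fin (n * 4), ∑ j ∈ Finset.Ioi i,
      (mm i j : ℝ) * (2 * ov Φ (σ.symm i) (σ.symm j) - snorm2 Φ) := by
    unfold heisenbergForm
    refine Finset.sum_congr rfl fun i _ => Finset.sum_congr rfl fun j _ => ?_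
    rw [hov, hnorm]
  have h2 : 4 * hs J Φ = ∑ i : Fin (n * 4), ∑ j ∈ Finset.Ioi i,
      J (σ.symm i) (σ.symm j) * (2 * ov Φ (σ.symm i) (σ.symm j) - snorm2 Φ) := by
    rw [hs_eq]
    have h3 : ∑ p, ∑ q, (if p = q then 0 else J p q * (ov Φ p q - snorm2 Φ / 2))
        = ∑ i : Fin (n * 4), ∑ j : Fin (n * 4), (if i = j then 0 else
            J (σ.symm i) (σ.symm j) * (ov Φ (σ.symm i) (σ.symm j) - snorm2 Φ / 2)) := by
      rw [← Equiv.sum_comp σ.symm]
      refine Finset.sum_congr rfl fun i _ => ?_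
      rw [← Equiv.sum_comp σ.symm]
      refine Finset.sum_congr rfl fun j _ => ?_
      by_cases h : i = j
      · subst h; simp
      · rw [if_neg h, if_neg (fun h' => h (σ.symm.injective h'))]
    rw [h3, sum_sym (fun i j => J (σ.symm i) (σ.symm j) *
      (ov Φ (σ.symm i) (σ.symm j) - snorm2 Φ / 2)) (fun i j => by
        rw [hJ, ov_comm]), Finset.mul_sum]
    refine Finset.sum_congr rfl fun i _ => ?_
    rw [Finset.mul_sum]
    refine Finset.sum_congr rfl fun j _ => ?_
    ring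
  have hN := snorm2_nn Φ
  have h3 : |heisenbergForm mm (e Φ) - 4 * hs J Φ| ≤
      ∑ i : Fin (n * 4), ∑ j ∈ Finset.Ioi i, 9 * snorm2 Φ := by
    rw [h1, h2, ← Finset.sum_sub_distrib]
    refine (Finset.abs_sum_le_sum_abs _ _).trans (Finset.sum_le_sum fun i _ => ?_)
    rw [← Finset.sum_sub_distrib]
    refine (Finset.abs_sum_le_sum_abs _ _).trans (Finset.sum_le_sum fun j hj => ?_)
    rw [← sub_mul, abs_mul]
    have hij : i ≠ j := (Finset.mem_Ioi.1 hj).ne
    have h4 := hm (σ.symm i) (σ.symm j) (fun h => hij (σ.symm.injective h))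
    rw [hσ, hσ] at h4
    have h5 : |2 * ov Φ (σ.symm i) (σ.symm j) - snorm2 Φ| ≤ 3 * snorm2 Φ := by
      have h6 := abs_le.1 (ov_abs Φ (σ.symm i) (σ.symm j))
      rw [abs_le]
      constructor <;> linarith only [h6]
    calc |(mm i j : ℝ) - J (σ.symm i) (σ.symm j)| * |2 * ov Φ (σ.symm i) (σ.symm j) - snorm2 Φ|
        ≤ 3 * (3 * snorm2 Φ) := mul_le_mul h4 h5 (abs_nonneg _) (by norm_num)
      _ = 9 * snorm2 Φ := by ring
  have h4 : 2 * ∑ i : Fin (n * 4), ∑ j ∈ Finset.Ioi i, 9 * snorm2 Φ ≤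
      ((n * 4 : ℕ) : ℝ) ^ 2 * (9 * snorm2 Φ) := by
    rw [← sum_sym (fun _ _ => 9 * snorm2 Φ) (fun _ _ => rfl)]
    calc ∑ i : Fin (n * 4), ∑ j : Fin (n * 4), (if i = j then 0 else 9 * snorm2 Φ)
        ≤ ∑ i : Fin (n * 4), ∑ j : Fin (n * 4), 9 * snorm2 Φ :=
          Finset.sum_le_sum fun i _ => Finset.sum_le_sum fun j _ => by
            split_ifs
            · (clear * - hN; positivity)
            · exact le_rfl
      _ = ((n * 4 : ℕ) : ℝ) ^ 2 * (9 * snorm2 Φ) := by
          simp only [Finset.sum_const, Finset.card_univ, Fintype.card_fin, nsmul_eq_mul]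
          ring
  linarith only [h3, h4]

end Vale.Agent.P370.H
end

section

set_option linter.all false

/-!
The gap above the block singlets (H6, part B).
-/

namespace Vale.Agent.P370.H

open Finset ComplexConjugate

namespace IotaB

/-- configurations of a block -/
abbrev L4 : Type := Fin 4 → Fin 2

/-- explicit enumeration -/
def eqv4 : L4 ≃ Fin 2 × Fin 2 × Fin 2 × Fin 2 where
  toFun s := (s 0, s 1, s 2, s 3)
  invFun t := ![t.1, t.2.1, t.2.2.1, t.2.2.2]
  left_inv s := by
    funext i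
    fin_cases i <;> rfl
  right_inv _ := rfl

theorem sum_L4 {M : Type} [AddCommMonoid M] (F : L4 → M) :
    ∑ s, F s = ∑ a, ∑ b, ∑ c, ∑ d, F ![a, b, c, d] := by
  rw [← Equiv.sum_comp eqv4.symm F, Fintype.sum_prod_type]
  refine Finset.sum_congr rfl fun a _ => ?_
  rw [Fintype.sum_prod_type]
  refine Finset.sum_congr rfl fun b _ => ?_
  rw [Fintype.sum_prod_type]
  rfl

theorem sw (a b c d : Fin 2) :
    (![a, b, c, d] ∘ Equiv.swap (0 : Fin 4) 1 = ![b, a, c, d]) ∧
    (![a, b, c, d] ∘ Equiv.swap (0 : Fin 4) 2 = ![c, b, a, d]) ∧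
    (![a, b, c, d] ∘ Equiv.swap (0 : Fin 4) 3 = ![d, b, c, a]) ∧
    (![a, b, c, d] ∘ Equiv.swap (1 : Fin 4) 2 = ![a, c, b, d]) ∧
    (![a, b, c, d] ∘ Equiv.swap (1 : Fin 4) 3 = ![a, d, c, b]) ∧
    (![a, b, c, d] ∘ Equiv.swap (2 : Fin 4) 3 = ![a, b, d, c]) := by
  refine ⟨?_, ?_, ?_, ?_, ?_, ?_⟩ <;> funext i <;> fin_cases i <;> rfl

/-- local pair sums over the unordered pairs -/
theorem pairs (F : Fin 4 → Fin 4 → ℝ) (hF : ∀ i j, F i j = F j i) :
    (∑ i : Fin 4, ∑ j : Fin 4, if i = j then 0 else F i j) =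
      2 * (F 0 1 + F 0 2 + F 0 3 + F 1 2 + F 1 3 + F 2 3) := by
  simp only [Fin.sum_univ_four]
  simp only [↓reduceIte, Fin.isValue, Fin.reduceEq]
  rw [hF 1 0, hF 2 0, hF 3 0, hF 2 1, hF 3 1, hF 3 2]
  ring

theorem eb_true (s : L4) : eb true s =
    (if s 0 = s 1 ∧ s 2 = s 3 ∧ s 0 ≠ s 2 then 2
      else if s 0 ≠ s 1 ∧ s 2 ≠ s 3 then -1 else 0) / √12 := by
  simp [eb]

theorem eb_false (s : L4) : eb false s =
    (if s 0 ≠ s 1 ∧ s 2 ≠ s 3 then (if s 0 = s 2 then 1 else -1) else 0) / 2 := by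
  simp only [eb, Bool.false_eq_true, ↓reduceIte, Fin.isValue, ne_eq]

/-- `∑ eb true * g` -/
theorem sum_eb_true (g : L4 → ℝ) : ∑ σ, eb true σ * g σ =
    (2 * g ![0, 0, 1, 1] + 2 * g ![1, 1, 0, 0] - g ![0, 1, 0, 1] - g ![0, 1, 1, 0] -
      g ![1, 0, 0, 1] - g ![1, 0, 1, 0]) / √12 := by
  simp only [eb_true, sum_L4, Fin.sum_univ_two]
  simp only [Fin.isValue, Matrix.cons_val_zero, Matrix.cons_val_one, Matrix.cons_val, ne_eq, not_true_eq_false, and_false, ↓reduceIte, and_self, zero_div, zero_mul, zero_ne_one, not_false_eq_true, and_true, add_zero, one_ne_zero, zero_add]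
  ring

theorem sum_eb_false (g : L4 → ℝ) : ∑ σ, eb false σ * g σ =
    (g ![0, 1, 0, 1] - g ![0, 1, 1, 0] - g ![1, 0, 0, 1] + g ![1, 0, 1, 0]) / 2 := by
  simp only [eb_false, sum_L4, Fin.sum_univ_two]
  simp only [Fin.isValue, Matrix.cons_val_zero, Matrix.cons_val_one, ne_eq, not_true_eq_false, Matrix.cons_val, and_self, ↓reduceIte, zero_div, zero_mul, zero_ne_one, not_false_eq_true, and_true, add_zero, one_ne_zero, and_false, one_div, zero_add]
  ring

/-- the local inequality, real vectors -/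
theorem local_real (g : L4 → ℝ) :
    (∑ σ, g σ ^ 2) - ∑ x : Bool, (∑ σ, eb x σ * g σ) ^ 2 ≤
      1 / 4 * ∑ i : Fin 4, ∑ j : Fin 4,
        if i = j then 0 else ∑ σ : L4, g σ * g (σ ∘ Equiv.swap i j) := by
  have h12 : (√12 : ℝ) ^ 2 = 12 := Real.sq_sqrt (by norm_num)
  rw [pairs (fun i j => ∑ σ : L4, g σ * g (σ ∘ Equiv.swap i j))
    (fun i j => by simp only [Equiv.swap_comm])]
  rw [Fintype.sum_bool, sum_eb_true, sum_eb_false, div_pow, div_pow, h12]
  simp only [sum_L4, (sw _ _ _ _).1, (sw _ _ _ _).2.1, (sw _ _ _ _).2.2.1,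
    (sw _ _ _ _).2.2.2.1, (sw _ _ _ _).2.2.2.2.1, (sw _ _ _ _).2.2.2.2.2, Fin.sum_univ_two]
  have key : 0 ≤ 2 * (g ![0, 0, 0, 0] ^ 2 + g ![1, 1, 1, 1] ^ 2 +
      (g ![0, 0, 0, 1] + g ![0, 0, 1, 0] + g ![0, 1, 0, 0] + g ![1, 0, 0, 0]) ^ 2 / 4 +
      (g ![1, 1, 1, 0] + g ![1, 1, 0, 1] + g ![1, 0, 1, 1] + g ![0, 1, 1, 1]) ^ 2 / 4 +
      (g ![0, 0, 1, 1] + g ![0, 1, 0, 1] + g ![0, 1, 1, 0] + g ![1, 0, 0, 1] + g ![1, 0, 1, 0] +
        g ![1, 1, 0, 0]) ^ 2 / 6) := by (clear * -; positivity)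
  refine sub_nonneg.mp (key.trans (le_of_eq ?_))
  generalize g ![0, 0, 0, 0] = a0, g ![0, 0, 0, 1] = a1, g ![0, 0, 1, 0] = a2,
    g ![0, 0, 1, 1] = a3, g ![0, 1, 0, 0] = a4, g ![0, 1, 0, 1] = a5, g ![0, 1, 1, 0] = a6,
    g ![0, 1, 1, 1] = a7, g ![1, 0, 0, 0] = a8, g ![1, 0, 0, 1] = a9, g ![1, 0, 1, 0] = a10,
    g ![1, 0, 1, 1] = a11, g ![1, 1, 0, 0] = a12, g ![1, 1, 0, 1] = a13,
    g ![1, 1, 1, 0] = a14, g ![1, 1, 1, 1] = a15
  ring

/-- the local inequality -/
theorem local_cplx (g : L4 → ℂ) :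
    (∑ σ, ‖g σ‖ ^ 2) - ∑ x : Bool, ‖∑ σ, (eb x σ : ℂ) * g σ‖ ^ 2 ≤
      1 / 4 * ∑ i : Fin 4, ∑ j : Fin 4,
        if i = j then 0 else (∑ σ : L4, conj (g σ) * g (σ ∘ Equiv.swap i j)).re := by
  have h1 := local_real fun σ => (g σ).re
  have h2 := local_real fun σ => (g σ).im
  have e1 : ∑ σ, ‖g σ‖ ^ 2 = (∑ σ, (g σ).re ^ 2) + ∑ σ, (g σ).im ^ 2 := by
    rw [← Finset.sum_add_distrib]
    refine Finset.sum_congr rfl fun σ _ => ?_
    rw [Complex.sq_norm, Complex.normSq_apply]
    ring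
  have e2 : ∀ x, ‖∑ σ, (eb x σ : ℂ) * g σ‖ ^ 2 =
      (∑ σ, eb x σ * (g σ).re) ^ 2 + (∑ σ, eb x σ * (g σ).im) ^ 2 := by
    intro x
    rw [Complex.sq_norm, Complex.normSq_apply, Complex.re_sum, Complex.im_sum]
    simp only [Complex.re_ofReal_mul, Complex.im_ofReal_mul]
    ring
  have e3 : ∀ i j : Fin 4, (∑ σ : L4, conj (g σ) * g (σ ∘ Equiv.swap i j)).re =
      (∑ σ : L4, (g σ).re * (g (σ ∘ Equiv.swap i j)).re) +
        ∑ σ : L4, (g σ).im * (g (σ ∘ Equiv.swap i j)).im := by
    intro i j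
    rw [Complex.re_sum, ← Finset.sum_add_distrib]
    refine Finset.sum_congr rfl fun σ _ => ?_
    simp only [Complex.mul_re, Complex.conj_re, Complex.conj_im, neg_mul, sub_neg_eq_add]
  have e4 : (∑ i : Fin 4, ∑ j : Fin 4,
        if i = j then 0 else (∑ σ : L4, conj (g σ) * g (σ ∘ Equiv.swap i j)).re) =
      (∑ i : Fin 4, ∑ j : Fin 4,
        if i = j then 0 else ∑ σ : L4, (g σ).re * (g (σ ∘ Equiv.swap i j)).re) +
      ∑ i : Fin 4, ∑ j : Fin 4,
        if i = j then 0 else ∑ σ : L4, (g σ).im * (g (σ ∘ Equiv.swap i j)).im := by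
    rw [← Finset.sum_add_distrib]
    refine Finset.sum_congr rfl fun i _ => ?_
    rw [← Finset.sum_add_distrib]
    refine Finset.sum_congr rfl fun j _ => ?_
    split_ifs
    · simp
    · exact e3 i j
  rw [e1, e4, Finset.sum_congr rfl fun x _ => e2 x, Finset.sum_add_distrib]
  linarith only [h1, h2]

theorem eb_orth (x y : Bool) : ∑ σ, eb x σ * eb y σ = if x = y then 1 else 0 := by
  have h12 : (√12 : ℝ) * √12 = 12 := Real.mul_self_sqrt (by norm_num)
  have h0 : (√12 : ℝ) ≠ 0 := by positivity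
  cases x <;> cases y
  · rw [sum_eb_false]
    simp only [Fin.isValue, eb_false, Matrix.cons_val_zero, Matrix.cons_val_one, ne_eq, zero_ne_one, not_false_eq_true, Matrix.cons_val, and_self, ↓reduceIte, one_div, one_ne_zero]
    norm_num
  · rw [sum_eb_false]
    simp only [Fin.isValue, eb_true, Matrix.cons_val_zero, Matrix.cons_val_one, zero_ne_one, Matrix.cons_val, ne_eq, not_true_eq_false, and_self, ↓reduceIte, not_false_eq_true, one_ne_zero, and_true, sub_self, zero_sub, neg_add_cancel, zero_div, Bool.false_eq_true]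
  · rw [sum_eb_true]
    simp only [Fin.isValue, eb_false, Matrix.cons_val_zero, Matrix.cons_val_one, ne_eq, not_true_eq_false, Matrix.cons_val, and_self, ↓reduceIte, zero_div, mul_zero, add_zero, zero_ne_one, not_false_eq_true, one_div, zero_sub, one_ne_zero, Bool.true_eq_false, div_eq_zero_iff, Nat.ofNat_nonneg, Real.sqrt_eq_zero, OfNat.ofNat_ne_zero, or_false]
    norm_num
  · rw [sum_eb_true]
    simp only [Fin.isValue, eb_true, Matrix.cons_val_zero, Matrix.cons_val_one, Matrix.cons_val, ne_eq, zero_ne_one, not_false_eq_true, and_self, ↓reduceIte, one_ne_zero, not_true_eq_false, and_true]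
    field_simp
    linarith

/-- a complete orthonormal system containing `eb` -/
theorem exists_basis : ∃ e : Bool ⊕ Fin 14 → L4 → ℝ,
    (∀ x, e (Sum.inl x) = eb x) ∧
    (∀ a a', ∑ σ, e a σ * e a' σ = if a = a' then 1 else 0) ∧
    ∀ σ σ', ∑ a, e a σ * e a σ' = if σ = σ' then 1 else 0 := by
  classical
  set v : Bool ⊕ Fin 14 → EuclideanSpace ℝ L4 :=
    fun a => WithLp.toLp 2 (Sum.elim (fun x => eb x) (fun _ => 0) a) with hv
  have hvi : ∀ x y, inner ℝ (v (Sum.inl x)) (v (Sum.inl y)) = if x = y then (1 : ℝ) else 0 := by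
    intro x y
    simp only [hv, Sum.elim_inl, PiLp.inner_apply, RCLike.inner_apply, conj_trivial]
    rw [eb_orth y x]
    by_cases hxy : x = y
    · subst hxy; simp
    · rw [if_neg hxy, if_neg fun h => hxy h.symm]
  have ho : Orthonormal ℝ ((Set.range (Sum.inl : Bool → Bool ⊕ Fin 14)).domRestrict v) := by
    rw [orthonormal_iff_ite]
    rintro ⟨_, x, rfl⟩ ⟨_, y, rfl⟩
    refine (hvi x y).trans ?_
    by_cases hxy : x = y
    · subst hxy; simp
    · rw [if_neg hxy, if_neg]
      intro h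
      exact hxy (Sum.inl_injective (Subtype.ext_iff.mp h))
  obtain ⟨b, hb⟩ := ho.exists_orthonormalBasis_extension_of_card_eq (by simp only [L4, finrank_euclideanSpace, Fintype.card_pi, Fintype.card_fin, prod_const, card_univ, Nat.reducePow, Fintype.card_sum, Fintype.card_bool, Nat.reduceAdd])
  refine ⟨fun a σ => b a σ, fun x => ?_, fun a a' => ?_, fun σ σ' => ?_⟩
  · have := hb (Sum.inl x) ⟨x, rfl⟩
    funext σ
    show b (Sum.inl x) σ = eb x σ
    rw [this]
    rfl
  · have h := orthonormal_iff_ite.mp b.orthonormal a' a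
    simp only [PiLp.inner_apply, RCLike.inner_apply, conj_trivial] at h
    rw [h]
    by_cases hxy : a = a'
    · subst hxy; simp
    · rw [if_neg hxy, if_neg fun h => hxy h.symm]
  · have h := b.sum_inner_mul_inner (EuclideanSpace.single σ (1 : ℝ)) (EuclideanSpace.single σ' 1)
    simp only [EuclideanSpace.inner_single_left, EuclideanSpace.inner_single_right] at h
    simp only [map_one, one_mul, conj_trivial] at h
    rw [h]
    simp [eq_comm]

section general

variable {B : Type} [Fintype B] [DecidableEq B]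

/-- exchange the coordinate `b` with an additional variable -/
theorem sum_swap {M : Type} [AddCommMonoid M] (b : B) (K : (B → L4) → L4 → M) :
    ∑ c, ∑ σ, K c σ = ∑ c, ∑ σ, K (Function.update c b σ) (c b) := by
  have e : Function.Involutive
      (fun z : (B → L4) × L4 => ((Function.update z.1 b z.2, z.1 b) : (B → L4) × L4)) := by
    rintro ⟨c, σ⟩
    simp
  rw [← Fintype.sum_prod_type', ← Fintype.sum_prod_type']
  exact (Equiv.sum_comp e.toPerm (fun z : (B → L4) × L4 => K z.1 z.2)).symm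

theorem card_L4 : Fintype.card L4 = 16 := by simp only [L4, Fintype.card_pi, Fintype.card_fin, prod_const, card_univ, Nat.reducePow]

theorem sum_avg {M : Type} [AddCommMonoid M] (b : B) (f : (B → L4) → M) :
    ∑ c, ∑ σ, f (Function.update c b σ) = 16 • ∑ c, f c := by
  rw [← sum_swap b (fun c _ => f c)]
  simp only [sum_const, card_univ, Fintype.card_pi, Fintype.card_fin, prod_const, Nat.reducePow, smul_sum]

variable (e : Bool ⊕ Fin 14 → L4 → ℝ)

/-- the transform -/
noncomputable def hat (F : (B → L4) → ℂ) (α : B → Bool ⊕ Fin 14) : ℂ :=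
  ∑ c, ((∏ b, e (α b) (c b) : ℝ) : ℂ) * F c

theorem parseval (he : ∀ σ σ', ∑ a, e a σ * e a σ' = if σ = σ' then 1 else 0)
    (F : (B → L4) → ℂ) : ∑ α, ‖hat e F α‖ ^ 2 = ∑ c, ‖F c‖ ^ 2 := by
  have key : ∀ c c' : B → L4, (∑ α : B → Bool ⊕ Fin 14,
      (∏ b, e (α b) (c b)) * ∏ b, e (α b) (c' b)) = if c = c' then 1 else 0 := by
    intro c c'
    have h1 : ∀ α : B → Bool ⊕ Fin 14, (∏ b, e (α b) (c b)) * ∏ b, e (α b) (c' b) =
        ∏ b, e (α b) (c b) * e (α b) (c' b) := fun α => Finset.prod_mul_distrib.symm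
    simp only [h1]
    have h2 := Finset.prod_univ_sum (fun _ : B => (Finset.univ : Finset (Bool ⊕ Fin 14)))
      (fun b a => e a (c b) * e a (c' b))
    rw [Fintype.piFinset_univ] at h2
    rw [← h2]
    simp only [he]
    by_cases h : c = c'
    · subst h; simp only [↓reduceIte, prod_const_one]
    · rw [if_neg h]
      obtain ⟨b, hb⟩ := Function.ne_iff.mp h
      exact Finset.prod_eq_zero (Finset.mem_univ b) (if_neg hb)
  have h3 : ((∑ α, ‖hat e F α‖ ^ 2 : ℝ) : ℂ) = ((∑ c, ‖F c‖ ^ 2 : ℝ) : ℂ) := by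
    push_cast
    have h4 : ∀ α, (‖hat e F α‖ : ℂ) ^ 2 = ∑ c, ∑ c',
        ((((∏ b, e (α b) (c b)) * ∏ b, e (α b) (c' b) : ℝ)) : ℂ) * (conj (F c) * F c') := by
      intro α
      rw [← Complex.conj_mul', hat, map_sum, Finset.sum_mul_sum]
      refine Finset.sum_congr rfl fun c _ => Finset.sum_congr rfl fun c' _ => ?_
      rw [map_mul, Complex.conj_ofReal]
      push_cast
      ring
    rw [Finset.sum_congr rfl fun α _ => h4 α, Finset.sum_comm]
    refine Finset.sum_congr rfl fun c _ => ?_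
    rw [Finset.sum_comm]
    have h5 : ∀ c', ∑ α : B → Bool ⊕ Fin 14,
        ((((∏ b, e (α b) (c b)) * ∏ b, e (α b) (c' b) : ℝ)) : ℂ) * (conj (F c) * F c') =
        if c = c' then conj (F c) * F c' else 0 := by
      intro c'
      rw [← Finset.sum_mul, ← Complex.ofReal_sum, key]
      split_ifs <;> simp
    rw [Finset.sum_congr rfl fun c' _ => h5 c', Finset.sum_ite_eq, if_pos (Finset.mem_univ _),
      Complex.conj_mul']
  exact_mod_cast h3

/-- projection of the block `b` on the vector `a` -/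
noncomputable def prj (b : B) (a : Bool ⊕ Fin 14) (F : (B → L4) → ℂ) : (B → L4) → ℂ :=
  fun c => (e a (c b) : ℂ) * ∑ σ, (e a σ : ℂ) * F (Function.update c b σ)

theorem hat_prj (he : ∀ a a', ∑ σ, e a σ * e a' σ = if a = a' then 1 else 0) (b : B)
    (a : Bool ⊕ Fin 14) (F : (B → L4) → ℂ) (α : B → Bool ⊕ Fin 14) :
    hat e (prj e b a F) α = if α b = a then hat e F α else 0 := by
  have h1 : hat e (prj e b a F) α = ∑ c, ∑ σ,
      ((∏ b', e (α b') (c b') : ℝ) : ℂ) * ((e a (c b) : ℂ) * ((e a σ : ℂ) *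
        F (Function.update c b σ))) := by
    simp only [hat, prj, mul_sum]
  rw [h1, sum_swap b]
  have h2 : ∀ (c : B → L4) (σ : L4), ((∏ b', e (α b') (Function.update c b σ b') : ℝ) : ℂ) *
      ((e a (Function.update c b σ b) : ℂ) * ((e a (c b) : ℂ) *
        F (Function.update (Function.update c b σ) b (c b)))) =
      (((∏ b' ∈ Finset.univ.erase b, e (α b') (c b')) * e a (c b) : ℝ) : ℂ) * F c *
        ((e (α b) σ * e a σ : ℝ) : ℂ) := by
    intro c σ
    have h3 : (∏ b', e (α b') (Function.update c b σ b')) =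
        e (α b) σ * ∏ b' ∈ Finset.univ.erase b, e (α b') (c b') := by
      rw [← Finset.mul_prod_erase Finset.univ _ (Finset.mem_univ b)]
      rw [Function.update_self]
      congr 1
      refine Finset.prod_congr rfl fun b' hb' => ?_
      rw [Function.update_of_ne (Finset.ne_of_mem_erase hb')]
    rw [h3, Function.update_self, Function.update_idem, Function.update_eq_self]
    push_cast
    ring
  simp only [h2]
  simp only [← Finset.mul_sum]
  simp only [← Complex.ofReal_sum, he]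
  by_cases h : α b = a
  · simp only [if_pos h, hat]
    refine Finset.sum_congr rfl fun c _ => ?_
    rw [← Finset.mul_prod_erase Finset.univ _ (Finset.mem_univ b), h]
    push_cast
    ring
  · simp only [if_neg h]
    refine Finset.sum_eq_zero fun c _ => ?_
    simp only [Complex.ofReal_mul, Complex.ofReal_prod, Complex.ofReal_zero, mul_zero]

theorem norm_prj (he : ∀ a a', ∑ σ, e a σ * e a' σ = if a = a' then 1 else 0) (b : B)
    (a : Bool ⊕ Fin 14) (F : (B → L4) → ℂ) :
    16 * ∑ c, ‖prj e b a F c‖ ^ 2 =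
      ∑ c, ‖∑ σ, (e a σ : ℂ) * F (Function.update c b σ)‖ ^ 2 := by
  have h0 := sum_avg b (fun c => ‖prj e b a F c‖ ^ 2)
  rw [nsmul_eq_mul] at h0
  push_cast at h0
  rw [← h0]
  refine Finset.sum_congr rfl fun c _ => ?_
  have h1 : ∀ σ, ‖prj e b a F (Function.update c b σ)‖ ^ 2 =
      e a σ * e a σ * ‖∑ σ, (e a σ : ℂ) * F (Function.update c b σ)‖ ^ 2 := by
    intro σ
    simp only [prj, Function.update_self, Function.update_idem]
    rw [norm_mul, mul_pow, Complex.norm_real, Real.norm_eq_abs, sq_abs]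
    ring
  simp only [h1]
  rw [← Finset.sum_mul, he, if_pos rfl, one_mul]

theorem sum_hat (he : ∀ a a', ∑ σ, e a σ * e a' σ = if a = a' then 1 else 0)
    (he' : ∀ σ σ', ∑ a, e a σ * e a σ' = if σ = σ' then 1 else 0) (b : B)
    (a : Bool ⊕ Fin 14) (F : (B → L4) → ℂ) :
    ∑ c, ‖∑ σ, (e a σ : ℂ) * F (Function.update c b σ)‖ ^ 2 =
      16 * ∑ α, if α b = a then ‖hat e F α‖ ^ 2 else 0 := by
  rw [← norm_prj e he, ← parseval e he']
  congr 1
  refine Finset.sum_congr rfl fun α _ => ?_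
  rw [hat_prj e he]
  split_ifs <;> simp

/-- the gap of one block -/
theorem block_gap (he : ∀ a a', ∑ σ, e a σ * e a' σ = if a = a' then 1 else 0)
    (he' : ∀ σ σ', ∑ a, e a σ * e a σ' = if σ = σ' then 1 else 0)
    (hx : ∀ x, e (Sum.inl x) = eb x) (b : B) (F : (B → L4) → ℂ) :
    (∑ α, if (α b).isRight then ‖hat e F α‖ ^ 2 else 0) ≤
      1 / 4 * ∑ i : Fin 4, ∑ j : Fin 4, if i = j then 0 else
        (∑ c, conj (F c) * F (Function.update c b (c b ∘ Equiv.swap i j))).re := by
  have h1 : ∀ c, (∑ σ, ‖F (Function.update c b σ)‖ ^ 2) -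
      ∑ x : Bool, ‖∑ σ, (eb x σ : ℂ) * F (Function.update c b σ)‖ ^ 2 ≤
      1 / 4 * ∑ i : Fin 4, ∑ j : Fin 4, if i = j then 0 else
        (∑ σ : L4, conj (F (Function.update c b σ)) *
          F (Function.update c b (σ ∘ Equiv.swap i j))).re := fun c =>
    local_cplx fun σ => F (Function.update c b σ)
  have h2 := Finset.sum_le_sum fun c (_ : c ∈ (Finset.univ : Finset (B → L4))) => h1 c
  rw [Finset.sum_sub_distrib, ← Finset.mul_sum, sum_avg b (fun c => ‖F c‖ ^ 2),
    ← parseval e he', nsmul_eq_mul] at h2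
  have h3 : ∑ c : B → L4, ∑ x : Bool, ‖∑ σ, (eb x σ : ℂ) * F (Function.update c b σ)‖ ^ 2 =
      16 * ∑ x : Bool, ∑ α, if α b = Sum.inl x then ‖hat e F α‖ ^ 2 else 0 := by
    rw [Finset.sum_comm, Finset.mul_sum]
    refine Finset.sum_congr rfl fun x _ => ?_
    rw [← sum_hat e he he', hx]
  have h4 : ∑ c : B → L4, ∑ i : Fin 4, ∑ j : Fin 4, (if i = j then (0 : ℝ) else
        (∑ σ : L4, conj (F (Function.update c b σ)) *
          F (Function.update c b (σ ∘ Equiv.swap i j))).re) =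
      16 * ∑ i : Fin 4, ∑ j : Fin 4, if i = j then (0 : ℝ) else
        (∑ c, conj (F c) * F (Function.update c b (c b ∘ Equiv.swap i j))).re := by
    rw [Finset.sum_comm, Finset.mul_sum]
    refine Finset.sum_congr rfl fun i _ => ?_
    rw [Finset.sum_comm, Finset.mul_sum]
    refine Finset.sum_congr rfl fun j _ => ?_
    by_cases hij : i = j
    · simp only [hij, ↓reduceIte, sum_const_zero, mul_zero]
    · simp only [if_neg hij]
      rw [← Complex.re_sum]
      have h5 := sum_avg b (fun c : B → L4 =>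
        conj (F c) * F (Function.update c b (c b ∘ Equiv.swap i j)))
      simp only [Function.update_self, Function.update_idem] at h5
      rw [h5, nsmul_eq_mul]
      simp only [Nat.cast_ofNat, Complex.mul_re, Complex.re_ofNat, Complex.re_sum, Complex.conj_re, Complex.conj_im, neg_mul, sub_neg_eq_add, Complex.im_ofNat, Complex.im_sum, Complex.mul_im, zero_mul, sub_zero]
  rw [h3, h4] at h2
  have h6 : (∑ α, if (α b).isRight then ‖hat e F α‖ ^ 2 else 0) = (∑ α, ‖hat e F α‖ ^ 2) -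
      ∑ x : Bool, ∑ α, if α b = Sum.inl x then ‖hat e F α‖ ^ 2 else 0 := by
    rw [Finset.sum_comm, ← Finset.sum_sub_distrib]
    refine Finset.sum_congr rfl fun α _ => ?_
    rcases h : α b with x | y
    · cases x <;> simp
    · simp
  rw [h6]
  push_cast at h2
  linarith

/-- spins as functions on block configurations -/
def crv (Φ : SSt (B × Fin 4)) : (B → L4) → ℂ := fun c => Φ fun p => c p.1 p.2

theorem sum_crv {M : Type} [AddCommMonoid M] (G : (B × Fin 4 → Fin 2) → M) :
    ∑ s, G s = ∑ c : B → L4, G fun p => c p.1 p.2 :=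
  (Equiv.sum_comp (Equiv.curry B (Fin 4) (Fin 2)).symm G).symm

omit [Fintype B] in
theorem swap_crv (c : B → L4) (b : B) (i j : Fin 4) :
    (fun p : B × Fin 4 => c p.1 p.2) ∘ Equiv.swap (b, i) (b, j) =
      fun p => Function.update c b (c b ∘ Equiv.swap i j) p.1 p.2 := by
  funext ⟨b', k⟩
  simp only [Function.comp]
  by_cases hb : b' = b
  · subst hb
    rw [Function.update_self]
    simp only [Function.comp]
    by_cases hi : k = i
    · subst hi; simp
    · by_cases hj : k = j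
      · subst hj; simp
      · rw [Equiv.swap_apply_of_ne_of_ne (by simp [hi]) (by simp [hj]),
          Equiv.swap_apply_of_ne_of_ne hi hj]
  · rw [Function.update_of_ne hb, Equiv.swap_apply_of_ne_of_ne (by simp [hb]) (by simp [hb])]

theorem sip_sum {I K : Type} [Fintype I] [DecidableEq I] (Φ : SSt I) (t : Finset K)
    (Ψ : K → SSt I) : sip Φ (∑ k ∈ t, Ψ k) = ∑ k ∈ t, sip Φ (Ψ k) := by
  simp only [sip, Finset.sum_apply, Finset.mul_sum]
  exact Finset.sum_comm

theorem sip_smul {I : Type} [Fintype I] [DecidableEq I] (Φ Ψ : SSt I) (z : ℂ) :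
    sip Φ (z • Ψ) = z * sip Φ Ψ := by
  simp only [sip, Pi.smul_apply, smul_eq_mul, Finset.mul_sum]
  exact Finset.sum_congr rfl fun s _ => by ring

theorem sip_self {I : Type} [Fintype I] [DecidableEq I] (Φ : SSt I) :
    sip Φ Φ = (snorm2 Φ : ℂ) := by
  simp only [sip, snorm2, Complex.ofReal_sum]
  refine Finset.sum_congr rfl fun s _ => ?_
  rw [Complex.conj_mul', Complex.ofReal_pow]

theorem sip_dotS {I : Type} [Fintype I] [DecidableEq I] (Φ : SSt I) (i j : I) :
    sip Φ (dotS i j Φ) =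
      1 / 2 * (∑ s, conj (Φ s) * Φ (s ∘ Equiv.swap i j)) - 1 / 4 * snorm2 Φ := by
  rw [← sip_self]
  simp only [sip, dotS, mul_sum]
  rw [← Finset.sum_sub_distrib]
  exact Finset.sum_congr rfl fun s _ => by ring

theorem sip_casimir (Φ : SSt (B × Fin 4)) : (sip Φ (casimir Φ)).re =
    ∑ b : B, 1 / 4 * ∑ i : Fin 4, ∑ j : Fin 4, if i = j then 0 else
      (∑ c, conj (crv Φ c) * crv Φ (Function.update c b (c b ∘ Equiv.swap i j))).re := by
  have h1 : sip Φ (casimir Φ) = ∑ b : B, (1 / 2 : ℂ) * ∑ i : Fin 4, ∑ j : Fin 4,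
      (if i = j then 3 / 4 * (snorm2 Φ : ℂ) else 1 / 2 * (∑ c, conj (crv Φ c) *
        crv Φ (Function.update c b (c b ∘ Equiv.swap i j))) - 1 / 4 * snorm2 Φ) := by
    rw [casimir, sip_sum]
    refine Finset.sum_congr rfl fun b _ => ?_
    rw [sip_smul, sip_sum]
    congr 1
    refine Finset.sum_congr rfl fun i _ => ?_
    rw [sip_sum]
    refine Finset.sum_congr rfl fun j _ => ?_
    split_ifs with hij
    · rw [sip_smul, sip_self]
    · rw [sip_dotS, sum_crv]
      simp only [swap_crv]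
      rfl
  rw [h1, Complex.re_sum]
  refine Finset.sum_congr rfl fun b _ => ?_
  simp only [Fin.sum_univ_four]
  simp only [Fin.isValue, ↓reduceIte, Fin.reduceEq]
  simp only [one_div, Fin.isValue, Complex.mul_re, Complex.inv_re, Complex.re_ofNat, Complex.normSq_ofNat, div_self_mul_self', Complex.add_re, Complex.div_ofNat_re, Complex.ofReal_re, Complex.div_ofNat_im, Complex.im_ofNat, zero_div, Complex.ofReal_im, mul_zero, sub_zero, Complex.sub_re, Complex.re_sum, Complex.conj_re, Complex.conj_im, neg_mul, sub_neg_eq_add, Complex.inv_im, neg_zero, Complex.im_sum, Complex.mul_im, zero_mul, Complex.add_im, add_zero, Complex.sub_im, zero_add]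
  ring

end general

end IotaB

open IotaB in
/-- The gap above the block singlets. -/
theorem casimir_gap {B : Type} [Fintype B] [DecidableEq B] (Φ : SSt (B × Fin 4)) :
    snorm2 Φ - ∑ x, ‖iotaA Φ x‖ ^ 2 ≤ (sip Φ (casimir Φ)).re := by
  obtain ⟨e, hx, he, he'⟩ := exists_basis
  have h1 : ∀ b : B, _ := fun b => block_gap e he he' hx b (crv Φ)
  rw [sip_casimir]
  refine le_trans ?_ (Finset.sum_le_sum fun b _ => h1 b)
  rw [Finset.sum_comm]
  have h2 : snorm2 Φ = ∑ α, ‖hat e (crv Φ) α‖ ^ 2 := by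
    rw [parseval e he', snorm2, sum_crv]
    rfl
  have h3 : ∑ x, ‖iotaA Φ x‖ ^ 2 =
      ∑ x : B → Bool, ‖hat e (crv Φ) (fun b => Sum.inl (x b))‖ ^ 2 := by
    refine Finset.sum_congr rfl fun x _ => ?_
    congr 2
    rw [iotaA, sum_crv, hat]
    refine Finset.sum_congr rfl fun c _ => ?_
    simp only [hx, crv]
    push_cast
    rfl
  have h4 : ∑ x : B → Bool, ‖hat e (crv Φ) (fun b => Sum.inl (x b))‖ ^ 2 =
      ∑ α : B → Bool ⊕ Fin 14, if ∀ b, (α b).isLeft then ‖hat e (crv Φ) α‖ ^ 2 else 0 := by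
    rw [← Finset.sum_filter]
    refine Finset.sum_bij (fun x _ => fun b => Sum.inl (x b)) ?_ ?_ ?_ ?_
    · intro x _
      simp only [mem_filter, mem_univ, Sum.isLeft_inl, implies_true, and_self]
    · intro x _ y _ h
      funext b
      exact Sum.inl_injective (congrFun h b)
    · intro α hα
      rw [Finset.mem_filter] at hα
      refine ⟨fun b => (α b).elim id (fun _ => false), Finset.mem_univ _, ?_⟩
      funext b
      have hb := hα.2 b
      rcases h : α b with z | z
      · simp [h]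
      · rw [h] at hb
        simp at hb
    · intro x _
      simp
  rw [h2, h3, h4, ← Finset.sum_sub_distrib]
  refine Finset.sum_le_sum fun α _ => ?_
  by_cases hα : ∀ b, (α b).isLeft
  · rw [if_pos hα, sub_self]
    exact Finset.sum_nonneg fun b _ => by split_ifs <;> (clear * -; positivity)
  · rw [if_neg hα, sub_zero]
    push Not at hα
    obtain ⟨b, hb⟩ := hα
    have hb' : (α b).isRight := by
      rcases h : α b with z | z
      · rw [h] at hb; simp at hb
      · simp
    calc ‖hat e (crv Φ) α‖ ^ 2 = if (α b).isRight then ‖hat e (crv Φ) α‖ ^ 2 else 0 := by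
          rw [if_pos hb']
      _ ≤ _ := Finset.single_le_sum
          (f := fun b => if (α b).isRight then ‖hat e (crv Φ) α‖ ^ 2 else 0)
          (fun b _ => by split_ifs <;> (clear * -; positivity)) (Finset.mem_univ b)

end Vale.Agent.P370.H
end

section

/-!
Measure theory of the slots of a finite power of a measure space.
-/

namespace Vale.Agent.P370.NB

open MeasureTheory Function

variable {ι : Type*} [Fintype ι] [DecidableEq ι] {Y : Type*} [MeasurableSpace Y]

/-- the power measure -/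
noncomputable abbrev pm (ι : Type*) [Fintype ι] {Y : Type*} [MeasurableSpace Y] (μ : Measure Y) :
    Measure (ι → Y) := Measure.pi fun _ => μ

def slotMap (i : ι) (p : (ι → Y) × Y) : (ι → Y) × Y := (update p.1 i p.2, p.1 i)

omit [Fintype ι] in
theorem measurable_update_pair (i : ι) :
    Measurable (fun p : (ι → Y) × Y => update p.1 i p.2) := by
  rw [measurable_pi_iff]
  intro j
  by_cases h : j = i
  · subst h
    simp only [update_self]
    exact measurable_snd
  · simp only [update_of_ne h]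
    exact (measurable_pi_apply j).comp measurable_fst

omit [Fintype ι] in
theorem measurable_slotMap (i : ι) : Measurable (slotMap (Y := Y) i) :=
  (measurable_update_pair i).prodMk ((measurable_pi_apply i).comp measurable_fst)

omit [Fintype ι] [MeasurableSpace Y] in
theorem slotMap_slotMap (i : ι) (p : (ι → Y) × Y) : slotMap i (slotMap i p) = p := by
  unfold slotMap
  ext j
  · simp only [update_idem, update_eq_self]
  · simp

variable (μ : Measure Y) [SigmaFinite μ]

theorem measurePreserving_slotMap (i : ι) :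
    MeasurePreserving (slotMap i) ((pm ι μ).prod μ) ((pm ι μ).prod μ) := by
  refine ⟨measurable_slotMap i, ?_⟩
  let e : (Option ι → Y) ≃ᵐ (ι → Y) × Y := MeasurableEquiv.piOptionEquivProd (fun _ => Y)
  have he : MeasurePreserving e.symm ((pm ι μ).prod μ) (pm (Option ι) μ) :=
    ⟨e.symm.measurable, Measure.pi_map_piOptionEquivProd (fun _ : Option ι => μ)⟩
  have he' : MeasurePreserving e (pm (Option ι) μ) ((pm ι μ).prod μ) := he.symm
  let s : (Option ι → Y) ≃ᵐ (Option ι → Y) :=
    MeasurableEquiv.piCongrLeft (fun _ => Y) (Equiv.swap none (some i))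
  have hs : MeasurePreserving s (pm (Option ι) μ) (pm (Option ι) μ) :=
    measurePreserving_piCongrLeft (fun _ : Option ι => μ) (Equiv.swap none (some i))
  have h := (he'.comp (hs.comp he)).map_eq
  have hfun : (e ∘ (s ∘ e.symm)) = slotMap (Y := Y) i := by
    funext p
    apply e.symm.injective
    simp only [comp_apply, MeasurableEquiv.symm_apply_apply]
    funext o
    have h1 : ∀ (q : (ι → Y) × Y), e.symm q none = q.2 := fun q => rfl
    have h2 : ∀ (q : (ι → Y) × Y) (j : ι), e.symm q (some j) = q.1 j := fun q j => rfl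
    have h3 : ∀ (f : Option ι → Y), s f = fun o => f (Equiv.swap none (some i) o) := by
      intro f
      funext o
      have := Equiv.piCongrLeft_apply_apply (P := fun _ : Option ι => Y)
        (Equiv.swap none (some i)) f (Equiv.swap none (some i) o)
      rw [Equiv.swap_apply_self] at this
      exact this
    rw [h3]
    simp only
    cases o with
    | none =>
      rw [Equiv.swap_apply_left, h1, h2]
      rfl
    | some j =>
      by_cases hj : j = i
      · subst hj
        rw [Equiv.swap_apply_right, h1, h2]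
        simp only [slotMap, update_self]
      · rw [Equiv.swap_apply_of_ne_of_ne (by simp) (by simpa using hj), h2, h2]
        simp only [slotMap, update_of_ne hj]
  rw [hfun] at h
  exact h

variable {E : Type*} [NormedAddCommGroup E]

theorem integrable_slotMap (i : ι) {K : (ι → Y) × Y → E} (hK : Integrable K ((pm ι μ).prod μ)) :
    Integrable (fun p => K (slotMap i p)) ((pm ι μ).prod μ) :=
  (measurePreserving_slotMap μ i).integrable_comp_of_integrable hK

variable [NormedSpace ℝ E]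

theorem integral_slotMap (i : ι) (K : (ι → Y) × Y → E) (hK : AEStronglyMeasurable K ((pm ι μ).prod μ)) :
    ∫ p, K (slotMap i p) ∂((pm ι μ).prod μ) = ∫ p, K p ∂((pm ι μ).prod μ) := by
  have h := (measurePreserving_slotMap μ i).map_eq
  conv_rhs => rw [← h]
  rw [integral_map (measurable_slotMap i).aemeasurable]
  rw [h]
  exact hK

/-- iterated form -/
theorem integral_slot₂ (i : ι) (K : (ι → Y) → Y → E)
    (hK : Integrable (fun p : (ι → Y) × Y => K p.1 p.2) ((pm ι μ).prod μ)) :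
    ∫ w, ∫ z, K (update w i z) (w i) ∂μ ∂(pm ι μ) = ∫ w, ∫ z, K w z ∂μ ∂(pm ι μ) := by
  have h1 := integral_slotMap μ i _ hK.1
  have h2 := integrable_slotMap μ i hK
  rw [integral_prod _ hK, integral_prod _ h2] at h1
  exact h1

/-- averaging over one slot -/
theorem integral_slot [CompleteSpace E] (i : ι) {F : (ι → Y) → E} (hF : Integrable F (pm ι μ)) {h : Y → ℝ}
    (hh : Integrable h μ) (h1 : ∫ y, h y ∂μ = 1) :
    ∫ w, F w ∂(pm ι μ) = ∫ w, h (w i) • ∫ z, F (update w i z) ∂μ ∂(pm ι μ) := by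
  have hK : Integrable (fun p : (ι → Y) × Y => h p.2 • F p.1) ((pm ι μ).prod μ) :=
    hF.op_fst_snd (op := fun x (c : ℝ) => c • x) (continuous_snd.smul continuous_fst)
      ⟨1, fun x y => by rw [norm_smul]; linarith [mul_comm ‖y‖ ‖x‖]⟩ hh
  have h2 := integral_slot₂ μ i (fun w z => h z • F w) hK
  have h3 : ∀ w : ι → Y, ∫ z, h z • F w ∂μ = F w := by
    intro w
    rw [integral_smul_const, h1, one_smul]
  simp only [h3] at h2
  rw [← h2]
  refine integral_congr_ae (Filter.Eventually.of_forall fun w => ?_)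
  exact integral_smul _ _

end Vale.Agent.P370.NB
end

section

/-!
Abstract slot projections: a resolution of the identity in each slot, commuting between slots, on a
(semi) inner product space. The weights `‖cfg J u‖ ^ 2` of the configurations form a joint
distribution whose marginals are `‖p i b u‖ ^ 2`.
-/

namespace Vale.Agent.P370.NB

open scoped ComplexInnerProductSpace

variable {V : Type*} [SeminormedAddCommGroup V] [InnerProductSpace ℂ V]

structure Slots (V : Type*) [SeminormedAddCommGroup V] [InnerProductSpace ℂ V] (N : ℕ)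
    (B : Type*) [Fintype B] where
  p : Fin N → B → V →ₗ[ℂ] V
  symm : ∀ i b u v, ⟪p i b u, v⟫ = ⟪u, p i b v⟫
  idem : ∀ i b u, p i b (p i b u) = p i b u
  orth : ∀ i a b u, a ≠ b → p i a (p i b u) = 0
  comm : ∀ i j a b u, i ≠ j → p i a (p j b u) = p j b (p i a u)
  total : ∀ i u, ∑ b, p i b u = u

namespace Slots

variable {N : ℕ} {B : Type*} [Fintype B] (S : Slots V N B)

theorem norm_sq_sum (i : Fin N) (u : V) : ∑ b, ‖S.p i b u‖ ^ 2 = ‖u‖ ^ 2 := by
  have h : (⟪u, u⟫ : ℂ) = ∑ b, ⟪S.p i b u, S.p i b u⟫ := by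
    conv_lhs => rw [← S.total i u]
    rw [sum_inner]
    refine Finset.sum_congr rfl fun b _ => ?_
    rw [S.total i u, S.symm i b u (S.p i b u), S.idem, ← S.symm]
  have h2 := congrArg Complex.re h
  rw [Complex.re_sum] at h2
  simp only [inner_self_eq_norm_sq_to_K] at h2
  norm_cast at h2
  exact h2.symm

/-- configuration operator for the first `k` slots -/
noncomputable def cfg : (k : ℕ) → (hk : k ≤ N) → (Fin k → B) → V →ₗ[ℂ] V
  | 0, _, _ => LinearMap.id
  | k + 1, hk, J => (S.p ⟨k, hk⟩ (J (Fin.last k))).comp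
      (cfg k (Nat.le_of_succ_le hk) (fun i => J i.castSucc))

theorem cfg_zero (h : 0 ≤ N) (J : Fin 0 → B) (u : V) : S.cfg 0 h J u = u := rfl

theorem cfg_succ (k : ℕ) (hk : k + 1 ≤ N) (J : Fin (k + 1) → B) (u : V) :
    S.cfg (k + 1) hk J u =
      S.p ⟨k, hk⟩ (J (Fin.last k)) (S.cfg k (Nat.le_of_succ_le hk) (fun i => J i.castSucc) u) :=
  rfl

theorem sum_cfg (k : ℕ) (hk : k ≤ N) (u : V) : ∑ J, ‖S.cfg k hk J u‖ ^ 2 = ‖u‖ ^ 2 := by
  induction k with
  | zero =>
    rw [Fintype.sum_unique]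
    rfl
  | succ k ih =>
    have h1 : ∑ J : Fin (k + 1) → B, ‖S.cfg (k + 1) hk J u‖ ^ 2 =
        ∑ q : B × (Fin k → B), ‖S.p ⟨k, hk⟩ q.1 (S.cfg k (Nat.le_of_succ_le hk) q.2 u)‖ ^ 2 := by
      refine (Fintype.sum_equiv (Fin.snocEquiv (fun _ => B)) _ _ ?_).symm
      intro q
      rw [cfg_succ]
      simp [Fin.snocEquiv]
    rw [h1, Fintype.sum_prod_type_right]
    rw [← ih (Nat.le_of_succ_le hk)]
    refine Finset.sum_congr rfl fun J _ => ?_
    exact S.norm_sq_sum ⟨k, hk⟩ (S.cfg k (Nat.le_of_succ_le hk) J u)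

theorem cfg_comm (k : ℕ) (hk : k ≤ N) (J : Fin k → B) (i : Fin N) (hi : k ≤ i.val) (b : B) (u : V) :
    S.cfg k hk J (S.p i b u) = S.p i b (S.cfg k hk J u) := by
  induction k with
  | zero => rfl
  | succ k ih =>
    rw [cfg_succ, cfg_succ, ih (Nat.le_of_succ_le hk) _ (by omega)]
    apply S.comm
    intro h
    have := congrArg Fin.val h
    simp at this
    omega

theorem cfg_p [DecidableEq B] (k : ℕ) (hk : k ≤ N) (J : Fin k → B) (i : Fin k) (b : B) (u : V) :
    S.cfg k hk J (S.p ⟨i.val, lt_of_lt_of_le i.isLt hk⟩ b u) =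
      if J i = b then S.cfg k hk J u else 0 := by
  induction k with
  | zero => exact i.elim0
  | succ k ih =>
    rw [cfg_succ, cfg_succ]
    refine Fin.lastCases ?_ (fun j => ?_) i
    · have h1 : (⟨(Fin.last k).val, lt_of_lt_of_le (Fin.last k).isLt hk⟩ : Fin N) = ⟨k, hk⟩ := rfl
      rw [h1, cfg_comm _ _ _ _ _ (le_refl k)]
      split_ifs with h
      · rw [h, S.idem]
      · exact S.orth _ _ _ _ h
    · have h1 := ih (Nat.le_of_succ_le hk) (fun i => J i.castSucc) j
      have h2 : (⟨(Fin.castSucc j).val, lt_of_lt_of_le (Fin.castSucc j).isLt hk⟩ : Fin N) =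
        ⟨j.val, lt_of_lt_of_le j.isLt (Nat.le_of_succ_le hk)⟩ := rfl
      rw [h2, h1]
      split_ifs with h
      · rfl
      · exact map_zero _

theorem marginal [DecidableEq B] (i : Fin N) (b : B) (u : V) :
    ∑ J : Fin N → B, (if J i = b then ‖S.cfg N le_rfl J u‖ ^ 2 else 0) = ‖S.p i b u‖ ^ 2 := by
  rw [← S.sum_cfg N le_rfl (S.p i b u)]
  refine Finset.sum_congr rfl fun J _ => ?_
  have := S.cfg_p N le_rfl J i b u
  have h2 : (⟨i.val, lt_of_lt_of_le i.isLt le_rfl⟩ : Fin N) = i := rfl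
  rw [h2] at this
  rw [this]
  split_ifs <;> simp

theorem weight_marginal [DecidableEq B] (f : B → ℝ) (i : Fin N) (u : V) :
    ∑ b, f b * ‖S.p i b u‖ ^ 2 = ∑ J : Fin N → B, f (J i) * ‖S.cfg N le_rfl J u‖ ^ 2 := by
  have h1 : ∀ b, f b * ‖S.p i b u‖ ^ 2 =
      ∑ J : Fin N → B, (if J i = b then f b * ‖S.cfg N le_rfl J u‖ ^ 2 else 0) := by
    intro b
    rw [← S.marginal i b u, Finset.mul_sum]
    refine Finset.sum_congr rfl fun J _ => ?_
    split_ifs <;> simp
  simp_rw [h1]
  rw [Finset.sum_comm]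
  refine Finset.sum_congr rfl fun J _ => ?_
  rw [Finset.sum_ite_eq]
  simp only [Finset.mem_univ, ↓reduceIte]

theorem cfg_eq_zero [DecidableEq B] (u : V) (b : B) (i j : Fin N)
    (h0 : S.p i b (S.p j b u) = 0) (J : Fin N → B) (hi : J i = b) (hj : J j = b) :
    S.cfg N le_rfl J u = 0 := by
  have h1 := S.cfg_p N le_rfl J i b (S.p j b u)
  have h2 := S.cfg_p N le_rfl J j b u
  have e1 : (⟨i.val, lt_of_lt_of_le i.isLt le_rfl⟩ : Fin N) = i := rfl
  have e2 : (⟨j.val, lt_of_lt_of_le j.isLt le_rfl⟩ : Fin N) = j := rfl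
  rw [e1, if_pos hi] at h1
  rw [e2, if_pos hj] at h2
  rw [← h2, ← h1, h0, map_zero]

end Slots

/-- orthogonal projections `p i a`, `a : A`, in every slot; not nec. summing to one -/
structure PreSlots (V : Type*) [SeminormedAddCommGroup V] [InnerProductSpace ℂ V] (N : ℕ)
    (A : Type*) where
  p : Fin N → A → V →ₗ[ℂ] V
  symm : ∀ i b u v, ⟪p i b u, v⟫ = ⟪u, p i b v⟫
  idem : ∀ i b u, p i b (p i b u) = p i b u
  orth : ∀ i a b u, a ≠ b → p i a (p i b u) = 0
  comm : ∀ i j a b u, i ≠ j → p i a (p j b u) = p j b (p i a u)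

namespace PreSlots

variable {N : ℕ} {A : Type*} [Fintype A] (S : PreSlots V N A)

noncomputable def q (i : Fin N) : Option A → V →ₗ[ℂ] V
  | some a => S.p i a
  | none => LinearMap.id - ∑ a, S.p i a

theorem q_some (i : Fin N) (a : A) : S.q i (some a) = S.p i a := rfl

theorem q_none_apply (i : Fin N) (u : V) : S.q i none u = u - ∑ a, S.p i a u := by
  simp only [q, LinearMap.sub_apply, LinearMap.id_coe, id_eq, LinearMap.coe_sum, Finset.sum_apply]

theorem p_sum (i : Fin N) (a : A) (u : V) : S.p i a (∑ b, S.p i b u) = S.p i a u := by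
  classical
  rw [map_sum, Finset.sum_eq_single a]
  · exact S.idem _ _ _
  · intro b _ hb
    exact S.orth _ _ _ _ (Ne.symm hb)
  · simp only [Finset.mem_univ, not_true_eq_false, IsEmpty.forall_iff]

noncomputable def toSlots : Slots V N (Option A) where
  p := S.q
  symm := by
    intro i b u v
    cases b with
    | some a => exact S.symm i a u v
    | none =>
      rw [q_none_apply, q_none_apply, inner_sub_left, inner_sub_right, sum_inner, inner_sum]
      congr 1
      exact Finset.sum_congr rfl fun a _ => S.symm i a u v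
  idem := by
    intro i b u
    cases b with
    | some a => exact S.idem i a u
    | none =>
      rw [q_none_apply, q_none_apply]
      simp only [map_sub, p_sum, sub_self, Finset.sum_const_zero, sub_zero]
  orth := by
    intro i a b u hab
    cases a with
    | some a =>
      cases b with
      | some b => exact S.orth i a b u (fun h => hab (by rw [h]))
      | none =>
        rw [q_none_apply, q_some, map_sub, p_sum, sub_self]
    | none =>
      cases b with
      | some b =>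
        classical
        rw [q_none_apply, q_some, Finset.sum_eq_single b, S.idem, sub_self]
        · intro c _ hc
          exact S.orth _ _ _ _ hc
        · simp
      | none => exact absurd rfl hab
  comm := by
    have h1 : ∀ (i j : Fin N) (a : A) (u : V), i ≠ j →
        S.p i a (∑ b, S.p j b u) = ∑ b, S.p j b (S.p i a u) := by
      intro i j a u hij
      rw [map_sum]
      exact Finset.sum_congr rfl fun b _ => S.comm i j a b u hij
    intro i j a b u hij
    cases a with
    | some a =>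
      cases b with
      | some b => exact S.comm i j a b u hij
      | none => simp only [q_none_apply, q_some, map_sub, h1 i j a u hij]
    | none =>
      cases b with
      | some b => simp only [q_none_apply, q_some, map_sub, h1 j i b u hij.symm]
      | none =>
        simp only [q_none_apply, map_sub]
        have h2 : ∑ a, S.p i a (∑ b, S.p j b u) = ∑ b, S.p j b (∑ a, S.p i a u) := by
          simp_rw [map_sum]
          rw [Finset.sum_comm]
          exact Finset.sum_congr rfl fun b _ => Finset.sum_congr rfl fun a _ =>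
            S.comm i j a b u hij
        rw [h2]
        abel
  total := by
    intro i u
    rw [Fintype.sum_option, q_none_apply]
    simp only [q_some]
    abel

/-- iterated projection on the orbital configuration `I` -/
noncomputable def cfg (I : Fin N → A) : V →ₗ[ℂ] V :=
  S.toSlots.cfg N le_rfl (fun i => some (I i))

/-- energy of a configuration -/
def cost {A : Type*} (e : A → ℝ) (eout : ℝ) : Option A → ℝ
  | some a => e a
  | none => eout

theorem energy_eq (e : A → ℝ) (eout : ℝ) (u : V) (i : Fin N) :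
    eout * ‖u‖ ^ 2 - ∑ a, (eout - e a) * ‖S.p i a u‖ ^ 2 =
      ∑ J : Fin N → Option A, cost e eout (J i) * ‖S.toSlots.cfg N le_rfl J u‖ ^ 2 := by
  classical
  rw [← S.toSlots.weight_marginal]
  have h := S.toSlots.norm_sq_sum i u
  rw [Fintype.sum_option] at h ⊢
  simp only [cost]
  have h3 : ∀ a, S.toSlots.p i (some a) u = S.p i a u := fun a => rfl
  simp only [h3] at h ⊢
  have h2 : ∑ a, (eout - e a) * ‖S.p i a u‖ ^ 2 =
      eout * ∑ a, ‖S.p i a u‖ ^ 2 - ∑ a, e a * ‖S.p i a u‖ ^ 2 := by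
    rw [Finset.mul_sum, ← Finset.sum_sub_distrib]
    exact Finset.sum_congr rfl fun a _ => by ring
  rw [h2, ← h]
  ring

end PreSlots

/-- combinatorial energy inequality for a configuration without double occupation -/
theorem cost_ge {A : Type*} [Fintype A] [DecidableEq A] {N : ℕ} (Cl : Finset A) (K : ℕ)
    (hN : N = Cl.card + K) (e : A → ℝ) (en eout g : ℝ) (hg : 0 ≤ g)
    (hcl : ∀ a ∈ Cl, e a ≤ en - g) (hop : ∀ a ∉ Cl, en ≤ e a) (hout : en + g ≤ eout)
    (J : Fin N → Option A) (hJ : ∀ i j a, i ≠ j → J i = some a → J j ≠ some a) :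
    ∑ a ∈ Cl, e a + K * en +
      (if (∀ i, J i ≠ none) ∧ (∀ a ∈ Cl, ∃ i, J i = some a) then 0 else g) ≤
      ∑ i, PreSlots.cost e eout (J i) := by
  have key : ∑ i, (PreSlots.cost e eout (J i) - en) =
      ∑ a ∈ Cl, ∑ i, (if J i = some a then e a - en else 0) +
      ∑ i, (if (∃ a ∈ Cl, J i = some a) then 0 else PreSlots.cost e eout (J i) - en) := by
    rw [Finset.sum_comm, ← Finset.sum_add_distrib]
    refine Finset.sum_congr rfl fun i _ => ?_
    by_cases h : ∃ a ∈ Cl, J i = some a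
    · obtain ⟨a, ha, hia⟩ := h
      rw [if_pos ⟨a, ha, hia⟩, Finset.sum_eq_single a, if_pos hia, hia, add_zero]
      · rfl
      · intro b _ hb
        rw [if_neg]
        rw [hia]
        intro h
        exact hb (Option.some.inj h).symm
      · exact fun h => absurd ha h
    · rw [if_neg h, Finset.sum_eq_zero, zero_add]
      intro a ha
      rw [if_neg]
      exact fun h2 => h ⟨a, ha, h2⟩
  have h1 : ∀ a ∈ Cl, (e a - en) + (if ∃ i, J i = some a then 0 else g) ≤
      ∑ i, (if J i = some a then e a - en else 0) := by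
    intro a ha
    by_cases h : ∃ i, J i = some a
    · obtain ⟨i, hi⟩ := h
      rw [if_pos ⟨i, hi⟩, add_zero, Finset.sum_eq_single i, if_pos hi]
      · intro j _ hj
        rw [if_neg]
        exact hJ i j a (Ne.symm hj) hi
      · simp only [Finset.mem_univ, not_true_eq_false, ite_eq_right_iff, IsEmpty.forall_iff]
    · rw [if_neg h, Finset.sum_eq_zero]
      · have := hcl a ha
        linarith only [this]
      · intro i _
        rw [if_neg]
        exact fun h2 => h ⟨i, h2⟩
  have h2 : ∀ i, (if J i = none then g else 0) ≤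
      (if (∃ a ∈ Cl, J i = some a) then 0 else PreSlots.cost e eout (J i) - en) := by
    intro i
    cases hi : J i with
    | none =>
      rw [if_pos rfl, if_neg (by simp only [reduceCtorEq, and_false, exists_false, not_false_eq_true])]
      simp only [PreSlots.cost]
      linarith only [hout]
    | some b =>
      rw [if_neg (by simp)]
      by_cases hb : b ∈ Cl
      · rw [if_pos ⟨b, hb, rfl⟩]
      · rw [if_neg]
        · simp only [PreSlots.cost]
          have := hop b hb
          linarith only [this]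
        · rintro ⟨a, ha, h⟩
          exact hb (by rwa [Option.some.inj h])
  have h3 : ∑ a ∈ Cl, ((e a - en) + (if ∃ i, J i = some a then 0 else g)) +
      ∑ i, (if J i = none then g else 0) ≤ ∑ i, (PreSlots.cost e eout (J i) - en) := by
    rw [key]
    exact add_le_add (Finset.sum_le_sum h1) (Finset.sum_le_sum fun i _ => h2 i)
  have h4 : (if (∀ i, J i ≠ none) ∧ (∀ a ∈ Cl, ∃ i, J i = some a) then 0 else g) ≤
      ∑ a ∈ Cl, (if ∃ i, J i = some a then 0 else g) + ∑ i, (if J i = none then g else 0) := by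
    have p1 : ∀ a ∈ Cl, (0 : ℝ) ≤ (if ∃ i, J i = some a then 0 else g) := by
      intro a _
      split_ifs <;> simp [hg]
    have p2 : ∀ i ∈ (Finset.univ : Finset (Fin N)), (0 : ℝ) ≤ (if J i = none then g else 0) := by
      intro a _
      split_ifs <;> simp [hg]
    split_ifs with h
    · exact add_nonneg (Finset.sum_nonneg p1) (Finset.sum_nonneg p2)
    · rw [not_and_or] at h
      rcases h with h | h
      · push Not at h
        obtain ⟨i, hi⟩ := h
        have := Finset.single_le_sum p2 (Finset.mem_univ i)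
        rw [if_pos hi] at this
        have := Finset.sum_nonneg p1
        (clear K hN e en eout hcl hop hout hJ key h1 h2 h3 p2 i hi; linarith)
      · push Not at h
        obtain ⟨a, ha, hi⟩ := h
        have := Finset.single_le_sum p1 ha
        rw [if_neg (by simpa only [not_exists, ne_eq] using hi)] at this
        have := Finset.sum_nonneg p2
        (clear K hN e en eout hcl hop hout hJ key h1 h2 h3 p1 a ha hi; linarith)
  rw [Finset.sum_add_distrib, Finset.sum_sub_distrib, Finset.sum_sub_distrib] at h3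
  simp only [Finset.sum_const, Finset.card_univ, Fintype.card_fin, nsmul_eq_mul] at h3
  have h5 : (N : ℝ) = Cl.card + K := by
    rw [hN]
    push_cast
    ring
  rw [h5] at h3
  linarith only [h4, h3]

namespace PreSlots

variable {N : ℕ} {A : Type*} [Fintype A] (S : PreSlots V N A)

open Classical in
/-- the set of orbital configurations that contain all closed orbitals -/
noncomputable def good (Cl : Finset A) : Finset (Fin N → A) :=
  Finset.univ.filter (fun I => ∀ a ∈ Cl, ∃ i, I i = a)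

open Classical in
theorem energy_ge (Cl : Finset A) (K : ℕ)
    (hN : N = Cl.card + K) (e : A → ℝ) (en eout g : ℝ) (hg : 0 ≤ g)
    (hcl : ∀ a ∈ Cl, e a ≤ en - g) (hop : ∀ a ∉ Cl, en ≤ e a) (hout : en + g ≤ eout)
    (u : V) (pauli : ∀ i j a, i ≠ j → S.p i a (S.p j a u) = 0) :
    (∑ a ∈ Cl, e a + K * en) * ‖u‖ ^ 2 +
      g * (‖u‖ ^ 2 - ∑ I ∈ good Cl, ‖S.cfg I u‖ ^ 2) ≤
    ∑ i, (eout * ‖u‖ ^ 2 - ∑ a, (eout - e a) * ‖S.p i a u‖ ^ 2) := by
  simp_rw [S.energy_eq]
  rw [Finset.sum_comm]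
  simp_rw [← Finset.sum_mul]
  have h0 := S.toSlots.sum_cfg N le_rfl u
  have h1 : ∀ J : Fin N → Option A, ((∑ a ∈ Cl, e a + K * en) +
      (if (∀ i, J i ≠ none) ∧ (∀ a ∈ Cl, ∃ i, J i = some a) then 0 else g)) *
        ‖S.toSlots.cfg N le_rfl J u‖ ^ 2 ≤
      (∑ i, cost e eout (J i)) * ‖S.toSlots.cfg N le_rfl J u‖ ^ 2 := by
    intro J
    by_cases hJ : ∀ i j a, i ≠ j → J i = some a → J j ≠ some a
    · exact mul_le_mul_of_nonneg_right (cost_ge Cl K hN e en eout g hg hcl hop hout J hJ)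
        (by (clear * -; positivity))
    · push Not at hJ
      obtain ⟨i, j, a, hij, hi, hj⟩ := hJ
      have : S.toSlots.cfg N le_rfl J u = 0 :=
        S.toSlots.cfg_eq_zero u (some a) i j (pauli i j a hij) J hi hj
      rw [this]
      simp only [ne_eq, norm_zero, OfNat.ofNat_ne_zero, not_false_eq_true, zero_pow, mul_zero, Std.le_refl]
  refine le_trans (le_of_eq ?_) (Finset.sum_le_sum fun J _ => h1 J)
  clear h1
  generalize (∑ a ∈ Cl, e a + K * en) = E
  simp_rw [add_mul]
  rw [Finset.sum_add_distrib, ← Finset.mul_sum, h0]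
  congr 1
  have h2 : ∑ I ∈ good Cl, ‖S.cfg I u‖ ^ 2 = ∑ J : Fin N → Option A,
      (if (∀ i, J i ≠ none) ∧ (∀ a ∈ Cl, ∃ i, J i = some a) then
        ‖S.toSlots.cfg N le_rfl J u‖ ^ 2 else 0) := by
    rw [← Finset.sum_filter]
    refine Finset.sum_bij (fun I _ => fun i => some (I i)) ?_ ?_ ?_ ?_
    · intro I hI
      simp only [good, Finset.mem_filter, Finset.mem_univ, true_and] at hI ⊢
      refine ⟨by simp, fun a ha => ?_⟩
      obtain ⟨i, hi⟩ := hI a ha
      exact ⟨i, by rw [hi]⟩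
    · intro I _ I' _ h
      funext i
      exact Option.some.inj (congrFun h i)
    · intro J hJ
      simp only [Finset.mem_filter, Finset.mem_univ, true_and] at hJ
      obtain ⟨h1, h2⟩ := hJ
      have h3 : ∀ i, ∃ a, J i = some a := fun i => Option.ne_none_iff_exists'.1 (h1 i)
      choose I hI using h3
      refine ⟨I, ?_, ?_⟩
      · simp only [good, Finset.mem_filter, Finset.mem_univ, true_and]
        intro a ha
        obtain ⟨i, hi⟩ := h2 a ha
        exact ⟨i, Option.some.inj (by rw [← hI, hi])⟩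
      · funext i
        exact (hI i).symm
    · intro I _
      rfl
  rw [h2, mul_sub, ← h0, Finset.mul_sum, Finset.mul_sum, ← Finset.sum_sub_distrib]
  refine Finset.sum_congr rfl fun J _ => ?_
  split_ifs <;> ring

end PreSlots

end Vale.Agent.P370.NB
end

section

/-!
The space of measurable functions on a power `ι → Y` dominated by a product weight, with the `L²`
inner product, and the slot projections on orbitals.
-/

namespace Vale.Agent.P370.NB

open MeasureTheory Function ComplexConjugate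

/-- a measure space with an integrable weight -/
structure WSp (Y : Type*) [MeasurableSpace Y] where
  μ : Measure Y
  sf : SigmaFinite μ
  E : Y → ℝ
  meas : Measurable E
  nonneg : ∀ y, 0 ≤ E y
  le_one : ∀ y, E y ≤ 1
  int : Integrable E μ

attribute [instance] WSp.sf

/-- measurable orbitals dominated by the weight -/
structure Orb {Y : Type*} [MeasurableSpace Y] (D : WSp Y) (χ : Y → ℝ) : Prop where
  meas : Measurable χ
  bound : ∃ C : ℝ, 0 ≤ C ∧ ∀ y, |χ y| ≤ C * D.E y

section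

variable {ι : Type*} [Fintype ι] {Y : Type*} [MeasurableSpace Y] (D : WSp Y)

/-- product weight -/
noncomputable def WSp.W (w : ι → Y) : ℝ := ∏ l, D.E (w l)

theorem WSp.W_nonneg (w : ι → Y) : 0 ≤ D.W w := Finset.prod_nonneg fun _ _ => D.nonneg _

theorem WSp.W_le_one (w : ι → Y) : D.W w ≤ 1 :=
  Finset.prod_le_one (fun _ _ => D.nonneg _) fun _ _ => D.le_one _

theorem WSp.measurable_W : Measurable (fun w : ι → Y => D.W w) :=
  Finset.measurable_fun_prod _ fun l _ => D.meas.comp (measurable_pi_apply l)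

theorem WSp.integrable_W : Integrable (fun w : ι → Y => D.W w) (pm ι D.μ) :=
  Integrable.fintype_prod (f := fun _ : ι => D.E) fun _ => D.int

theorem WSp.W_eq [DecidableEq ι] (w : ι → Y) (i : ι) :
    D.W w = D.E (w i) * ∏ l ∈ Finset.univ.erase i, D.E (w l) := by
  unfold WSp.W
  exact (Finset.mul_prod_erase Finset.univ (fun l => D.E (w l)) (Finset.mem_univ i)).symm

theorem WSp.W_update [DecidableEq ι] (w : ι → Y) (i : ι) (z : Y) :
    D.W (update w i z) = D.E z * ∏ l ∈ Finset.univ.erase i, D.E (w l) := by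
  rw [D.W_eq _ i, update_self]
  congr 1
  refine Finset.prod_congr rfl fun l hl => ?_
  rw [update_of_ne (Finset.ne_of_mem_erase hl)]

theorem WSp.W_update_le [DecidableEq ι] (w : ι → Y) (i : ι) (z : Y) :
    D.E (w i) * D.W (update w i z) ≤ D.W w := by
  rw [D.W_update, D.W_eq w i]
  have h1 : 0 ≤ ∏ l ∈ Finset.univ.erase i, D.E (w l) := Finset.prod_nonneg fun _ _ => D.nonneg _
  have h2 := D.le_one z
  have h3 := D.nonneg (w i)
  calc D.E (w i) * (D.E z * ∏ l ∈ Finset.univ.erase i, D.E (w l))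
      ≤ D.E (w i) * (1 * ∏ l ∈ Finset.univ.erase i, D.E (w l)) := by (clear * - h2 h1 h3; gcongr)
    _ = _ := by rw [one_mul]

/-- dominated measurable functions -/
def Dm (f : (ι → Y) → ℂ) : Prop := Measurable f ∧ ∃ C : ℝ, 0 ≤ C ∧ ∀ w, ‖f w‖ ≤ C * D.W w

/-- the space of dominated functions -/
def GW (ι : Type*) [Fintype ι] : Submodule ℂ ((ι → Y) → ℂ) where
  carrier := {f | Dm D f}
  add_mem' := by
    rintro f g ⟨hf, C, hC, h⟩ ⟨hg, C', hC', h'⟩
    refine ⟨hf.add hg, C + C', add_nonneg hC hC', fun w => ?_⟩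
    rw [add_mul]
    exact (norm_add_le _ _).trans (add_le_add (h w) (h' w))
  zero_mem' := ⟨measurable_const, 0, le_rfl, fun w => by simp⟩
  smul_mem' := by
    rintro c f ⟨hf, C, hC, h⟩
    refine ⟨hf.const_smul c, ‖c‖ * C, by positivity, fun w => ?_⟩
    rw [Pi.smul_apply, norm_smul, mul_assoc]
    exact mul_le_mul_of_nonneg_left (h w) (norm_nonneg _)

/-- type of dominated functions -/
def GT (ι : Type*) [Fintype ι] : Type _ := GW D ι

noncomputable instance : AddCommGroup (GT D ι) := inferInstanceAs (AddCommGroup (GW D ι))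
noncomputable instance : Module ℂ (GT D ι) := inferInstanceAs (Module ℂ (GW D ι))

variable {D}

/-- underlying function -/
def GT.fn (f : GT D ι) : (ι → Y) → ℂ := f.1

theorem GT.dm (f : GT D ι) : Dm D f.fn := f.2

theorem GT.ext {f g : GT D ι} (h : f.fn = g.fn) : f = g := Subtype.ext h

theorem GT.fn_add (f g : GT D ι) : (f + g).fn = fun w => f.fn w + g.fn w := rfl

theorem GT.fn_smul (c : ℂ) (f : GT D ι) : (c • f).fn = fun w => c * f.fn w := rfl

theorem GT.fn_zero : (0 : GT D ι).fn = fun _ => 0 := rfl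

theorem Dm.integrable {f : (ι → Y) → ℂ} (hf : Dm D f) : Integrable f (pm ι D.μ) := by
  obtain ⟨hm, C, hC, h⟩ := hf
  exact (D.integrable_W.const_mul C).mono' hm.aestronglyMeasurable (Filter.Eventually.of_forall h)

/-- product with a bounded function -/
theorem Dm.bdd_mul {f g : (ι → Y) → ℂ} (hf : Dm D f) (hg : Measurable g) {B : ℝ}
    (hB : ∀ w, ‖g w‖ ≤ B) (hB0 : 0 ≤ B) : Dm D (fun w => g w * f w) := by
  obtain ⟨hm, C, hC, h⟩ := hf
  refine ⟨hg.mul hm, B * C, by (clear * - hB0 hC; positivity), fun w => ?_⟩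
  rw [norm_mul, mul_assoc]
  exact mul_le_mul (hB w) (h w) (norm_nonneg _) hB0

theorem Dm.bdd {f : (ι → Y) → ℂ} (hf : Dm D f) : ∃ C : ℝ, 0 ≤ C ∧ ∀ w, ‖f w‖ ≤ C := by
  obtain ⟨hm, C, hC, h⟩ := hf
  refine ⟨C, hC, fun w => (h w).trans ?_⟩
  have := D.W_le_one w
  calc C * D.W w ≤ C * 1 := by (clear * - this hC; gcongr)
    _ = C := mul_one C

theorem Dm.conj {f : (ι → Y) → ℂ} (hf : Dm D f) : Dm D (fun w => conj (f w)) := by
  obtain ⟨hm, C, hC, h⟩ := hf
  exact ⟨Complex.continuous_conj.measurable.comp hm, C, hC, fun w => by simpa only [RCLike.norm_conj] using h w⟩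

theorem Dm.mul {f g : (ι → Y) → ℂ} (hf : Dm D f) (hg : Dm D g) : Dm D (fun w => f w * g w) := by
  obtain ⟨B, hB, h⟩ := hf.bdd
  exact hg.bdd_mul hf.1 h hB

noncomputable instance : PreInnerProductSpace.Core ℂ (GT D ι) where
  inner f g := ∫ w, conj (f.fn w) * g.fn w ∂(pm ι D.μ)
  conj_inner_symm f g := by
    rw [← integral_conj]
    refine integral_congr_ae (Filter.Eventually.of_forall fun w => ?_)
    simp [mul_comm]
  re_inner_nonneg f := by
    have h : ∫ w, conj (f.fn w) * f.fn w ∂(pm ι D.μ) =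
        ((∫ w, ‖f.fn w‖ ^ 2 ∂(pm ι D.μ) : ℝ) : ℂ) := by
      rw [← integral_complex_ofReal]
      refine integral_congr_ae (Filter.Eventually.of_forall fun w => ?_)
      simp only [Complex.conj_mul']
      push_cast
      rfl
    rw [h]
    simp only [RCLike.re_to_complex, Complex.ofReal_re]
    exact integral_nonneg fun w => by positivity
  add_left f g h := by
    rw [← integral_add (f.dm.conj.mul h.dm).integrable (g.dm.conj.mul h.dm).integrable]
    refine integral_congr_ae (Filter.Eventually.of_forall fun w => ?_)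
    simp only [GT.fn_add, map_add, add_mul]
  smul_left f g c := by
    rw [← integral_const_mul]
    refine integral_congr_ae (Filter.Eventually.of_forall fun w => ?_)
    simp only [GT.fn_smul, map_mul, mul_assoc]

noncomputable instance : SeminormedAddCommGroup (GT D ι) :=
  InnerProductSpace.Core.toSeminormedAddCommGroup (𝕜 := ℂ)

noncomputable instance : InnerProductSpace ℂ (GT D ι) := InnerProductSpace.ofCore inferInstance

theorem GT.inner_def (f g : GT D ι) :
    inner ℂ f g = ∫ w, conj (f.fn w) * g.fn w ∂(pm ι D.μ) := rfl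

theorem GT.norm_sq (f : GT D ι) : ‖f‖ ^ 2 = ∫ w, ‖f.fn w‖ ^ 2 ∂(pm ι D.μ) := by
  rw [@norm_sq_eq_re_inner ℂ, GT.inner_def]
  have h : ∫ w, conj (f.fn w) * f.fn w ∂(pm ι D.μ) =
      ((∫ w, ‖f.fn w‖ ^ 2 ∂(pm ι D.μ) : ℝ) : ℂ) := by
    rw [← integral_complex_ofReal]
    refine integral_congr_ae (Filter.Eventually.of_forall fun w => ?_)
    simp only [Complex.conj_mul']
    push_cast
    rfl
  rw [h]
  simp

end

end Vale.Agent.P370.NB
end

section

/-!
Slot projections.
-/

namespace Vale.Agent.P370.NB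

open MeasureTheory Function ComplexConjugate

variable {ι : Type*} [Fintype ι] [DecidableEq ι] {Y : Type*} [MeasurableSpace Y] {D : WSp Y}

/-- `(|χ⟩⟨χ'|)` in slot `i` -/
noncomputable def op (D : WSp Y) (i : ι) (χ χ' : Y → ℝ) (f : (ι → Y) → ℂ) (w : ι → Y) : ℂ :=
  (χ (w i) : ℂ) * ∫ z, (χ' z : ℂ) * f (update w i z) ∂D.μ

theorem Orb.measC {χ : Y → ℝ} (hχ : Orb D χ) : Measurable (fun z => (χ z : ℂ)) :=
  Complex.measurable_ofReal.comp hχ.meas

theorem Orb.bdd {χ : Y → ℝ} (hχ : Orb D χ) : ∃ C : ℝ, 0 ≤ C ∧ ∀ y, |χ y| ≤ C := by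
  obtain ⟨C, hC, h⟩ := hχ.bound
  refine ⟨C, hC, fun y => (h y).trans ?_⟩
  calc C * D.E y ≤ C * 1 := by gcongr; exact D.le_one y
    _ = C := mul_one C

theorem Orb.integrable {χ : Y → ℝ} (hχ : Orb D χ) : Integrable χ D.μ := by
  obtain ⟨C, hC, h⟩ := hχ.bound
  exact (D.int.const_mul C).mono' hχ.meas.aestronglyMeasurable (Filter.Eventually.of_forall h)

theorem Orb.mul {χ θ : Y → ℝ} (hχ : Orb D χ) (hθ : Orb D θ) : Orb D (fun y => χ y * θ y) := by
  obtain ⟨C, hC, h⟩ := hχ.bdd
  obtain ⟨C', hC', h'⟩ := hθ.bound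
  refine ⟨hχ.meas.mul hθ.meas, C * C', by (clear * - hC hC'; positivity), fun y => ?_⟩
  rw [abs_mul, mul_assoc]
  exact mul_le_mul (h y) (h' y) (abs_nonneg _) hC

omit [DecidableEq ι] in
/-- integrability on the product from domination -/
theorem integrable_prod_of_dom {K : (ι → Y) × Y → ℂ} (hm : Measurable K) {C : ℝ}
    (h : ∀ w z, ‖K (w, z)‖ ≤ C * (D.W w * D.E z)) : Integrable K ((pm ι D.μ).prod D.μ) := by
  refine ((D.integrable_W.mul_prod D.int).const_mul C).mono' hm.aestronglyMeasurable ?_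
  exact Filter.Eventually.of_forall fun p => h p.1 p.2

theorem Dm.slice_measurable {f : (ι → Y) → ℂ} (hf : Dm D f) (i : ι) (w : ι → Y) :
    Measurable (fun z => f (update w i z)) :=
  hf.1.comp (measurable_update w)

theorem Dm.slice_integrable {f : (ι → Y) → ℂ} (hf : Dm D f) (i : ι) {χ : Y → ℝ} (hχ : Orb D χ)
    (w : ι → Y) : Integrable (fun z => (χ z : ℂ) * f (update w i z)) D.μ := by
  obtain ⟨B, hB, h⟩ := hf.bdd
  obtain ⟨C, hC, h'⟩ := hχ.bound
  refine (D.int.const_mul (C * B)).mono'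
    (hχ.measC.mul (hf.slice_measurable i w)).aestronglyMeasurable
    (Filter.Eventually.of_forall fun z => ?_)
  rw [norm_mul, Complex.norm_real, Real.norm_eq_abs]
  calc |χ z| * ‖f (update w i z)‖ ≤ (C * D.E z) * B := by
        apply mul_le_mul (h' z) (h _) (norm_nonneg _)
        exact mul_nonneg hC (D.nonneg z)
    _ = _ := by ring

theorem Dm.op {f : (ι → Y) → ℂ} (hf : Dm D f) (i : ι) {χ χ' : Y → ℝ} (hχ : Orb D χ)
    (hχ' : Orb D χ') : Dm D (op D i χ χ' f) := by
  obtain ⟨hm, B, hB, h⟩ := hf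
  obtain ⟨C, hC, hc⟩ := hχ.bound
  obtain ⟨C', hC', hc'⟩ := hχ'.bound
  have hE : 0 ≤ ∫ z, D.E z ∂D.μ := integral_nonneg D.nonneg
  refine ⟨?_, C * (C' * B * ∫ z, D.E z ∂D.μ), by (clear * - hC hC' hB hE; positivity), fun w => ?_⟩
  · have h1 : Measurable (fun p : (ι → Y) × Y => (χ' p.2 : ℂ) * f (update p.1 i p.2)) :=
      (hχ'.measC.comp measurable_snd).mul (hm.comp (measurable_update_pair i))
    have h2 : StronglyMeasurable (fun w : ι → Y => ∫ z, (χ' z : ℂ) * f (update w i z) ∂D.μ) :=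
      h1.stronglyMeasurable.integral_prod_right'
    exact (hχ.measC.comp (measurable_pi_apply i)).mul h2.measurable
  · unfold NB.op
    rw [norm_mul, Complex.norm_real, Real.norm_eq_abs]
    have h1 : ‖∫ z, (χ' z : ℂ) * f (update w i z) ∂D.μ‖ ≤
        ∫ z, (C' * B * ∏ l ∈ Finset.univ.erase i, D.E (w l)) * D.E z ∂D.μ := by
      refine norm_integral_le_of_norm_le (D.int.const_mul _) (Filter.Eventually.of_forall fun z => ?_)
      rw [norm_mul, Complex.norm_real, Real.norm_eq_abs]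
      have h2 := h (update w i z)
      rw [D.W_update] at h2
      have h3 : 0 ≤ ∏ l ∈ Finset.univ.erase i, D.E (w l) :=
        Finset.prod_nonneg fun _ _ => D.nonneg _
      have h4 := D.nonneg z
      have h5 := D.le_one z
      calc |χ' z| * ‖f (update w i z)‖
          ≤ (C' * D.E z) * (B * (D.E z * ∏ l ∈ Finset.univ.erase i, D.E (w l))) := by
            apply mul_le_mul (hc' z) h2 (norm_nonneg _)
            exact mul_nonneg hC' h4
        _ ≤ (C' * D.E z) * (B * (1 * ∏ l ∈ Finset.univ.erase i, D.E (w l))) := by (clear * - h5 h3 hB hC' h4; gcongr)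
        _ = _ := by ring
    rw [integral_const_mul] at h1
    have h4 := D.nonneg (w i)
    calc |χ (w i)| * ‖∫ z, (χ' z : ℂ) * f (update w i z) ∂D.μ‖
        ≤ (C * D.E (w i)) * ((C' * B * ∏ l ∈ Finset.univ.erase i, D.E (w l)) * ∫ z, D.E z ∂D.μ) :=
          mul_le_mul (hc _) h1 (norm_nonneg _) (mul_nonneg hC h4)
      _ = C * (C' * B * ∫ z, D.E z ∂D.μ) * (D.E (w i) *
          ∏ l ∈ Finset.univ.erase i, D.E (w l)) := by ring
      _ = _ := by rw [← D.W_eq w i]

omit [Fintype ι] in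
theorem op_op_same (i : ι) (χ χ' θ θ' : Y → ℝ) (f : (ι → Y) → ℂ) :
    op D i χ χ' (op D i θ θ' f) = fun w => ((∫ z, χ' z * θ z ∂D.μ : ℝ) : ℂ) * op D i χ θ' f w := by
  funext w
  unfold op
  simp only [update_self, update_idem]
  have : ∀ z, (χ' z : ℂ) * ((θ z : ℂ) * ∫ z', (θ' z' : ℂ) * f (update w i z') ∂D.μ) =
      ((χ' z * θ z : ℝ) : ℂ) * ∫ z', (θ' z' : ℂ) * f (update w i z') ∂D.μ := by
    intro z
    push_cast
    ring
  simp only [this]
  rw [integral_mul_const, integral_complex_ofReal]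
  ring

theorem op_symm (i : ι) {χ χ' : Y → ℝ} (hχ : Orb D χ) (hχ' : Orb D χ')
    {f g : (ι → Y) → ℂ} (hf : Dm D f) (hg : Dm D g) :
    ∫ w, conj (op D i χ χ' f w) * g w ∂(pm ι D.μ) =
      ∫ w, conj (f w) * op D i χ' χ g w ∂(pm ι D.μ) := by
  have hfm := hf.1
  have hgm := hg.1
  obtain ⟨_, B, hB, h⟩ := hf
  obtain ⟨_, B', hB', h'⟩ := hg.conj.conj
  obtain ⟨Bg, hBg0, hBg⟩ := hg.bdd
  obtain ⟨C, hC, hc⟩ := hχ.bound
  obtain ⟨C', hC', hc'⟩ := hχ'.bdd
  have hK : Integrable (fun p : (ι → Y) × Y => (χ' (p.1 i) : ℂ) * (χ p.2 : ℂ) *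
      (conj (f p.1) * g (update p.1 i p.2))) ((pm ι D.μ).prod D.μ) := by
    refine integrable_prod_of_dom (C := C' * C * (B * Bg)) ?_ ?_
    · exact ((hχ'.measC.comp ((measurable_pi_apply i).comp measurable_fst)).mul
        (hχ.measC.comp measurable_snd)).mul
        (((Complex.continuous_conj.measurable.comp hfm).comp measurable_fst).mul
          (hgm.comp (measurable_update_pair i)))
    · intro w z
      simp only [norm_mul, Complex.norm_real, Real.norm_eq_abs, RCLike.norm_conj]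
      have h1 := D.nonneg z
      have h2 := D.W_nonneg w
      calc |χ' (w i)| * |χ z| * (‖f w‖ * ‖g (update w i z)‖)
          ≤ C' * (C * D.E z) * ((B * D.W w) * Bg) := by
            gcongr
            · exact hc' _
            · exact hc z
            · exact h w
            · exact hBg _
        _ = _ := by ring
  have h1 := integral_slot₂ D.μ i (fun w z => (χ' (w i) : ℂ) * (χ z : ℂ) *
      (conj (f w) * g (update w i z))) hK
  simp only [update_self, update_idem, update_eq_self] at h1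
  have h2 : ∀ w, conj (op D i χ χ' f w) * g w =
      ∫ z, (χ' z : ℂ) * (χ (w i) : ℂ) * (conj (f (update w i z)) * g w) ∂D.μ := by
    intro w
    unfold op
    rw [map_mul, Complex.conj_ofReal, ← integral_conj, mul_right_comm, ← integral_const_mul]
    refine integral_congr_ae (Filter.Eventually.of_forall fun z => ?_)
    simp only [map_mul, Complex.conj_ofReal]
    ring
  have h3 : ∀ w, conj (f w) * op D i χ' χ g w =
      ∫ z, (χ' (w i) : ℂ) * (χ z : ℂ) * (conj (f w) * g (update w i z)) ∂D.μ := by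
    intro w
    unfold op
    rw [← mul_assoc, ← integral_const_mul]
    refine integral_congr_ae (Filter.Eventually.of_forall fun z => ?_)
    ring
  simp only [h2, h3]
  exact h1

/-- integrability for two different slots -/
theorem Dm.slice₂_integrable {f : (ι → Y) → ℂ} (hf : Dm D f) (i j : ι) {χ θ : Y → ℝ}
    (hχ : Orb D χ) (hθ : Orb D θ) (w : ι → Y) :
    Integrable (fun p : Y × Y => (χ p.1 : ℂ) * (θ p.2 : ℂ) *
      f (update (update w i p.1) j p.2)) (D.μ.prod D.μ) := by
  obtain ⟨B, hB, h⟩ := hf.bdd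
  obtain ⟨C, hC, hc⟩ := hχ.bound
  obtain ⟨C', hC', hc'⟩ := hθ.bound
  have hm : Measurable (fun p : Y × Y => update (update w i p.1) j p.2) := by
    have h1 : Measurable (fun p : Y × Y => ((update w i p.1, p.2) : (ι → Y) × Y)) :=
      ((measurable_update w).comp measurable_fst).prodMk measurable_snd
    exact (measurable_update_pair j).comp h1
  refine ((D.int.mul_prod D.int).const_mul (C * C' * B)).mono'
    (((hχ.measC.comp measurable_fst).mul (hθ.measC.comp measurable_snd)).mul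
      (hf.1.comp hm)).aestronglyMeasurable (Filter.Eventually.of_forall fun p => ?_)
  simp only [norm_mul, Complex.norm_real, Real.norm_eq_abs]
  have h1 := D.nonneg p.1
  have h2 := D.nonneg p.2
  calc |χ p.1| * |θ p.2| * ‖f (update (update w i p.1) j p.2)‖
      ≤ (C * D.E p.1) * (C' * D.E p.2) * B := by
        gcongr
        · exact hc _
        · exact hc' _
        · exact h _
    _ = _ := by ring

theorem op_comm {i j : ι} (hij : i ≠ j) {χ χ' θ θ' : Y → ℝ} (_hχ : Orb D χ) (hχ' : Orb D χ')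
    (_hθ : Orb D θ) (hθ' : Orb D θ') {f : (ι → Y) → ℂ} (hf : Dm D f) :
    op D i χ χ' (op D j θ θ' f) = op D j θ θ' (op D i χ χ' f) := by
  funext w
  unfold op
  simp only [update_of_ne hij, update_of_ne hij.symm]
  have h1 := integral_integral_swap (f := fun z z' => (χ' z : ℂ) * (θ' z' : ℂ) *
    f (update (update w i z) j z')) (hf.slice₂_integrable i j hχ' hθ' w)
  have e1 : ∫ z, (χ' z : ℂ) * ((θ (w j) : ℂ) * ∫ z', (θ' z' : ℂ) *
      f (update (update w i z) j z') ∂D.μ) ∂D.μ = (θ (w j) : ℂ) *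
      ∫ z, ∫ z', (χ' z : ℂ) * (θ' z' : ℂ) * f (update (update w i z) j z') ∂D.μ ∂D.μ := by
    rw [← integral_const_mul]
    refine integral_congr_ae (Filter.Eventually.of_forall fun z => ?_)
    simp only
    rw [mul_left_comm, ← integral_const_mul]
    congr 1
    refine integral_congr_ae (Filter.Eventually.of_forall fun z' => ?_)
    ring
  have e2 : ∫ z', (θ' z' : ℂ) * ((χ (w i) : ℂ) * ∫ z, (χ' z : ℂ) *
      f (update (update w j z') i z) ∂D.μ) ∂D.μ = (χ (w i) : ℂ) *
      ∫ z', ∫ z, (χ' z : ℂ) * (θ' z' : ℂ) * f (update (update w i z) j z') ∂D.μ ∂D.μ := by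
    rw [← integral_const_mul]
    refine integral_congr_ae (Filter.Eventually.of_forall fun z' => ?_)
    simp only
    rw [mul_left_comm, ← integral_const_mul]
    congr 1
    refine integral_congr_ae (Filter.Eventually.of_forall fun z => ?_)
    simp only
    rw [update_comm hij]
    ring
  rw [e1, e2, h1]
  ring

/-- antisymmetric functions on a power -/
def Anti (f : (ι → Y) → ℂ) : Prop :=
  ∀ (i j : ι), i ≠ j → ∀ w, f (w ∘ Equiv.swap i j) = -f w

theorem op_pauli {i j : ι} (hij : i ≠ j) {χ : Y → ℝ} (hχ : Orb D χ)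
    {f : (ι → Y) → ℂ} (hf : Dm D f) (ha : Anti f) (θ θ' : Y → ℝ) (w : ι → Y) :
    op D i θ χ (op D j θ' χ f) w = 0 := by
  unfold op
  simp only [update_of_ne hij.symm]
  have e1 : ∫ z, (χ z : ℂ) * ((θ' (w j) : ℂ) * ∫ z', (χ z' : ℂ) *
      f (update (update w i z) j z') ∂D.μ) ∂D.μ = (θ' (w j) : ℂ) *
      ∫ z, ∫ z', (χ z : ℂ) * (χ z' : ℂ) * f (update (update w i z) j z') ∂D.μ ∂D.μ := by
    rw [← integral_const_mul]
    refine integral_congr_ae (Filter.Eventually.of_forall fun z => ?_)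
    simp only
    rw [mul_left_comm, ← integral_const_mul]
    congr 1
    refine integral_congr_ae (Filter.Eventually.of_forall fun z' => ?_)
    ring
  have h1 := integral_integral_swap (f := fun z z' => (χ z : ℂ) * (χ z' : ℂ) *
    f (update (update w i z) j z')) (hf.slice₂_integrable i j hχ hχ w)
  have h2 : ∀ z z', f (update (update w i z') j z) = -f (update (update w i z) j z') := by
    intro z z'
    rw [← ha i j hij]
    congr 1
    funext l
    simp only [comp_apply]
    by_cases hl : l = i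
    · subst hl
      rw [Equiv.swap_apply_left, update_self, update_of_ne hij, update_self]
    · by_cases hl' : l = j
      · subst hl'
        rw [Equiv.swap_apply_right, update_self, update_of_ne hij, update_self]
      · rw [Equiv.swap_apply_of_ne_of_ne hl hl', update_of_ne hl', update_of_ne hl,
          update_of_ne hl', update_of_ne hl]
  have h3 : ∫ z', ∫ z, (χ z : ℂ) * (χ z' : ℂ) * f (update (update w i z) j z') ∂D.μ ∂D.μ =
      -∫ z, ∫ z', (χ z : ℂ) * (χ z' : ℂ) * f (update (update w i z) j z') ∂D.μ ∂D.μ := by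
    rw [← integral_neg]
    refine integral_congr_ae (Filter.Eventually.of_forall fun z' => ?_)
    simp only
    rw [← integral_neg]
    refine integral_congr_ae (Filter.Eventually.of_forall fun z => ?_)
    simp only
    rw [h2 z' z]
    ring
  rw [e1]
  have h4 : ∫ z, ∫ z', (χ z : ℂ) * (χ z' : ℂ) * f (update (update w i z) j z') ∂D.μ ∂D.μ = 0 := by
    rw [← self_eq_neg]
    exact h1.trans h3
  rw [h4]
  ring

end Vale.Agent.P370.NB
end

section

/-!
Configurations of orthonormal orbitals.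
-/

namespace Vale.Agent.P370.NB

open MeasureTheory Function ComplexConjugate

namespace Slots

open scoped ComplexInnerProductSpace

variable {V : Type*} [SeminormedAddCommGroup V] [InnerProductSpace ℂ V]
variable {N : ℕ} {B : Type*} [Fintype B] (S : Slots V N B)

theorem comm' (i j : Fin N) (a b : B) (u : V) : S.p i a (S.p j b u) = S.p j b (S.p i a u) := by
  classical
  by_cases hij : i = j
  · subst hij
    by_cases hab : a = b
    · rw [hab]
    · rw [S.orth _ _ _ _ hab, S.orth _ _ _ _ (Ne.symm hab)]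
  · exact S.comm _ _ _ _ _ hij

theorem p_cfg (k : ℕ) (hk : k ≤ N) (J : Fin k → B) (i : Fin N) (b : B) (u : V) :
    S.p i b (S.cfg k hk J u) = S.cfg k hk J (S.p i b u) := by
  induction k with
  | zero => rfl
  | succ k ih =>
    rw [cfg_succ, cfg_succ, S.comm', ih]

theorem p_cfg_self (J : Fin N → B) (i : Fin N) (u : V) :
    S.p i (J i) (S.cfg N le_rfl J u) = S.cfg N le_rfl J u := by
  classical
  rw [p_cfg]
  have h := S.cfg_p N le_rfl J i (J i) u
  rw [if_pos rfl] at h
  exact h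

theorem inner_cfg (k : ℕ) (hk : k ≤ N) (J : Fin k → B) (u v : V)
    (hv : ∀ i : Fin k, S.p ⟨i.val, lt_of_lt_of_le i.isLt hk⟩ (J i) v = v) :
    ⟪v, S.cfg k hk J u⟫ = ⟪v, u⟫ := by
  induction k with
  | zero => rfl
  | succ k ih =>
    rw [cfg_succ, ← S.symm]
    have h1 := hv (Fin.last k)
    have h2 : (⟨(Fin.last k).val, lt_of_lt_of_le (Fin.last k).isLt hk⟩ : Fin N) = ⟨k, hk⟩ := rfl
    rw [h2] at h1
    rw [h1]
    exact ih _ _ fun i => hv i.castSucc

end Slots

variable {Y : Type*} [MeasurableSpace Y]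

/-- an orthonormal family of orbitals -/
structure Fam (D : WSp Y) (A : Type*) [DecidableEq A] where
  θ : A → Y → ℝ
  orb : ∀ a, Orb D (θ a)
  ortho : ∀ a b, ∫ y, θ a y * θ b y ∂D.μ = if a = b then 1 else 0

section
variable {ι : Type*} [Fintype ι] [DecidableEq ι] {D : WSp Y} {A : Type*} [DecidableEq A]
  (F : Fam D A)

noncomputable def Fam.opG (i : ι) (a : A) : GT D ι →ₗ[ℂ] GT D ι where
  toFun f := ⟨op D i (F.θ a) (F.θ a) f.fn, f.dm.op i (F.orb a) (F.orb a)⟩
  map_add' f g := by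
    apply GT.ext
    funext w
    show op D i (F.θ a) (F.θ a) (f + g).fn w = op D i (F.θ a) (F.θ a) f.fn w +
      op D i (F.θ a) (F.θ a) g.fn w
    unfold op
    rw [← mul_add, ← integral_add (f.dm.slice_integrable i (F.orb a) w)
      (g.dm.slice_integrable i (F.orb a) w)]
    congr 1
    refine integral_congr_ae (Filter.Eventually.of_forall fun z => ?_)
    simp only [GT.fn_add, mul_add]
  map_smul' c f := by
    apply GT.ext
    funext w
    show op D i (F.θ a) (F.θ a) (c • f).fn w = c * op D i (F.θ a) (F.θ a) f.fn w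
    unfold op
    have h : ∫ z, (F.θ a z : ℂ) * (c • f).fn (update w i z) ∂D.μ =
        c * ∫ z, (F.θ a z : ℂ) * f.fn (update w i z) ∂D.μ := by
      rw [← integral_const_mul]
      refine integral_congr_ae (Filter.Eventually.of_forall fun z => ?_)
      simp only [GT.fn_smul]
      ring
    rw [h]
    ring

theorem Fam.opG_fn (i : ι) (a : A) (f : GT D ι) :
    (F.opG i a f).fn = op D i (F.θ a) (F.θ a) f.fn := rfl

/-- product of orbitals -/
noncomputable def Fam.po (I : ι → A) (w : ι → Y) : ℝ := ∏ l, F.θ (I l) (w l)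

omit [DecidableEq ι] in
theorem Fam.po_dm (I : ι → A) : Dm D (fun w => (F.po I w : ℂ)) := by
  refine ⟨Complex.measurable_ofReal.comp
    (Finset.measurable_fun_prod _ fun l _ => (F.orb (I l)).meas.comp (measurable_pi_apply l)), ?_⟩
  choose C hC h using fun a => (F.orb a).bound
  refine ⟨∏ l, C (I l), Finset.prod_nonneg fun l _ => hC _, fun w => ?_⟩
  rw [Complex.norm_real, Real.norm_eq_abs, Fam.po, Finset.abs_prod, WSp.W,
    ← Finset.prod_mul_distrib]
  exact Finset.prod_le_prod (fun l _ => abs_nonneg _) fun l _ => h _ _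

noncomputable def Fam.poG (I : ι → A) : GT D ι := ⟨fun w => (F.po I w : ℂ), F.po_dm I⟩

omit [DecidableEq ι] in
theorem Fam.poG_fn (I : ι → A) : (F.poG I).fn = fun w => (F.po I w : ℂ) := rfl

omit [DecidableEq ι] in
theorem Fam.integral_po_po (I J : ι → A) :
    ∫ w, F.po I w * F.po J w ∂(pm ι D.μ) = if I = J then 1 else 0 := by
  have h1 : ∀ w : ι → Y, F.po I w * F.po J w = ∏ l, (F.θ (I l) (w l) * F.θ (J l) (w l)) :=
    fun w => Finset.prod_mul_distrib.symm
  simp only [h1]
  rw [integral_fintype_prod_eq_prod (f := fun l y => F.θ (I l) y * F.θ (J l) y)]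
  simp only [F.ortho]
  by_cases h : I = J
  · subst h
    simp only [↓reduceIte, Finset.prod_const_one]
  · rw [if_neg h]
    obtain ⟨l, hl⟩ := Function.ne_iff.1 h
    exact Finset.prod_eq_zero (Finset.mem_univ l) (if_neg hl)

omit [DecidableEq ι] in
theorem Fam.inner_poG (I J : ι → A) : inner ℂ (F.poG I) (F.poG J) = if I = J then (1 : ℂ) else 0 := by
  rw [GT.inner_def]
  simp only [Fam.poG_fn, Complex.conj_ofReal]
  have := F.integral_po_po I J
  have h2 : ∀ w : ι → Y, ((F.po I w : ℂ) * (F.po J w : ℂ)) = ((F.po I w * F.po J w : ℝ) : ℂ) :=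
    fun w => (Complex.ofReal_mul _ _).symm
  simp only [h2]
  rw [integral_complex_ofReal, this]
  split_ifs <;> simp

theorem Fam.op_po (I : ι → A) (i : ι) :
    op D i (F.θ (I i)) (F.θ (I i)) (fun w => (F.po I w : ℂ)) = fun w => (F.po I w : ℂ) := by
  funext w
  unfold op
  have h1 : ∀ z, (F.θ (I i) z : ℂ) * (F.po I (update w i z) : ℂ) =
      ((F.θ (I i) z * F.θ (I i) z : ℝ) : ℂ) *
        ((∏ l ∈ Finset.univ.erase i, F.θ (I l) (w l) : ℝ) : ℂ) := by
    intro z
    have : F.po I (update w i z) = F.θ (I i) z *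
        ∏ l ∈ Finset.univ.erase i, F.θ (I l) (w l) := by
      unfold Fam.po
      rw [← Finset.mul_prod_erase Finset.univ (fun l => F.θ (I l) (update w i z l))
        (Finset.mem_univ i), update_self]
      congr 1
      refine Finset.prod_congr rfl fun l hl => ?_
      rw [update_of_ne (Finset.ne_of_mem_erase hl)]
    rw [this]
    push_cast
    ring
  simp only [h1]
  rw [integral_mul_const, integral_complex_ofReal, F.ortho, if_pos rfl]
  have h2 : F.po I w = F.θ (I i) (w i) * ∏ l ∈ Finset.univ.erase i, F.θ (I l) (w l) :=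
    (Finset.mul_prod_erase Finset.univ (fun l => F.θ (I l) (w l)) (Finset.mem_univ i)).symm
  rw [h2]
  push_cast
  ring

/-- a function fixed by all projections is a multiple of the product of orbitals -/
theorem Fam.fixed (I : ι → A) (g : (ι → Y) → ℂ)
    (hg : ∀ i, op D i (F.θ (I i)) (F.θ (I i)) g = g) :
    ∃ c : ℂ, ∀ w, g w = c * F.po I w := by
  have key : ∀ S : Finset ι, ∃ h : (ι → Y) → ℂ,
      (∀ w, g w = ((∏ i ∈ S, F.θ (I i) (w i) : ℝ) : ℂ) * h w) ∧
      ∀ i ∈ S, ∀ w z, h (update w i z) = h w := by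
    intro S
    induction S using Finset.induction_on with
    | empty => exact ⟨g, fun w => by simp, fun i hi => by simp at hi⟩
    | insert i S hi ih =>
      obtain ⟨h, h1, h2⟩ := ih
      refine ⟨fun w => ∫ z, (F.θ (I i) z : ℂ) * h (update w i z) ∂D.μ, fun w => ?_, ?_⟩
      · conv_lhs => rw [← hg i]
        unfold op
        rw [Finset.prod_insert hi]
        push_cast
        rw [mul_assoc]
        congr 1
        rw [← integral_const_mul]
        refine integral_congr_ae (Filter.Eventually.of_forall fun z => ?_)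
        simp only
        rw [h1 (update w i z)]
        have h3 : ∏ j ∈ S, F.θ (I j) (update w i z j) = ∏ j ∈ S, F.θ (I j) (w j) := by
          refine Finset.prod_congr rfl fun j hj => ?_
          rw [update_of_ne]
          rintro rfl
          exact hi hj
        rw [h3]
        push_cast
        ring
      · intro j hj w z'
        simp only
        refine integral_congr_ae (Filter.Eventually.of_forall fun z => ?_)
        simp only
        rw [Finset.mem_insert] at hj
        rcases hj with rfl | hj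
        · rw [update_idem]
        · have hne : i ≠ j := by
            rintro rfl
            exact hi hj
          rw [update_comm hne.symm, h2 j hj]
  obtain ⟨h, h1, h2⟩ := key Finset.univ
  rcases isEmpty_or_nonempty (ι → Y) with he | ⟨⟨w₀⟩⟩
  · exact ⟨0, fun w => (he.false w).elim⟩
  · refine ⟨h w₀, fun w => ?_⟩
    have h3 : ∀ T : Finset ι, h (T.piecewise w w₀) = h w₀ := by
      intro T
      induction T using Finset.induction_on with
      | empty => simp
      | insert j T hj ih =>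
        rw [Finset.piecewise_insert, h2 j (Finset.mem_univ j), ih]
    have h4 := h3 Finset.univ
    rw [Finset.piecewise_univ] at h4
    rw [h1 w, h4, mul_comm]
    rfl

end

section
variable {D : WSp Y} {A : Type*} [Fintype A] [DecidableEq A] (F : Fam D A) {N : ℕ}

noncomputable def Fam.pre (F : Fam D A) (N : ℕ) : PreSlots (GT D (Fin N)) N A where
  p i a := F.opG i a
  symm i a f g := op_symm i (F.orb a) (F.orb a) f.dm g.dm
  idem i a f := by
    apply GT.ext
    rw [F.opG_fn, F.opG_fn, op_op_same, F.ortho, if_pos rfl]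
    funext w
    rw [Complex.ofReal_one, one_mul]
  orth i a b f hab := by
    apply GT.ext
    rw [F.opG_fn, F.opG_fn, op_op_same, F.ortho, if_neg hab]
    funext w
    rw [Complex.ofReal_zero, zero_mul]
    rfl
  comm i j a b f hij := by
    apply GT.ext
    rw [F.opG_fn, F.opG_fn, F.opG_fn, F.opG_fn]
    exact op_comm hij (F.orb a) (F.orb a) (F.orb b) (F.orb b) f.dm

/-- orbital coefficients -/
noncomputable def Fam.coef (I : Fin N → A) (f : (Fin N → Y) → ℂ) : ℂ :=
  ∫ w, (F.po I w : ℂ) * f w ∂(pm (Fin N) D.μ)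

omit [Fintype A] in
theorem Fam.inner_poG_left (I : Fin N → A) (f : GT D (Fin N)) :
    inner ℂ (F.poG I) f = F.coef I f.fn := by
  rw [GT.inner_def]
  simp only [poG_fn, Complex.conj_ofReal]
  rfl

theorem Fam.cfg_eq (I : Fin N → A) (f : GT D (Fin N)) :
    (F.pre N).cfg I f = F.coef I f.fn • F.poG I := by
  have h1 : ∀ i, op D i (F.θ (I i)) (F.θ (I i)) ((F.pre N).cfg I f).fn =
      ((F.pre N).cfg I f).fn := by
    intro i
    have := (F.pre N).toSlots.p_cfg_self (fun i => some (I i)) i f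
    exact congrArg GT.fn this
  obtain ⟨c, hc⟩ := F.fixed I _ h1
  have h2 : (F.pre N).cfg I f = c • F.poG I := by
    apply GT.ext
    funext w
    rw [hc w]
    rfl
  have h3 : inner ℂ (F.poG I) ((F.pre N).cfg I f) = inner ℂ (F.poG I) f := by
    apply (F.pre N).toSlots.inner_cfg
    intro i
    apply GT.ext
    exact F.op_po I i
  rw [h2, inner_smul_right, F.inner_poG, if_pos rfl, mul_one, F.inner_poG_left] at h3
  rw [h2, h3]

theorem Fam.norm_cfg_sq (I : Fin N → A) (f : GT D (Fin N)) :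
    ‖(F.pre N).cfg I f‖ ^ 2 = ‖F.coef I f.fn‖ ^ 2 := by
  have h : ‖F.poG I‖ ^ 2 = 1 := by
    rw [@norm_sq_eq_re_inner ℂ, F.inner_poG, if_pos rfl]
    simp only [RCLike.one_re]
  rw [F.cfg_eq, norm_smul, mul_pow, h, mul_one]

open Classical in
/-- **Occupation number inequality** for dominated antisymmetric functions -/
theorem Fam.energy_ge (Cl : Finset A) (K : ℕ)
    (hN : N = Cl.card + K) (e : A → ℝ) (en eout g : ℝ) (hg : 0 ≤ g)
    (hcl : ∀ a ∈ Cl, e a ≤ en - g) (hop : ∀ a ∉ Cl, en ≤ e a) (hout : en + g ≤ eout)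
    (f : (Fin N → Y) → ℂ) (hf : Dm D f) (ha : Anti f) :
    (∑ a ∈ Cl, e a + K * en) * (∫ w, ‖f w‖ ^ 2 ∂(pm (Fin N) D.μ)) +
      g * ((∫ w, ‖f w‖ ^ 2 ∂(pm (Fin N) D.μ)) -
        ∑ I ∈ PreSlots.good (N := N) Cl, ‖F.coef I f‖ ^ 2) ≤
    ∑ i, (eout * (∫ w, ‖f w‖ ^ 2 ∂(pm (Fin N) D.μ)) -
      ∑ a, (eout - e a) * ∫ w, ‖op D i (F.θ a) (F.θ a) f w‖ ^ 2 ∂(pm (Fin N) D.μ)) := by
  obtain ⟨u, hu⟩ : ∃ u : GT D (Fin N), u.fn = f := ⟨⟨f, hf⟩, rfl⟩
  subst hu
  have h := (F.pre N).energy_ge Cl K hN e en eout g hg hcl hop hout u ?_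
  · have h1 := fun I : Fin N → A => F.norm_cfg_sq I u
    have h2 : ∀ i a, ‖(F.pre N).p i a u‖ ^ 2 =
        ∫ w, ‖op D i (F.θ a) (F.θ a) u.fn w‖ ^ 2 ∂(pm (Fin N) D.μ) := fun i a => GT.norm_sq _
    simp only [GT.norm_sq u, h1, h2] at h
    exact h
  · intro i j a hij
    apply GT.ext
    funext w
    exact op_pauli hij (F.orb a) hf ha _ _ w

/-- projection on a set of configurations -/
noncomputable def Fam.proj (G : Finset (Fin N → A)) (f : (Fin N → Y) → ℂ) (w : Fin N → Y) : ℂ :=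
  ∑ I ∈ G, F.coef I f * F.po I w

noncomputable def Fam.lin (G : Finset (Fin N → A)) (c : (Fin N → A) → ℂ) (w : Fin N → Y) : ℂ :=
  ∑ I ∈ G, c I * F.po I w

omit [Fintype A] in
theorem Fam.lin_eq (G : Finset (Fin N → A)) (c : (Fin N → A) → ℂ) :
    F.lin G c = (∑ I ∈ G, c I • (F.poG I : GT D (Fin N)) : GT D (Fin N)).fn := by
  unfold Fam.lin
  induction G using Finset.induction_on with
  | empty => simp only [Finset.sum_empty]; rfl
  | insert I G hI ih =>
    rw [Finset.sum_insert hI, GT.fn_add, ← ih]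
    funext w
    rw [Finset.sum_insert hI]
    rfl

theorem Fam.lin_dm (G : Finset (Fin N → A)) (c : (Fin N → A) → ℂ) : Dm D (F.lin G c) := by
  rw [F.lin_eq]
  exact GT.dm _

omit [Fintype A] in
theorem Fam.inner_lin (G : Finset (Fin N → A)) (c : (Fin N → A) → ℂ) (I : Fin N → A) (hI : I ∈ G) :
    inner ℂ (F.poG I) (∑ I ∈ G, c I • (F.poG I : GT D (Fin N))) = c I := by
  rw [inner_sum, Finset.sum_eq_single I]
  · rw [inner_smul_right, F.inner_poG, if_pos rfl, mul_one]
  · intro J _ hJ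
    rw [inner_smul_right, F.inner_poG, if_neg hJ.symm, mul_zero]
  · exact fun h => absurd hI h

theorem Fam.norm_lin (G : Finset (Fin N → A)) (c : (Fin N → A) → ℂ) :
    ∫ w, ‖F.lin G c w‖ ^ 2 ∂(pm (Fin N) D.μ) = ∑ I ∈ G, ‖c I‖ ^ 2 := by
  rw [F.lin_eq, ← GT.norm_sq, @norm_sq_eq_re_inner ℂ, sum_inner, map_sum]
  refine Finset.sum_congr rfl fun I hI => ?_
  rw [inner_smul_left, F.inner_lin G c I hI, Complex.conj_mul']
  norm_cast

theorem Fam.norm_sub_proj (G : Finset (Fin N → A)) (f : (Fin N → Y) → ℂ) (hf : Dm D f) :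
    ∫ w, ‖f w - F.lin G (fun I => F.coef I f) w‖ ^ 2 ∂(pm (Fin N) D.μ) =
      (∫ w, ‖f w‖ ^ 2 ∂(pm (Fin N) D.μ)) - ∑ I ∈ G, ‖F.coef I f‖ ^ 2 := by
  obtain ⟨u, hu⟩ : ∃ u : GT D (Fin N), u.fn = f := ⟨⟨f, hf⟩, rfl⟩
  subst hu
  obtain ⟨P, hP⟩ : ∃ P : GT D (Fin N), P = ∑ I ∈ G, F.coef I u.fn • (F.poG I : GT D (Fin N)) :=
    ⟨_, rfl⟩
  have h1 : ∀ w, u.fn w - F.lin G (fun I => F.coef I u.fn) w = (u - P).fn w := by
    intro w
    rw [F.lin_eq, hP]
    rfl
  simp only [h1]
  rw [← GT.norm_sq, ← GT.norm_sq, @norm_sub_sq ℂ]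
  have h2 : ‖P‖ ^ 2 = ∑ I ∈ G, ‖F.coef I u.fn‖ ^ 2 := by
    rw [GT.norm_sq, hP, ← F.lin_eq, F.norm_lin]
  have h3 : RCLike.re (inner ℂ u P) = ∑ I ∈ G, ‖F.coef I u.fn‖ ^ 2 := by
    rw [hP, inner_sum, map_sum]
    refine Finset.sum_congr rfl fun I hI => ?_
    rw [inner_smul_right, ← inner_conj_symm, F.inner_poG_left, Complex.mul_conj']
    norm_cast
  rw [h2, h3]
  ring

end

end Vale.Agent.P370.NB
end

section

/-!
Slicing, bounded perturbations and integrals of products.
-/

namespace Vale.Agent.P370.NB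

open MeasureTheory Function ComplexConjugate

section slice

variable {ι : Type*} [Fintype ι] [DecidableEq ι] {Y : Type*} [MeasurableSpace Y]
  (μ : Measure Y) [SigmaFinite μ]

/-- the slice integral is integrable against a weight -/
theorem integrable_slot (i : ι) {F : (ι → Y) → ℝ} (hF : Integrable F (pm ι μ)) {h : Y → ℝ}
    (hh : Integrable h μ) :
    Integrable (fun w => h (w i) * ∫ z, F (update w i z) ∂μ) (pm ι μ) := by
  have hK : Integrable (fun p : (ι → Y) × Y => F p.1 * h p.2) ((pm ι μ).prod μ) :=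
    hF.mul_prod hh
  have h2 := (integrable_slotMap μ i hK).integral_prod_left
  refine h2.congr (Filter.Eventually.of_forall fun w => ?_)
  simp only [slotMap]
  rw [integral_mul_const, mul_comm]

/-- comparison of integrals by comparison of slices -/
theorem integral_le_of_slices (i : ι) {F G : (ι → Y) → ℝ} (hF : Integrable F (pm ι μ))
    (hG : Integrable G (pm ι μ)) {h : Y → ℝ} (hh : Integrable h μ) (h0 : ∀ y, 0 ≤ h y)
    (h1 : ∫ y, h y ∂μ = 1)
    (hle : ∀ w, ∫ z, F (update w i z) ∂μ ≤ ∫ z, G (update w i z) ∂μ) :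
    ∫ w, F w ∂(pm ι μ) ≤ ∫ w, G w ∂(pm ι μ) := by
  rw [integral_slot μ i hF hh h1, integral_slot μ i hG hh h1]
  simp only [smul_eq_mul]
  exact integral_mono (integrable_slot μ i hF hh) (integrable_slot μ i hG hh)
    fun w => mul_le_mul_of_nonneg_left (hle w) (h0 _)

omit [DecidableEq ι] in
/-- integral of a product of one-body functions -/
theorem integral_prod_fun (g : ι → Y → ℝ) :
    ∫ w, ∏ l, g l (w l) ∂(pm ι μ) = ∏ l, ∫ y, g l y ∂μ :=
  integral_fintype_prod_eq_prod (f := g)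

omit [DecidableEq ι] in
theorem integrable_prod_fun {g : ι → Y → ℝ} (hg : ∀ l, Integrable (g l) μ) :
    Integrable (fun w : ι → Y => ∏ l, g l (w l)) (pm ι μ) :=
  Integrable.fintype_prod hg

omit [MeasurableSpace Y] in
theorem prod_one_eq (g : ι → Y → ℝ) (i : ι) (v : Y → ℝ) (w : ι → Y) :
    (∏ l, g l (w l)) * v (w i) = ∏ l, (update g i (fun y => g i y * v y)) l (w l) := by
  rw [← Finset.mul_prod_erase Finset.univ (fun l => g l (w l)) (Finset.mem_univ i),
    ← Finset.mul_prod_erase Finset.univ (fun l => (update g i (fun y => g i y * v y)) l (w l))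
    (Finset.mem_univ i), update_self, mul_right_comm]
  congr 1
  refine Finset.prod_congr rfl fun l hl => ?_
  rw [update_of_ne (Finset.ne_of_mem_erase hl)]

theorem integral_prod_one (g : ι → Y → ℝ) (i : ι) (v : Y → ℝ) :
    ∫ w, (∏ l, g l (w l)) * v (w i) ∂(pm ι μ) =
      (∏ l ∈ Finset.univ.erase i, ∫ y, g l y ∂μ) * ∫ y, g i y * v y ∂μ := by
  simp only [prod_one_eq]
  rw [integral_prod_fun, ← Finset.mul_prod_erase Finset.univ _ (Finset.mem_univ i), update_self,
    mul_comm]
  congr 1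
  refine Finset.prod_congr rfl fun l hl => ?_
  rw [update_of_ne (Finset.ne_of_mem_erase hl)]

theorem integrable_prod_one {g : ι → Y → ℝ} (hg : ∀ l, Integrable (g l) μ) (i : ι) {v : Y → ℝ}
    (hv : Integrable (fun y => g i y * v y) μ) :
    Integrable (fun w : ι → Y => (∏ l, g l (w l)) * v (w i)) (pm ι μ) := by
  simp only [prod_one_eq]
  refine integrable_prod_fun μ fun l => ?_
  by_cases h : l = i
  · subst h
    rw [update_self]
    exact hv
  · rw [update_of_ne h]
    exact hg l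

variable {μ}

omit [MeasurableSpace Y] in
/-- slices of a product with a two-body kernel -/
theorem prod_two_update (g : ι → Y → ℝ) {i j : ι} (hij : i ≠ j) (k : Y → Y → ℝ) (w : ι → Y) (z : Y) :
    (∏ l, g l (update w i z l)) * k (update w i z i) (update w i z j) =
      (∏ l ∈ Finset.univ.erase i, g l (w l)) * (g i z * k z (w j)) := by
  rw [update_self, update_of_ne hij.symm,
    ← Finset.mul_prod_erase Finset.univ (fun l => g l (update w i z l)) (Finset.mem_univ i),
    update_self]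
  have : ∏ l ∈ Finset.univ.erase i, g l (update w i z l) =
      ∏ l ∈ Finset.univ.erase i, g l (w l) := by
    refine Finset.prod_congr rfl fun l hl => ?_
    rw [update_of_ne (Finset.ne_of_mem_erase hl)]
  rw [this]
  ring

omit [MeasurableSpace Y] in
theorem prod_two_aux (g : ι → Y → ℝ) {i j : ι} (hij : i ≠ j) (h K : Y → ℝ) (w : ι → Y) :
    h (w i) * ((∏ l ∈ Finset.univ.erase i, g l (w l)) * K (w j)) =
      ∏ l, (update (update g i h) j (fun y => g j y * K y)) l (w l) := by
  have hj : j ∈ Finset.univ.erase i := Finset.mem_erase.2 ⟨hij.symm, Finset.mem_univ j⟩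
  rw [← Finset.mul_prod_erase Finset.univ
    (fun l => (update (update g i h) j (fun y => g j y * K y)) l (w l)) (Finset.mem_univ i),
    ← Finset.mul_prod_erase (Finset.univ.erase i)
    (fun l => (update (update g i h) j (fun y => g j y * K y)) l (w l)) hj,
    ← Finset.mul_prod_erase (Finset.univ.erase i) (fun l => g l (w l)) hj]
  simp only [update_self, update_of_ne hij]
  have : ∏ l ∈ (Finset.univ.erase i).erase j,
      (update (update g i h) j (fun y => g j y * K y)) l (w l) =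
      ∏ l ∈ (Finset.univ.erase i).erase j, g l (w l) := by
    refine Finset.prod_congr rfl fun l hl => ?_
    rw [update_of_ne (Finset.ne_of_mem_erase hl),
      update_of_ne (Finset.ne_of_mem_erase (Finset.mem_of_mem_erase hl))]
  rw [this]
  ring

variable (μ)

theorem integrable_prod_two {g : ι → Y → ℝ} (hgm : ∀ l, Measurable (g l))
    (hg : ∀ l, Integrable (g l) μ) {i j : ι}
    (hij : i ≠ j) {k : Y → Y → ℝ} (hkm : Measurable (fun p : Y × Y => k p.1 p.2))
    (hk : Integrable (fun p : Y × Y => g i p.1 * g j p.2 * k p.1 p.2) (μ.prod μ))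
    {h : Y → ℝ} (hhm : Measurable h) (hh : Integrable h μ) (h1 : ∫ y, h y ∂μ = 1) :
    Integrable (fun w : ι → Y => (∏ l, g l (w l)) * k (w i) (w j)) (pm ι μ) := by
  have hFm : Measurable (fun w : ι → Y => (∏ l, g l (w l)) * k (w i) (w j)) := by
    refine Measurable.mul (Finset.measurable_fun_prod _ fun l _ =>
      (hgm l).comp (measurable_pi_apply l)) ?_
    have hm : Measurable (fun w : ι → Y => (w i, w j)) :=
      (measurable_pi_apply i).prodMk (measurable_pi_apply j)
    exact hkm.comp hm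
  have hKm : Measurable (fun p : (ι → Y) × Y =>
      (fun q : (ι → Y) × Y => ((∏ l, g l (q.1 l)) * k (q.1 i) (q.1 j)) * h q.2)
        (slotMap i p)) :=
    ((hFm.comp measurable_fst).mul (hhm.comp measurable_snd)).comp (measurable_slotMap i)
  have hK : Integrable (fun p : (ι → Y) × Y =>
      (fun q : (ι → Y) × Y => ((∏ l, g l (q.1 l)) * k (q.1 i) (q.1 j)) * h q.2)
        (slotMap i p)) ((pm ι μ).prod μ) := by
    rw [integrable_prod_iff hKm.aestronglyMeasurable]
    simp only [slotMap, prod_two_update g hij k]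
    constructor
    · have h2 := hk.prod_left_ae
      have h3 : ∀ᵐ w : ι → Y ∂(pm ι μ), Integrable (fun z => g i z * g j (w j) * k z (w j)) μ :=
        (Measure.quasiMeasurePreserving_eval (μ := fun _ : ι => μ) j).ae h2
      filter_upwards [h3] with w hw
      have hj : j ∈ Finset.univ.erase i := Finset.mem_erase.2 ⟨hij.symm, Finset.mem_univ j⟩
      have e : (fun z => ((∏ l ∈ Finset.univ.erase i, g l (w l)) * (g i z * k z (w j))) * h (w i)) =
          fun z => ((∏ l ∈ (Finset.univ.erase i).erase j, g l (w l)) * h (w i)) *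
            (g i z * g j (w j) * k z (w j)) := by
        funext z
        rw [← Finset.mul_prod_erase (Finset.univ.erase i) (fun l => g l (w l)) hj]
        ring
      rw [e]
      exact hw.const_mul _
    · have h2 := hk.integral_norm_prod_right
      have e : (fun w : ι → Y => ∫ z, ‖((∏ l ∈ Finset.univ.erase i, g l (w l)) *
          (g i z * k z (w j))) * h (w i)‖ ∂μ) = fun w => ∏ l, (update (update
            (fun l y => |g l y|) i (fun y => |h y|)) j
            (fun y => |g j y| * ∫ z, ‖g i z * k z y‖ ∂μ)) l (w l) := by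
        funext w
        rw [← prod_two_aux (fun l y => |g l y|) hij]
        simp only [norm_mul, Real.norm_eq_abs, Finset.abs_prod]
        rw [integral_mul_const, integral_const_mul]
        ring
      rw [e]
      refine integrable_prod_fun μ fun l => ?_
      by_cases hlj : l = j
      · subst hlj
        rw [update_self]
        refine h2.congr (Filter.Eventually.of_forall fun y => ?_)
        simp only
        rw [← integral_const_mul]
        refine integral_congr_ae (Filter.Eventually.of_forall fun z => ?_)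
        simp only [norm_mul, Real.norm_eq_abs]
        ring
      · rw [update_of_ne hlj]
        by_cases hli : l = i
        · subst hli
          rw [update_self]
          exact hh.abs
        · rw [update_of_ne hli]
          exact (hg l).abs
  have hK2 := integrable_slotMap μ i hK
  simp only [slotMap_slotMap] at hK2
  have h3 := hK2.integral_prod_left
  refine h3.congr (Filter.Eventually.of_forall fun w => ?_)
  simp only
  rw [integral_const_mul, h1, mul_one]

/-- integral of a product with a two-body kernel -/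
theorem integral_prod_two {g : ι → Y → ℝ} (hgm : ∀ l, Measurable (g l))
    (hg : ∀ l, Integrable (g l) μ) {i j : ι}
    (hij : i ≠ j) {k : Y → Y → ℝ} (hkm : Measurable (fun p : Y × Y => k p.1 p.2))
    (hk : Integrable (fun p : Y × Y => g i p.1 * g j p.2 * k p.1 p.2) (μ.prod μ))
    {h : Y → ℝ} (hhm : Measurable h) (hh : Integrable h μ) (h1 : ∫ y, h y ∂μ = 1) :
    ∫ w, (∏ l, g l (w l)) * k (w i) (w j) ∂(pm ι μ) =
      (∏ l ∈ (Finset.univ.erase i).erase j, ∫ y, g l y ∂μ) *
        ∫ y, (∫ z, g i z * k z y ∂μ) * g j y ∂μ := by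
  rw [integral_slot μ i (integrable_prod_two μ hgm hg hij hkm hk hhm hh h1) hh h1]
  simp only [prod_two_update g hij k, integral_const_mul, smul_eq_mul, prod_two_aux g hij h (fun y => ∫ z, g i z * k z y ∂μ)]
  rw [integral_prod_fun]
  have hj : j ∈ Finset.univ.erase i := Finset.mem_erase.2 ⟨hij.symm, Finset.mem_univ j⟩
  rw [← Finset.mul_prod_erase Finset.univ _ (Finset.mem_univ i),
    ← Finset.mul_prod_erase (Finset.univ.erase i) _ hj]
  simp only [update_self, update_of_ne hij, h1, one_mul]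
  rw [mul_comm]
  congr 1
  · refine Finset.prod_congr rfl fun l hl => ?_
    rw [update_of_ne (Finset.ne_of_mem_erase hl),
      update_of_ne (Finset.ne_of_mem_erase (Finset.mem_of_mem_erase hl))]
  · refine integral_congr_ae (Filter.Eventually.of_forall fun y => ?_)
    exact mul_comm _ _

end slice

section pert

variable {ι : Type*} [Fintype ι] {Y : Type*} [MeasurableSpace Y] {D : WSp Y}

theorem Dm.norm_sq_integrable {f : (ι → Y) → ℂ} (hf : Dm D f) :
    Integrable (fun w => ‖f w‖ ^ 2) (pm ι D.μ) := by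
  have h := (hf.mul hf).integrable.norm
  refine h.congr (Filter.Eventually.of_forall fun w => ?_)
  simp only [norm_mul, sq]

theorem Dm.bdd_norm_sq_integrable {f : (ι → Y) → ℂ} (hf : Dm D f) {V : (ι → Y) → ℝ}
    (hV : Measurable V) {B : ℝ} (hB : ∀ w, |V w| ≤ B) :
    Integrable (fun w => V w * ‖f w‖ ^ 2) (pm ι D.μ) :=
  hf.norm_sq_integrable.bdd_mul hV.aestronglyMeasurable (Filter.Eventually.of_forall hB)

theorem Dm.sub {f g : (ι → Y) → ℂ} (hf : Dm D f) (hg : Dm D g) : Dm D (fun w => f w - g w) := by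
  have h := (GW D ι).sub_mem hf hg
  exact h

/-- perturbation by a bounded potential -/
theorem bdd_pert {f P : (ι → Y) → ℂ} (hf : Dm D f) (hP : Dm D P) {V : (ι → Y) → ℝ}
    (hV : Measurable V) {B : ℝ} (hB : ∀ w, |V w| ≤ B) {t : ℝ} (ht : 0 < t) :
    (∫ w, V w * ‖P w‖ ^ 2 ∂(pm ι D.μ)) - B * t * (∫ w, ‖P w‖ ^ 2 ∂(pm ι D.μ)) -
      B * (1 / t + 1) * (∫ w, ‖f w - P w‖ ^ 2 ∂(pm ι D.μ)) ≤
    ∫ w, V w * ‖f w‖ ^ 2 ∂(pm ι D.μ) := by
  have hQ := hf.sub hP
  have i1 := hf.bdd_norm_sq_integrable hV hB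
  have i2 := hP.bdd_norm_sq_integrable hV hB
  have i3 := hP.norm_sq_integrable.const_mul (B * t)
  have i4 := hQ.norm_sq_integrable.const_mul (B * (1 / t + 1))
  rw [← integral_const_mul, ← integral_const_mul, ← integral_sub i2 i3]
  have i5 : Integrable (fun w => V w * ‖P w‖ ^ 2 - B * t * ‖P w‖ ^ 2) (pm ι D.μ) := i2.sub i3
  rw [← integral_sub i5 i4]
  refine integral_mono (i5.sub i4) i1 fun w => ?_
  have hB0 : 0 ≤ B := (abs_nonneg _).trans (hB w)
  have e1 : ‖f w‖ ^ 2 = ‖P w‖ ^ 2 + 2 * (conj (P w) * (f w - P w)).re + ‖f w - P w‖ ^ 2 := by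
    have : f w = P w + (f w - P w) := by ring
    conv_lhs => rw [this]
    rw [← Complex.normSq_eq_norm_sq, ← Complex.normSq_eq_norm_sq, ← Complex.normSq_eq_norm_sq,
      Complex.normSq_add]
    have e2 : (P w * conj (f w - P w)).re = (conj (P w) * (f w - P w)).re := by
      rw [← Complex.conj_re, map_mul, Complex.conj_conj]
    rw [e2]
    ring
  have e3 : |(conj (P w) * (f w - P w)).re| ≤ ‖P w‖ * ‖f w - P w‖ := by
    refine (Complex.abs_re_le_norm _).trans ?_
    rw [norm_mul, RCLike.norm_conj]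
  have e4 : 2 * (‖P w‖ * ‖f w - P w‖) ≤ t * ‖P w‖ ^ 2 + (1 / t) * ‖f w - P w‖ ^ 2 := by
    have h1 : 0 ≤ (1 / t) * (t * ‖P w‖ - ‖f w - P w‖) ^ 2 := by (clear * - ht; positivity)
    have h2 : (1 / t) * (t * ‖P w‖ - ‖f w - P w‖) ^ 2 = t * ‖P w‖ ^ 2 -
        2 * (‖P w‖ * ‖f w - P w‖) + (1 / t) * ‖f w - P w‖ ^ 2 := by
      field_simp
      ring
    linarith only [h1, h2]
  have e5 : -(B * (2 * (‖P w‖ * ‖f w - P w‖))) ≤ V w * (2 * (conj (P w) * (f w - P w)).re) := by
    have h1 : |V w * (2 * (conj (P w) * (f w - P w)).re)| ≤ B * (2 * (‖P w‖ * ‖f w - P w‖)) := by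
      rw [abs_mul, abs_mul, abs_two]
      exact mul_le_mul (hB w) (by linarith only [e3]) (by (clear * -; positivity)) hB0
    linarith only [h1, neg_abs_le (V w * (2 * (conj (P w) * (f w - P w)).re))]
  have e6 : -(B * ‖f w - P w‖ ^ 2) ≤ V w * ‖f w - P w‖ ^ 2 := by
    have h1 : |V w * ‖f w - P w‖ ^ 2| ≤ B * ‖f w - P w‖ ^ 2 := by
      rw [abs_mul, abs_of_nonneg (sq_nonneg ‖f w - P w‖)]
      exact mul_le_mul_of_nonneg_right (hB w) (sq_nonneg _)
    linarith [neg_abs_le (V w * ‖f w - P w‖ ^ 2)]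
  have e7 := mul_le_mul_of_nonneg_left e4 hB0
  rw [e1]
  linarith

end pert

section opnorm

variable {ι : Type*} [Fintype ι] [DecidableEq ι] {Y : Type*} [MeasurableSpace Y] {D : WSp Y}

omit [Fintype ι] in
theorem op_update (i : ι) (χ χ' : Y → ℝ) (f : (ι → Y) → ℂ) (w : ι → Y) (y : Y) :
    op D i χ χ' f (update w i y) = (χ y : ℂ) * ∫ z, (χ' z : ℂ) * f (update w i z) ∂D.μ := by
  unfold op
  simp only [update_self, update_idem]

end opnorm

end Vale.Agent.P370.NB
end
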