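import Vale.Agent.P370.MathlibUsed
import Vale.Agent.P370.Bdl.B7
import Vale.Agent.P370.Core
import Vale.Agent.P370.Bdl.B6
import Vale.Agent.P370.Bdl.B4

set_option linter.all false

section

set_option exponentiation.threshold 10000

namespace Vale.Agent.P370.Chains

open Finset

/-! ### Alternating sums -/

theorem alt_sum (n : ℕ) : ∀ φ : ℕ → ℝ, (∀ k, 0 ≤ φ k) → (∀ k, φ (k + 1) ≤ φ k) →
    0 ≤ ∑ k ∈ range n, (-1) ^ k * φ k ∧ ∑ k ∈ range n, (-1) ^ k * φ k ≤ φ 0 := by
  induction n with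
  | zero => intro φ h0 _; simp only [range_zero, sum_empty, Std.le_refl, h0 0, and_self]
  | succ n ih =>
    intro φ h0 h1
    obtain ⟨h2, h3⟩ := ih (fun k => φ (k + 1)) (fun k => h0 _) (fun k => h1 _)
    have h4 : ∑ k ∈ range (n + 1), (-1) ^ k * φ k =
        φ 0 - ∑ k ∈ range n, (-1) ^ k * φ (k + 1) := by
      rw [sum_range_succ', pow_zero, one_mul]
      have : ∑ k ∈ range n, (-1) ^ (k + 1) * φ (k + 1) =
          -∑ k ∈ range n, (-1) ^ k * φ (k + 1) := by
        rw [← sum_neg_distrib]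
        refine sum_congr rfl (fun k _ => ?_)
        rw [pow_succ]; ring
      rw [this]; ring
    have h5 := h1 0
    simp only [zero_add] at h3 h5
    rw [h4]
    constructor <;> linarith only [h2, h3, h5]

theorem alt_sum_abs (n : ℕ) (φ : ℕ → ℝ) (h0 : ∀ k, 0 ≤ φ k) (h1 : ∀ k, φ (k + 1) ≤ φ k) :
    |∑ k ∈ range n, (-1) ^ k * φ k| ≤ φ 0 := by
  obtain ⟨h2, h3⟩ := alt_sum n φ h0 h1
  rw [abs_of_nonneg h2]
  exact h3

/-- alternating sum of a function of the distance to a site -/
theorem alt_sum_centre (L m : ℕ) (hm : m < L) (φ : ℕ → ℝ) (h0 : ∀ k, 0 ≤ φ k)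
    (h1 : ∀ k, φ (k + 1) ≤ φ k) :
    |∑ m' ∈ range L, (-1) ^ m' * φ (if m ≤ m' then m' - m else m - m')| ≤ 2 * φ 0 := by
  have hsplit : ∑ m' ∈ range L, (-1 : ℝ) ^ m' * φ (if m ≤ m' then m' - m else m - m') =
      (∑ m' ∈ range m, (-1 : ℝ) ^ m' * φ (m - m')) +
      ∑ k ∈ range (L - m), (-1 : ℝ) ^ (m + k) * φ k := by
    have h2 := sum_range_add (fun m' => (-1 : ℝ) ^ m' * φ (if m ≤ m' then m' - m else m - m'))
      m (L - m)
    rw [show m + (L - m) = L by omega] at h2
    rw [h2]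
    congr 1
    · refine sum_congr rfl (fun m' hm' => ?_)
      rw [mem_range] at hm'
      rw [if_neg (by (clear * - hm'; omega))]
    · refine sum_congr rfl (fun k _ => ?_)
      rw [if_pos (by omega), show m + k - m = k by omega]
  rw [hsplit]
  have e1 : ∑ k ∈ range (L - m), (-1 : ℝ) ^ (m + k) * φ k =
      (-1) ^ m * ∑ k ∈ range (L - m), (-1) ^ k * φ k := by
    rw [mul_sum]
    refine sum_congr rfl (fun k _ => ?_)
    rw [pow_add]; ring
  have e2 : ∑ m' ∈ range m, (-1 : ℝ) ^ m' * φ (m - m') =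
      (-1) ^ (m + 1) * ∑ k ∈ range m, (-1) ^ k * φ (k + 1) := by
    rw [← sum_range_reflect, mul_sum]
    refine sum_congr rfl (fun k hk => ?_)
    rw [mem_range] at hk
    rw [show m - (m - 1 - k) = k + 1 by omega]
    have : (-1 : ℝ) ^ (m - 1 - k) = (-1) ^ (m + 1) * (-1) ^ k := by
      rw [← pow_add, show m + 1 + k = (m - 1 - k) + 2 * (k + 1) by omega, pow_add, pow_mul]
      simp only [even_two, Even.neg_pow, one_pow, mul_one]
    rw [this]; ring
  have a1 := alt_sum_abs (L - m) φ h0 h1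
  have a2 := alt_sum_abs m (fun k => φ (k + 1)) (fun k => h0 _) (fun k => h1 _)
  rw [e1, e2]
  refine (abs_add_le _ _).trans ?_
  rw [abs_mul, abs_mul, abs_neg_one_pow, abs_neg_one_pow, one_mul, one_mul]
  have := h1 0
  simp only [zero_add] at a2 this
  linarith only [a1, a2, this]

theorem FF_antitone {x y h h' : ℝ} (hx : 0 < x) (hxy : x ≤ y) (hh : 0 ≤ h) (hh' : 0 ≤ h') :
    FF y h h' ≤ FF x h h' := by
  have hy : 0 < y := lt_of_lt_of_le hx hxy
  rw [FF_eq hx, FF_eq hy]
  have h1 : √(x + (h - h') ^ 2) ≤ √(y + (h - h') ^ 2) := Real.sqrt_le_sqrt (by (clear * - hxy; linarith))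
  have h2 : √(x + (h + h') ^ 2) ≤ √(y + (h + h') ^ 2) := Real.sqrt_le_sqrt (by linarith only [hxy])
  have h3 : 0 < √(x + (h - h') ^ 2) := Real.sqrt_pos.mpr (by (clear * - hx; positivity))
  have h4 : 0 < √(x + (h + h') ^ 2) := Real.sqrt_pos.mpr (by positivity)
  (clear * - hh hh' hx h1 h2 hy; gcongr)

variable {n B : ℕ} {A : Fin n → Fin (n ^ 2) → ℤ}

theorem Jst_eq (B : ℕ) : Jst B = 1 / (B : ℝ) ^ 638 := rfl

/-! ### cell-cell -/

theorem ee_bound (hG : Good n B A) {e e' : Fin (n ^ 2)} (h : e ≠ e') :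
    0 ≤ ee n B e e' ∧ ee n B e e' ≤ Jst B / (24 * B) := by
  have hB := hG.pos
  have hee : (1 : ℝ) ≤ |(e.val : ℝ) - e'.val| := by
    have h1 : (1 : ℤ) ≤ |(e.val : ℤ) - e'.val| :=
      Int.one_le_abs (by have : e.val ≠ e'.val := fun h' => h (Fin.ext h'); omega)
    have h2 : ((1 : ℤ) : ℝ) ≤ ((|(e.val : ℤ) - e'.val| : ℤ) : ℝ) := by exact_mod_cast h1
    simpa only [ge_iff_le, Int.cast_one, Int.cast_abs, Int.cast_sub, Int.cast_natCast] using h2
  have hR0 : (0 : ℝ) < 2 * (B : ℝ) ^ 261 := by positivity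
  have hx : (2 * (B : ℝ) ^ 261) ^ 2 ≤
      (2 * (cg B : ℝ) * ((Kx B : ℝ) * ((e.val : ℝ) - e'.val))) ^ 2 := by
    rw [hgR, hKxR]
    have e1 : (2 * (B : ℝ) ^ 200 * ((B : ℝ) ^ 61 * ((e.val : ℝ) - e'.val))) ^ 2 =
      (2 * (B : ℝ) ^ 261) ^ 2 * |(e.val : ℝ) - e'.val| ^ 2 := by
      rw [sq_abs]; ring
    rw [e1]
    have : (1 : ℝ) ≤ |(e.val : ℝ) - e'.val| ^ 2 := one_le_pow₀ hee
    nlinarith only [this]
  constructor
  · unfold ee
    exact FF_nonneg (lt_of_lt_of_le (by positivity) hx) (by positivity) (by positivity)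
  · unfold ee
    refine (FF_le_cube hR0 hx (by positivity) (by positivity)).trans ?_
    rw [hVR, Jst_eq, div_div, div_le_div_iff₀ (by positivity) (by (clear * - hB; positivity))]
    have e1 : (B : ℝ) ^ 70 * (B : ℝ) ^ 70 * ((B : ℝ) ^ 638 * (24 * B)) = 24 * (B : ℝ) ^ 779 := by
      ring
    have e2 : 1 * (2 * (B : ℝ) ^ 261) ^ 3 = 8 * ((B : ℝ) ^ 4 * (B : ℝ) ^ 779) := by ring
    rw [e1, e2]
    have h3 : (2 : ℝ) ^ 20 ≤ (B : ℝ) ^ 4 := pow_ge_self_of hG (by norm_num)
    have h4 : (0 : ℝ) < (B : ℝ) ^ 779 := by positivity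
    nlinarith only [h4, h3]

/-! ### chain-chain -/

theorem sum_mu (hG : Good n B A) (i : Fin n) (L : ℕ) :
    (∑ m ∈ range L, (mu A B i m : ℝ)) ≤ 2 * (n : ℝ) ^ 2 := by
  have h1 : ∑ m ∈ range L, mu A B i m ≤ 2 * n ^ 2 := by
    unfold mu
    rw [sum_comm]
    calc _ ≤ ∑ e : Fin (n ^ 2), 2 := by
          refine sum_le_sum (fun e _ => ?_)
          rw [sum_add_distrib]
          have a1 : ∑ m ∈ range L, (if A i e = 1 ∧ m = Kx B * (e.val + 1) then 1 else 0) ≤ 1 := by
            calc _ ≤ ∑ m ∈ range L, (if m = Kx B * (e.val + 1) then 1 else 0) := by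
                  refine sum_le_sum (fun m _ => ?_)
                  by_cases h : m = Kx B * (e.val + 1)
                  · simp only [h, and_true, if_true]; split_ifs <;> omega
                  · simp [h]
              _ ≤ 1 := by rw [sum_ite_eq']; split_ifs <;> omega
          have a2 : ∑ m ∈ range L, (if A i e = -1 ∧ m + 1 = Kx B * (e.val + 1) then 1 else 0) ≤
              1 := by
            calc _ ≤ ∑ m ∈ range L, (if m = Kx B * (e.val + 1) - 1 then 1 else 0) := by
                  refine sum_le_sum (fun m _ => ?_)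
                  by_cases h : m + 1 = Kx B * (e.val + 1)
                  · rw [if_pos (show m = Kx B * (e.val + 1) - 1 by omega)]
                    split_ifs <;> omega
                  · simp only [Int.reduceNeg, h, and_false, ↓reduceIte, zero_le]
              _ ≤ 1 := by rw [sum_ite_eq']; split_ifs <;> omega
          omega
      _ = 2 * n ^ 2 := by simp only [sum_const, card_univ, Fintype.card_fin, smul_eq_mul]; ring
  exact_mod_cast h1

theorem chain_chain (hG : Good n B A) {i i' : Fin n} (hi : i ≠ i') :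
    |∑ m ∈ range (CL n B), ∑ m' ∈ range (CL n B), (-1) ^ (m + m') * cc A B i i' m m'| ≤
      Jst B / (24 * B) := by
  have hB := hG.pos
  have hK0 : (0 : ℝ) < cK B := by rw [hKR]; (clear * - hB; positivity)
  have hii : (1 : ℝ) ≤ |(i.val : ℝ) - i'.val| := by
    have h1 : (1 : ℤ) ≤ |(i.val : ℤ) - i'.val| :=
      Int.one_le_abs (by have : i.val ≠ i'.val := fun h => hi (Fin.ext h); omega)
    have h2 : ((1 : ℤ) : ℝ) ≤ ((|(i.val : ℤ) - i'.val| : ℤ) : ℝ) := by exact_mod_cast h1
    simpa only [ge_iff_le, Int.cast_one, Int.cast_abs, Int.cast_sub, Int.cast_natCast] using h2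
  set Y : ℝ := ((cK B : ℝ) * ((i.val : ℝ) - i'.val)) ^ 2 with hY
  have hYK : (cK B : ℝ) ^ 2 ≤ Y := by
    rw [hY, mul_pow, ← sq_abs ((i.val : ℝ) - i'.val)]
    have : (1 : ℝ) ≤ |(i.val : ℝ) - i'.val| ^ 2 := one_le_pow₀ hii
    nlinarith only [this]
  have hY0 : 0 < Y := lt_of_lt_of_le (by (clear * - hK0; positivity)) hYK
  set H : ℝ := (B : ℝ) ^ 2 with hH
  set b0 : ℝ := 1.01 * (B : ℝ) ^ 4 / (cK B : ℝ) ^ 3 with hb0
  have hb00 : 0 < b0 := by (clear * - hB hK0; positivity)
  set φ : ℕ → ℝ := fun k => FF ((2 * (cg B : ℝ) * k) ^ 2 + Y) H H with hφ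
  have hφ0 : ∀ k, 0 ≤ φ k := fun k => FF_nonneg (by (clear * - hY0; positivity)) (by (clear * - hB; positivity)) (by positivity)
  have hφ1 : ∀ k, φ (k + 1) ≤ φ k := by
    intro k
    refine FF_antitone (by (clear * - hY0; positivity)) ?_ (by positivity) (by (clear * - hB; positivity))
    have : (2 * (cg B : ℝ) * k) ^ 2 ≤ (2 * (cg B : ℝ) * ((k + 1 : ℕ) : ℝ)) ^ 2 := by
      apply pow_le_pow_left₀ (by (clear * -; positivity))
      push_cast
      have : (0 : ℝ) ≤ cg B := by (clear * -; positivity)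
      linarith only []
    linarith only [this]
  have hφb : φ 0 ≤ b0 := by
    refine (FF_le_cube hK0 (by linarith only [hYK, sq_nonneg (2 * (cg B : ℝ) * ((0 : ℕ) : ℝ))])
      (by positivity) (by positivity)).trans ?_
    rw [hb0]
    apply div_le_div_of_nonneg_right _ (by (clear * - hK0; positivity))
    rw [hH]
    have := pow_pos hB 4
    linarith only [this]
  have hpt : ∀ m m', |cc A B i i' m m' - φ (if m ≤ m' then m' - m else m - m')| ≤
      ((mu A B i m : ℝ) + mu A B i' m') * b0 := by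
    intro m m'
    have hx : (2 * (cg B : ℝ) * ((if m ≤ m' then m' - m else m - m' : ℕ) : ℝ)) ^ 2 =
        (2 * (cg B : ℝ) * ((m : ℝ) - m')) ^ 2 := by
      by_cases h : m ≤ m'
      · rw [if_pos h, Nat.cast_sub h]; ring
      · rw [if_neg h, Nat.cast_sub (by (clear * - h; omega))]
    simp only [hφ]
    rw [hx]
    unfold cc
    rw [← hY]
    have hxK : (cK B : ℝ) ^ 2 ≤ (2 * (cg B : ℝ) * ((m : ℝ) - m')) ^ 2 + Y := by
      linarith only [hYK, sq_nonneg (2 * (cg B : ℝ) * ((m : ℝ) - m'))]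
    by_cases h : mu A B i m = 0 ∧ mu A B i' m' = 0
    · have e1 : (chH A B i m : ℝ) = H := by
        unfold chH cH; rw [h.1, mul_zero, add_zero]; push_cast; rfl
      have e2 : (chH A B i' m' : ℝ) = H := by
        unfold chH cH; rw [h.2, mul_zero, add_zero]; push_cast; rfl
      rw [e1, e2, sub_self, abs_zero]
      (clear * - hB hK0; positivity)
    · have h1 : (1 : ℝ) ≤ (mu A B i m : ℝ) + mu A B i' m' := by
        have : 1 ≤ mu A B i m + mu A B i' m' := by omega
        exact_mod_cast this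
      have b1 : FF ((2 * (cg B : ℝ) * ((m : ℝ) - m')) ^ 2 + Y) (chH A B i m) (chH A B i' m') ≤
          b0 := by
        refine (FF_le_cube hK0 hxK (by (clear * -; positivity)) (by (clear * -; positivity))).trans ?_
        rw [hb0]
        apply div_le_div_of_nonneg_right _ (by (clear * - hK0; positivity))
        calc _ ≤ (1.001 * (B : ℝ) ^ 2) * (1.001 * (B : ℝ) ^ 2) :=
              mul_le_mul (chH_le' hG i m) (chH_le' hG i' m') (by (clear * -; positivity)) (by positivity)
          _ = 1.002001 * (B : ℝ) ^ 4 := by ring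
          _ ≤ _ := by have := pow_pos hB 4; linarith only [this]
      have b2 : FF ((2 * (cg B : ℝ) * ((m : ℝ) - m')) ^ 2 + Y) H H ≤ b0 := by
        refine (FF_le_cube hK0 hxK (by (clear * - hB; positivity)) (by (clear * - hB; positivity))).trans ?_
        rw [hb0]
        apply div_le_div_of_nonneg_right _ (by (clear * - hK0; positivity))
        rw [hH]
        have := pow_pos hB 4
        linarith only [this]
      have b3 : 0 ≤ FF ((2 * (cg B : ℝ) * ((m : ℝ) - m')) ^ 2 + Y) (chH A B i m)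
          (chH A B i' m') := FF_nonneg (by (clear * - hY0; positivity)) (by (clear * -; positivity)) (by (clear * -; positivity))
      have b4 : 0 ≤ FF ((2 * (cg B : ℝ) * ((m : ℝ) - m')) ^ 2 + Y) H H :=
        FF_nonneg (by (clear * - hY0; positivity)) (by (clear * - hB; positivity)) (by (clear * - hB; positivity))
      have b5 : |FF ((2 * (cg B : ℝ) * ((m : ℝ) - m')) ^ 2 + Y) (chH A B i m) (chH A B i' m') -
          FF ((2 * (cg B : ℝ) * ((m : ℝ) - m')) ^ 2 + Y) H H| ≤ b0 := by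
        rw [abs_le]; constructor <;> linarith only [b1, b4, b2, b3]
      linarith only [mul_nonneg_of_nonpos_of_nonpos (le_of_lt (Mathlib.Tactic.Linarith.sub_neg_of_lt hb00)) (Mathlib.Tactic.Linarith.sub_nonpos_of_le h1), b5]
  -- decomposition
  have hdec : ∑ m ∈ range (CL n B), ∑ m' ∈ range (CL n B), (-1 : ℝ) ^ (m + m') * cc A B i i' m m' =
      (∑ m ∈ range (CL n B), (-1 : ℝ) ^ m * ∑ m' ∈ range (CL n B),
        (-1) ^ m' * φ (if m ≤ m' then m' - m else m - m')) +
      ∑ m ∈ range (CL n B), ∑ m' ∈ range (CL n B), (-1 : ℝ) ^ (m + m') *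
        (cc A B i i' m m' - φ (if m ≤ m' then m' - m else m - m')) := by
    rw [← sum_add_distrib]
    refine sum_congr rfl (fun m _ => ?_)
    rw [mul_sum, ← sum_add_distrib]
    refine sum_congr rfl (fun m' _ => ?_)
    rw [pow_add]; ring
  rw [hdec]
  have t1 : |∑ m ∈ range (CL n B), (-1 : ℝ) ^ m * ∑ m' ∈ range (CL n B),
        (-1) ^ m' * φ (if m ≤ m' then m' - m else m - m')| ≤ (CL n B : ℝ) * (2 * b0) := by
    refine (abs_sum_le_sum_abs _ _).trans ?_
    calc _ ≤ ∑ m ∈ range (CL n B), (2 * b0) := by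
          refine sum_le_sum (fun m hm => ?_)
          rw [abs_mul, abs_neg_one_pow, one_mul]
          have := alt_sum_centre (CL n B) m (mem_range.mp hm) φ hφ0 hφ1
          linarith only [hφb, this]
      _ = _ := by rw [sum_const, card_range, nsmul_eq_mul]
  have t2 : |∑ m ∈ range (CL n B), ∑ m' ∈ range (CL n B), (-1 : ℝ) ^ (m + m') *
        (cc A B i i' m m' - φ (if m ≤ m' then m' - m else m - m'))| ≤
      (CL n B : ℝ) * (4 * (n : ℝ) ^ 2) * b0 := by
    refine (abs_sum_le_sum_abs _ _).trans ?_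
    calc _ ≤ ∑ m ∈ range (CL n B), ∑ m' ∈ range (CL n B),
          ((mu A B i m : ℝ) + mu A B i' m') * b0 := by
          refine sum_le_sum (fun m _ => ?_)
          refine (abs_sum_le_sum_abs _ _).trans ?_
          refine sum_le_sum (fun m' _ => ?_)
          rw [abs_mul, abs_neg_one_pow, one_mul]
          exact hpt m m'
      _ = ((CL n B : ℝ) * (∑ m ∈ range (CL n B), (mu A B i m : ℝ)) +
          (CL n B : ℝ) * (∑ m' ∈ range (CL n B), (mu A B i' m' : ℝ))) * b0 := by
          simp only [← sum_mul, sum_add_distrib, sum_const, card_range, nsmul_eq_mul, ← mul_sum]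
      _ ≤ ((CL n B : ℝ) * (2 * (n : ℝ) ^ 2) + (CL n B : ℝ) * (2 * (n : ℝ) ^ 2)) * b0 := by
          have m1 := sum_mu hG i (CL n B)
          have m2 := sum_mu hG i' (CL n B)
          (clear * - m1 m2 hB hK0; gcongr)
      _ = _ := by ring
  have hn2 : (n : ℝ) ^ 2 + 2 ≤ B := by exact_mod_cast hG.sq_le
  have hCL : (CL n B : ℝ) ≤ (B : ℝ) ^ 62 := by exact_mod_cast CL_le hG
  have hCL0 : (0 : ℝ) ≤ (CL n B : ℝ) := Nat.cast_nonneg _
  refine (abs_add_le _ _).trans ((add_le_add t1 t2).trans ?_)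
  calc (CL n B : ℝ) * (2 * b0) + (CL n B : ℝ) * (4 * (n : ℝ) ^ 2) * b0
      = (CL n B : ℝ) * ((4 * (n : ℝ) ^ 2 + 2) * b0) := by ring
    _ ≤ (B : ℝ) ^ 62 * ((4 * B) * b0) := by
        apply mul_le_mul hCL _ (by (clear * - hB hK0; positivity)) (by positivity)
        apply mul_le_mul_of_nonneg_right _ hb00.le
        linarith only [hn2]
    _ ≤ Jst B / (24 * B) := by
        rw [hb0, Jst_eq, hKR, div_div, mul_div_assoc', mul_div_assoc',
          div_le_div_iff₀ (by positivity) (by (clear * - hB; positivity))]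
        have e1 : (B : ℝ) ^ 62 * (4 * B * (1.01 * (B : ℝ) ^ 4)) * ((B : ℝ) ^ 638 * (24 * B)) =
            96.96 * (B : ℝ) ^ 706 := by ring
        have e2 : 1 * ((B : ℝ) ^ 236) ^ 3 = (B : ℝ) ^ 2 * (B : ℝ) ^ 706 := by ring
        rw [e1, e2]
        have h3 : (2 : ℝ) ^ 20 ≤ (B : ℝ) ^ 2 := pow_ge_self_of hG (by norm_num)
        have h4 : (0 : ℝ) < (B : ℝ) ^ 706 := by positivity
        linarith only [mul_nonneg_of_nonpos_of_nonpos (le_of_lt (Mathlib.Tactic.Linarith.sub_neg_of_lt h4)) (Mathlib.Tactic.Linarith.sub_nonpos_of_le h3), h4]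

end Vale.Agent.P370.Chains
end

section

set_option exponentiation.threshold 10000

namespace Vale.Agent.P370.Chains

open Finset

variable {n B : ℕ} {A : Fin n → Fin (n ^ 2) → ℤ}

/-! ### chain-cell -/

theorem mu_le_one (hG : Good n B A) (i : Fin n) (m : ℕ) : mu A B i m = 0 ∨ mu A B i m = 1 := by
  have hK := Kx_pos hG
  have h1 := sum_ind_le_one (fun e : Fin (n ^ 2) => A i e = 1 ∧ m = Kx B * (e.val + 1)) (by
    intro x y hx hy
    have h := hx.2.symm.trans hy.2
    have := Nat.eq_of_mul_eq_mul_left (by omega) h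
    exact Fin.ext (by omega))
  have h2 := sum_ind_le_one (fun e : Fin (n ^ 2) => A i e = -1 ∧ m + 1 = Kx B * (e.val + 1)) (by
    intro x y hx hy
    have h := hx.2.symm.trans hy.2
    have := Nat.eq_of_mul_eq_mul_left (by omega) h
    exact Fin.ext (by omega))
  rw [mu_split]
  by_cases hd : Kx B ∣ m
  · have h3 : (∑ e : Fin (n ^ 2), if A i e = -1 ∧ m + 1 = Kx B * (e.val + 1) then 1 else 0) = 0 := by
      refine sum_eq_zero (fun e _ => ?_)
      rw [if_neg]
      rintro ⟨_, h⟩
      have h4 : Kx B ∣ m + 1 := ⟨_, h⟩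
      have h5 : Kx B ∣ 1 := (Nat.dvd_add_right hd).mp h4
      have := Nat.le_of_dvd one_pos h5
      omega
    rw [h3, add_zero]
    omega
  · have h3 : (∑ e : Fin (n ^ 2), if A i e = 1 ∧ m = Kx B * (e.val + 1) then 1 else 0) = 0 := by
      refine sum_eq_zero (fun e _ => ?_)
      rw [if_neg]
      rintro ⟨_, h⟩
      exact hd ⟨_, h⟩
    rw [h3, zero_add]
    omega

/-- squared planar distance between site `m` of chain `i` and cell `e` -/
noncomputable def xx (B : ℕ) (i : Fin n) (e : Fin (n ^ 2)) (m : ℕ) : ℝ :=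
  ((cg B : ℝ) * (2 * (m : ℝ) + 1 - 2 * ((Kx B : ℝ) * ((e.val : ℝ) + 1)))) ^ 2 +
    ((cK B : ℝ) * ((i.val : ℝ) + 1)) ^ 2

noncomputable def F0 (B : ℕ) (i : Fin n) (e : Fin (n ^ 2)) (m : ℕ) : ℝ :=
  FF (xx B i e m) ((B : ℝ) ^ 2) (cV B)

noncomputable def F1 (B : ℕ) (i : Fin n) (e : Fin (n ^ 2)) (m : ℕ) : ℝ :=
  FF (xx B i e m) ((B : ℝ) ^ 2 + ((i.val : ℝ) + 1) ^ 3) (cV B) -
    FF (xx B i e m) ((B : ℝ) ^ 2) (cV B)

theorem ce_eq (hG : Good n B A) (i : Fin n) (e : Fin (n ^ 2)) (m : ℕ) :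
    ce A B i e m = F0 B i e m + (mu A B i m : ℝ) * F1 B i e m := by
  unfold ce F0 F1 xx
  rcases mu_le_one hG i m with h | h
  · have e1 : (chH A B i m : ℝ) = (B : ℝ) ^ 2 := by
      unfold chH cH; rw [h, mul_zero, add_zero]; push_cast; rfl
    rw [e1, h]; simp
  · have e1 : (chH A B i m : ℝ) = (B : ℝ) ^ 2 + ((i.val : ℝ) + 1) ^ 3 := by
      unfold chH cH; rw [h, mul_one]; push_cast; rfl
    rw [e1, h]; push_cast; ring

theorem xx_ge_far (hG : Good n B A) (i : Fin n) (e : Fin (n ^ 2)) (m : ℕ) {R : ℝ} (hR : 0 ≤ R)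
    (h : R ≤ |2 * (m : ℝ) + 1 - 2 * ((Kx B : ℝ) * ((e.val : ℝ) + 1))|) :
    ((cg B : ℝ) * R) ^ 2 ≤ xx B i e m := by
  unfold xx
  have h1 : ((cg B : ℝ) * R) ^ 2 ≤
      ((cg B : ℝ) * (2 * (m : ℝ) + 1 - 2 * ((Kx B : ℝ) * ((e.val : ℝ) + 1)))) ^ 2 := by
    rw [mul_pow, mul_pow, ← sq_abs (2 * (m : ℝ) + 1 - 2 * ((Kx B : ℝ) * ((e.val : ℝ) + 1)))]
    apply mul_le_mul_of_nonneg_left _ (by (clear * -; positivity))
    exact pow_le_pow_left₀ hR h 2
  linarith only [h1, sq_nonneg ((cK B : ℝ) * ((i.val : ℝ) + 1))]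

theorem xx_pos (hG : Good n B A) (i : Fin n) (e : Fin (n ^ 2)) (m : ℕ) : 0 < xx B i e m := by
  unfold xx
  have hB := hG.pos
  have hK0 : (0 : ℝ) < cK B := by rw [hKR]; (clear * - hB; positivity)
  positivity

/-- The unmodified part almost cancels. -/
theorem sum_F0 (hG : Good n B A) (i : Fin n) (e : Fin (n ^ 2)) :
    |∑ m ∈ range (CL n B), (-1) ^ m * F0 B i e m| ≤ Jst B / (200 * B) := by
  have hB := hG.pos
  have hK2 := Kx_pos hG
  have hg0 : (0 : ℝ) < cg B := by rw [hgR]; positivity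
  set c : ℕ := Kx B * (e.val + 1) with hc
  have hc1 : Kx B ≤ c := Nat.le_mul_of_pos_right _ (by omega)
  have hcL : c + Kx B ≤ CL n B := by
    rw [hc]; unfold CL
    have := e.isLt
    calc Kx B * (e.val + 1) + Kx B = Kx B * (e.val + 2) := by ring
      _ ≤ Kx B * (n ^ 2 + 2) := Nat.mul_le_mul_left _ (by omega)
  have hsplit : ∑ m ∈ range (CL n B), (-1 : ℝ) ^ m * F0 B i e m =
      (∑ m ∈ (range (CL n B)).filter (fun m => c - Kx B ≤ m ∧ m < c + Kx B),
        (-1 : ℝ) ^ m * F0 B i e m) +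
      ∑ m ∈ (range (CL n B)).filter (fun m => ¬ (c - Kx B ≤ m ∧ m < c + Kx B)),
        (-1 : ℝ) ^ m * F0 B i e m := by
    rw [sum_filter_add_sum_filter_not]
  have hwin : (∑ m ∈ (range (CL n B)).filter (fun m => c - Kx B ≤ m ∧ m < c + Kx B),
        (-1 : ℝ) ^ m * F0 B i e m) = 0 := by
    refine sum_involution (fun m _ => 2 * c - 1 - m) ?_ ?_ ?_ ?_
    · intro m hm
      rw [mem_filter, mem_range] at hm
      have e1 : F0 B i e (2 * c - 1 - m) = F0 B i e m := by
        unfold F0 xx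
        congr 2
        have : ((2 * c - 1 - m : ℕ) : ℝ) = 2 * ((Kx B : ℝ) * ((e.val : ℝ) + 1)) - 1 - m := by
          have h1 : 2 * c - 1 - m + 1 + m = 2 * c := by omega
          have h2 : ((2 * c - 1 - m + 1 + m : ℕ) : ℝ) = ((2 * c : ℕ) : ℝ) := by rw [h1]
          rw [hc] at h2
          push_cast at h2
          rw [hc]
          linarith only [h2]
        rw [this]; ring
      have e2 : (-1 : ℝ) ^ (2 * c - 1 - m) = -(-1) ^ m := by
        have h3 : (-1 : ℝ) ^ (2 * c - 1 - m) * (-1) ^ m = -1 := by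
          rw [← pow_add, show 2 * c - 1 - m + m = 2 * (c - 1) + 1 by (clear * - hc1 hm; omega), pow_add, pow_mul]
          simp only [even_two, Even.neg_pow, one_pow, pow_one, mul_neg, mul_one]
        have h4 : (-1 : ℝ) ^ m * (-1) ^ m = 1 := pm_mul_self (neg_one_pow_eq_or ℝ m)
        calc (-1 : ℝ) ^ (2 * c - 1 - m) = ((-1 : ℝ) ^ (2 * c - 1 - m) * (-1) ^ m) * (-1) ^ m := by
              rw [mul_assoc, h4, mul_one]
          _ = -(-1) ^ m := by rw [h3]; ring
      rw [e1, e2]; ring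
    · intro m hm _ h
      rw [mem_filter, mem_range] at hm
      (clear * - hc1 hm h; omega)
    · intro m hm
      rw [mem_filter, mem_range] at hm ⊢
      omega
    · intro m hm
      rw [mem_filter, mem_range] at hm
      omega
  rw [hsplit, hwin, zero_add]
  have hR0 : (0 : ℝ) < 2 * (B : ℝ) ^ 261 := by (clear * - hB; positivity)
  have hpt : ∀ m ∈ (range (CL n B)).filter (fun m => ¬ (c - Kx B ≤ m ∧ m < c + Kx B)),
      |(-1 : ℝ) ^ m * F0 B i e m| ≤ (B : ℝ) ^ 2 * (B : ℝ) ^ 70 / (2 * (B : ℝ) ^ 261) ^ 3 := by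
    intro m hm
    rw [mem_filter, mem_range] at hm
    rw [abs_mul, abs_neg_one_pow, one_mul]
    have hfar : 2 * (Kx B : ℝ) ≤ |2 * (m : ℝ) + 1 - 2 * ((Kx B : ℝ) * ((e.val : ℝ) + 1))| := by
      have hcc : ((Kx B : ℝ) * ((e.val : ℝ) + 1)) = (c : ℝ) := by rw [hc]; push_cast; ring
      rw [hcc]
      by_cases h1 : c + Kx B ≤ m
      · have h2 : (c : ℝ) + Kx B ≤ m := by exact_mod_cast h1
        have := le_abs_self (2 * (m : ℝ) + 1 - 2 * (c : ℝ))
        linarith only [h2, this]
      · have h3 : m < c - Kx B := by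
          by_contra h4
          exact hm.2 ⟨by omega, by (clear * - h1; omega)⟩
        have h4 : m + 1 + Kx B ≤ c := by (clear * - hc1 h3; omega)
        have h5 : (m : ℝ) + 1 + Kx B ≤ c := by exact_mod_cast h4
        have := neg_abs_le (2 * (m : ℝ) + 1 - 2 * (c : ℝ))
        linarith only [h5, this]
    have hx := xx_ge_far hG i e m (by positivity) hfar
    have hx2 : (2 * (B : ℝ) ^ 261) ^ 2 ≤ xx B i e m := by
      refine le_trans (le_of_eq ?_) hx
      rw [hgR, hKxR]; ring
    unfold F0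
    rw [abs_of_nonneg (FF_nonneg (xx_pos hG i e m) (by (clear * - hB; positivity)) (by (clear * -; positivity))), hVR]
    exact FF_le_cube hR0 hx2 (by positivity) (by (clear * - hB; positivity))
  refine (abs_sum_le_sum_abs _ _).trans ((sum_le_sum hpt).trans ?_)
  rw [sum_const, nsmul_eq_mul]
  have hcard : (((range (CL n B)).filter (fun m => ¬ (c - Kx B ≤ m ∧ m < c + Kx B))).card : ℝ) ≤
      (B : ℝ) ^ 62 := by
    have h1 : ((range (CL n B)).filter (fun m => ¬ (c - Kx B ≤ m ∧ m < c + Kx B))).card ≤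
        CL n B := by
      refine (card_filter_le _ _).trans ?_
      rw [card_range]
    have h2 := CL_le hG
    exact_mod_cast h1.trans h2
  calc _ ≤ (B : ℝ) ^ 62 * ((B : ℝ) ^ 2 * (B : ℝ) ^ 70 / (2 * (B : ℝ) ^ 261) ^ 3) := by
        apply mul_le_mul_of_nonneg_right hcard (by (clear * - hB; positivity))
    _ ≤ Jst B / (200 * B) := by
        rw [Jst_eq, div_div, mul_div_assoc', div_le_div_iff₀ (by positivity) (by (clear * - hB; positivity))]
        have e1 : (B : ℝ) ^ 62 * ((B : ℝ) ^ 2 * (B : ℝ) ^ 70) * ((B : ℝ) ^ 638 * (200 * B)) =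
            200 * (B : ℝ) ^ 773 := by ring
        have e2 : 1 * (2 * (B : ℝ) ^ 261) ^ 3 = 8 * ((B : ℝ) ^ 10 * (B : ℝ) ^ 773) := by ring
        rw [e1, e2]
        have h3 : (2 : ℝ) ^ 20 ≤ (B : ℝ) ^ 10 := pow_ge_self_of hG (by norm_num)
        have h4 : (0 : ℝ) < (B : ℝ) ^ 773 := by (clear * - hB; positivity)
        nlinarith only [h4, h3]

theorem cube_aux {y η : ℝ} (hy : 0 < y) (hη : 0 < η) :
    (1 - 3 * η) * (1 / y ^ 3) ≤ 1 / (y * (1 + η)) ^ 3 := by
  rw [mul_pow, mul_one_div, div_le_div_iff₀ (by positivity) (by positivity)]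
  have h0 : (1 - 3 * η) * (1 + η) ^ 3 ≤ 1 := by
    have h1 : (1 - 3 * η) * (1 + η) ^ 3 = 1 - 6 * η ^ 2 - 8 * η ^ 3 - 3 * η ^ 4 := by ring
    have h2 : 0 ≤ 6 * η ^ 2 := by positivity
    have h3 : 0 ≤ 8 * η ^ 3 := by positivity
    have h4 : 0 ≤ 3 * η ^ 4 := by positivity
    linarith only [h2, h3, h4]
  have hy3 : 0 < y ^ 3 := by positivity
  calc (1 - 3 * η) * (y ^ 3 * (1 + η) ^ 3) = y ^ 3 * ((1 - 3 * η) * (1 + η) ^ 3) := by ring
    _ ≤ y ^ 3 * 1 := mul_le_mul_of_nonneg_left h0 hy3.le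
    _ = 1 * y ^ 3 := by ring

/-- abstract form of the near-field estimate -/
theorem near_abs {x y η H q V J E : ℝ} (hx0 : 0 < x) (hy0 : 0 < y) (hη0 : 0 < η)
    (hH : 0 < H) (hq : 0 ≤ q) (hV : 0 < V) (hqH : H + q ≤ 2 * H)
    (hyx : y ^ 2 ≤ x)
    (hxS : ∀ h' : ℝ, 0 ≤ h' → h' ≤ 2 * H → x + (h' + V) ^ 2 ≤ (y * (1 + η)) ^ 2)
    (hmain : q * V * (1 / y ^ 3) = J) (herr : 6 * η * H * (V * (1 / y ^ 3)) ≤ E) :
    |FF x (H + q) V - FF x H V - J| ≤ E := by
  have hS0 : 0 < y * (1 + η) := by (clear * - hy0 hη0; positivity)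
  have u1 : FF x (H + q) V ≤ (H + q) * V / y ^ 3 :=
    FF_le_cube hy0 hyx (by (clear * - hH hq; positivity)) hV.le
  have u2 : FF x H V ≤ H * V / y ^ 3 := FF_le_cube hy0 hyx hH.le hV.le
  have l1 : (H + q) * V / (y * (1 + η)) ^ 3 ≤ FF x (H + q) V :=
    le_FF hx0 hS0 (hxS (H + q) (by positivity) hqH) (by positivity) hV.le
  have l2 : H * V / (y * (1 + η)) ^ 3 ≤ FF x H V :=
    le_FF hx0 hS0 (hxS H hH.le (by linarith only [hH])) hH.le hV.le
  have hS3 := cube_aux hy0 hη0
  have hy3 : 0 < 1 / y ^ 3 := by positivity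
  set w : ℝ := 1 / y ^ 3 with hw
  have e1 : (H + q) * V / y ^ 3 = (H + q) * V * w := by rw [hw]; ring
  have e2 : H * V / y ^ 3 = H * V * w := by rw [hw]; ring
  have e3 : (H + q) * V * ((1 - 3 * η) * w) ≤ (H + q) * V / (y * (1 + η)) ^ 3 := by
    calc (H + q) * V * ((1 - 3 * η) * w) ≤ (H + q) * V * (1 / (y * (1 + η)) ^ 3) :=
          mul_le_mul_of_nonneg_left hS3 (by (clear * - hH hq hV; positivity))
      _ = (H + q) * V / (y * (1 + η)) ^ 3 := by rw [mul_one_div]
  have e4 : H * V * ((1 - 3 * η) * w) ≤ H * V / (y * (1 + η)) ^ 3 := by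
    calc H * V * ((1 - 3 * η) * w) ≤ H * V * (1 / (y * (1 + η)) ^ 3) :=
          mul_le_mul_of_nonneg_left hS3 (by (clear * - hH hV; positivity))
      _ = H * V / (y * (1 + η)) ^ 3 := by rw [mul_one_div]
  rw [e1] at u1
  rw [e2] at u2
  rw [abs_le]
  constructor
  · have h5 : (H + q) * V * ((1 - 3 * η) * w) - H * V * w ≤ FF x (H + q) V - FF x H V := by
      linarith only [l1, u2, e3]
    have h6 : (H + q) * (η * (V * w)) ≤ 2 * H * (η * (V * w)) :=
      mul_le_mul_of_nonneg_right hqH (by positivity)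
    have h7 : (H + q) * V * ((1 - 3 * η) * w) - H * V * w =
        q * V * w - 3 * ((H + q) * (η * (V * w))) := by ring
    have h8 : 6 * η * H * (V * w) = 3 * (2 * H * (η * (V * w))) := by ring
    rw [h7, hmain] at h5
    rw [h8] at herr
    linarith only [l1, u2, hmain, herr, e3, h6]
  · have h5 : FF x (H + q) V - FF x H V ≤
        (H + q) * V * w - H * V * ((1 - 3 * η) * w) := by linarith only [l2, u1, e4]
    have h6 : 0 ≤ H * (η * (V * w)) := by positivity
    have h7 : (H + q) * V * w - H * V * ((1 - 3 * η) * w) =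
        q * V * w + 3 * (H * (η * (V * w))) := by ring
    have h8 : 6 * η * H * (V * w) = 6 * (H * (η * (V * w))) := by ring
    rw [h7, hmain] at h5
    rw [h8] at herr
    linarith only [l2, u2, u1, hmain, herr, e4]

/-- the height increment of a marked site, read off by the crossing cell -/
theorem F1_near (hG : Good n B A) (i : Fin n) (e : Fin (n ^ 2)) (m : ℕ)
    (h : (2 * (m : ℝ) + 1 - 2 * ((Kx B : ℝ) * ((e.val : ℝ) + 1))) ^ 2 = 1) :
    |F1 B i e m - Jst B| ≤ Jst B / (200 * B) := by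
  have hB := hG.pos
  have hB1 := hG.one
  have hK0 : (0 : ℝ) < cK B := by rw [hKR]; (clear * - hB; positivity)
  have hi1 : (1 : ℝ) ≤ (i.val : ℝ) + 1 := by
    have : (0 : ℝ) ≤ i.val := Nat.cast_nonneg _
    linarith only []
  obtain ⟨y, hy⟩ : ∃ y : ℝ, y = (cK B : ℝ) * ((i.val : ℝ) + 1) := ⟨_, rfl⟩
  obtain ⟨q, hq⟩ : ∃ q : ℝ, q = ((i.val : ℝ) + 1) ^ 3 := ⟨_, rfl⟩
  obtain ⟨η, hη⟩ : ∃ η : ℝ, η = 1 / (B : ℝ) ^ 70 := ⟨_, rfl⟩
  have hyK : (B : ℝ) ^ 236 ≤ y := by rw [hy, hKR]; nlinarith only [pow_pos hB 236]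
  have hy0 : 0 < y := by rw [hy]; (clear * - hK0; positivity)
  have hq0 : 0 ≤ q := by rw [hq]; positivity
  have hqB : q ≤ B := by
    have h1 : (i.val + 1) ^ 3 ≤ B := le_trans (Nat.pow_le_pow_left (by omega) 3) hG.cube_le
    rw [hq]; exact_mod_cast h1
  have hx : xx B i e m = (B : ℝ) ^ 400 + y ^ 2 := by
    unfold xx
    rw [mul_pow, h, mul_one, ← hy, hgR]
    ring
  have hη0 : 0 < η := by rw [hη]; (clear * - hB; positivity)
  have hJ : 0 < Jst B := by rw [Jst_eq]; (clear * - hB; positivity)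
  have hqH : (B : ℝ) ^ 2 + q ≤ 2 * (B : ℝ) ^ 2 := by
    have : (B : ℝ) ≤ (B : ℝ) ^ 2 := by nlinarith only [hB1]
    linarith only [hqB, this]
  have hxS : ∀ h' : ℝ, 0 ≤ h' → h' ≤ 2 * (B : ℝ) ^ 2 →
      xx B i e m + (h' + (B : ℝ) ^ 70) ^ 2 ≤ (y * (1 + η)) ^ 2 := by
    intro h' h0 h1
    rw [hx]
    have e1 : (y * (1 + η)) ^ 2 = y ^ 2 + 2 * (η * y ^ 2) + (η * y) ^ 2 := by ring
    rw [e1]
    have e2 : (B : ℝ) ^ 402 ≤ η * y ^ 2 := by
      have : ((B : ℝ) ^ 236) ^ 2 ≤ y ^ 2 := pow_le_pow_left₀ (by (clear * - hB; positivity)) hyK 2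
      calc (B : ℝ) ^ 402 = η * ((B : ℝ) ^ 236) ^ 2 := by
            rw [hη, one_div_mul_eq_div, eq_div_iff (by (clear * - hB; positivity))]; ring
        _ ≤ η * y ^ 2 := mul_le_mul_of_nonneg_left this hη0.le
    have e3 : (B : ℝ) ^ 400 ≤ (B : ℝ) ^ 402 := pow_le_pow_right₀ hB1 (by (clear * -; norm_num))
    have e4 : (h' + (B : ℝ) ^ 70) ^ 2 ≤ (B : ℝ) ^ 402 := by
      have h2 : h' + (B : ℝ) ^ 70 ≤ 3 * (B : ℝ) ^ 70 := by
        have : (B : ℝ) ^ 2 ≤ (B : ℝ) ^ 70 := pow_le_pow_right₀ hB1 (by norm_num)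
        linarith only [h1, this]
      calc (h' + (B : ℝ) ^ 70) ^ 2 ≤ (3 * (B : ℝ) ^ 70) ^ 2 :=
            pow_le_pow_left₀ (by (clear * - h0 hB; positivity)) h2 2
        _ = 9 * (B : ℝ) ^ 140 := by ring
        _ ≤ B * (B : ℝ) ^ 140 := by
            apply mul_le_mul_of_nonneg_right _ (by (clear * - hB; positivity))
            have := hG.bR
            linarith only [this]
        _ = (B : ℝ) ^ 141 := by ring
        _ ≤ (B : ℝ) ^ 402 := pow_le_pow_right₀ hB1 (by norm_num)
    have e5 : 0 ≤ (η * y) ^ 2 := sq_nonneg _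
    linarith only [e2, e3, e4, e5]
  have hyx : y ^ 2 ≤ xx B i e m := by
    rw [hx]
    have := pow_pos hB 400
    linarith only [this]
  have hmain : q * (B : ℝ) ^ 70 * (1 / y ^ 3) = Jst B := by
    rw [hy, hq, hKR, Jst_eq, mul_one_div, div_eq_div_iff (by (clear * - hB; positivity)) (by positivity)]
    ring
  have hyK3 : (B : ℝ) ^ 70 * (1 / y ^ 3) ≤ Jst B := by
    have : (B : ℝ) ^ 70 * (1 / y ^ 3) * 1 ≤ (B : ℝ) ^ 70 * (1 / y ^ 3) * q := by
      apply mul_le_mul_of_nonneg_left _ (by (clear * - hB hy0; positivity))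
      rw [hq]; exact one_le_pow₀ hi1
    calc (B : ℝ) ^ 70 * (1 / y ^ 3) = (B : ℝ) ^ 70 * (1 / y ^ 3) * 1 := by ring
      _ ≤ (B : ℝ) ^ 70 * (1 / y ^ 3) * q := this
      _ = Jst B := by rw [← hmain]; ring
  have herr : 6 * η * (B : ℝ) ^ 2 * ((B : ℝ) ^ 70 * (1 / y ^ 3)) ≤ Jst B / (200 * B) := by
    calc 6 * η * (B : ℝ) ^ 2 * ((B : ℝ) ^ 70 * (1 / y ^ 3)) ≤ 6 * η * (B : ℝ) ^ 2 * Jst B :=
          mul_le_mul_of_nonneg_left hyK3 (by (clear * - hη0 hB; positivity))
      _ ≤ Jst B / (200 * B) := by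
          rw [le_div_iff₀ (by positivity), hη]
          have e0 : 6 * (1 / (B : ℝ) ^ 70) * (B : ℝ) ^ 2 * Jst B * (200 * B) =
              Jst B * (1200 * (B : ℝ) ^ 3 / (B : ℝ) ^ 70) := by
            rw [div_eq_mul_inv, div_eq_mul_inv]; ring
          rw [e0]
          have h1 : 1200 * (B : ℝ) ^ 3 / (B : ℝ) ^ 70 ≤ 1 := by
            rw [div_le_one (by positivity)]
            calc 1200 * (B : ℝ) ^ 3 ≤ B * (B : ℝ) ^ 3 := by
                  apply mul_le_mul_of_nonneg_right _ (by (clear * - hB; positivity))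
                  have := hG.bR
                  linarith only [this]
              _ = (B : ℝ) ^ 4 := by ring
              _ ≤ (B : ℝ) ^ 70 := pow_le_pow_right₀ hB1 (by norm_num)
          calc Jst B * (1200 * (B : ℝ) ^ 3 / (B : ℝ) ^ 70) ≤ Jst B * 1 :=
                mul_le_mul_of_nonneg_left h1 hJ.le
            _ = Jst B := mul_one _
  have key := near_abs (xx_pos hG i e m) hy0 hη0 (by positivity) hq0 (by positivity) hqH hyx hxS
    hmain herr
  unfold F1
  rw [hVR, ← hq]
  exact key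

theorem F1_far (hG : Good n B A) (i : Fin n) (e : Fin (n ^ 2)) (m : ℕ)
    (h : (Kx B : ℝ) ≤ |2 * (m : ℝ) + 1 - 2 * ((Kx B : ℝ) * ((e.val : ℝ) + 1))|) :
    |F1 B i e m| ≤ 2 * (B : ℝ) ^ 72 / ((B : ℝ) ^ 261) ^ 3 := by
  have hB := hG.pos
  have hB1 := hG.one
  have hqB : ((i.val : ℝ) + 1) ^ 3 ≤ B := by
    have h1 : (i.val + 1) ^ 3 ≤ B := le_trans (Nat.pow_le_pow_left (by omega) 3) hG.cube_le
    exact_mod_cast h1
  have hx := xx_ge_far hG i e m (by (clear * -; positivity)) h
  have hx2 : ((B : ℝ) ^ 261) ^ 2 ≤ xx B i e m := by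
    refine le_trans (le_of_eq ?_) hx
    rw [hgR, hKxR]; ring
  have hR0 : (0 : ℝ) < (B : ℝ) ^ 261 := by (clear * - hB; positivity)
  have u1 := FF_le_cube (h := (B : ℝ) ^ 2 + ((i.val : ℝ) + 1) ^ 3) (h' := (B : ℝ) ^ 70) hR0 hx2
    (by positivity) (by positivity)
  have u2 := FF_le_cube (h := (B : ℝ) ^ 2) (h' := (B : ℝ) ^ 70) hR0 hx2
    (by positivity) (by positivity)
  have l1 := FF_nonneg (h := (B : ℝ) ^ 2 + ((i.val : ℝ) + 1) ^ 3) (h' := (B : ℝ) ^ 70)
    (xx_pos hG i e m) (by positivity) (by positivity)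
  have l2 := FF_nonneg (h := (B : ℝ) ^ 2) (h' := (B : ℝ) ^ 70)
    (xx_pos hG i e m) (by positivity) (by positivity)
  have hq2 : (B : ℝ) ^ 2 + ((i.val : ℝ) + 1) ^ 3 ≤ 2 * (B : ℝ) ^ 2 := by linarith only [mul_nonneg_of_nonpos_of_nonpos (Mathlib.Tactic.Linarith.sub_nonpos_of_le (Mathlib.Tactic.Linarith.natCast_nonneg ℝ B)) (Mathlib.Tactic.Linarith.sub_nonpos_of_le hB1), hqB]
  have v1 : ((B : ℝ) ^ 2 + ((i.val : ℝ) + 1) ^ 3) * (B : ℝ) ^ 70 / ((B : ℝ) ^ 261) ^ 3 ≤
      2 * (B : ℝ) ^ 72 / ((B : ℝ) ^ 261) ^ 3 := by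
    apply div_le_div_of_nonneg_right _ (by positivity)
    calc _ ≤ (2 * (B : ℝ) ^ 2) * (B : ℝ) ^ 70 := mul_le_mul_of_nonneg_right hq2 (by positivity)
      _ = 2 * (B : ℝ) ^ 72 := by ring
  have v2 : (B : ℝ) ^ 2 * (B : ℝ) ^ 70 / ((B : ℝ) ^ 261) ^ 3 ≤
      2 * (B : ℝ) ^ 72 / ((B : ℝ) ^ 261) ^ 3 := by
    apply div_le_div_of_nonneg_right _ (by (clear * - hB; positivity))
    calc (B : ℝ) ^ 2 * (B : ℝ) ^ 70 = (B : ℝ) ^ 72 := by ring
      _ ≤ 2 * (B : ℝ) ^ 72 := by linarith only [pow_pos hB 72]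
  unfold F1
  rw [hVR, abs_le]
  constructor <;> linarith

end Vale.Agent.P370.Chains
end

section

set_option exponentiation.threshold 10000

namespace Vale.Agent.P370.Chains

open Finset

variable {n B : ℕ} {A : Fin n → Fin (n ^ 2) → ℤ}

theorem mark_lt (hG : Good n B A) (e : Fin (n ^ 2)) : Kx B * (e.val + 1) < CL n B := by
  have hK := Kx_pos hG
  unfold CL
  have := e.isLt
  exact Nat.mul_lt_mul_of_pos_left (by omega) (by omega)

/-- contribution of the marks attached to the cell `e'` -/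
noncomputable def DD (A : Fin n → Fin (n ^ 2) → ℤ) (B : ℕ) (i : Fin n) (e e' : Fin (n ^ 2)) : ℝ :=
  (if A i e' = 1 then F1 B i e (Kx B * (e'.val + 1)) else 0) -
    (if A i e' = -1 then F1 B i e (Kx B * (e'.val + 1) - 1) else 0)

theorem sum_marks (hG : Good n B A) (i : Fin n) (e : Fin (n ^ 2)) :
    ∑ m ∈ range (CL n B), (-1 : ℝ) ^ m * ((mu A B i m : ℝ) * F1 B i e m) =
      ∑ e', DD A B i e e' := by
  have hK := Kx_pos hG
  have h1 : ∀ m, (mu A B i m : ℝ) = ∑ e' : Fin (n ^ 2),
      ((if m = Kx B * (e'.val + 1) then (if A i e' = 1 then (1 : ℝ) else 0) else 0) +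
      (if m = Kx B * (e'.val + 1) - 1 then (if A i e' = -1 then (1 : ℝ) else 0) else 0)) := by
    intro m
    unfold mu
    push_cast
    refine sum_congr rfl (fun e' _ => ?_)
    have hpos : 1 ≤ Kx B * (e'.val + 1) := Nat.mul_pos (by omega) (by omega)
    congr 1
    · by_cases ha : A i e' = 1 <;> by_cases hb : m = Kx B * (e'.val + 1) <;> simp [ha, hb]
    · have hiff : m + 1 = Kx B * (e'.val + 1) ↔ m = Kx B * (e'.val + 1) - 1 := by omega
      by_cases ha : A i e' = -1
      · by_cases hb : m = Kx B * (e'.val + 1) - 1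
        · rw [if_pos hb, if_pos ha, if_pos ⟨ha, hiff.mpr hb⟩]
        · rw [if_neg hb, if_neg (fun h => hb (hiff.mp h.2))]
      · rw [if_neg (fun h => ha h.1), if_neg ha, ite_self]
  have h2 : ∑ m ∈ range (CL n B), (-1 : ℝ) ^ m * ((mu A B i m : ℝ) * F1 B i e m) =
      ∑ m ∈ range (CL n B), ∑ e' : Fin (n ^ 2),
      ((if m = Kx B * (e'.val + 1) then
          (-1 : ℝ) ^ m * ((if A i e' = 1 then (1 : ℝ) else 0) * F1 B i e m) else 0) +
      (if m = Kx B * (e'.val + 1) - 1 then
          (-1 : ℝ) ^ m * ((if A i e' = -1 then (1 : ℝ) else 0) * F1 B i e m) else 0)) := by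
    refine sum_congr rfl (fun m _ => ?_)
    rw [h1 m, sum_mul, mul_sum]
    refine sum_congr rfl (fun e' _ => ?_)
    by_cases ha : m = Kx B * (e'.val + 1) <;> by_cases hb : m = Kx B * (e'.val + 1) - 1
    · rw [if_pos ha, if_pos hb, if_pos ha, if_pos hb]; ring
    · rw [if_pos ha, if_neg hb, if_pos ha, if_neg hb]; ring
    · rw [if_neg ha, if_pos hb, if_neg ha, if_pos hb]; ring
    · rw [if_neg ha, if_neg hb, if_neg ha, if_neg hb]; ring
  rw [h2, sum_comm]
  refine sum_congr rfl (fun e' _ => ?_)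
  rw [sum_add_distrib, sum_ite_eq', sum_ite_eq']
  have hlt := mark_lt hG e'
  have hpos : 1 ≤ Kx B * (e'.val + 1) := Nat.mul_pos (by (clear * - hK; omega)) (by omega)
  have hev : Even (Kx B * (e'.val + 1)) := (Kx_even hG).mul_right _
  have hodd : Odd (Kx B * (e'.val + 1) - 1) := Nat.Even.sub_odd hpos hev odd_one
  rw [if_pos (mem_range.mpr hlt), if_pos (mem_range.mpr (by (clear * - hlt hpos; omega))), hev.neg_one_pow,
    hodd.neg_one_pow]
  unfold DD
  by_cases ha : A i e' = 1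
  · rw [if_pos ha, if_pos ha]
    by_cases hb : A i e' = -1
    · rw [if_pos hb, if_pos hb]; ring
    · rw [if_neg hb, if_neg hb]; ring
  · rw [if_neg ha, if_neg ha]
    by_cases hb : A i e' = -1
    · rw [if_pos hb, if_pos hb]; ring
    · rw [if_neg hb, if_neg hb]; ring

theorem DD_near (hG : Good n B A) (i : Fin n) (e : Fin (n ^ 2)) :
    |DD A B i e e - (A i e : ℝ) * Jst B| ≤ Jst B / (200 * B) := by
  have hB := hG.pos
  have hK := Kx_pos hG
  have hJ : 0 < Jst B := by rw [Jst_eq]; positivity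
  have hpos : 1 ≤ Kx B * (e.val + 1) := Nat.mul_pos (by omega) (by omega)
  have n1 := F1_near hG i e (Kx B * (e.val + 1)) (by push_cast; ring)
  have n2 := F1_near hG i e (Kx B * (e.val + 1) - 1) (by
    rw [Nat.cast_sub hpos]; push_cast; ring)
  unfold DD
  rcases hG.vals i e with h | h | h
  · rw [h]; simp; (clear * - hJ hB; positivity)
  · rw [h, if_pos rfl, if_neg (by norm_num)]
    simpa only [sub_zero, Int.cast_one, one_mul, ge_iff_le] using n1
  · rw [h, if_neg (by norm_num), if_pos rfl]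
    have e1 : (0 : ℝ) - F1 B i e (Kx B * (e.val + 1) - 1) - ((-1 : ℤ) : ℝ) * Jst B =
      -(F1 B i e (Kx B * (e.val + 1) - 1) - Jst B) := by push_cast; ring
    rw [e1, abs_neg]
    exact n2

theorem DD_far (hG : Good n B A) (i : Fin n) {e e' : Fin (n ^ 2)} (he : e' ≠ e) :
    |DD A B i e e'| ≤ 2 * (B : ℝ) ^ 72 / ((B : ℝ) ^ 261) ^ 3 := by
  have hB := hG.pos
  have hK := Kx_pos hG
  have hKr : (2 : ℝ) ≤ (Kx B : ℝ) := by exact_mod_cast hK
  have hee : (1 : ℝ) ≤ |(e'.val : ℝ) - e.val| := by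
    have h1 : (1 : ℤ) ≤ |(e'.val : ℤ) - e.val| :=
      Int.one_le_abs (by have : e'.val ≠ e.val := fun h' => he (Fin.ext h'); omega)
    have h2 : ((1 : ℤ) : ℝ) ≤ ((|(e'.val : ℤ) - e.val| : ℤ) : ℝ) := by exact_mod_cast h1
    simpa only [ge_iff_le, Int.cast_one, Int.cast_abs, Int.cast_sub, Int.cast_natCast] using h2
  have hpos : 1 ≤ Kx B * (e'.val + 1) := Nat.mul_pos (by omega) (by omega)
  have hgen : ∀ x : ℝ, |x| ≤ 1 → (Kx B : ℝ) ≤
      |2 * (Kx B : ℝ) * ((e'.val : ℝ) - e.val) + x| := by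
    intro x hx
    have h1 : 2 * (Kx B : ℝ) ≤ |2 * (Kx B : ℝ) * ((e'.val : ℝ) - e.val)| := by
      rw [abs_mul, abs_of_nonneg (by positivity : (0 : ℝ) ≤ 2 * (Kx B : ℝ))]
      (clear * - hee; nlinarith)
    have h2 : |2 * (Kx B : ℝ) * ((e'.val : ℝ) - e.val)| - |x| ≤
        |2 * (Kx B : ℝ) * ((e'.val : ℝ) - e.val) + x| := by
      have := abs_sub_abs_le_abs_sub (2 * (Kx B : ℝ) * ((e'.val : ℝ) - e.val)) (-x)
      rw [abs_neg, sub_neg_eq_add] at this
      exact this
    linarith only [hKr, hx, h1, h2]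
  have f1 := F1_far hG i e (Kx B * (e'.val + 1)) (by
    have h := hgen 1 (by norm_num)
    refine h.trans (le_of_eq ?_)
    congr 1
    push_cast; ring)
  have f2 := F1_far hG i e (Kx B * (e'.val + 1) - 1) (by
    have h := hgen (-1) (by norm_num)
    refine h.trans (le_of_eq ?_)
    congr 1
    rw [Nat.cast_sub hpos]; push_cast; ring)
  have hδ : (0 : ℝ) ≤ 2 * (B : ℝ) ^ 72 / ((B : ℝ) ^ 261) ^ 3 := by (clear * - hB; positivity)
  unfold DD
  rcases hG.vals i e' with h | h | h
  · rw [h]; simpa only [zero_ne_one, ↓reduceIte, Int.reduceNeg, zero_eq_neg, one_ne_zero, sub_self, abs_zero,     ge_iff_le] using hδ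
  · rw [h, if_pos rfl, if_neg (by norm_num), sub_zero]
    exact f1
  · rw [h, if_neg (by norm_num), if_pos rfl, zero_sub, abs_neg]
    exact f2

theorem chain_cell (hG : Good n B A) (i : Fin n) (e : Fin (n ^ 2)) :
    |∑ m ∈ range (CL n B), (-1 : ℝ) ^ m * ce A B i e m - (A i e : ℝ) * Jst B| ≤
      Jst B / (48 * B) := by
  have hB := hG.pos
  have hJ : 0 < Jst B := by rw [Jst_eq]; positivity
  have h1 : ∑ m ∈ range (CL n B), (-1 : ℝ) ^ m * ce A B i e m =
      ∑ m ∈ range (CL n B), (-1 : ℝ) ^ m * F0 B i e m + ∑ e', DD A B i e e' := by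
    rw [← sum_marks hG i e, ← sum_add_distrib]
    refine sum_congr rfl (fun m _ => ?_)
    rw [ce_eq hG i e m]; ring
  have h2 : ∑ e', DD A B i e e' = DD A B i e e + ∑ e' ∈ univ.erase e, DD A B i e e' := by
    rw [add_sum_erase _ _ (mem_univ e)]
  have h3 : |∑ e' ∈ univ.erase e, DD A B i e e'| ≤ Jst B / (200 * B) := by
    refine (abs_sum_le_sum_abs _ _).trans ?_
    calc _ ≤ ∑ e' ∈ univ.erase e, (2 * (B : ℝ) ^ 72 / ((B : ℝ) ^ 261) ^ 3) :=
          sum_le_sum (fun e' he' => DD_far hG i (ne_of_mem_erase he'))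
      _ ≤ ∑ _e' : Fin (n ^ 2), (2 * (B : ℝ) ^ 72 / ((B : ℝ) ^ 261) ^ 3) :=
          sum_le_sum_of_subset_of_nonneg (erase_subset _ _) (fun _ _ _ => by (clear * - hB; positivity))
      _ = (n : ℝ) ^ 2 * (2 * (B : ℝ) ^ 72 / ((B : ℝ) ^ 261) ^ 3) := by
          rw [sum_const, card_univ, Fintype.card_fin, nsmul_eq_mul]; push_cast; ring
      _ ≤ (B : ℝ) * (2 * (B : ℝ) ^ 72 / ((B : ℝ) ^ 261) ^ 3) := by
          have hn : (n : ℝ) ^ 2 + 2 ≤ B := by exact_mod_cast hG.sq_le
          apply mul_le_mul_of_nonneg_right (by linarith only [hn]) (by (clear * - hB; positivity))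
      _ ≤ Jst B / (200 * B) := by
          rw [Jst_eq, div_div, mul_div_assoc', div_le_div_iff₀ (by positivity) (by positivity)]
          have e1 : (B : ℝ) * (2 * (B : ℝ) ^ 72) * ((B : ℝ) ^ 638 * (200 * B)) =
              400 * (B : ℝ) ^ 712 := by ring
          have e2 : 1 * ((B : ℝ) ^ 261) ^ 3 = (B : ℝ) ^ 71 * (B : ℝ) ^ 712 := by ring
          rw [e1, e2]
          have h3 : (2 : ℝ) ^ 20 ≤ (B : ℝ) ^ 71 := pow_ge_self_of hG (by norm_num)
          have h4 : (0 : ℝ) < (B : ℝ) ^ 712 := by positivity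
          nlinarith only [h4, h3]
  have h4 := sum_F0 hG i e
  have h5 := DD_near hG i e
  rw [h1, h2]
  have h6 : ∑ m ∈ range (CL n B), (-1 : ℝ) ^ m * F0 B i e m +
      (DD A B i e e + ∑ e' ∈ univ.erase e, DD A B i e e') - (A i e : ℝ) * Jst B =
      ∑ m ∈ range (CL n B), (-1 : ℝ) ^ m * F0 B i e m + (DD A B i e e - (A i e : ℝ) * Jst B) +
      ∑ e' ∈ univ.erase e, DD A B i e e' := by ring
  rw [h6]
  refine (abs_add_le _ _).trans ((add_le_add (abs_add_le _ _) le_rfl).trans ?_)
  have h7 : Jst B / (200 * B) + Jst B / (200 * B) + Jst B / (200 * B) ≤ Jst B / (48 * B) := by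
    have e1 : Jst B / (200 * B) + Jst B / (200 * B) + Jst B / (200 * B) =
        Jst B / B * (3 / 200) := by
      field_simp
      norm_num
    have e2 : Jst B / (48 * B) = Jst B / B * (1 / 48) := by field_simp
    rw [e1, e2]
    have : 0 < Jst B / B := by (clear * - hJ hB; positivity)
    nlinarith only [this]
  linarith

end Vale.Agent.P370.Chains
end

section

set_option exponentiation.threshold 10000

namespace Vale.Agent.P370.Chains

open Finset

variable {n B : ℕ} {A : Fin n → Fin (n ^ 2) → ℤ}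

theorem pm_abs_sub {x y : ℝ} (hx : x = 1 ∨ x = -1) (hy : y = 1 ∨ y = -1) :
    |x * y - 1| ≤ 2 := by
  rcases hx with rfl | rfl <;> rcases hy with rfl | rfl <;> norm_num

theorem abs_dsum_le {α β : Type*} [Fintype α] [Fintype β] (f : α → β → ℝ) (c : ℝ)
    (h : ∀ a b, |f a b| ≤ c) :
    |∑ a, ∑ b, f a b| ≤ (Fintype.card α : ℝ) * (Fintype.card β : ℝ) * c := by
  refine (abs_sum_le_sum_abs _ _).trans ?_
  calc _ ≤ ∑ a : α, ∑ b : β, c := by
        refine sum_le_sum (fun a _ => ?_)
        refine (abs_sum_le_sum_abs _ _).trans (sum_le_sum (fun b _ => h a b))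
    _ = _ := by
        simp only [sum_const, card_univ, nsmul_eq_mul]; ring

/-- TASK B4: effective energy of rigid configurations. -/
theorem effective (hG : Good n B A)
    (t : Fin n ⊕ Fin (n ^ 2) → ℝ) (ht : ∀ w, t w = 1 ∨ t w = -1) :
    |isingE A (fun a : Site n B => t (wire a) * sg a) - isingE A (fun a : Site n B => sg a) -
      Jst B * ∑ i, ∑ e, (A i e : ℝ) * (t (Sum.inl i) * t (Sum.inr e) - 1)| ≤ Jst B / 8 := by
  have hB := hG.pos
  have hJ : 0 < Jst B := by rw [Jst_eq]; positivity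
  set T1 : ℝ := ∑ i : Fin n, ∑ i' : Fin n, (1 / 2) * (t (Sum.inl i) * t (Sum.inl i') - 1) *
    ∑ m : Fin (CL n B), ∑ m' : Fin (CL n B),
      (if i = i' ∧ m = m' then 0 else cc A B i i' m.val m'.val) *
        ((-1 : ℝ) ^ m.val * (-1) ^ m'.val) with hT1
  set T2 : ℝ := ∑ i : Fin n, ∑ e : Fin (n ^ 2), (t (Sum.inl i) * t (Sum.inr e) - 1) *
    ∑ m : Fin (CL n B), (-1 : ℝ) ^ m.val * ce A B i e m.val with hT2
  set T3 : ℝ := ∑ e : Fin (n ^ 2), ∑ e' : Fin (n ^ 2),
    (1 / 2) * (t (Sum.inr e) * t (Sum.inr e') - 1) *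
      (if e = e' then 0 else ee n B e e') with hT3
  have hsum : isingE A (fun a : Site n B => t (wire a) * sg a) -
      isingE A (fun a : Site n B => sg a) = T1 + T2 + T3 := by
    unfold isingE
    have h0 : (1 / 2 : ℝ) * ∑ a : Site n B, ∑ b : Site n B,
          J A a b * (t (wire a) * sg a) * (t (wire b) * sg b) -
        1 / 2 * ∑ a : Site n B, ∑ b : Site n B, J A a b * sg a * sg b =
        ∑ a : Site n B, ∑ b : Site n B,
          (1 / 2) * (t (wire a) * t (wire b) - 1) * (J A a b * (sg a * sg b)) := by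
      rw [← mul_sub, ← sum_sub_distrib, mul_sum]
      refine sum_congr rfl (fun a _ => ?_)
      rw [← sum_sub_distrib, mul_sum]
      refine sum_congr rfl (fun b _ => ?_)
      ring
    rw [h0, double_sum_split]
    simp only [J_inl_inl, J_inl_inr, J_inr_inl, J_inr_inr, wire_inl, wire_inr, sg_inl, sg_inr]
    have p1 : (∑ i : Fin n, ∑ i' : Fin n, ∑ m : Fin (CL n B), ∑ m' : Fin (CL n B),
        (1 / 2 : ℝ) * (t (Sum.inl i) * t (Sum.inl i') - 1) *
          ((if i = i' ∧ m = m' then 0 else cc A B i i' m.val m'.val) *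
            ((-1 : ℝ) ^ m.val * (-1) ^ m'.val))) = T1 := by
      rw [hT1]
      refine sum_congr rfl (fun i _ => sum_congr rfl (fun i' _ => ?_))
      rw [mul_sum]
      refine sum_congr rfl (fun m _ => ?_)
      rw [mul_sum]
    have p2 : (∑ i : Fin n, ∑ e : Fin (n ^ 2), ∑ m : Fin (CL n B),
        (1 / 2 : ℝ) * (t (Sum.inl i) * t (Sum.inr e) - 1) *
          (ce A B i e m.val * ((-1 : ℝ) ^ m.val * 1))) = (1 / 2) * T2 := by
      rw [hT2, mul_sum]
      refine sum_congr rfl (fun i _ => ?_)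
      rw [mul_sum]
      refine sum_congr rfl (fun e _ => ?_)
      rw [mul_sum, mul_sum]
      refine sum_congr rfl (fun m _ => ?_)
      ring
    have p3 : (∑ i : Fin n, ∑ e : Fin (n ^ 2), ∑ m : Fin (CL n B),
        (1 / 2 : ℝ) * (t (Sum.inr e) * t (Sum.inl i) - 1) *
          (ce A B i e m.val * (1 * (-1 : ℝ) ^ m.val))) = (1 / 2) * T2 := by
      rw [hT2, mul_sum]
      refine sum_congr rfl (fun i _ => ?_)
      rw [mul_sum]
      refine sum_congr rfl (fun e _ => ?_)
      rw [mul_sum, mul_sum]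
      refine sum_congr rfl (fun m _ => ?_)
      ring
    have p4 : (∑ e : Fin (n ^ 2), ∑ e' : Fin (n ^ 2),
        (1 / 2 : ℝ) * (t (Sum.inr e) * t (Sum.inr e') - 1) *
          ((if e = e' then 0 else ee n B e e') * (1 * 1))) = T3 := by
      rw [hT3]
      refine sum_congr rfl (fun e _ => sum_congr rfl (fun e' _ => ?_))
      ring
    rw [p1, p2, p3, p4]
    ring
  -- T1
  have b1 : |T1| ≤ (n : ℝ) * n * (Jst B / (24 * B)) := by
    have h := abs_dsum_le (fun i i' : Fin n => (1 / 2) * (t (Sum.inl i) * t (Sum.inl i') - 1) *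
      ∑ m : Fin (CL n B), ∑ m' : Fin (CL n B),
      (if i = i' ∧ m = m' then 0 else cc A B i i' m.val m'.val) *
        ((-1 : ℝ) ^ m.val * (-1) ^ m'.val)) (Jst B / (24 * B)) (by
      intro i i'
      by_cases hi : i = i'
      · subst hi
        have : t (Sum.inl i) * t (Sum.inl i) - 1 = 0 := by
          rw [pm_mul_self (ht _), sub_self]
        rw [this]
        simp only [one_div, mul_zero, true_and, ite_mul, zero_mul, abs_zero, ge_iff_le]
        (clear * - hJ hB; positivity)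
      · have h1 : ∑ m : Fin (CL n B), ∑ m' : Fin (CL n B),
            (if i = i' ∧ m = m' then 0 else cc A B i i' m.val m'.val) *
            ((-1 : ℝ) ^ m.val * (-1) ^ m'.val) =
            ∑ m ∈ range (CL n B), ∑ m' ∈ range (CL n B), (-1) ^ (m + m') * cc A B i i' m m' := by
          rw [← Fin.sum_univ_eq_sum_range
            (fun m => ∑ m' ∈ range (CL n B), (-1 : ℝ) ^ (m + m') * cc A B i i' m m')]
          refine sum_congr rfl (fun m _ => ?_)
          rw [← Fin.sum_univ_eq_sum_range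
            (fun m' => (-1 : ℝ) ^ (m.val + m') * cc A B i i' m.val m')]
          refine sum_congr rfl (fun m' _ => ?_)
          rw [if_neg (fun h => hi h.1), pow_add]; ring
        rw [h1, abs_mul, abs_mul]
        have h2 := chain_chain hG hi
        have h3 := pm_abs_sub (ht (Sum.inl i)) (ht (Sum.inl i'))
        have h4 : |(1 / 2 : ℝ)| = 1 / 2 := by norm_num
        rw [h4]
        calc _ ≤ 1 * (Jst B / (24 * B)) := by
              apply mul_le_mul _ h2 (abs_nonneg _) (by norm_num)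
              linarith only [h3]
          _ = _ := one_mul _)
    rw [Fintype.card_fin] at h
    exact h
  have b3 : |T3| ≤ ((n : ℝ) ^ 2) * ((n : ℝ) ^ 2) * (Jst B / (24 * B)) := by
    have h := abs_dsum_le (fun e e' : Fin (n ^ 2) =>
      (1 / 2) * (t (Sum.inr e) * t (Sum.inr e') - 1) *
      (if e = e' then 0 else ee n B e e')) (Jst B / (24 * B)) (by
      intro e e'
      by_cases he : e = e'
      · rw [if_pos he]
        simp only [one_div, mul_zero, abs_zero]
        positivity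
      · rw [if_neg he, abs_mul, abs_mul]
        obtain ⟨h1, h2⟩ := ee_bound hG he
        have h3 := pm_abs_sub (ht (Sum.inr e)) (ht (Sum.inr e'))
        have h4 : |(1 / 2 : ℝ)| = 1 / 2 := by norm_num
        rw [h4, abs_of_nonneg h1]
        calc _ ≤ 1 * (Jst B / (24 * B)) := by
              apply mul_le_mul _ h2 h1 (by norm_num)
              linarith only [h3]
          _ = _ := one_mul _)
    rw [Fintype.card_fin, Nat.cast_pow] at h
    exact h
  have b2 : |T2 - Jst B * ∑ i, ∑ e, (A i e : ℝ) * (t (Sum.inl i) * t (Sum.inr e) - 1)| ≤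
      (n : ℝ) * (n : ℝ) ^ 2 * (Jst B / (24 * B)) := by
    have h0 : T2 - Jst B * ∑ i, ∑ e, (A i e : ℝ) * (t (Sum.inl i) * t (Sum.inr e) - 1) =
        ∑ i : Fin n, ∑ e : Fin (n ^ 2), (t (Sum.inl i) * t (Sum.inr e) - 1) *
          (∑ m ∈ range (CL n B), (-1 : ℝ) ^ m * ce A B i e m - (A i e : ℝ) * Jst B) := by
      rw [hT2, mul_sum, ← sum_sub_distrib]
      refine sum_congr rfl (fun i _ => ?_)
      rw [mul_sum, ← sum_sub_distrib]
      refine sum_congr rfl (fun e _ => ?_)
      rw [Fin.sum_univ_eq_sum_range (fun m => (-1 : ℝ) ^ m * ce A B i e m)]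
      ring
    rw [h0]
    have h := abs_dsum_le (fun (i : Fin n) (e : Fin (n ^ 2)) =>
      (t (Sum.inl i) * t (Sum.inr e) - 1) *
          (∑ m ∈ range (CL n B), (-1 : ℝ) ^ m * ce A B i e m - (A i e : ℝ) * Jst B))
      (Jst B / (24 * B)) (by
      intro i e
      rw [abs_mul]
      have h1 := chain_cell hG i e
      have h3 := pm_abs_sub (ht (Sum.inl i)) (ht (Sum.inr e))
      calc _ ≤ 2 * (Jst B / (48 * B)) := by
            apply mul_le_mul h3 h1 (abs_nonneg _) (by norm_num)
        _ = _ := by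
            rw [mul_div_assoc', div_eq_div_iff (by (clear * - hB; positivity)) (by positivity)]
            ring)
    rw [Fintype.card_fin, Fintype.card_fin, Nat.cast_pow] at h
    exact h
  rw [hsum]
  have e0 : T1 + T2 + T3 -
      Jst B * ∑ i, ∑ e, (A i e : ℝ) * (t (Sum.inl i) * t (Sum.inr e) - 1) =
      T1 + (T2 - Jst B * ∑ i, ∑ e, (A i e : ℝ) * (t (Sum.inl i) * t (Sum.inr e) - 1)) + T3 := by
    ring
  rw [e0]
  refine (abs_add_le _ _).trans ((add_le_add (abs_add_le _ _) le_rfl).trans ?_)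
  have n2 : (n : ℝ) ^ 2 + 2 ≤ B := by exact_mod_cast hG.sq_le
  have n3 : (n : ℝ) ^ 3 ≤ B := by exact_mod_cast hG.cube_le
  have n4 : (n : ℝ) ^ 4 ≤ B := by exact_mod_cast hG.four_le
  have hc : 0 < Jst B / (24 * B) := by (clear * - hJ hB; positivity)
  have hfin : B * (Jst B / (24 * B)) = Jst B / 24 := by
    rw [mul_div_assoc', div_eq_div_iff (by positivity) (by norm_num)]
    ring
  have q1 : (n : ℝ) * n * (Jst B / (24 * B)) ≤ Jst B / 24 := by
    rw [← hfin]
    apply mul_le_mul_of_nonneg_right _ hc.le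
    linarith only [n2]
  have q2 : (n : ℝ) * (n : ℝ) ^ 2 * (Jst B / (24 * B)) ≤ Jst B / 24 := by
    rw [← hfin]
    apply mul_le_mul_of_nonneg_right _ hc.le
    calc (n : ℝ) * (n : ℝ) ^ 2 = (n : ℝ) ^ 3 := by ring
      _ ≤ (B : ℝ) := n3
  have q3 : ((n : ℝ) ^ 2) * ((n : ℝ) ^ 2) * (Jst B / (24 * B)) ≤ Jst B / 24 := by
    rw [← hfin]
    apply mul_le_mul_of_nonneg_right _ hc.le
    calc ((n : ℝ) ^ 2) * ((n : ℝ) ^ 2) = (n : ℝ) ^ 4 := by ring
      _ ≤ (B : ℝ) := n4
  linarith only [b1, b3, b2, q1, q2, q3]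

theorem eff_sum (hG : Good n B A) (t : Fin n ⊕ Fin (n ^ 2) → ℝ) :
    ∑ i, ∑ e, (A i e : ℝ) * (t (Sum.inl i) * t (Sum.inr e) - 1) =
      ∑ e, t (Sum.inr e) * ∑ i, (A i e : ℝ) * t (Sum.inl i) := by
  rw [sum_comm]
  refine sum_congr rfl (fun e _ => ?_)
  have h0 : ∑ i, (A i e : ℝ) = 0 := by exact_mod_cast congrArg (Int.cast : ℤ → ℝ) (hG.cols e)
  rw [mul_sum]
  calc ∑ i, (A i e : ℝ) * (t (Sum.inl i) * t (Sum.inr e) - 1)
      = ∑ i, t (Sum.inr e) * ((A i e : ℝ) * t (Sum.inl i)) - ∑ i, (A i e : ℝ) := by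
        rw [← sum_sub_distrib]
        refine sum_congr rfl (fun i _ => ?_)
        ring
    _ = _ := by rw [h0, sub_zero]

/-- TASK B5 (easy, from B3 and B4) -/
theorem chains_lower (hG : Good n B A)
    (s : Site n B → ℝ) (hs : ∀ a, s a = 1 ∨ s a = -1) :
    ∃ t : Fin n → ℝ, (∀ i, t i = 1 ∨ t i = -1) ∧
      isingE A (fun a : Site n B => sg a) - Jst B * ∑ e, |∑ i, (A i e : ℝ) * t i| - Jst B / 8 ≤
        isingE A s := by
  have hB := hG.pos
  have hJ : 0 < Jst B := by rw [Jst_eq]; positivity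
  obtain ⟨t, ht, hle⟩ := rigid hG s hs
  refine ⟨fun i => t (Sum.inl i), fun i => ht _, ?_⟩
  have h1 := effective hG t ht
  rw [eff_sum hG t] at h1
  have h2 : -∑ e, |∑ i, (A i e : ℝ) * t (Sum.inl i)| ≤
      ∑ e, t (Sum.inr e) * ∑ i, (A i e : ℝ) * t (Sum.inl i) := by
    rw [← sum_neg_distrib]
    refine sum_le_sum (fun e _ => ?_)
    rcases ht (Sum.inr e) with h | h
    · rw [h, one_mul]; exact neg_abs_le _
    · rw [h, neg_one_mul]; exact neg_le_neg (le_abs_self _)
  have h3 := (abs_le.mp h1).1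
  linarith only [mul_nonneg_of_nonpos_of_nonpos (le_of_lt (Mathlib.Tactic.Linarith.sub_neg_of_lt hJ)) (Mathlib.Tactic.Linarith.sub_nonpos_of_le h2), h3, hle]

/-- TASK B5 (easy, from B4) -/
theorem chains_upper (hG : Good n B A)
    (t : Fin n → ℝ) (ht : ∀ i, t i = 1 ∨ t i = -1) :
    ∃ s : Site n B → ℝ, (∀ a, s a = 1 ∨ s a = -1) ∧
      isingE A s ≤
        isingE A (fun a : Site n B => sg a) - Jst B * ∑ e, |∑ i, (A i e : ℝ) * t i| +
          Jst B / 8 := by
  have hB := hG.pos
  have hJ : 0 < Jst B := by rw [Jst_eq]; (clear * - hB; positivity)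
  set T : Fin n ⊕ Fin (n ^ 2) → ℝ := fun w => match w with
    | Sum.inl i => t i
    | Sum.inr e => if 0 ≤ ∑ i, (A i e : ℝ) * t i then -1 else 1 with hT
  have hTv : ∀ w, T w = 1 ∨ T w = -1 := by
    rintro (i | e)
    · exact ht i
    · simp only [hT]
      split_ifs
      · exact Or.inr rfl
      · exact Or.inl rfl
  refine ⟨fun a => T (wire a) * sg a, ?_, ?_⟩
  · intro a
    have h1 := hTv (wire a)
    have h2 : sg a = 1 ∨ sg a = -1 := by
      rcases a with ⟨i, m⟩ | e
      · exact neg_one_pow_eq_or ℝ m.val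
      · exact Or.inl rfl
    rcases h1 with h1 | h1 <;> rcases h2 with h2 | h2 <;> simp only [h1, h2] <;> norm_num
  · have h1 := effective hG T hTv
    rw [eff_sum hG T] at h1
    have h2 : ∑ e, T (Sum.inr e) * ∑ i, (A i e : ℝ) * T (Sum.inl i) =
        -∑ e, |∑ i, (A i e : ℝ) * t i| := by
      rw [← sum_neg_distrib]
      refine sum_congr rfl (fun e _ => ?_)
      simp only [hT]
      by_cases h : 0 ≤ ∑ i, (A i e : ℝ) * t i
      · rw [if_pos h, abs_of_nonneg h]; ring
      · rw [if_neg h, abs_of_neg (not_le.mp h)]; ring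
    rw [h2] at h1
    have h3 := (abs_le.mp h1).2
    linarith only [h3]

end Vale.Agent.P370.Chains
end

section

open MeasureTheory Filter Topology

namespace Vale.Agent.P370

theorem integral_comp_perm {N : ℕ} (π : Equiv.Perm (Fin N)) (f : (Fin N → R3) → ℝ) :
    ∫ x : Fin N → R3, f (fun i => x (π i)) = ∫ x, f x := by
  have h := (volume_measurePreserving_piCongrLeft (fun _ : Fin N => R3) π.symm).integral_comp' f
  rw [← h]
  congr 1
  ext x
  congr 1
  ext i : 1
  have := Equiv.piCongrLeft_apply_apply (fun _ : Fin N => R3) π.symm x (π i)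
  simp only [Equiv.symm_apply_apply] at this
  rw [MeasurableEquiv.coe_piCongrLeft, this]

section
variable {N : ℕ} (φ : Fin N → R3 → ℝ)

/-- product state -/
noncomputable def prodState (x : Fin N → R3) : ℝ := ∏ i, φ i (x i)

theorem prodState_smooth (hsm : ∀ j, ContDiff ℝ (⊤ : ℕ∞) (φ j)) :
    ContDiff ℝ (⊤ : ℕ∞) (prodState φ) := by
  unfold prodState
  apply contDiff_prod
  intro i _
  exact (hsm i).comp (contDiff_apply ℝ R3 i)

theorem prodState_fderiv (hsm : ∀ j, ContDiff ℝ (⊤ : ℕ∞) (φ j)) (x : Fin N → R3) (i : Fin N)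
    (e : R3) :
    fderiv ℝ (prodState φ) x (Pi.single i e)
      = fderiv ℝ (φ i) (x i) e * ∏ j ∈ Finset.univ.erase i, φ j (x j) := by
  have hd : DifferentiableAt ℝ (prodState φ) x :=
    (prodState_smooth φ hsm).differentiable (by simp only [ne_eq, WithTop.coe_eq_zero, ENat.top_ne_zero, not_false_eq_true]) x
  rw [← hd.lineDeriv_eq_fderiv, lineDeriv]
  have h1 : (fun t : ℝ => prodState φ (x + t • (Pi.single i e : Fin N → R3)))
      = fun t => φ i (x i + t • e) * ∏ j ∈ Finset.univ.erase i, φ j (x j) := by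
    ext t
    unfold prodState
    rw [← Finset.mul_prod_erase Finset.univ _ (Finset.mem_univ i)]
    congr 1
    · simp only [Pi.add_apply, Pi.smul_apply, Pi.single_eq_same]
    · apply Finset.prod_congr rfl
      intro j hj
      have hj' := Finset.ne_of_mem_erase hj
      simp [Pi.single_eq_of_ne hj']
  rw [h1]
  have hdi : DifferentiableAt ℝ (φ i) (x i) := (hsm i).differentiable (by simp) _
  have h2 : HasDerivAt (fun t : ℝ => φ i (x i + t • e)) (fderiv ℝ (φ i) (x i) e) 0 := by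
    have := hdi.hasFDerivAt.hasLineDerivAt e
    exact this
  exact (h2.mul_const _).deriv

theorem prodState_compact (hcs : ∀ j, HasCompactSupport (φ j)) :
    HasCompactSupport (prodState φ) := by
  apply HasCompactSupport.intro (K := Set.pi Set.univ (fun i => tsupport (φ i)))
    (isCompact_univ_pi fun i => hcs i)
  intro x hx
  simp only [Set.mem_pi, Set.mem_univ, forall_const, not_forall] at hx
  obtain ⟨i, hi⟩ := hx
  exact Finset.prod_eq_zero (Finset.mem_univ i) (image_eq_zero_of_notMem_tsupport hi)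

/-- support set of the permuted product state -/
theorem prodState_zero {x : Fin N → R3} {l : Fin N} (h : x l ∉ tsupport (φ l)) :
    prodState φ x = 0 :=
  Finset.prod_eq_zero (Finset.mem_univ l) (image_eq_zero_of_notMem_tsupport h)

theorem prodState_fderiv_zero (hsm : ∀ j, ContDiff ℝ (⊤ : ℕ∞) (φ j)) {x : Fin N → R3}
    {l : Fin N} (h : x l ∉ tsupport (φ l)) (i : Fin N) (e : R3) :
    fderiv ℝ (prodState φ) x (Pi.single i e) = 0 := by
  rw [prodState_fderiv φ hsm]
  by_cases hli : l = i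
  · subst hli
    rw [fderiv_of_notMem_tsupport (𝕜 := ℝ) h]
    simp only [zero_apply, zero_mul]
  · rw [Finset.prod_eq_zero (Finset.mem_erase.2 ⟨hli, Finset.mem_univ l⟩)
      (image_eq_zero_of_notMem_tsupport (f := φ l) h), mul_zero]

theorem perm_disjoint (hdis : ∀ i j, i ≠ j → Disjoint (tsupport (φ i)) (tsupport (φ j)))
    (x : Fin N → R3) (π π' : Equiv.Perm (Fin N)) (h : π ≠ π') :
    (∃ l, x (π l) ∉ tsupport (φ l)) ∨ (∃ l, x (π' l) ∉ tsupport (φ l)) := by
  by_contra hcon
  push Not at hcon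
  obtain ⟨h1, h2⟩ := hcon
  apply h
  ext1 i
  by_contra hi
  set j := π i with hj
  have h3 : π' (π'.symm j) = j := Equiv.apply_symm_apply _ _
  have h4 : π'.symm j ≠ i := by
    intro h5; rw [h5] at h3; exact hi h3.symm
  have h6 := h1 i
  have h7 := h2 (π'.symm j)
  rw [h3] at h7
  exact Set.disjoint_left.1 (hdis i (π'.symm j) (Ne.symm h4)) h6 h7

/-- unnormalised real antisymmetrised product -/
noncomputable def slat (x : Fin N → R3) : ℝ :=
  ∑ π : Equiv.Perm (Fin N), ((Equiv.Perm.sign π : ℤ) : ℝ) * prodState φ (fun i => x (π i))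

/-- precomposition with a permutation as a continuous linear map -/
noncomputable def permL (π : Equiv.Perm (Fin N)) : (Fin N → R3) →L[ℝ] (Fin N → R3) :=
  ContinuousLinearMap.pi fun i => ContinuousLinearMap.proj (π i)

theorem permL_apply (π : Equiv.Perm (Fin N)) (x : Fin N → R3) :
    permL π x = fun i => x (π i) := rfl

theorem permL_single (π : Equiv.Perm (Fin N)) (i : Fin N) (e : R3) :
    permL π (Pi.single i e) = Pi.single (π.symm i) e := by
  ext j : 1
  rw [permL_apply]
  show (Pi.single i e : Fin N → R3) (π j) = _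
  by_cases h : π j = i
  · rw [h, Pi.single_eq_same]
    have : j = π.symm i := by rw [← h]; simp
    rw [this, Pi.single_eq_same]
  · rw [Pi.single_eq_of_ne h]
    have : j ≠ π.symm i := by
      intro h2; apply h; rw [h2]; simp
    rw [Pi.single_eq_of_ne this]

theorem perm_smooth (hsm : ∀ j, ContDiff ℝ (⊤ : ℕ∞) (φ j)) (π : Equiv.Perm (Fin N)) :
    ContDiff ℝ (⊤ : ℕ∞) (fun x : Fin N → R3 => prodState φ (fun i => x (π i))) :=
  (prodState_smooth φ hsm).comp (permL π).contDiff

theorem slat_smooth (hsm : ∀ j, ContDiff ℝ (⊤ : ℕ∞) (φ j)) :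
    ContDiff ℝ (⊤ : ℕ∞) (slat φ) := by
  unfold slat
  apply ContDiff.sum
  intro π _
  exact contDiff_const.mul (perm_smooth φ hsm π)

theorem perm_compact (hcs : ∀ j, HasCompactSupport (φ j)) (π : Equiv.Perm (Fin N)) :
    HasCompactSupport (fun x : Fin N → R3 => prodState φ (fun i => x (π i))) := by
  apply HasCompactSupport.intro
    (K := Set.pi Set.univ (fun i => tsupport (φ (π.symm i))))
    (isCompact_univ_pi fun i => hcs _)
  intro x hx
  simp only [Set.mem_pi, Set.mem_univ, forall_const, not_forall] at hx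
  obtain ⟨i, hi⟩ := hx
  apply prodState_zero φ (l := π.symm i)
  simpa using hi

theorem slat_compact (hcs : ∀ j, HasCompactSupport (φ j)) : HasCompactSupport (slat φ) := by
  apply HasCompactSupport.intro
    (K := ⋃ π : Equiv.Perm (Fin N), tsupport (fun x : Fin N → R3 =>
      prodState φ (fun i => x (π i))))
    (isCompact_iUnion fun π => perm_compact φ hcs π)
  intro x hx
  simp only [Set.mem_iUnion, not_exists] at hx
  unfold slat
  apply Finset.sum_eq_zero
  intro π _
  have := image_eq_zero_of_notMem_tsupport (hx π)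
  rw [this, mul_zero]

theorem slat_antisymm (σ : Equiv.Perm (Fin N)) (x : Fin N → R3) :
    slat φ (fun i => x (σ i)) = ((Equiv.Perm.sign σ : ℤ) : ℝ) * slat φ x := by
  unfold slat
  rw [Finset.mul_sum]
  refine Fintype.sum_equiv (Equiv.mulLeft σ) _ _ ?_
  intro π
  simp only [Equiv.coe_mulLeft, Equiv.Perm.sign_mul, Units.val_mul, Int.cast_mul, Equiv.Perm.coe_mul, Function.comp_apply]
  rw [← mul_assoc, ← mul_assoc]
  have : ((Equiv.Perm.sign σ : ℤ) : ℝ) * ((Equiv.Perm.sign σ : ℤ) : ℝ) = 1 := by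
    rcases Int.units_eq_one_or (Equiv.Perm.sign σ) with h | h <;> rw [h] <;> simp
  rw [this, one_mul]

theorem sign_sq (π : Equiv.Perm (Fin N)) : (((Equiv.Perm.sign π : ℤ) : ℝ)) ^ 2 = 1 := by
  rcases Int.units_eq_one_or (Equiv.Perm.sign π) with h | h <;> rw [h] <;> simp only [Units.val_neg, Units.val_one, Int.reduceNeg, Int.cast_neg, Int.cast_one, even_two, Even.neg_pow, one_pow]

theorem slat_sq (hdis : ∀ i j, i ≠ j → Disjoint (tsupport (φ i)) (tsupport (φ j)))
    (x : Fin N → R3) :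
    slat φ x ^ 2 = ∑ π : Equiv.Perm (Fin N), prodState φ (fun i => x (π i)) ^ 2 := by
  unfold slat
  rw [sq_sum_of_mul_zero]
  · apply Finset.sum_congr rfl; intro π _
    rw [mul_pow, sign_sq, one_mul]
  · intro π π' h
    rcases perm_disjoint φ hdis x π π' h with ⟨l, hl⟩ | ⟨l, hl⟩
    · rw [prodState_zero φ (x := fun i => x (π i)) hl]; ring
    · rw [prodState_zero φ (x := fun i => x (π' i)) hl]; ring

theorem slat_fderiv (hsm : ∀ j, ContDiff ℝ (⊤ : ℕ∞) (φ j)) (x : Fin N → R3) (i : Fin N)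
    (e : R3) : fderiv ℝ (slat φ) x (Pi.single i e)
      = ∑ π : Equiv.Perm (Fin N), ((Equiv.Perm.sign π : ℤ) : ℝ) *
        fderiv ℝ (prodState φ) (fun j => x (π j)) (Pi.single (π.symm i) e) := by
  have h1 : ∀ π : Equiv.Perm (Fin N), HasFDerivAt
      (fun x : Fin N → R3 => ((Equiv.Perm.sign π : ℤ) : ℝ) * prodState φ (fun i => x (π i)))
      (((Equiv.Perm.sign π : ℤ) : ℝ) • (fderiv ℝ (prodState φ) (fun j => x (π j))).comp (permL π))
      x := by
    intro π
    have h2 : HasFDerivAt (prodState φ) (fderiv ℝ (prodState φ) (permL π x)) (permL π x) :=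
      ((prodState_smooth φ hsm).differentiable (by simp only [ne_eq, WithTop.coe_eq_zero, ENat.top_ne_zero, not_false_eq_true]) _).hasFDerivAt
    exact (h2.comp x (permL π).hasFDerivAt).const_mul _
  have h3 : HasFDerivAt (slat φ) (∑ π : Equiv.Perm (Fin N), ((Equiv.Perm.sign π : ℤ) : ℝ) •
      (fderiv ℝ (prodState φ) (fun j => x (π j))).comp (permL π)) x := by
    have := HasFDerivAt.fun_sum (u := Finset.univ) fun π _ => h1 π
    exact this
  rw [h3.fderiv]
  simp only [sum_apply, smul_apply, ContinuousLinearMap.comp_apply, permL_single, smul_eq_mul]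

theorem slat_fderiv_sq (hsm : ∀ j, ContDiff ℝ (⊤ : ℕ∞) (φ j))
    (hdis : ∀ i j, i ≠ j → Disjoint (tsupport (φ i)) (tsupport (φ j)))
    (x : Fin N → R3) (i : Fin N) (e : R3) : (fderiv ℝ (slat φ) x (Pi.single i e)) ^ 2
      = ∑ π : Equiv.Perm (Fin N),
        (fderiv ℝ (prodState φ) (fun j => x (π j)) (Pi.single (π.symm i) e)) ^ 2 := by
  rw [slat_fderiv φ hsm, sq_sum_of_mul_zero]
  · apply Finset.sum_congr rfl; intro π _
    rw [mul_pow, sign_sq, one_mul]
  · intro π π' h
    rcases perm_disjoint φ hdis x π π' h with ⟨l, hl⟩ | ⟨l, hl⟩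
    · rw [prodState_fderiv_zero φ hsm (x := fun i => x (π i)) hl]; ring
    · rw [prodState_fderiv_zero φ hsm (x := fun i => x (π' i)) hl]; ring

end

end Vale.Agent.P370
end

section

/-!
Wave functions as functions on powers of `R3 × Fin 2`.
-/

namespace Vale.Agent.P370.NB

open MeasureTheory Function ComplexConjugate

section count

variable {α T : Type*} [MeasurableSpace α] [MeasurableSpace T] [Fintype T]
  [MeasurableSingletonClass T] (ν : Measure α) [SigmaFinite ν]
  {E : Type*} [NormedAddCommGroup E] [MeasurableSpace E] [BorelSpace E]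
  [SecondCountableTopology E]

theorem integrable_prod_count {F : α × T → E} (hm : ∀ t, Measurable (fun x => F (x, t)))
    (hF : ∀ t, Integrable (fun x => F (x, t)) ν) :
    Integrable F (ν.prod (Measure.count : Measure T)) := by
  have h : Measurable F := measurable_from_prod_countable_left hm
  rw [integrable_prod_iff' h.aestronglyMeasurable]
  exact ⟨Filter.Eventually.of_forall hF, Integrable.of_finite⟩

variable [NormedSpace ℝ E] [CompleteSpace E]

omit [MeasurableSpace E] [BorelSpace E] [SecondCountableTopology E] in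
theorem integral_prod_count {F : α × T → E} (hF : Integrable F (ν.prod (Measure.count : Measure T))) :
    ∫ p, F p ∂(ν.prod (Measure.count : Measure T)) = ∑ t, ∫ x, F (x, t) ∂ν := by
  rw [integral_prod_symm _ hF, integral_count]

end count

theorem pi_count (ι T : Type*) [Fintype ι] [Fintype T] [MeasurableSpace T]
    [MeasurableSingletonClass T] :
    (Measure.pi fun _ : ι => (Measure.count : Measure T)) = Measure.count := by
  apply Measure.ext_of_singleton
  intro a
  rw [Measure.pi_singleton]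
  simp only [MeasurableSet.singleton, Measure.count_singleton', Finset.prod_const_one]

abbrev YS : Type := R3 × Fin 2

noncomputable def μY : Measure YS := (volume : Measure R3).prod (Measure.count : Measure (Fin 2))

instance : SigmaFinite μY := by
  unfold μY
  infer_instance

section

variable {E : Type*} [NormedAddCommGroup E] [MeasurableSpace E] [BorelSpace E]
  [SecondCountableTopology E]

theorem integrable_Y {F : YS → E} (hm : ∀ σ, Measurable (fun x => F (x, σ)))
    (hF : ∀ σ, Integrable (fun x => F (x, σ))) : Integrable F μY :=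
  integrable_prod_count volume hm hF

/-- joining positions and spins -/
def jn {N : ℕ} (x : Fin N → R3) (s : Fin N → Fin 2) : Fin N → YS := fun i => (x i, s i)

noncomputable def jnE (N : ℕ) : (Fin N → YS) ≃ᵐ (Fin N → R3) × (Fin N → Fin 2) :=
  MeasurableEquiv.arrowProdEquivProdArrow R3 (Fin 2) (Fin N)

theorem jnE_symm {N : ℕ} (x : Fin N → R3) (s : Fin N → Fin 2) : (jnE N).symm (x, s) = jn x s := rfl

theorem mp_jnE (N : ℕ) : MeasurePreserving (jnE N) (pm (Fin N) μY)
    ((volume : Measure (Fin N → R3)).prod (Measure.count : Measure (Fin N → Fin 2))) := by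
  have h := measurePreserving_arrowProdEquivProdArrow R3 (Fin 2) (Fin N)
    (fun _ => (volume : Measure R3)) (fun _ => (Measure.count : Measure (Fin 2)))
  rw [pi_count] at h
  exact h

theorem integrable_pow {N : ℕ} {F : (Fin N → YS) → E}
    (hm : ∀ s, Measurable (fun x => F (jn x s)))
    (hF : ∀ s, Integrable (fun x => F (jn x s))) : Integrable F (pm (Fin N) μY) := by
  have h := integrable_prod_count (T := Fin N → Fin 2) (volume : Measure (Fin N → R3))
    (F := fun p => F ((jnE N).symm p)) hm hF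
  have h2 := (mp_jnE N).integrable_comp_of_integrable h
  simpa only [comp_def, MeasurableEquiv.symm_apply_apply] using h2

omit [MeasurableSpace E] [BorelSpace E] [SecondCountableTopology E] in
theorem integral_pow [NormedSpace ℝ E] [CompleteSpace E] {N : ℕ} {F : (Fin N → YS) → E}
    (hF : Integrable F (pm (Fin N) μY)) :
    ∫ w, F w ∂(pm (Fin N) μY) = ∑ s, ∫ x, F (jn x s) := by
  have h1 : ∫ p, F ((jnE N).symm p) ∂((volume : Measure (Fin N → R3)).prod
      (Measure.count : Measure (Fin N → Fin 2))) = ∫ w, F w ∂(pm (Fin N) μY) := by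
    rw [← (mp_jnE N).map_eq, integral_map_equiv]
    simp
  have h2 : Integrable (fun p => F ((jnE N).symm p)) ((volume : Measure (Fin N → R3)).prod
      (Measure.count : Measure (Fin N → Fin 2))) := by
    have := (mp_jnE N).symm.integrable_comp_of_integrable hF
    exact this
  rw [← h1, integral_prod_count _ h2]
  rfl

omit [MeasurableSpace E] [BorelSpace E] [SecondCountableTopology E] in
theorem integral_Y [NormedSpace ℝ E] [CompleteSpace E] {F : YS → E} (hF : Integrable F μY) :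
    ∫ y, F y ∂μY = ∑ σ, ∫ x, F (x, σ) :=
  integral_prod_count volume hF

end

end Vale.Agent.P370.NB
end

section

/-!
Matrix elements of linear combinations of products of orbitals.
-/

namespace Vale.Agent.P370.NB

open MeasureTheory Function ComplexConjugate Finset

variable {Y : Type*} [MeasurableSpace Y] {A : Type*} [Fintype A] [DecidableEq A] {N : ℕ}

/-- product of (slot dependent) orbitals -/
def pf (Θ : Fin N → A → Y → ℝ) (I : Fin N → A) (w : Fin N → Y) : ℝ := ∏ l, Θ l (I l) (w l)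

/-- linear combination of products -/
noncomputable def lc (Θ : Fin N → A → Y → ℝ) (c : (Fin N → A) → ℂ) (w : Fin N → Y) : ℂ :=
  ∑ I, c I * (pf Θ I w : ℂ)

omit [MeasurableSpace Y] [Fintype A] [DecidableEq A] in
theorem pf_mul (Θ : Fin N → A → Y → ℝ) (I J : Fin N → A) (w : Fin N → Y) :
    pf Θ I w * pf Θ J w = ∏ l, (Θ l (I l) (w l) * Θ l (J l) (w l)) :=
  Finset.prod_mul_distrib.symm

omit [MeasurableSpace Y] [DecidableEq A] in
theorem norm_lc_sq (Θ : Fin N → A → Y → ℝ) (c : (Fin N → A) → ℂ) (w : Fin N → Y) :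
    ‖lc Θ c w‖ ^ 2 = ∑ I, ∑ J, (conj (c I) * c J).re *
      ∏ l, (Θ l (I l) (w l) * Θ l (J l) (w l)) := by
  have h1 : ((‖lc Θ c w‖ ^ 2 : ℝ) : ℂ) = conj (lc Θ c w) * lc Θ c w := by
    rw [Complex.conj_mul']
    push_cast
    rfl
  have h2 : ‖lc Θ c w‖ ^ 2 = (conj (lc Θ c w) * lc Θ c w).re := by
    rw [← h1, Complex.ofReal_re]
  rw [h2]
  unfold lc
  rw [map_sum, Finset.sum_mul_sum, Complex.re_sum]
  refine Finset.sum_congr rfl fun I _ => ?_
  rw [Complex.re_sum]
  refine Finset.sum_congr rfl fun J _ => ?_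
  rw [← pf_mul, map_mul, Complex.conj_ofReal]
  have : conj (c I) * (pf Θ I w : ℂ) * (c J * (pf Θ J w : ℂ)) =
      ((pf Θ I w * pf Θ J w : ℝ) : ℂ) * (conj (c I) * c J) := by
    push_cast
    ring
  rw [this, Complex.re_ofReal_mul, mul_comm]

section sums

theorem sum_delta_one (F : (Fin N → A) → ℝ) (I : Fin N → A) (i : Fin N) :
    ∑ J, (∏ l ∈ univ.erase i, (if I l = J l then (1 : ℝ) else 0)) * F J =
      ∑ a, F (update I i a) := by
  have h1 : ∀ J : Fin N → A, (∏ l ∈ univ.erase i, (if I l = J l then (1 : ℝ) else 0)) * F J =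
      if (∀ l ∈ univ.erase i, I l = J l) then F J else 0 := by
    intro J
    split_ifs with h
    · rw [Finset.prod_eq_one fun l hl => if_pos (h l hl), one_mul]
    · push Not at h
      obtain ⟨l, hl, hne⟩ := h
      rw [Finset.prod_eq_zero hl (if_neg hne), zero_mul]
  simp only [h1]
  rw [← Finset.sum_filter]
  refine (Finset.sum_bij (fun a _ => update I i a) ?_ ?_ ?_ ?_).symm
  · intro a _
    simp only [mem_filter, mem_univ, true_and]
    intro l hl
    rw [update_of_ne (Finset.ne_of_mem_erase hl)]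
  · intro a _ b _ h
    have := congrFun h i
    simpa using this
  · intro J hJ
    simp only [Finset.mem_filter, Finset.mem_univ, true_and] at hJ
    refine ⟨J i, Finset.mem_univ _, ?_⟩
    funext l
    by_cases hl : l = i
    · subst hl
      rw [update_self]
    · rw [update_of_ne hl]
      exact hJ l (Finset.mem_erase.2 ⟨hl, Finset.mem_univ l⟩)
  · intro a _
    rfl

theorem sum_delta_two (F : (Fin N → A) → ℝ) (I : Fin N → A) {i j : Fin N} (hij : i ≠ j) :
    ∑ J, (∏ l ∈ (univ.erase i).erase j, (if I l = J l then (1 : ℝ) else 0)) * F J =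
      ∑ a, ∑ b, F (update (update I i a) j b) := by
  have h1 : ∀ J : Fin N → A,
      (∏ l ∈ (univ.erase i).erase j, (if I l = J l then (1 : ℝ) else 0)) * F J =
      if (∀ l ∈ (univ.erase i).erase j, I l = J l) then F J else 0 := by
    intro J
    split_ifs with h
    · rw [Finset.prod_eq_one fun l hl => if_pos (h l hl), one_mul]
    · push Not at h
      obtain ⟨l, hl, hne⟩ := h
      rw [Finset.prod_eq_zero hl (if_neg hne), zero_mul]
  simp only [h1]
  rw [← Finset.sum_filter, ← Finset.sum_product']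
  refine (Finset.sum_bij (fun p _ => update (update I i p.1) j p.2) ?_ ?_ ?_ ?_).symm
  · intro a _
    simp only [Finset.mem_filter, Finset.mem_univ, true_and]
    intro l hl
    rw [update_of_ne (Finset.ne_of_mem_erase hl),
      update_of_ne (Finset.ne_of_mem_erase (Finset.mem_of_mem_erase hl))]
  · intro a _ b _ h
    have h2 := congrFun h i
    have h3 := congrFun h j
    rw [update_of_ne hij, update_of_ne hij, update_self, update_self] at h2
    rw [update_self, update_self] at h3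
    exact Prod.ext h2 h3
  · intro J hJ
    simp only [Finset.mem_filter, Finset.mem_univ, true_and] at hJ
    refine ⟨(J i, J j), by simp only [univ_product_univ, mem_univ], ?_⟩
    funext l
    by_cases hl : l = j
    · subst hl
      rw [update_self]
    · rw [update_of_ne hl]
      by_cases hl' : l = i
      · subst hl'
        rw [update_self]
      · rw [update_of_ne hl']
        exact hJ l (Finset.mem_erase.2 ⟨hl, Finset.mem_erase.2 ⟨hl', Finset.mem_univ l⟩⟩)
  · intro a _
    rfl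

end sums

variable (μ : Measure Y) [SigmaFinite μ]

/-- overlap matrices -/
noncomputable def ovl (θ θ' : A → Y → ℝ) (a b : A) : ℝ := ∫ y, θ a y * θ' b y ∂μ

theorem integral_lc_zero {Θ : Fin N → A → Y → ℝ}
    (hΘ : ∀ l a b, Integrable (fun y => Θ l a y * Θ l b y) μ) (c : (Fin N → A) → ℂ) :
    Integrable (fun w => ‖lc Θ c w‖ ^ 2) (pm (Fin N) μ) ∧
    ∫ w, ‖lc Θ c w‖ ^ 2 ∂(pm (Fin N) μ) = ∑ I, ∑ J, (conj (c I) * c J).re *
      ∏ l, ∫ y, Θ l (I l) y * Θ l (J l) y ∂μ := by
  have hi : ∀ I J : Fin N → A, Integrable (fun w : Fin N → Y => (conj (c I) * c J).re *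
      ∏ l, (Θ l (I l) (w l) * Θ l (J l) (w l))) (pm (Fin N) μ) := fun I J =>
    (integrable_prod_fun μ (g := fun l y => Θ l (I l) y * Θ l (J l) y)
      fun l => hΘ l _ _).const_mul _
  simp only [norm_lc_sq]
  refine ⟨integrable_finsetSum _ fun I _ => integrable_finsetSum _ fun J _ => hi I J, ?_⟩
  rw [integral_finsetSum _ fun I _ => integrable_finsetSum _ fun J _ => hi I J]
  refine Finset.sum_congr rfl fun I _ => ?_
  rw [integral_finsetSum _ fun J _ => hi I J]
  refine Finset.sum_congr rfl fun J _ => ?_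
  rw [integral_const_mul, integral_prod_fun μ (fun l y => Θ l (I l) y * Θ l (J l) y)]

theorem integral_lc_one {θ : A → Y → ℝ}
    (hθ : ∀ a b, Integrable (fun y => θ a y * θ b y) μ) (c : (Fin N → A) → ℂ) (i : Fin N)
    {v : Y → ℝ} (hv : ∀ a b, Integrable (fun y => θ a y * θ b y * v y) μ) :
    Integrable (fun w => ‖lc (fun _ => θ) c w‖ ^ 2 * v (w i)) (pm (Fin N) μ) ∧
    ∫ w, ‖lc (fun _ => θ) c w‖ ^ 2 * v (w i) ∂(pm (Fin N) μ) =
      ∑ I, ∑ J, (conj (c I) * c J).re *
      ((∏ l ∈ univ.erase i, ∫ y, θ (I l) y * θ (J l) y ∂μ) *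
        ∫ y, θ (I i) y * θ (J i) y * v y ∂μ) := by
  have hi : ∀ I J : Fin N → A, Integrable (fun w : Fin N → Y => (conj (c I) * c J).re *
      ((∏ l, (θ (I l) (w l) * θ (J l) (w l))) * v (w i))) (pm (Fin N) μ) := fun I J =>
    (integrable_prod_one μ (g := fun l y => θ (I l) y * θ (J l) y)
      (fun l => hθ _ _) i (hv _ _)).const_mul _
  simp only [norm_lc_sq, sum_mul, mul_assoc] at hi ⊢
  refine ⟨integrable_finsetSum _ fun I _ => integrable_finsetSum _ fun J _ => hi I J, ?_⟩
  rw [integral_finsetSum _ fun I _ => integrable_finsetSum _ fun J _ => hi I J]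
  refine Finset.sum_congr rfl fun I _ => ?_
  rw [integral_finsetSum _ fun J _ => hi I J]
  refine Finset.sum_congr rfl fun J _ => ?_
  rw [integral_const_mul]
  congr 1
  have := integral_prod_one μ (fun l y => θ (I l) y * θ (J l) y) i v
  simp only [mul_assoc] at this
  exact this

theorem integral_lc_two {θ : A → Y → ℝ} (hm : ∀ a, Measurable (θ a))
    (hθ : ∀ a b, Integrable (fun y => θ a y * θ b y) μ) (c : (Fin N → A) → ℂ) {i j : Fin N}
    (hij : i ≠ j) {k : Y → Y → ℝ} (hkm : Measurable (fun p : Y × Y => k p.1 p.2))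
    (hk : ∀ p a q b, Integrable (fun y : Y × Y => (θ p y.1 * θ a y.1) * (θ q y.2 * θ b y.2) *
      k y.1 y.2) (μ.prod μ))
    {h : Y → ℝ} (hhm : Measurable h) (hh : Integrable h μ) (h1 : ∫ y, h y ∂μ = 1) :
    Integrable (fun w => ‖lc (fun _ => θ) c w‖ ^ 2 * k (w i) (w j)) (pm (Fin N) μ) ∧
    ∫ w, ‖lc (fun _ => θ) c w‖ ^ 2 * k (w i) (w j) ∂(pm (Fin N) μ) =
      ∑ I, ∑ J, (conj (c I) * c J).re *
      ((∏ l ∈ (univ.erase i).erase j, ∫ y, θ (I l) y * θ (J l) y ∂μ) *
        ∫ y, (∫ z, θ (I i) z * θ (J i) z * k z y ∂μ) * (θ (I j) y * θ (J j) y) ∂μ) := by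
  have hi : ∀ I J : Fin N → A, Integrable (fun w : Fin N → Y => (conj (c I) * c J).re *
      ((∏ l, (θ (I l) (w l) * θ (J l) (w l))) * k (w i) (w j))) (pm (Fin N) μ) := fun I J =>
    (integrable_prod_two μ (g := fun l y => θ (I l) y * θ (J l) y)
      (fun l => (hm _).mul (hm _)) (fun l => hθ _ _) hij hkm (hk _ _ _ _) hhm hh h1).const_mul _
  have e : ∀ w : Fin N → Y, ‖lc (fun _ => θ) c w‖ ^ 2 * k (w i) (w j) =
      ∑ I, ∑ J, (conj (c I) * c J).re *
      ((∏ l, (θ (I l) (w l) * θ (J l) (w l))) * k (w i) (w j)) := by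
    intro w
    rw [norm_lc_sq, Finset.sum_mul]
    refine Finset.sum_congr rfl fun I _ => ?_
    rw [Finset.sum_mul]
    exact Finset.sum_congr rfl fun J _ => mul_assoc _ _ _
  simp only [e]
  refine ⟨integrable_finsetSum _ fun I _ => integrable_finsetSum _ fun J _ => hi I J, ?_⟩
  rw [integral_finsetSum _ fun I _ => integrable_finsetSum _ fun J _ => hi I J]
  refine Finset.sum_congr rfl fun I _ => ?_
  rw [integral_finsetSum _ fun J _ => hi I J]
  refine Finset.sum_congr rfl fun J _ => ?_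
  rw [integral_const_mul]
  congr 1
  exact integral_prod_two μ (g := fun l y => θ (I l) y * θ (J l) y)
    (fun l => (hm _).mul (hm _)) (fun l => hθ _ _) hij hkm (hk _ _ _ _) hhm hh h1

end Vale.Agent.P370.NB
end

section

/-!
Shell orbitals with spin, test states as dominated antisymmetric functions.
-/

namespace Vale.Agent.P370.NB

open MeasureTheory Function ComplexConjugate Finset Vale.Agent.P370.Q

/-! ### orbitals -/

noncomputable def wsp (κ : ℝ) (hκ : 0 < κ) : WSp YS where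
  μ := μY
  sf := inferInstance
  E := fun y => Real.exp (-κ * ‖y.1‖)
  meas := by fun_prop
  nonneg := fun y => (Real.exp_pos _).le
  le_one := fun y => Real.exp_le_one_iff.2 (by nlinarith [norm_nonneg y.1])
  int := integrable_Y (fun σ => by fun_prop) fun σ => Hyd.integrable_exp hκ

/-- spin orbitals -/
def so {A : Type} (χ : A → R3 → ℝ) (p : A × Fin 2) (y : YS) : ℝ := if y.2 = p.2 then χ p.1 y.1 else 0

theorem so_measurable {A : Type} {χ : A → R3 → ℝ} (hχ : ∀ a, Continuous (χ a)) (p : A × Fin 2) :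
    Measurable (so χ p) := by
  apply measurable_from_prod_countable_left
  intro σ
  unfold so
  by_cases h : σ = p.2
  · simp only [h, if_true]
    exact (hχ _).measurable
  · simp only [h, if_false]
    exact measurable_const

/-- integrals of products of two spin orbitals with a spin independent function -/
theorem integral_so_so {A : Type} {χ : A → R3 → ℝ} (hχ : ∀ a, Continuous (χ a))
    (v : R3 → ℝ) (hv : Measurable v)
    (p q : A × Fin 2) (hi : Integrable (fun x => χ p.1 x * χ q.1 x * v x)) :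
    Integrable (fun y => so χ p y * so χ q y * v y.1) μY ∧
    ∫ y, so χ p y * so χ q y * v y.1 ∂μY =
      if p.2 = q.2 then ∫ x, χ p.1 x * χ q.1 x * v x else 0 := by
  have h0 : ∀ σ, (fun x => so χ p (x, σ) * so χ q (x, σ) * v x) =
      if σ = p.2 ∧ σ = q.2 then (fun x => χ p.1 x * χ q.1 x * v x) else fun _ => 0 := by
    intro σ
    split_ifs with h
    · funext x
      unfold so
      rw [if_pos h.1, if_pos h.2]
    · funext x
      unfold so
      by_cases h1 : σ = p.2
      · have h2 : ¬ σ = q.2 := fun h2 => h ⟨h1, h2⟩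
        rw [if_neg h2, mul_zero, zero_mul]
      · rw [if_neg h1, zero_mul, zero_mul]
  have hi' : Integrable (fun y => so χ p y * so χ q y * v y.1) μY := by
    refine integrable_Y (fun σ => ?_) fun σ => ?_
    · exact (((so_measurable hχ p).comp measurable_prodMk_right).mul
        ((so_measurable hχ q).comp measurable_prodMk_right)).mul hv
    · simp only [h0]
      split_ifs
      · exact hi
      · exact integrable_zero _ _ _
  refine ⟨hi', ?_⟩
  rw [integral_Y hi']
  simp only [h0]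
  by_cases h : p.2 = q.2
  · rw [if_pos h]
    rw [Finset.sum_eq_single p.2]
    · rw [if_pos ⟨rfl, h⟩]
    · intro σ _ hσ
      rw [if_neg fun h => hσ h.1]
      simp
    · simp only [mem_univ, not_true_eq_false, true_and, IsEmpty.forall_iff]
  · rw [if_neg h]
    refine Finset.sum_eq_zero fun σ _ => ?_
    rw [if_neg]
    · simp
    · rintro ⟨h1, h2⟩
      exact h (h1 ▸ h2)

section basis

variable {n : ℕ} {A : Type} [Fintype A] [DecidableEq A] (B : ShellBasis n A)

theorem SB_nice (a : A) : Nice (B.χ a) := (B.mem a).nice (B.lev_pos a)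

theorem SB_exists_kappa : ∃ κ : ℝ, 0 < κ ∧ ∀ a, ∃ C : ℝ, 0 ≤ C ∧ ∀ x,
    |B.χ a x| ≤ C * Real.exp (-κ * ‖x‖) := by
  have h : ∀ a, ∃ C c : ℝ, 0 ≤ C ∧ 0 < c ∧ ∀ x, |B.χ a x| ≤ C * Real.exp (-c * ‖x‖) :=
    fun a => (SB_nice B a).dec.nonneg
  choose C c hC hc h using h
  obtain ⟨κ, hκ, hle⟩ : ∃ κ : ℝ, 0 < κ ∧ ∀ a, κ ≤ c a := by
    rcases isEmpty_or_nonempty A with he | he
    · exact ⟨1, one_pos, fun a => (he.false a).elim⟩
    · refine ⟨Finset.univ.inf' Finset.univ_nonempty c, ?_, fun a =>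
        Finset.inf'_le _ (Finset.mem_univ a)⟩
      rw [Finset.lt_inf'_iff]
      exact fun a _ => hc a
  refine ⟨κ, hκ, fun a => ⟨C a, hC a, fun x => (h a x).trans ?_⟩⟩
  refine mul_le_mul_of_nonneg_left (Real.exp_le_exp.2 ?_) (hC a)
  nlinarith only [hle a, norm_nonneg x]

/-- the orthonormal family of spin orbitals -/
noncomputable def SBFam {κ : ℝ} (hκ : 0 < κ) (hB : ∀ a, ∃ C : ℝ, 0 ≤ C ∧ ∀ x,
    |B.χ a x| ≤ C * Real.exp (-κ * ‖x‖)) : Fam (wsp κ hκ) (A × Fin 2) where
  θ := so B.χ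
  orb p := by
    refine ⟨so_measurable (fun a => (SB_nice B a).cont) p, ?_⟩
    obtain ⟨C, hC, h⟩ := hB p.1
    refine ⟨C, hC, fun y => ?_⟩
    unfold so
    split_ifs
    · exact h _
    · rw [abs_zero]
      exact mul_nonneg hC (Real.exp_pos _).le
  ortho p q := by
    have h1 := (integral_so_so (fun a => (SB_nice B a).cont) (fun _ => 1) measurable_const p q
      (by simpa using (nice_integrable_rinv (SB_nice B p.1) (SB_nice B q.1)).2)).2
    simp only [mul_one] at h1
    have h2 : ∫ x, B.χ p.1 x * B.χ q.1 x = if p.1 = q.1 then 1 else 0 := B.ortho p.1 q.1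
    rw [h2] at h1
    refine h1.trans ?_
    by_cases h : p = q
    · subst h
      simp
    · rw [if_neg h]
      by_cases h3 : p.2 = q.2
      · rw [if_pos h3, if_neg]
        intro h4
        exact h (Prod.ext h4 h3)
      · rw [if_neg h3]

end basis

/-! ### test states -/

/-- wave function as a function on the power of `R3 × Fin 2` -/
def toY {N : ℕ} (ψ : Wave N) (w : Fin N → YS) : ℂ := ψ (fun i => (w i).1) (fun i => (w i).2)

theorem toY_jn {N : ℕ} (ψ : Wave N) (x : Fin N → R3) (s : Fin N → Fin 2) :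
    toY ψ (jn x s) = ψ x s := rfl

/-- functions on the power given by slices -/
def ofS {N : ℕ} {E : Type*} (F : (Fin N → R3) → (Fin N → Fin 2) → E) (w : Fin N → YS) : E :=
  F (fun i => (w i).1) (fun i => (w i).2)

theorem measurable_ofS {N : ℕ} {E : Type*} [MeasurableSpace E]
    {F : (Fin N → R3) → (Fin N → Fin 2) → E} (h : ∀ s, Measurable (fun x => F x s)) :
    Measurable (ofS F) := by
  have h1 : Measurable (fun p : (Fin N → R3) × (Fin N → Fin 2) => F p.1 p.2) :=
    measurable_from_prod_countable_left h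
  have h2 : Measurable (fun w : Fin N → YS =>
      ((fun i => (w i).1, fun i => (w i).2) : (Fin N → R3) × (Fin N → Fin 2))) := by
    refine Measurable.prodMk ?_ ?_
    · exact measurable_pi_iff.2 fun i => measurable_fst.comp (measurable_pi_apply i)
    · exact measurable_pi_iff.2 fun i => measurable_snd.comp (measurable_pi_apply i)
  exact h1.comp h2

theorem toY_anti {N : ℕ} {ψ : Wave N} (hψ : IsTestState ψ) : Anti (toY ψ) := by
  intro i j hij w
  have h := hψ.antisymm (Equiv.swap i j) (fun i => (w i).1) (fun i => (w i).2)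
  rw [Equiv.Perm.sign_swap hij] at h
  simp only [Units.val_neg, Units.val_one, Int.cast_neg, Int.cast_one, neg_mul, one_mul] at h
  exact h

theorem toY_dm {N : ℕ} {ψ : Wave N} (hψ : IsTestState ψ) {κ : ℝ} (hκ : 0 < κ) :
    Dm (wsp κ hκ) (toY ψ) := by
  refine ⟨measurable_ofS (F := ψ) fun s => (hψ.smooth s).continuous.measurable, ?_⟩
  have h : ∀ s, ∃ C : ℝ, 0 ≤ C ∧ ∀ x, ‖ψ x s‖ ≤ C * ∏ i, Real.exp (-κ * ‖x i‖) := by
    intro s
    have hc : Continuous (fun x : Fin N → R3 =>
        ((∏ i, Real.exp (κ * ‖x i‖) : ℝ) : ℂ) * ψ x s) := by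
      have h1 := (hψ.smooth s).continuous
      have h2 : Continuous (fun x : Fin N → R3 => ∏ i, Real.exp (κ * ‖x i‖)) :=
        continuous_finsetProd _ fun i _ => by fun_prop
      exact (Complex.continuous_ofReal.comp h2).mul h1
    have hs : HasCompactSupport (fun x : Fin N → R3 =>
        ((∏ i, Real.exp (κ * ‖x i‖) : ℝ) : ℂ) * ψ x s) := (hψ.compactSupport s).mul_left
    obtain ⟨C, hC⟩ := hc.bounded_above_of_compact_support hs
    refine ⟨max C 0, le_max_right _ _, fun x => ?_⟩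
    have h1 := (hC x).trans (le_max_left C 0)
    have hpos : 0 < ∏ i, Real.exp (κ * ‖x i‖) := Finset.prod_pos fun i _ => Real.exp_pos _
    rw [norm_mul, Complex.norm_real, Real.norm_eq_abs, abs_of_pos hpos] at h1
    have h2 : (∏ i, Real.exp (-κ * ‖x i‖)) * (∏ i, Real.exp (κ * ‖x i‖)) = 1 := by
      rw [← Finset.prod_mul_distrib]
      refine Finset.prod_eq_one fun i _ => ?_
      rw [← Real.exp_add]
      simp
    have hpos' : 0 ≤ ∏ i, Real.exp (-κ * ‖x i‖) := Finset.prod_nonneg fun i _ => (Real.exp_pos _).le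
    calc ‖ψ x s‖ = ((∏ i, Real.exp (-κ * ‖x i‖)) * (∏ i, Real.exp (κ * ‖x i‖))) * ‖ψ x s‖ := by
          rw [h2, one_mul]
      _ = (∏ i, Real.exp (-κ * ‖x i‖)) * ((∏ i, Real.exp (κ * ‖x i‖)) * ‖ψ x s‖) := by ring
      _ ≤ (∏ i, Real.exp (-κ * ‖x i‖)) * max C 0 := mul_le_mul_of_nonneg_left h1 hpos'
      _ = _ := mul_comm _ _
  choose C hC h using h
  refine ⟨∑ s, C s, Finset.sum_nonneg fun s _ => hC s, fun w => ?_⟩
  have h1 := h (fun i => (w i).2) (fun i => (w i).1)
  have h2 : C (fun i => (w i).2) ≤ ∑ s, C s :=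
    Finset.single_le_sum (f := C) (fun s _ => hC s) (Finset.mem_univ _)
  refine h1.trans ?_
  exact mul_le_mul_of_nonneg_right h2 (Finset.prod_nonneg fun i _ => (Real.exp_pos _).le)

theorem toY_norm_sq {N : ℕ} {ψ : Wave N} (hψ : IsTestState ψ) :
    ∫ w, ‖toY ψ w‖ ^ 2 ∂(pm (Fin N) μY) = normSq ψ := by
  have h := (toY_dm hψ one_pos).norm_sq_integrable
  exact integral_pow h

end Vale.Agent.P370.NB
end

section

/-!
Trial wave functions: linear combinations of products of spin orbitals.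
-/

namespace Vale.Agent.P370.NB.U

open MeasureTheory Function ComplexConjugate Finset Vale.Agent.P370.Q

variable {N : ℕ} {A : Type} [Fintype A] [DecidableEq A]

/-- trial wave function -/
noncomputable def tw (g : A → R3 → ℝ) (c : (Fin N → A × Fin 2) → ℂ) : Wave N :=
  fun x s => lc (fun _ => so g) c (jn x s)

omit [DecidableEq A] in
theorem toY_tw (g : A → R3 → ℝ) (c : (Fin N → A × Fin 2) → ℂ) :
    toY (tw g c) = lc (fun _ => so g) c := rfl

/-- slices of spin orbitals -/
def sl (g : A → R3 → ℝ) (I : Fin N → A × Fin 2) (s : Fin N → Fin 2) (l : Fin N) : R3 → ℝ :=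
  fun y => so g (I l) (y, s l)

omit [DecidableEq A] in
theorem tw_apply (g : A → R3 → ℝ) (c : (Fin N → A × Fin 2) → ℂ) (x : Fin N → R3)
    (s : Fin N → Fin 2) : tw g c x s = ∑ I, c I * ((prodState (sl g I s) x : ℝ) : ℂ) := rfl

omit [Fintype A] [DecidableEq A] in
theorem sl_smooth {g : A → R3 → ℝ} (hg : ∀ a, ContDiff ℝ (⊤ : ℕ∞) (g a)) (I : Fin N → A × Fin 2)
    (s : Fin N → Fin 2) (l : Fin N) : ContDiff ℝ (⊤ : ℕ∞) (sl g I s l) := by
  unfold sl so
  by_cases h : s l = (I l).2
  · simp only [h, if_true]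
    exact hg _
  · simp only [h, if_false]
    exact contDiff_const

omit [Fintype A] [DecidableEq A] in
theorem sl_compact {g : A → R3 → ℝ} (hg : ∀ a, HasCompactSupport (g a)) (I : Fin N → A × Fin 2)
    (s : Fin N → Fin 2) (l : Fin N) : HasCompactSupport (sl g I s l) := by
  unfold sl so
  by_cases h : s l = (I l).2
  · simp only [h, if_true]
    exact hg _
  · simp only [h, if_false]
    exact HasCompactSupport.zero

omit [Fintype A] [DecidableEq A] in
theorem sl_fderiv {g : A → R3 → ℝ} (I : Fin N → A × Fin 2)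
    (s : Fin N → Fin 2) (l : Fin N) (x e : R3) :
    fderiv ℝ (sl g I s l) x e = so (fun a y => fderiv ℝ (g a) y e) (I l) (x, s l) := by
  unfold sl so
  by_cases h : s l = (I l).2
  · simp only [h, if_true]
  · simp only [h, if_false]
    simp only [fderiv_fun_const, Pi.zero_apply, zero_apply]

omit [DecidableEq A] in
theorem tw_smooth {g : A → R3 → ℝ} (hg : ∀ a, ContDiff ℝ (⊤ : ℕ∞) (g a))
    (c : (Fin N → A × Fin 2) → ℂ) (s : Fin N → Fin 2) :
    ContDiff ℝ (⊤ : ℕ∞) (fun x => tw g c x s) := by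
  simp only [tw_apply]
  refine ContDiff.sum fun I _ => contDiff_const.mul ?_
  exact Complex.ofRealCLM.contDiff.comp (prodState_smooth _ (sl_smooth hg I s))

omit [DecidableEq A] in
theorem tw_compact {g : A → R3 → ℝ} (hg : ∀ a, HasCompactSupport (g a))
    (c : (Fin N → A × Fin 2) → ℂ) (s : Fin N → Fin 2) :
    HasCompactSupport (fun x => tw g c x s) := by
  apply HasCompactSupport.intro
    (K := ⋃ I : Fin N → A × Fin 2, tsupport (prodState (sl g I s)))
    (isCompact_iUnion fun I => prodState_compact _ (sl_compact hg I s))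
  intro x hx
  simp only [Set.mem_iUnion, not_exists] at hx
  rw [tw_apply]
  refine Finset.sum_eq_zero fun I _ => ?_
  rw [image_eq_zero_of_notMem_tsupport (hx I)]
  simp

theorem tw_anti (g : A → R3 → ℝ) {c : Tens N (A × Fin 2)} (hc : IsAnti c)
    (π : Equiv.Perm (Fin N)) (x : Fin N → R3) (s : Fin N → Fin 2) :
    tw g c (fun i => x (π i)) (fun i => s (π i)) = ((Equiv.Perm.sign π : ℤ) : ℂ) * tw g c x s := by
  unfold tw lc
  rw [Finset.mul_sum, ← Equiv.sum_comp (π.symm.arrowCongr (Equiv.refl (A × Fin 2)))]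
  refine Finset.sum_congr rfl fun I _ => ?_
  have h1 : (π.symm.arrowCongr (Equiv.refl (A × Fin 2))) I = fun i => I (π i) := by
    funext i
    simp [Equiv.arrowCongr]
  rw [h1, hc]
  have h2 : pf (fun _ => so g) (fun i => I (π i)) (jn (fun i => x (π i)) fun i => s (π i)) =
      pf (fun _ => so g) I (jn x s) := by
    unfold pf jn
    exact Equiv.prod_comp π (fun l => so g (I l) (x l, s l))
  rw [h2]
  ring

theorem tw_test {g : A → R3 → ℝ} (hg : ∀ a, ContDiff ℝ (⊤ : ℕ∞) (g a))
    (hg' : ∀ a, HasCompactSupport (g a)) {c : Tens N (A × Fin 2)} (hc : IsAnti c) :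
    IsTestState (tw g c) :=
  ⟨tw_smooth hg c, tw_compact hg' c, tw_anti g hc⟩

/-- slot dependent orbitals: derivative in slot `i` -/
noncomputable def dΘ (g : A → R3 → ℝ) (e : R3) (i : Fin N) (l : Fin N) : A × Fin 2 → YS → ℝ :=
  if l = i then so (fun a y => fderiv ℝ (g a) y e) else so g

omit [DecidableEq A] in
theorem tw_fderiv {g : A → R3 → ℝ} (hg : ∀ a, ContDiff ℝ (⊤ : ℕ∞) (g a))
    (c : (Fin N → A × Fin 2) → ℂ) (s : Fin N → Fin 2) (x : Fin N → R3) (i : Fin N) (e : R3) :
    fderiv ℝ (fun y => tw g c y s) x (Pi.single i e) = lc (dΘ g e i) c (jn x s) := by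
  simp only [tw_apply]
  have hI : ∀ I : Fin N → A × Fin 2, HasFDerivAt
      (fun y => c I * ((prodState (sl g I s) y : ℝ) : ℂ))
      (c I • (Complex.ofRealCLM.comp (fderiv ℝ (prodState (sl g I s)) x))) x := by
    intro I
    have hd : DifferentiableAt ℝ (prodState (sl g I s)) x :=
      (prodState_smooth _ (sl_smooth hg I s)).differentiable (by simp) x
    exact ((Complex.ofRealCLM.hasFDerivAt).comp x hd.hasFDerivAt).const_mul (c I)
  have hs := HasFDerivAt.fun_sum (u := univ) fun I (_ : I ∈ (univ : Finset (Fin N → A × Fin 2))) =>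
    hI I
  rw [hs.fderiv, ContinuousLinearMap.sum_apply]
  unfold lc
  refine Finset.sum_congr rfl fun I _ => ?_
  rw [ContinuousLinearMap.smul_apply, ContinuousLinearMap.comp_apply, Complex.ofRealCLM_apply,
    prodState_fderiv _ (sl_smooth hg I s), sl_fderiv, smul_eq_mul]
  congr 2
  unfold pf
  rw [← Finset.mul_prod_erase univ _ (Finset.mem_univ i)]
  congr 1
  · simp only [dΘ, ↓reduceIte, jn]
  · refine Finset.prod_congr rfl fun l hl => ?_
    have : l ≠ i := Finset.ne_of_mem_erase hl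
    simp [dΘ, this, jn, sl]

end Vale.Agent.P370.NB.U
end

section

/-!
Approximation of shell functions by test functions.
-/

namespace Vale.Agent.P370.Q

open MeasureTheory Finset ComplexConjugate Filter Topology Hyd

structure ApproxSeq (φ : R3 → ℝ) (f : ℕ → R3 → ℝ) : Prop where
  smooth : ∀ j, ContDiff ℝ (⊤ : ℕ∞) (f j)
  compact : ∀ j, HasCompactSupport (f j)
  bound : ∃ C c : ℝ, 0 < c ∧ ∀ j x, |f j x| ≤ C * Real.exp (-(c * ‖x‖)) ∧
    ‖fderiv ℝ (f j) x‖ ≤ C * Real.exp (-(c * ‖x‖))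
  tend : ∀ x, x ≠ 0 → Tendsto (fun j => f j x) atTop (𝓝 (φ x))
  tend_pd : ∀ x, x ≠ 0 → ∀ k, Tendsto (fun j => pd k (f j) x) atTop (𝓝 (pd k φ x))

/-- smooth approximations of growth rate `a` -/
structure AOGr (a : ℝ) (u : ℕ → R3 → ℝ) (v : R3 → ℝ) : Prop where
  smooth : ∀ j, ContDiff ℝ (⊤ : ℕ∞) (u j)
  bound : ∀ η, a < η → ∃ C : ℝ, 0 ≤ C ∧ ∀ j x, |u j x| ≤ C * Real.exp (η * ‖x‖) ∧
    ‖fderiv ℝ (u j) x‖ ≤ C * Real.exp (η * ‖x‖)
  diff : ∀ x, x ≠ 0 → DifferentiableAt ℝ v x
  tend : ∀ x, x ≠ 0 → Tendsto (fun j => u j x) atTop (𝓝 (v x))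
  tendF : ∀ x, x ≠ 0 → Tendsto (fun j => fderiv ℝ (u j) x) atTop (𝓝 (fderiv ℝ v x))

theorem AOGr.differentiableAt {a : ℝ} {u : ℕ → R3 → ℝ} {v : R3 → ℝ} (h : AOGr a u v) (j : ℕ)
    (x : R3) : DifferentiableAt ℝ (u j) x := ((h.smooth j).differentiable (by simp)) x

theorem AOGr.add {a : ℝ} {u u' : ℕ → R3 → ℝ} {v v' : R3 → ℝ} (h : AOGr a u v) (h' : AOGr a u' v') :
    AOGr a (fun j x => u j x + u' j x) (fun x => v x + v' x) := by
  refine ⟨fun j => (h.smooth j).add (h'.smooth j), fun η hη => ?_,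
    fun x hx => (h.diff x hx).add (h'.diff x hx), fun x hx => (h.tend x hx).add (h'.tend x hx),
    fun x hx => ?_⟩
  · obtain ⟨C, hC, hb⟩ := h.bound η hη
    obtain ⟨C', hC', hb'⟩ := h'.bound η hη
    refine ⟨C + C', add_nonneg hC hC', fun j x => ⟨?_, ?_⟩⟩
    · rw [add_mul]
      exact (abs_add_le _ _).trans (add_le_add (hb j x).1 (hb' j x).1)
    · rw [fderiv_fun_add (h.differentiableAt j x) (h'.differentiableAt j x), add_mul]
      exact (norm_add_le _ _).trans (add_le_add (hb j x).2 (hb' j x).2)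
  · rw [fderiv_fun_add (h.diff x hx) (h'.diff x hx)]
    have e : (fun j => fderiv ℝ (fun x => u j x + u' j x) x) =
        fun j => fderiv ℝ (u j) x + fderiv ℝ (u' j) x := by
      funext j
      exact fderiv_fun_add (h.differentiableAt j x) (h'.differentiableAt j x)
    rw [e]
    exact (h.tendF x hx).add (h'.tendF x hx)

theorem AOGr.mul {a b : ℝ} {u u' : ℕ → R3 → ℝ} {v v' : R3 → ℝ} (h : AOGr a u v) (h' : AOGr b u' v') :
    AOGr (a + b) (fun j x => u j x * u' j x) (fun x => v x * v' x) := by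
  refine ⟨fun j => (h.smooth j).mul (h'.smooth j), fun η hη => ?_,
    fun x hx => (h.diff x hx).mul (h'.diff x hx), fun x hx => (h.tend x hx).mul (h'.tend x hx),
    fun x hx => ?_⟩
  · obtain ⟨C, hC, hb⟩ := h.bound (a + (η - a - b) / 2) (by linarith only [hη])
    obtain ⟨C', hC', hb'⟩ := h'.bound (b + (η - a - b) / 2) (by linarith only [hη])
    have hE : ∀ x : R3, C * Real.exp ((a + (η - a - b) / 2) * ‖x‖) *
        (C' * Real.exp ((b + (η - a - b) / 2) * ‖x‖)) = C * C' * Real.exp (η * ‖x‖) := by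
      intro x
      have : η * ‖x‖ = (a + (η - a - b) / 2) * ‖x‖ + (b + (η - a - b) / 2) * ‖x‖ := by ring
      rw [this, Real.exp_add]
      ring
    refine ⟨C * C' + C * C', by (clear * - hC hC'; (clear * - hC hC'; positivity)), fun j x => ⟨?_, ?_⟩⟩
    · rw [abs_mul]
      refine (mul_le_mul (hb j x).1 (hb' j x).1 (abs_nonneg _) (by (clear * - hC; positivity))).trans ?_
      rw [hE, add_mul]
      exact le_add_of_nonneg_left (by (clear * - hC hC'; positivity))
    · rw [fderiv_fun_mul (h.differentiableAt j x) (h'.differentiableAt j x), add_mul]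
      refine (norm_add_le _ _).trans (add_le_add ?_ ?_)
      · rw [norm_smul, Real.norm_eq_abs, ← hE]
        exact mul_le_mul (hb j x).1 (hb' j x).2 (norm_nonneg _) (by (clear * - hC; positivity))
      · rw [norm_smul, Real.norm_eq_abs, ← hE, mul_comm]
        exact mul_le_mul (hb j x).2 (hb' j x).1 (abs_nonneg _) (by (clear * - hC; positivity))
  · rw [fderiv_fun_mul (h.diff x hx) (h'.diff x hx)]
    have e : (fun j => fderiv ℝ (fun x => u j x * u' j x) x) =
        fun j => u j x • fderiv ℝ (u' j) x + u' j x • fderiv ℝ (u j) x := by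
      funext j
      exact fderiv_fun_mul (h.differentiableAt j x) (h'.differentiableAt j x)
    rw [e]
    exact ((h.tend x hx).smul (h'.tendF x hx)).add ((h'.tend x hx).smul (h.tendF x hx))

theorem AOGr.of_fixed {a : ℝ} {w : R3 → ℝ} (hs : ContDiff ℝ (⊤ : ℕ∞) w)
    (hb : ∀ η, a < η → ∃ C : ℝ, 0 ≤ C ∧ ∀ x, |w x| ≤ C * Real.exp (η * ‖x‖) ∧
      ‖fderiv ℝ w x‖ ≤ C * Real.exp (η * ‖x‖)) : AOGr a (fun _ => w) w := by
  refine ⟨fun _ => hs, fun η hη => ?_, fun x _ => (hs.differentiable (by simp)) x,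
    fun x _ => tendsto_const_nhds, fun x _ => tendsto_const_nhds⟩
  obtain ⟨C, hC, h⟩ := hb η hη
  exact ⟨C, hC, fun _ => h⟩

theorem AOGr.const (c : ℝ) : AOGr 0 (fun _ _ => c) (fun _ => c) := by
  refine AOGr.of_fixed contDiff_const fun η hη => ⟨|c|, abs_nonneg _, fun x => ⟨?_, ?_⟩⟩
  · exact le_mul_of_one_le_right (abs_nonneg _) (Real.one_le_exp (by (clear * - hη; positivity)))
  · rw [fderiv_const_apply, norm_zero]
    positivity

theorem AOGr.coord (i : Fin 3) : AOGr 0 (fun _ x => x i) (fun x => x i) := by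
  refine AOGr.of_fixed (EuclideanSpace.proj (𝕜 := ℝ) i).contDiff fun η hη =>
    ⟨η⁻¹ + 1, by (clear * - hη; positivity), fun x => ⟨?_, ?_⟩⟩
  · have h1 : |x i| ≤ ‖x‖ := by
      rw [← Real.norm_eq_abs]
      exact PiLp.norm_apply_le x i
    refine (h1.trans (le_exp_div hη (norm_nonneg x))).trans ?_
    rw [add_mul]
    exact le_add_of_nonneg_right (by positivity)
  · have h2 : fderiv ℝ (fun x : R3 => x i) x = EuclideanSpace.proj (𝕜 := ℝ) i :=
      (EuclideanSpace.proj (𝕜 := ℝ) i).hasFDerivAt.fderiv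
    rw [h2]
    have h3 : ‖(EuclideanSpace.proj (𝕜 := ℝ) i : R3 →L[ℝ] ℝ)‖ ≤ 1 :=
      ContinuousLinearMap.opNorm_le_bound _ zero_le_one fun y => by
        rw [one_mul]
        exact PiLp.norm_apply_le y i
    refine h3.trans ?_
    have h4 : (1 : ℝ) ≤ Real.exp (η * ‖x‖) := Real.one_le_exp (by (clear * - hη; (clear * - hη; positivity)))
    have h5 : 0 < η⁻¹ := by positivity
    linarith only [mul_nonneg_of_nonpos_of_nonpos (Mathlib.Tactic.Linarith.sub_nonpos_of_le h4) (le_of_lt (Mathlib.Tactic.Linarith.sub_neg_of_lt h5)), h5, h4]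

theorem AOGr.poly (P : Poly3) : AOGr 0 (fun _ => ev P) (ev P) := by
  induction P using MvPolynomial.induction_on with
  | C a =>
    have : ev (MvPolynomial.C a) = fun _ => a := by
      funext x
      exact ev_C a x
    rw [this]
    exact AOGr.const a
  | add P Q hP hQ =>
    have : ev (P + Q) = fun x => ev P x + ev Q x := by
      funext x
      exact ev_add P Q x
    rw [this]
    exact hP.add hQ
  | mul_X P j hP =>
    have : ev (P * MvPolynomial.X j) = fun x => ev P x * x j := by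
      funext x
      rw [ev_mul, ev_X]
    rw [this]
    have h := hP.mul (AOGr.coord j)
    rwa [add_zero] at h

/-- the regularisation parameters -/
noncomputable def aoE (j : ℕ) : ℝ := 1 / ((j : ℝ) + 1)

theorem aoE_pos (j : ℕ) : 0 < aoE j := by unfold aoE; (clear * -; positivity)

theorem aoE_le_one (j : ℕ) : aoE j ≤ 1 := by
  unfold aoE
  rw [div_le_one (by (clear * -; positivity))]
  have : (0 : ℝ) ≤ j := by positivity
  linarith only []

theorem tendsto_aoE : Tendsto aoE atTop (𝓝 0) := tendsto_one_div_add_atTop_nhds_zero_nat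

theorem ao_hasFDerivAt_norm {x : R3} (hx : x ≠ 0) :
    HasFDerivAt (fun y : R3 => ‖y‖) ((1 / ‖x‖) • (innerSL ℝ x)) x := by
  have h1 : HasFDerivAt (fun y : R3 => ‖y‖ ^ 2) (2 • (innerSL ℝ x)) x :=
    (hasStrictFDerivAt_norm_sq x).hasFDerivAt
  have hx' : ‖x‖ ≠ 0 := norm_ne_zero_iff.2 hx
  have h2 := h1.sqrt (by (clear * - hx; positivity))
  have e : (fun y : R3 => Real.sqrt (‖y‖ ^ 2)) = fun y => ‖y‖ := by
    funext y
    exact Real.sqrt_sq (norm_nonneg y)
  rw [e] at h2
  refine h2.congr_fderiv ?_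
  ext w
  rw [Real.sqrt_sq (norm_nonneg x)]
  simp
  field_simp

theorem ao_sreg_le {δ : ℝ} (hδ : 0 < δ) (hδ1 : δ ≤ 1) (x : R3) : sreg δ x ≤ ‖x‖ + 1 := by
  unfold sreg
  rw [Real.sqrt_le_left (by (clear * -; positivity))]
  linarith only [mul_nonneg_of_nonpos_of_nonpos (Mathlib.Tactic.Linarith.sub_nonpos_of_le hδ1) (le_of_lt (Mathlib.Tactic.Linarith.sub_neg_of_lt hδ)), norm_nonneg x, hδ1]

theorem ao_norm_fderiv_sreg {δ : ℝ} (hδ : 0 < δ) (x : R3) : ‖fderiv ℝ (sreg δ) x‖ ≤ 1 := by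
  rw [(hasFDerivAt_sreg hδ x).fderiv, norm_smul, innerSL_apply_norm, Real.norm_eq_abs,
    abs_of_pos (by have := sreg_pos hδ x; (clear * - this; positivity)), one_div, inv_mul_le_iff₀ (sreg_pos hδ x),
    mul_one]
  exact norm_le_sreg δ x

theorem ao_tendsto_sreg (x : R3) : Tendsto (fun j => sreg (aoE j) x) atTop (𝓝 ‖x‖) := by
  unfold sreg
  have h : Tendsto (fun j => Real.sqrt (‖x‖ ^ 2 + aoE j ^ 2)) atTop
      (𝓝 (Real.sqrt (‖x‖ ^ 2 + 0 ^ 2))) :=
    (Real.continuous_sqrt.tendsto _).comp ((tendsto_aoE.pow 2).const_add _)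
  convert h using 2
  rw [zero_pow two_ne_zero, add_zero, Real.sqrt_sq (norm_nonneg x)]

theorem AOGr.sreg : AOGr 0 (fun j => sreg (aoE j)) (fun x => ‖x‖) := by
  refine ⟨fun j => contDiff_sreg (aoE_pos j), fun η hη => ?_,
    fun x hx => (ao_hasFDerivAt_norm hx).differentiableAt, fun x _ => ao_tendsto_sreg x,
    fun x hx => ?_⟩
  · refine ⟨η⁻¹ + 1, by (clear * - hη; positivity), fun j x => ?_⟩
    have h4 : (1 : ℝ) ≤ Real.exp (η * ‖x‖) := Real.one_le_exp (by (clear * - hη; positivity))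
    have h5 : 0 < η⁻¹ := by positivity
    constructor
    · rw [abs_of_pos (sreg_pos (aoE_pos j) x), add_mul]
      refine (ao_sreg_le (aoE_pos j) (aoE_le_one j) x).trans (add_le_add ?_ ?_)
      · exact le_exp_div hη (norm_nonneg x)
      · rw [one_mul]
        exact h4
    · refine (ao_norm_fderiv_sreg (aoE_pos j) x).trans ?_
      linarith only [mul_nonneg_of_nonpos_of_nonpos (Mathlib.Tactic.Linarith.sub_nonpos_of_le h4) (le_of_lt (Mathlib.Tactic.Linarith.sub_neg_of_lt h5)), h5, h4]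
  · rw [(ao_hasFDerivAt_norm hx).fderiv]
    have e : (fun j => fderiv ℝ (Vale.Agent.P370.sreg (aoE j)) x) =
        fun j => (1 / Vale.Agent.P370.sreg (aoE j) x) • (innerSL ℝ x) := by
      funext j
      exact (hasFDerivAt_sreg (aoE_pos j) x).fderiv
    rw [e]
    exact ((tendsto_const_nhds).div (ao_tendsto_sreg x) (norm_ne_zero_iff.2 hx)).smul_const _

theorem AOGr.exp {κ : ℝ} (hκ : 0 < κ) : AOGr (-κ)
    (fun j x => Real.exp (-κ * Vale.Agent.P370.sreg (aoE j) x))
    (fun x => Real.exp (-κ * ‖x‖)) := by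
  have hd : ∀ j x, HasFDerivAt (fun x => Real.exp (-κ * Vale.Agent.P370.sreg (aoE j) x))
      (Real.exp (-κ * Vale.Agent.P370.sreg (aoE j) x) •
        (-κ • fderiv ℝ (Vale.Agent.P370.sreg (aoE j)) x)) x := by
    intro j x
    exact (((contDiff_sreg (aoE_pos j) (n := 1)).differentiable (by simp) x).hasFDerivAt.const_mul
      (-κ)).exp
  have hd' : ∀ x : R3, x ≠ 0 → HasFDerivAt (fun x : R3 => Real.exp (-κ * ‖x‖))
      (Real.exp (-κ * ‖x‖) • (-κ • fderiv ℝ (fun y : R3 => ‖y‖) x)) x := by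
    intro x hx
    exact ((ao_hasFDerivAt_norm hx).differentiableAt.hasFDerivAt.const_mul (-κ)).exp
  have ht : ∀ x : R3, Tendsto (fun j => Real.exp (-κ * Vale.Agent.P370.sreg (aoE j) x)) atTop
      (𝓝 (Real.exp (-κ * ‖x‖))) := fun x =>
    (Real.continuous_exp.tendsto _).comp ((ao_tendsto_sreg x).const_mul (-κ))
  refine ⟨fun j => ((contDiff_const.mul (contDiff_sreg (aoE_pos j))).exp), fun η hη => ?_,
    fun x hx => (hd' x hx).differentiableAt, fun x _ => ht x, fun x hx => ?_⟩
  · refine ⟨1 + κ, by (clear * - hκ; positivity), fun j x => ?_⟩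
    have h1 : Real.exp (-κ * Vale.Agent.P370.sreg (aoE j) x) ≤ Real.exp (η * ‖x‖) := by
      apply Real.exp_le_exp.2
      have h2 := norm_le_sreg (aoE j) x
      have h3 := norm_nonneg x
      linarith only [mul_nonneg_of_nonpos_of_nonpos (le_of_lt (Mathlib.Tactic.Linarith.sub_neg_of_lt hη)) (Mathlib.Tactic.Linarith.sub_nonpos_of_le h3), mul_nonneg_of_nonpos_of_nonpos (le_of_lt (Mathlib.Tactic.Linarith.sub_neg_of_lt hκ)) (Mathlib.Tactic.Linarith.sub_nonpos_of_le h2)]
    have h0 := Real.exp_pos (η * ‖x‖)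
    constructor
    · rw [abs_of_pos (Real.exp_pos _)]
      nlinarith only [h1, hκ, h0]
    · rw [(hd j x).fderiv, norm_smul, norm_smul, Real.norm_eq_abs, abs_of_pos (Real.exp_pos _),
        Real.norm_eq_abs, abs_neg, abs_of_pos hκ]
      have h2 := ao_norm_fderiv_sreg (aoE_pos j) x
      have h3 : κ * ‖fderiv ℝ (Vale.Agent.P370.sreg (aoE j)) x‖ ≤ 1 + κ := by nlinarith only [hκ, h2]
      calc _ ≤ Real.exp (η * ‖x‖) * (1 + κ) :=
            mul_le_mul h1 h3 (by (clear * - hκ; positivity)) (by positivity)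
        _ = _ := mul_comm _ _
  · rw [(hd' x hx).fderiv]
    have e : (fun j => fderiv ℝ (fun x => Real.exp (-κ * Vale.Agent.P370.sreg (aoE j) x)) x) =
        fun j => Real.exp (-κ * Vale.Agent.P370.sreg (aoE j) x) •
        (-κ • fderiv ℝ (Vale.Agent.P370.sreg (aoE j)) x) := by
      funext j
      exact (hd j x).fderiv
    rw [e]
    exact (ht x).smul ((AOGr.sreg.tendF x hx).const_smul (-κ))

/-- the standard cutoff -/
noncomputable def aoBump : ContDiffBump (0 : R3) := ⟨1, 2, by norm_num, by norm_num⟩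

theorem exists_aoBump_bound : ∃ C : ℝ, 0 ≤ C ∧ ∀ x, ‖fderiv ℝ aoBump x‖ ≤ C := by
  have h1 : ContDiff ℝ (⊤ : ℕ∞) aoBump := aoBump.contDiff
  obtain ⟨C, hC⟩ := (aoBump.hasCompactSupport.fderiv (𝕜 := ℝ)).exists_bound_of_continuous
    (h1.continuous_fderiv (by simp))
  exact ⟨C, (norm_nonneg _).trans (hC 0), hC⟩

theorem AOGr.cut : AOGr 0 (fun j x => aoBump (aoE j • x)) (fun _ => 1) := by
  obtain ⟨C, hC, hb⟩ := exists_aoBump_bound
  have h1 : ContDiff ℝ (⊤ : ℕ∞) aoBump := aoBump.contDiff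
  have hd : ∀ j x, HasFDerivAt (fun x => aoBump (aoE j • x))
      (aoE j • fderiv ℝ aoBump (aoE j • x)) x := by
    intro j x
    have h2 : HasFDerivAt (fun x : R3 => aoE j • x) (aoE j • ContinuousLinearMap.id ℝ R3) x :=
      (hasFDerivAt_id x).const_smul (aoE j)
    have h3 := ((h1.differentiable (by simp only [ne_eq, WithTop.coe_eq_zero, ENat.top_ne_zero, not_false_eq_true])) (aoE j • x)).hasFDerivAt.comp x h2
    refine h3.congr_fderiv ?_
    ext w
    simp only [ContinuousLinearMap.comp_smulₛₗ, Real.ringHom_apply, ContinuousLinearMap.comp_id, smul_apply, smul_eq_mul]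
  have hn : ∀ j x, ‖fderiv ℝ (fun x => aoBump (aoE j • x)) x‖ ≤ aoE j * C := by
    intro j x
    rw [(hd j x).fderiv, norm_smul, Real.norm_eq_abs, abs_of_pos (aoE_pos j)]
    exact mul_le_mul_of_nonneg_left (hb _) (aoE_pos j).le
  refine ⟨fun j => h1.comp (contDiff_const_smul _), fun η hη => ?_,
    fun x _ => differentiableAt_const _, fun x _ => ?_, fun x _ => ?_⟩
  · refine ⟨1 + C, by positivity, fun j x => ?_⟩
    have h4 : (1 : ℝ) ≤ Real.exp (η * ‖x‖) := Real.one_le_exp (by (clear * - hη; (clear * - hη; positivity)))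
    constructor
    · rw [abs_of_nonneg aoBump.nonneg]
      have := aoBump.le_one (x := aoE j • x)
      linarith only [mul_nonneg_of_nonpos_of_nonpos (Mathlib.Tactic.Linarith.sub_nonpos_of_le hC) (Mathlib.Tactic.Linarith.sub_nonpos_of_le h4), this, h4, hC]
    · have h5 := hn j x
      have h6 := aoE_le_one j
      nlinarith only [h4, h5, hC, h6]
  · have h2 : Tendsto (fun j => aoE j • x) atTop (𝓝 0) := by
      have := tendsto_aoE.smul_const x
      rwa [zero_smul] at this
    have h3 := (aoBump.contDiff (n := 0)).continuous.tendsto (0 : R3)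
    have h4 := h3.comp h2
    have h5 : aoBump (0 : R3) = 1 := aoBump.one_of_mem_closedBall (by simp only [aoBump, Metric.mem_closedBall, dist_self, zero_le_one])
    rw [h5] at h4
    exact h4
  · rw [fderiv_const_apply]
    refine squeeze_zero_norm (fun j => hn j x) ?_
    have := tendsto_aoE.mul_const C
    rwa [zero_mul] at this

theorem exists_approxSeq_xp {κ : ℝ} (hκ : 0 < κ) (P Q : Poly3) : ∃ f, ApproxSeq (xp κ P Q) f := by
  have h1 : AOGr 0 (fun j x => Vale.Agent.P370.sreg (aoE j) x * ev Q x) (fun x => ‖x‖ * ev Q x) := by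
    have := AOGr.sreg.mul (AOGr.poly Q)
    rwa [add_zero] at this
  have h2 := ((AOGr.poly P).add h1).mul (AOGr.exp hκ)
  have h3 := AOGr.cut.mul h2
  rw [zero_add, zero_add] at h3
  have e : (fun x : R3 => (fun _ : R3 => (1 : ℝ)) x *
      ((ev P x + ‖x‖ * ev Q x) * Real.exp (-κ * ‖x‖))) = xp κ P Q := by
    funext x
    rw [one_mul]
    rfl
  rw [e] at h3
  refine ⟨_, h3.smooth, fun j => ?_, ?_, h3.tend, fun x hx k => ?_⟩
  · have h4 : HasCompactSupport fun x => aoBump (aoE j • x) :=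
      aoBump.hasCompactSupport.comp_smul (aoE_pos j).ne'
    exact h4.mul_right
  · obtain ⟨C, hC, hb⟩ := h3.bound (-(κ / 2)) (by linarith only [hκ])
    refine ⟨C, κ / 2, by (clear * - hκ; positivity), fun j x => ?_⟩
    rw [show -(κ / 2 * ‖x‖) = -(κ / 2) * ‖x‖ by ring]
    exact hb j x
  · have h4 := h3.tendF x hx
    exact ((ContinuousLinearMap.apply ℝ ℝ
      (EuclideanSpace.single k (1 : ℝ) : R3)).continuous.tendsto _).comp h4

theorem exists_approxSeq {k : ℕ} (hk : 1 ≤ k) {φ : R3 → ℝ} (hφ : IsShell k φ) :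
    ∃ f, ApproxSeq φ f := by
  obtain ⟨z, -, rfl⟩ := (isShell_iff hk).1 hφ
  exact exists_approxSeq_xp (inv_pos' hk) _ _

/-! ### convergence of the integrals -/

variable {φ ψ φ' ψ' : R3 → ℝ} {f g f' g' : ℕ → R3 → ℝ}

theorem ao_ne_zero : ∀ᵐ x : R3, x ≠ 0 := by
  rw [ae_iff]
  simp

theorem ao_int_exp {c : ℝ} (hc : 0 < c) :
    Integrable (fun x : R3 => Real.exp (-(c * ‖x‖))) := by
  simpa only [neg_mul] using integrable_exp hc

theorem ao_int_exp_div {c : ℝ} (hc : 0 < c) :
    Integrable (fun x : R3 => Real.exp (-(c * ‖x‖)) / ‖x‖) := by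
  simpa only [neg_mul] using integrable_exp_div hc

/-- potential of an exponentially decaying density, uniformly in the point -/
theorem ao_exp_pot {c : ℝ} (hc : 0 < c) : ∃ B : ℝ, 0 ≤ B ∧ ∀ y : R3,
    Integrable (fun x : R3 => Real.exp (-(c * ‖x‖)) / dist x y) ∧
      ∫ x : R3, Real.exp (-(c * ‖x‖)) / dist x y ≤ B := by
  have h1 := ao_int_exp hc
  have h2 := ao_int_exp_div one_pos
  have h3 : ∀ y : R3, Integrable (fun x : R3 => Real.exp (-(1 * ‖x - y‖)) / ‖x - y‖) := fun y =>
    h2.comp_sub_right y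
  have h4 : ∀ y : R3, ∫ x : R3, Real.exp (-(1 * ‖x - y‖)) / ‖x - y‖ =
      ∫ x : R3, Real.exp (-(1 * ‖x‖)) / ‖x‖ := fun y =>
    integral_sub_right_eq_self (fun x : R3 => Real.exp (-(1 * ‖x‖)) / ‖x‖) y
  have h5 : ∀ x y : R3, Real.exp (-(c * ‖x‖)) / dist x y ≤
      Real.exp (-(c * ‖x‖)) + Real.exp 1 * (Real.exp (-(1 * ‖x - y‖)) / ‖x - y‖) := by
    intro x y
    rw [dist_eq_norm]
    have e0 := Real.exp_pos (-(c * ‖x‖))
    have e1 : Real.exp (-(c * ‖x‖)) ≤ 1 := Real.exp_le_one_iff.2 (by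
      have := norm_nonneg x
      linarith only [mul_nonneg_of_nonpos_of_nonpos (le_of_lt (Mathlib.Tactic.Linarith.sub_neg_of_lt hc)) (Mathlib.Tactic.Linarith.sub_nonpos_of_le this)])
    rcases le_or_gt 1 ‖x - y‖ with h | h
    · have : Real.exp (-(c * ‖x‖)) / ‖x - y‖ ≤ Real.exp (-(c * ‖x‖)) := div_le_self e0.le h
      have : 0 ≤ Real.exp 1 * (Real.exp (-(1 * ‖x - y‖)) / ‖x - y‖) := by (clear * - h; positivity)
      linarith
    · have e2 : 1 ≤ Real.exp 1 * Real.exp (-(1 * ‖x - y‖)) := by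
        rw [← Real.exp_add]
        exact Real.one_le_exp (by linarith only [h])
      have e3 : Real.exp (-(c * ‖x‖)) / ‖x - y‖ ≤
          Real.exp 1 * (Real.exp (-(1 * ‖x - y‖)) / ‖x - y‖) := by
        rw [← mul_div_assoc]
        exact div_le_div_of_nonneg_right (e1.trans e2) (norm_nonneg _)
      linarith only [e0, e3]
  have h6 : ∀ y : R3, Integrable (fun x : R3 => Real.exp (-(c * ‖x‖)) / dist x y) := by
    intro y
    refine (h1.add ((h3 y).const_mul (Real.exp 1))).mono' ?_ (Eventually.of_forall fun x => ?_)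
    · refine Measurable.aestronglyMeasurable ?_
      exact (Continuous.measurable (by fun_prop)).div (Continuous.measurable (by fun_prop))
    · rw [Real.norm_eq_abs, abs_of_nonneg (by (clear * -; positivity))]
      exact h5 x y
  refine ⟨(∫ x : R3, Real.exp (-(c * ‖x‖))) +
    Real.exp 1 * ∫ x : R3, Real.exp (-(1 * ‖x‖)) / ‖x‖, ?_, fun y => ⟨h6 y, ?_⟩⟩
  · refine add_nonneg (integral_nonneg fun x => by positivity)
      (mul_nonneg (by positivity) (integral_nonneg fun x => by (clear * -; (clear * -; positivity))))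
  · have h7 := integral_mono (h6 y) (h1.add ((h3 y).const_mul (Real.exp 1))) (h5 · y)
    refine h7.trans (le_of_eq ?_)
    rw [← h4 y, ← integral_const_mul, ← integral_add h1 ((h3 y).const_mul _)]
    rfl

theorem ApproxSeq.measurable (hf : ApproxSeq φ f) (j : ℕ) : Measurable (f j) :=
  (hf.smooth j).continuous.measurable

theorem ApproxSeq.measurable_pd (hf : ApproxSeq φ f) (j : ℕ) (k : Fin 3) :
    Measurable (pd k (f j)) :=
  (((hf.smooth j).continuous_fderiv (by simp)).clm_apply continuous_const).measurable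

theorem ao_abs_pd_le (k : Fin 3) (u : R3 → ℝ) (x : R3) : |pd k u x| ≤ ‖fderiv ℝ u x‖ := by
  have h1 := (fderiv ℝ u x).le_opNorm (ei k)
  rwa [norm_ei, mul_one] at h1

theorem ApproxSeq.prod_bound (hf : ApproxSeq φ f) (hg : ApproxSeq ψ g) :
    ∃ C c : ℝ, 0 ≤ C ∧ 0 < c ∧ ∀ j x, |f j x * g j x| ≤ C * Real.exp (-(c * ‖x‖)) ∧
      ∀ k, |pd k (f j) x * pd k (g j) x| ≤ C * Real.exp (-(c * ‖x‖)) := by
  obtain ⟨C, c, hc, h⟩ := hf.bound
  obtain ⟨C', c', hc', h'⟩ := hg.bound
  have hE : ∀ x : R3, C * Real.exp (-(c * ‖x‖)) * (C' * Real.exp (-(c' * ‖x‖))) =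
      C * C' * Real.exp (-((c + c') * ‖x‖)) := by
    intro x
    have : -((c + c') * ‖x‖) = -(c * ‖x‖) + -(c' * ‖x‖) := by ring
    rw [this, Real.exp_add]
    ring
  have hC : 0 ≤ C := by
    have := (abs_nonneg _).trans (h 0 0).1
    rw [norm_zero, mul_zero, neg_zero, Real.exp_zero, mul_one] at this
    exact this
  have hC' : 0 ≤ C' := by
    have := (abs_nonneg _).trans (h' 0 0).1
    rw [norm_zero, mul_zero, neg_zero, Real.exp_zero, mul_one] at this
    exact this
  refine ⟨C * C', c + c', mul_nonneg hC hC', by (clear * - hc hc'; positivity), fun j x => ⟨?_, fun k => ?_⟩⟩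
  · rw [abs_mul, ← hE]
    exact mul_le_mul (h j x).1 (h' j x).1 (abs_nonneg _) (by (clear * - hC; positivity))
  · rw [abs_mul, ← hE]
    exact mul_le_mul ((ao_abs_pd_le k _ x).trans (h j x).2) ((ao_abs_pd_le k _ x).trans (h' j x).2)
      (abs_nonneg _) (by (clear * - hC; positivity))

theorem ApproxSeq.tendsto_ov (hf : ApproxSeq φ f) (hg : ApproxSeq ψ g) :
    Tendsto (fun j => ov (f j) (g j)) atTop (𝓝 (ov φ ψ)) := by
  obtain ⟨C, c, hC, hc, h⟩ := hf.prod_bound hg
  unfold ov
  refine tendsto_integral_of_dominated_convergence (fun x => C * Real.exp (-(c * ‖x‖)))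
    (fun j => ((hf.measurable j).mul (hg.measurable j)).aestronglyMeasurable)
    ((ao_int_exp hc).const_mul C) (fun j => Eventually.of_forall fun x => (h j x).1) ?_
  filter_upwards [ao_ne_zero] with x hx
  exact (hf.tend x hx).mul (hg.tend x hx)

theorem ApproxSeq.tendsto_dir (hf : ApproxSeq φ f) (hg : ApproxSeq ψ g) :
    Tendsto (fun j => dir (f j) (g j)) atTop (𝓝 (dir φ ψ)) := by
  obtain ⟨C, c, hC, hc, h⟩ := hf.prod_bound hg
  unfold dir
  refine tendsto_integral_of_dominated_convergence (fun x => 3 * (C * Real.exp (-(c * ‖x‖))))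
    (fun j => ?_) (((ao_int_exp hc).const_mul C).const_mul 3)
    (fun j => Eventually.of_forall fun x => ?_) ?_
  · exact (Finset.measurable_sum _ fun k _ =>
      (hf.measurable_pd j k).mul (hg.measurable_pd j k)).aestronglyMeasurable
  · refine (norm_sum_le _ _).trans ((Finset.sum_le_sum fun k _ => (h j x).2 k).trans ?_)
    rw [Finset.sum_const, Finset.card_univ, Fintype.card_fin, nsmul_eq_mul]
    (clear * -; norm_num)
  · filter_upwards [ao_ne_zero] with x hx
    exact tendsto_finsetSum _ fun k _ => (hf.tend_pd x hx k).mul (hg.tend_pd x hx k)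

theorem ApproxSeq.tendsto_nuc (hf : ApproxSeq φ f) (hg : ApproxSeq ψ g) (y : R3) :
    Tendsto (fun j => nuc y (f j) (g j)) atTop (𝓝 (nuc y φ ψ)) := by
  obtain ⟨C, c, hC, hc, h⟩ := hf.prod_bound hg
  obtain ⟨B, hB, hi⟩ := ao_exp_pot hc
  unfold nuc
  refine tendsto_integral_of_dominated_convergence
    (fun x => C * (Real.exp (-(c * ‖x‖)) / dist x y)) (fun j => ?_) ((hi y).1.const_mul C)
    (fun j => Eventually.of_forall fun x => ?_) ?_
  · exact (((hf.measurable j).mul (hg.measurable j)).div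
      (Continuous.measurable (by fun_prop))).aestronglyMeasurable
  · rw [norm_div, Real.norm_eq_abs, Real.norm_eq_abs, abs_of_nonneg (dist_nonneg (x := x)),
      ← mul_div_assoc]
    exact div_le_div_of_nonneg_right (h j x).1 dist_nonneg
  · filter_upwards [ao_ne_zero] with x hx
    exact ((hf.tend x hx).mul (hg.tend x hx)).div_const _

theorem ApproxSeq.tendsto_rinv (hf : ApproxSeq φ f) (hg : ApproxSeq ψ g) :
    Tendsto (fun j => rinv (f j) (g j)) atTop (𝓝 (rinv φ ψ)) := by
  have h := hf.tendsto_nuc hg 0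
  unfold nuc at h
  simp only [dist_zero_right] at h
  exact h

theorem ApproxSeq.tendsto_gm (hf : ApproxSeq φ f) (hg : ApproxSeq ψ g) (y : R3) :
    Tendsto (fun j => gm y (f j) (g j)) atTop (𝓝 (gm y φ ψ)) := by
  obtain ⟨C, c, hC, hc, h⟩ := hf.prod_bound hg
  obtain ⟨B, hB, hi⟩ := ao_exp_pot hc
  unfold gm
  refine tendsto_integral_of_dominated_convergence
    (fun x => C * (Real.exp (-(c * ‖x‖)) / ‖x‖ + Real.exp (-(c * ‖x‖)) / dist x y))
    (fun j => ?_) (((ao_int_exp_div hc).add (hi y).1).const_mul C)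
    (fun j => Eventually.of_forall fun x => ?_) ?_
  · refine (((hf.measurable j).mul (hg.measurable j)).mul ?_).aestronglyMeasurable
    exact (measurable_const.div (Continuous.measurable (by (clear * -; fun_prop)))).sub
      (measurable_const.div (Continuous.measurable (by fun_prop)))
  · rw [norm_mul, Real.norm_eq_abs]
    have h1 : ‖1 / ‖x‖ - 1 / dist x y‖ ≤ 1 / ‖x‖ + 1 / dist x y := by
      refine (norm_sub_le _ _).trans (le_of_eq ?_)
      rw [Real.norm_eq_abs, Real.norm_eq_abs, abs_of_nonneg (by (clear * -; (clear * -; positivity))),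
        abs_of_nonneg (by (clear * -; positivity))]
    calc |f j x * g j x| * ‖1 / ‖x‖ - 1 / dist x y‖
        ≤ (C * Real.exp (-(c * ‖x‖))) * (1 / ‖x‖ + 1 / dist x y) :=
          mul_le_mul (h j x).1 h1 (norm_nonneg _) (by (clear * - hC; positivity))
      _ = _ := by ring
  · filter_upwards [ao_ne_zero] with x hx
    exact ((hf.tend x hx).mul (hg.tend x hx)).mul_const _

theorem ApproxSeq.nuc_bound (hf : ApproxSeq φ f) (hg : ApproxSeq ψ g) :
    ∃ B : ℝ, 0 ≤ B ∧ ∀ j y, |nuc y (f j) (g j)| ≤ B := by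
  obtain ⟨C, c, hC, hc, h⟩ := hf.prod_bound hg
  obtain ⟨B, hB, hi⟩ := ao_exp_pot hc
  refine ⟨C * B, mul_nonneg hC hB, fun j y => ?_⟩
  unfold nuc
  rw [← Real.norm_eq_abs]
  refine (norm_integral_le_of_norm_le ((hi y).1.const_mul C)
    (Eventually.of_forall fun x => ?_)).trans ?_
  · rw [norm_div, Real.norm_eq_abs, Real.norm_eq_abs, abs_of_nonneg (dist_nonneg (x := x)),
      ← mul_div_assoc]
    exact div_le_div_of_nonneg_right (h j x).1 dist_nonneg
  · rw [integral_const_mul]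
    exact mul_le_mul_of_nonneg_left (hi y).2 hC

theorem ApproxSeq.measurable_nuc (hf : ApproxSeq φ f) (hg : ApproxSeq ψ g) (j : ℕ) :
    StronglyMeasurable fun y => nuc y (f j) (g j) := by
  unfold nuc
  have h : StronglyMeasurable (Function.uncurry fun (y x : R3) => f j x * g j x / dist x y) := by
    refine Measurable.stronglyMeasurable ?_
    exact (((hf.measurable j).comp measurable_snd).mul
      ((hg.measurable j).comp measurable_snd)).div (Continuous.measurable (by (clear * -; fun_prop)))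
  exact h.integral_prod_right

theorem ApproxSeq.tendsto_coul (hf : ApproxSeq φ f) (hg : ApproxSeq ψ g)
    (hf' : ApproxSeq φ' f') (hg' : ApproxSeq ψ' g') :
    Tendsto (fun j => coul (f j) (g j) (f' j) (g' j)) atTop (𝓝 (coul φ ψ φ' ψ')) := by
  obtain ⟨B, hB, hb⟩ := hf.nuc_bound hg
  obtain ⟨C, c, hC, hc, h⟩ := hf'.prod_bound hg'
  unfold coul
  refine tendsto_integral_of_dominated_convergence
    (fun y => B * (C * Real.exp (-(c * ‖y‖)))) (fun j => ?_)
    (((ao_int_exp hc).const_mul C).const_mul B)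
    (fun j => Eventually.of_forall fun y => ?_) ?_
  · exact (hf.measurable_nuc hg j).aestronglyMeasurable.mul
      ((hf'.measurable j).mul (hg'.measurable j)).aestronglyMeasurable
  · rw [norm_mul]
    exact mul_le_mul (hb j y) (h j y).1 (norm_nonneg _) hB
  · filter_upwards [ao_ne_zero] with y hy
    exact (hf.tendsto_nuc hg y).mul ((hf'.tend y hy).mul (hg'.tend y hy))

end Vale.Agent.P370.Q
end

section

/-!
Energy of the trial wave functions.
-/

namespace Vale.Agent.P370.NB.U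

open MeasureTheory Function ComplexConjugate Finset Vale.Agent.P370.Q

/-! ### one-body and two-body integrals of test orbitals -/

theorem cc_bound {f h : R3 → ℝ} (hf : Continuous f) (hfc : HasCompactSupport f)
    (hh : Continuous h) : ∃ C : ℝ, 0 ≤ C ∧ ∀ x, |f x * h x| ≤ C * Real.exp (-(1 * ‖x‖)) := by
  have hc : Continuous (fun x : R3 => Real.exp (‖x‖) * (f x * h x)) := by (clear * - hf hh; fun_prop)
  have hs : HasCompactSupport (fun x : R3 => Real.exp (‖x‖) * (f x * h x)) :=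
    (hfc.mul_right (f' := h)).mul_left
  obtain ⟨C, hC⟩ := hs.exists_bound_of_continuous hc
  refine ⟨C, (norm_nonneg _).trans (hC 0), fun x => ?_⟩
  have h1 := hC x
  rw [Real.norm_eq_abs, abs_mul, abs_of_pos (Real.exp_pos _)] at h1
  have h2 : Real.exp (-(1 * ‖x‖)) * Real.exp ‖x‖ = 1 := by
    rw [← Real.exp_add]
    simp
  calc |f x * h x| = Real.exp (-(1 * ‖x‖)) * (Real.exp ‖x‖ * |f x * h x|) := by
        rw [← mul_assoc, h2, one_mul]
    _ ≤ Real.exp (-(1 * ‖x‖)) * C := mul_le_mul_of_nonneg_left h1 (Real.exp_pos _).le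
    _ = _ := mul_comm _ _

theorem cc_int {f h : R3 → ℝ} (hf : Continuous f) (hfc : HasCompactSupport f)
    (hh : Continuous h) : Integrable (fun x => f x * h x) := by
  obtain ⟨C, _, hC⟩ := cc_bound hf hfc hh
  exact ((ao_int_exp one_pos).const_mul C).mono' (hf.mul hh).aestronglyMeasurable
    (Filter.Eventually.of_forall hC)

theorem cc_pot {f h : R3 → ℝ} (hf : Continuous f) (hfc : HasCompactSupport f)
    (hh : Continuous h) : ∃ B : ℝ, 0 ≤ B ∧ ∀ y : R3,
      Integrable (fun x => f x * h x * (1 / dist x y)) ∧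
      ∫ x, |f x * h x| * (1 / dist x y) ≤ B := by
  obtain ⟨C, hC0, hC⟩ := cc_bound hf hfc hh
  obtain ⟨B, hB0, hB⟩ := ao_exp_pot one_pos
  have hb : ∀ x y : R3, |f x * h x| * (1 / dist x y) ≤
      C * (Real.exp (-(1 * ‖x‖)) / dist x y) := by
    intro x y
    calc |f x * h x| * (1 / dist x y) ≤ (C * Real.exp (-(1 * ‖x‖))) * (1 / dist x y) :=
          mul_le_mul_of_nonneg_right (hC x) (by (clear * -; positivity))
      _ = _ := by ring
  have hm : ∀ y : R3, AEStronglyMeasurable (fun x => f x * h x * (1 / dist x y)) volume := by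
    intro y
    refine Measurable.aestronglyMeasurable ?_
    exact (hf.mul hh).measurable.mul (measurable_const.div (by fun_prop))
  have hi : ∀ y : R3, Integrable (fun x => f x * h x * (1 / dist x y)) := by
    intro y
    refine ((hB y).1.const_mul C).mono' (hm y) (Filter.Eventually.of_forall fun x => ?_)
    rw [Real.norm_eq_abs, abs_mul, abs_of_nonneg (show 0 ≤ 1 / dist x y by (clear * -; positivity))]
    exact hb x y
  refine ⟨C * B, mul_nonneg hC0 hB0, fun y => ⟨hi y, ?_⟩⟩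
  have hi' : Integrable (fun x => |f x * h x| * (1 / dist x y)) := by
    refine (hi y).norm.congr (Filter.Eventually.of_forall fun x => ?_)
    simp only [Real.norm_eq_abs]
    rw [abs_mul, abs_of_nonneg (show 0 ≤ 1 / dist x y by (clear * -; positivity))]
  calc ∫ x, |f x * h x| * (1 / dist x y) ≤ ∫ x, C * (Real.exp (-(1 * ‖x‖)) / dist x y) :=
        integral_mono hi' ((hB y).1.const_mul C) fun x => hb x y
    _ = C * ∫ x, Real.exp (-(1 * ‖x‖)) / dist x y := integral_const_mul _ _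
    _ ≤ C * B := mul_le_mul_of_nonneg_left (hB y).2 hC0

/-- families of test functions -/
structure TF {A : Type} (g : A → R3 → ℝ) : Prop where
  smooth : ∀ a, ContDiff ℝ (⊤ : ℕ∞) (g a)
  compact : ∀ a, HasCompactSupport (g a)

section

variable {N : ℕ} {A : Type} [Fintype A] [DecidableEq A] {g : A → R3 → ℝ}

theorem TF.cont (hg : TF g) (a : A) : Continuous (g a) := (hg.smooth a).continuous

theorem TF.cont_d (hg : TF g) (e : R3) (a : A) : Continuous (fun y => fderiv ℝ (g a) y e) :=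
  ((hg.smooth a).continuous_fderiv (by simp)).clm_apply continuous_const

theorem TF.compact_d (hg : TF g) (e : R3) (a : A) :
    HasCompactSupport (fun y => fderiv ℝ (g a) y e) :=
  ((hg.compact a).fderiv (𝕜 := ℝ)).comp_left (g := fun L : R3 →L[ℝ] ℝ => L e) rfl

theorem TF.ov_int (hg : TF g) (a b : A) : Integrable (fun x => g a x * g b x) :=
  cc_int (hg.cont a) (hg.compact a) (hg.cont b)

/-- overlaps of spin orbitals -/
theorem TF.so_ov (hg : TF g) (p q : A × Fin 2) :
    Integrable (fun y => so g p y * so g q y) μY ∧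
    ∫ y, so g p y * so g q y ∂μY = spin1 (fun a b => ov (g a) (g b)) p q := by
  have h := integral_so_so hg.cont (fun _ => 1) measurable_const p q
    (by simpa only [mul_one] using hg.ov_int p.1 q.1)
  simp only [mul_one] at h
  exact h

theorem TF.so_dd (hg : TF g) (e : R3) (p q : A × Fin 2) :
    Integrable (fun y => so (fun a y => fderiv ℝ (g a) y e) p y *
      so (fun a y => fderiv ℝ (g a) y e) q y) μY ∧
    ∫ y, so (fun a y => fderiv ℝ (g a) y e) p y * so (fun a y => fderiv ℝ (g a) y e) q y ∂μY =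
      spin1 (fun a b => ∫ x, fderiv ℝ (g a) x e * fderiv ℝ (g b) x e) p q := by
  have h := integral_so_so (hg.cont_d e) (fun _ => 1) measurable_const p q
    (by simpa only [mul_one] using cc_int (hg.cont_d e p.1) (hg.compact_d e p.1) (hg.cont_d e q.1))
  simp only [mul_one] at h
  exact h

theorem TF.pot_int (hg : TF g) (a b : A) (y : R3) :
    Integrable (fun x => g a x * g b x * (1 / dist x y)) := by
  obtain ⟨_, _, h⟩ := cc_pot (hg.cont a) (hg.compact a) (hg.cont b)
  exact (h y).1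

theorem TF.so_v (hg : TF g) (v : R3 → ℝ) (hv : Measurable v)
    (hi : ∀ a b, Integrable (fun x => g a x * g b x * v x)) (p q : A × Fin 2) :
    Integrable (fun y => so g p y * so g q y * v y.1) μY ∧
    ∫ y, so g p y * so g q y * v y.1 ∂μY = spin1 (fun a b => ∫ x, g a x * g b x * v x) p q :=
  integral_so_so hg.cont v hv p q (hi _ _)

theorem TF.measurable_nuc (hg : TF g) (a b : A) : Measurable (fun y => nuc y (g a) (g b)) := by
  unfold nuc
  have h : StronglyMeasurable (Function.uncurry fun (y x : R3) => g a x * g b x / dist x y) := by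
    refine Measurable.stronglyMeasurable ?_
    exact (((hg.cont a).measurable.comp measurable_snd).mul
      ((hg.cont b).measurable.comp measurable_snd)).div (Continuous.measurable (by fun_prop))
  exact h.integral_prod_right.measurable

theorem TF.nuc_int (hg : TF g) (a b a' b' : A) :
    Integrable (fun y => g a' y * g b' y * nuc y (g a) (g b)) := by
  obtain ⟨B, hB0, hB⟩ := cc_pot (hg.cont a) (hg.compact a) (hg.cont b)
  have hb : ∀ y, ‖nuc y (g a) (g b)‖ ≤ B := by
    intro y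
    unfold nuc
    refine (norm_integral_le_integral_norm _).trans (le_trans (le_of_eq ?_) (hB y).2)
    refine integral_congr_ae (Filter.Eventually.of_forall fun x => ?_)
    simp only [Real.norm_eq_abs]
    rw [abs_div, abs_of_nonneg (show 0 ≤ dist x y from dist_nonneg)]
    ring
  exact (hg.ov_int a' b').mul_bdd (hg.measurable_nuc a b).aestronglyMeasurable
    (Filter.Eventually.of_forall hb)

/-- two-body kernel -/
noncomputable def kk (z y : YS) : ℝ := 1 / dist z.1 y.1

theorem kk_meas : Measurable (fun p : YS × YS => kk p.1 p.2) := by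
  unfold kk
  have : Continuous (fun p : YS × YS => dist p.1.1 p.2.1) := by (clear * -; fun_prop)
  exact measurable_const.div this.measurable

omit [Fintype A] in
theorem so_abs (g : A → R3 → ℝ) (p : A × Fin 2) (y : YS) :
    |so g p y| = so (fun a x => |g a x|) p y := by
  unfold so
  split_ifs <;> simp only [abs_zero]

theorem TF.kk_int (hg : TF g) (p a q b : A × Fin 2) :
    Integrable (fun y : YS × YS => (so g p y.1 * so g a y.1) * (so g q y.2 * so g b y.2) *
      kk y.1 y.2) (μY.prod μY) := by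
  have hm : Measurable (fun y : YS × YS => (so g p y.1 * so g a y.1) *
      (so g q y.2 * so g b y.2) * kk y.1 y.2) :=
    ((((so_measurable hg.cont p).comp measurable_fst).mul
      ((so_measurable hg.cont a).comp measurable_fst)).mul
      (((so_measurable hg.cont q).comp measurable_snd).mul
      ((so_measurable hg.cont b).comp measurable_snd))).mul kk_meas
  obtain ⟨B, hB0, hB⟩ := cc_pot (hg.cont q.1) (hg.compact q.1) (hg.cont b.1)
  have hv : ∀ y : R3, Measurable (fun x : R3 => 1 / dist x y) := fun y =>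
    measurable_const.div (by fun_prop)
  have hin : ∀ z : R3, Integrable (fun y : YS => so g q y * so g b y * (1 / dist y.1 z)) μY :=
    fun z => (hg.so_v _ (hv z) (fun a b => hg.pot_int a b z) q b).1
  rw [integrable_prod_iff hm.aestronglyMeasurable]
  constructor
  · refine Filter.Eventually.of_forall fun y => ?_
    have := (hin y.1).const_mul (so g p y * so g a y)
    refine this.congr (Filter.Eventually.of_forall fun z => ?_)
    simp only [kk]
    rw [dist_comm]
    ring
  · have hle : ∀ y : YS, ‖∫ z, ‖(so g p y * so g a y) * (so g q z * so g b z) * kk y z‖ ∂μY‖ ≤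
        B * ‖so g p y * so g a y‖ := by
      intro y
      have e1 : ∀ z : YS, ‖(so g p y * so g a y) * (so g q z * so g b z) * kk y z‖ =
          ‖so g p y * so g a y‖ *
            (so (fun a x => |g a x|) q z * so (fun a x => |g a x|) b z * (1 / dist z.1 y.1)) := by
        intro z
        rw [norm_mul, norm_mul, ← so_abs, ← so_abs, ← abs_mul]
        unfold kk
        rw [Real.norm_eq_abs (1 / dist y.1 z.1), abs_of_nonneg (by (clear * -; positivity)), dist_comm,
          Real.norm_eq_abs (so g q z * so g b z)]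
        ring
      simp only [e1, integral_const_mul]
      have h2 := integral_so_so (χ := fun a x => |g a x|) (fun a => (hg.cont a).abs)
        (fun x => 1 / dist x y.1) (hv y.1) q b (by
          refine ((hB y.1).1).norm.congr (Filter.Eventually.of_forall fun x => ?_)
          simp only [Real.norm_eq_abs]
          rw [abs_mul, abs_mul, abs_of_nonneg (show 0 ≤ 1 / dist x y.1 by (clear * -; positivity))])
      rw [h2.2]
      have h3 : 0 ≤ ∫ x, |g q.1 x| * |g b.1 x| * (1 / dist x y.1) :=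
        integral_nonneg fun x => by (clear * -; positivity)
      have h4 : ∫ x, |g q.1 x| * |g b.1 x| * (1 / dist x y.1) ≤ B := by
        have := (hB y.1).2
        simpa only [abs_mul] using this
      rw [norm_mul, norm_norm, mul_comm B]
      refine mul_le_mul_of_nonneg_left ?_ (norm_nonneg _)
      split_ifs
      · rw [Real.norm_eq_abs, abs_of_nonneg h3]
        exact h4
      · rw [norm_zero]
        exact hB0
    have h5 := ((hg.so_ov p a).1.norm.const_mul B)
    refine h5.mono' ?_ (Filter.Eventually.of_forall hle)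
    exact (hm.norm.stronglyMeasurable.integral_prod_right' (ν := μY)).aestronglyMeasurable

/-- Coulomb integrals of spin orbitals -/
theorem TF.kk_eq (hg : TF g) (p a q b : A × Fin 2) :
    ∫ y, (∫ z, so g p z * so g a z * kk z y ∂μY) * (so g q y * so g b y) ∂μY =
      spin2 (coulM g) p a q b := by
  have hv : ∀ y : R3, Measurable (fun x : R3 => 1 / dist x y) := fun y =>
    measurable_const.div (by fun_prop)
  have h1 : ∀ y : YS, ∫ z, so g p z * so g a z * kk z y ∂μY =
      if p.2 = a.2 then nuc y.1 (g p.1) (g a.1) else 0 := by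
    intro y
    have := (integral_so_so hg.cont (fun x => 1 / dist x y.1) (hv y.1) p a
      (hg.pot_int _ _ _)).2
    refine this.trans ?_
    unfold nuc
    simp only [mul_one_div]
  simp only [h1]
  unfold spin2 coulM coul
  by_cases hpa : p.2 = a.2
  · simp only [hpa, if_true, true_and]
    have h2 := (integral_so_so hg.cont (fun y => nuc y (g p.1) (g a.1)) (hg.measurable_nuc _ _)
      q b (hg.nuc_int _ _ _ _)).2
    have h3 : ∫ y : YS, nuc y.1 (g p.1) (g a.1) * (so g q y * so g b y) ∂μY =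
        ∫ y : YS, so g q y * so g b y * nuc y.1 (g p.1) (g a.1) ∂μY :=
      integral_congr_ae (Filter.Eventually.of_forall fun y => mul_comm _ _)
    rw [h3, h2]
    split_ifs
    · exact integral_congr_ae (Filter.Eventually.of_forall fun y => mul_comm _ _)
    · rfl
  · simp [hpa]

end

end Vale.Agent.P370.NB.U
end

section

/-!
Energy of the trial wave functions: formula in terms of matrices.
-/

namespace Vale.Agent.P370.NB.U

open MeasureTheory Function ComplexConjugate Finset Vale.Agent.P370.Q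

section forms

variable {N : ℕ} {P : Type} [Fintype P] [DecidableEq P]

/-- norm form -/
noncomputable def G0 (S : P → P → ℝ) (c : Tens N P) : ℝ :=
  ∑ I, ∑ J, (conj (c I) * c J).re * ∏ l, S (I l) (J l)

/-- one-body form in slot `i` -/
noncomputable def G1i (S D : P → P → ℝ) (c : Tens N P) (i : Fin N) : ℝ :=
  ∑ I, ∑ J, (conj (c I) * c J).re * ((∏ l ∈ univ.erase i, S (I l) (J l)) * D (I i) (J i))

/-- one-body form -/
noncomputable def G1 (S D : P → P → ℝ) (c : Tens N P) : ℝ := ∑ i, G1i S D c i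

/-- two-body form in slots `i`, `j` -/
noncomputable def G2ij (S : P → P → ℝ) (V : P → P → P → P → ℝ) (c : Tens N P) (i j : Fin N) : ℝ :=
  ∑ I, ∑ J, (conj (c I) * c J).re *
    ((∏ l ∈ (univ.erase i).erase j, S (I l) (J l)) * V (I i) (J i) (I j) (J j))

/-- two-body form -/
noncomputable def G2 (S : P → P → ℝ) (V : P → P → P → P → ℝ) (c : Tens N P) : ℝ :=
  ∑ i, ∑ j ∈ Ioi i, G2ij S V c i j

/-- energy form -/
noncomputable def EF {m : ℕ} (S Dd Dr : P → P → ℝ) (V : P → P → P → P → ℝ)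
    (Dg : Fin m → P → P → ℝ) (lam : ℝ) (w : Fin m → ℝ) (c : Tens N P) : ℝ :=
  1 / 2 * G1 S Dd c + (-G1 S Dr c + lam * (G2 S V c + ∑ b, w b * G1 S (Dg b) c))

theorem G0_delta (c : Tens N P) : G0 (fun p q => if p = q then 1 else 0) c = nsq c := by
  unfold G0 nsq
  refine Finset.sum_congr rfl fun I _ => ?_
  have h1 : ∀ J : Fin N → P, (∏ l, (if I l = J l then (1 : ℝ) else 0)) =
      if I = J then 1 else 0 := by
    intro J
    split_ifs with h
    · subst h
      simp only [↓reduceIte, prod_const_one]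
    · obtain ⟨l, hl⟩ := Function.ne_iff.1 h
      exact Finset.prod_eq_zero (Finset.mem_univ l) (if_neg hl)
  simp only [h1, mul_ite, mul_one, mul_zero]
  rw [Finset.sum_ite_eq, if_pos (Finset.mem_univ I), Complex.conj_mul']
  exact_mod_cast Complex.ofReal_re _

theorem G1_delta (D : P → P → ℝ) (c : Tens N P) :
    G1 (fun p q => if p = q then 1 else 0) D c = oneE D c := by
  unfold G1 G1i oneE
  rw [Finset.sum_comm, Complex.re_sum]
  refine Finset.sum_congr rfl fun I _ => ?_
  rw [Complex.re_sum]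
  refine Finset.sum_congr rfl fun i _ => ?_
  have h := sum_delta_one (fun J => (conj (c I) * c J).re * D (I i) (J i)) I i
  rw [Complex.re_sum]
  have h2 : ∀ J : Fin N → P, (conj (c I) * c J).re *
      ((∏ l ∈ univ.erase i, (if I l = J l then (1 : ℝ) else 0)) * D (I i) (J i)) =
      (∏ l ∈ univ.erase i, (if I l = J l then (1 : ℝ) else 0)) *
        ((conj (c I) * c J).re * D (I i) (J i)) := fun J => by ring
  simp only [h2]
  rw [h]
  refine Finset.sum_congr rfl fun a _ => ?_
  rw [update_self, Complex.re_ofReal_mul, mul_comm]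

theorem G2_delta (V : P → P → P → P → ℝ) (c : Tens N P) :
    G2 (fun p q => if p = q then 1 else 0) V c = twoE V c := by
  unfold G2 G2ij twoE
  rw [Complex.re_sum]
  have h0 : ∀ i : Fin N, (∑ j ∈ Ioi i, ∑ I, ∑ J, (conj (c I) * c J).re *
      ((∏ l ∈ (univ.erase i).erase j, (if I l = J l then (1 : ℝ) else 0)) *
        V (I i) (J i) (I j) (J j))) = ∑ I, ∑ j ∈ Ioi i, ∑ J, (conj (c I) * c J).re *
      ((∏ l ∈ (univ.erase i).erase j, (if I l = J l then (1 : ℝ) else 0)) *
        V (I i) (J i) (I j) (J j)) := fun i => Finset.sum_comm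
  simp only [h0]
  rw [Finset.sum_comm]
  refine Finset.sum_congr rfl fun I _ => ?_
  rw [Complex.re_sum]
  refine Finset.sum_congr rfl fun i _ => ?_
  rw [Complex.re_sum]
  refine Finset.sum_congr rfl fun j hj => ?_
  have hij : i ≠ j := (Finset.mem_Ioi.1 hj).ne
  have h := sum_delta_two (fun J => (conj (c I) * c J).re * V (I i) (J i) (I j) (J j)) I hij
  have h2 : ∀ J : Fin N → P, (conj (c I) * c J).re *
      ((∏ l ∈ (univ.erase i).erase j, (if I l = J l then (1 : ℝ) else 0)) *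
        V (I i) (J i) (I j) (J j)) =
      (∏ l ∈ (univ.erase i).erase j, (if I l = J l then (1 : ℝ) else 0)) *
        ((conj (c I) * c J).re * V (I i) (J i) (I j) (J j)) := fun J => by ring
  simp only [h2]
  rw [h, Complex.re_sum]
  refine Finset.sum_congr rfl fun a _ => ?_
  rw [Complex.re_sum]
  refine Finset.sum_congr rfl fun b _ => ?_
  rw [update_self, update_of_ne hij, update_self, Complex.re_ofReal_mul, mul_comm]

theorem re_smul_smul (r : ℝ) (a b : ℂ) :
    (conj ((r : ℂ) * a) * ((r : ℂ) * b)).re = r ^ 2 * (conj a * b).re := by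
  rw [map_mul, Complex.conj_ofReal]
  have : (r : ℂ) * conj a * ((r : ℂ) * b) = ((r ^ 2 : ℝ) : ℂ) * (conj a * b) := by
    push_cast
    ring
  rw [this, Complex.re_ofReal_mul]

theorem G0_smul (S : P → P → ℝ) (r : ℝ) (c : Tens N P) :
    G0 S (fun I => (r : ℂ) * c I) = r ^ 2 * G0 S c := by
  unfold G0
  simp only [re_smul_smul, mul_assoc, Finset.mul_sum]

theorem G1_smul (S D : P → P → ℝ) (r : ℝ) (c : Tens N P) :
    G1 S D (fun I => (r : ℂ) * c I) = r ^ 2 * G1 S D c := by
  unfold G1 G1i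
  simp only [re_smul_smul, mul_assoc, mul_sum]

theorem G2_smul (S : P → P → ℝ) (V : P → P → P → P → ℝ) (r : ℝ) (c : Tens N P) :
    G2 S V (fun I => (r : ℂ) * c I) = r ^ 2 * G2 S V c := by
  unfold G2 G2ij
  simp only [re_smul_smul, mul_assoc, Finset.mul_sum]

theorem EF_smul {m : ℕ} (S Dd Dr : P → P → ℝ) (V : P → P → P → P → ℝ)
    (Dg : Fin m → P → P → ℝ) (lam : ℝ) (w : Fin m → ℝ) (r : ℝ) (c : Tens N P) :
    EF S Dd Dr V Dg lam w (fun I => (r : ℂ) * c I) = r ^ 2 * EF S Dd Dr V Dg lam w c := by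
  unfold EF
  simp only [G1_smul, G2_smul]
  have : ∑ b, w b * (r ^ 2 * G1 S (Dg b) c) = r ^ 2 * ∑ b, w b * G1 S (Dg b) c := by
    rw [Finset.mul_sum]
    exact Finset.sum_congr rfl fun b _ => by ring
  rw [this]
  ring

open Filter Topology in
theorem G0_tendsto {S : ℕ → P → P → ℝ} {S' : P → P → ℝ}
    (hS : ∀ p q, Tendsto (fun j => S j p q) atTop (𝓝 (S' p q))) (c : Tens N P) :
    Tendsto (fun j => G0 (S j) c) atTop (𝓝 (G0 S' c)) := by
  unfold G0
  exact tendsto_finsetSum _ fun I _ => tendsto_finsetSum _ fun J _ =>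
    (tendsto_finsetProd _ fun l _ => hS _ _).const_mul _

open Filter Topology in
theorem G1_tendsto {S D : ℕ → P → P → ℝ} {S' D' : P → P → ℝ}
    (hS : ∀ p q, Tendsto (fun j => S j p q) atTop (𝓝 (S' p q)))
    (hD : ∀ p q, Tendsto (fun j => D j p q) atTop (𝓝 (D' p q))) (c : Tens N P) :
    Tendsto (fun j => G1 (S j) (D j) c) atTop (𝓝 (G1 S' D' c)) := by
  unfold G1 G1i
  exact tendsto_finsetSum _ fun i _ => tendsto_finsetSum _ fun I _ =>
    tendsto_finsetSum _ fun J _ =>
    ((tendsto_finsetProd _ fun l _ => hS _ _).mul (hD _ _)).const_mul _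

open Filter Topology in
theorem G2_tendsto {S : ℕ → P → P → ℝ} {S' : P → P → ℝ} {V : ℕ → P → P → P → P → ℝ}
    {V' : P → P → P → P → ℝ}
    (hS : ∀ p q, Tendsto (fun j => S j p q) atTop (𝓝 (S' p q)))
    (hV : ∀ p a q b, Tendsto (fun j => V j p a q b) atTop (𝓝 (V' p a q b))) (c : Tens N P) :
    Tendsto (fun j => G2 (S j) (V j) c) atTop (𝓝 (G2 S' V' c)) := by
  unfold G2 G2ij
  exact tendsto_finsetSum _ fun i _ => tendsto_finsetSum _ fun j _ =>
    tendsto_finsetSum _ fun I _ => tendsto_finsetSum _ fun J _ =>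
    ((tendsto_finsetProd _ fun l _ => hS _ _).mul (hV _ _ _ _)).const_mul _

end forms

section energy

variable {N : ℕ} {A : Type} [Fintype A] [DecidableEq A] {g : A → R3 → ℝ}

theorem TF.normSq_eq (hg : TF g) (c : Tens N (A × Fin 2)) :
    normSq (tw g c) = G0 (spin1 (fun a b => ov (g a) (g b))) c := by
  have h := integral_lc_zero (N := N) μY (Θ := fun _ => so g) (fun _ p q => (hg.so_ov p q).1) c
  have h2 := integral_pow (F := fun w => ‖lc (fun _ => so g) c w‖ ^ 2) h.1
  unfold normSq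
  have h3 : ∀ s : Fin N → Fin 2, (∫ x, ‖tw g c x s‖ ^ 2) =
      ∫ x, ‖lc (fun _ => so g) c (jn x s)‖ ^ 2 := fun s => rfl
  simp only [h3]
  rw [← h2, h.2]
  unfold G0
  simp only [(hg.so_ov _ _).2]

theorem TF.kinetic_eq (hg : TF g) (c : Tens N (A × Fin 2)) :
    kinetic (tw g c) = 1 / 2 * G1 (spin1 (fun a b => ov (g a) (g b)))
      (spin1 (fun a b => dir (g a) (g b))) c := by
  unfold kinetic
  congr 1
  have hk : ∀ (i : Fin N) (k : Fin 3), ∑ s : Fin N → Fin 2, ∫ x, ‖fderiv ℝ (fun y => tw g c y s) x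
      (Pi.single i (EuclideanSpace.single k 1))‖ ^ 2 =
      G1i (spin1 (fun a b => ov (g a) (g b)))
        (spin1 (fun a b => ∫ x, pd k (g a) x * pd k (g b) x)) c i := by
    intro i k
    set e : R3 := EuclideanSpace.single k 1 with he
    have hΘ : ∀ (l : Fin N) (p q : A × Fin 2),
        Integrable (fun y => dΘ g e i l p y * dΘ g e i l q y) μY := by
      intro l p q
      unfold dΘ
      by_cases h : l = i
      · simp only [h, if_true]
        exact (hg.so_dd e p q).1
      · simp only [h, if_false]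
        exact (hg.so_ov p q).1
    have h := integral_lc_zero (N := N) μY hΘ c
    have h2 := integral_pow (F := fun w => ‖lc (dΘ g e i) c w‖ ^ 2) h.1
    simp only [tw_fderiv hg.smooth]
    rw [← h2, h.2]
    unfold G1i
    refine Finset.sum_congr rfl fun I _ => Finset.sum_congr rfl fun J _ => ?_
    congr 1
    rw [← Finset.mul_prod_erase univ _ (Finset.mem_univ i), mul_comm]
    congr 1
    · refine Finset.prod_congr rfl fun l hl => ?_
      have : l ≠ i := Finset.ne_of_mem_erase hl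
      simp only [dΘ, this, if_false]
      exact (hg.so_ov _ _).2
    · simp only [dΘ, if_true]
      exact (hg.so_dd e _ _).2
  have h1 : ∑ s : Fin N → Fin 2, ∑ i, ∑ k : Fin 3, ∫ x, ‖fderiv ℝ (fun y => tw g c y s) x
      (Pi.single i (EuclideanSpace.single k 1))‖ ^ 2 = ∑ i : Fin N, ∑ k : Fin 3,
      ∑ s : Fin N → Fin 2, ∫ x, ‖fderiv ℝ (fun y => tw g c y s) x
      (Pi.single i (EuclideanSpace.single k 1))‖ ^ 2 := by
    rw [Finset.sum_comm]
    refine Finset.sum_congr rfl fun i _ => ?_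
    rw [Finset.sum_comm]
  rw [h1]
  unfold G1
  refine Finset.sum_congr rfl fun i _ => ?_
  simp only [hk]
  unfold G1i
  rw [Finset.sum_comm]
  refine Finset.sum_congr rfl fun I _ => ?_
  rw [Finset.sum_comm]
  refine Finset.sum_congr rfl fun J _ => ?_
  rw [← Finset.mul_sum, ← Finset.mul_sum]
  congr 2
  unfold spin1 dir
  by_cases h : (I i).2 = (J i).2
  · simp only [h, if_true]
    rw [integral_finsetSum]
    intro k _
    exact cc_int (hg.cont_d _ _) (hg.compact_d _ _) (hg.cont_d _ _)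
  · simp [h]

/-- normal Gaussian type weight: an integrable function of integral one -/
theorem exists_weight : ∃ h : YS → ℝ, Measurable h ∧ Integrable h μY ∧ ∫ y, h y ∂μY = 1 := by
  have h1 : Integrable (fun y : YS => Real.exp (-(1 * ‖y.1‖))) μY :=
    integrable_Y (fun σ => by fun_prop) fun σ => ao_int_exp one_pos
  have h2 : 0 < ∫ y : YS, Real.exp (-(1 * ‖y.1‖)) ∂μY := by
    rw [integral_Y h1]
    refine Finset.sum_pos (fun σ _ => ?_) ⟨0, Finset.mem_univ _⟩
    exact integral_exp_pos (ao_int_exp one_pos)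
  refine ⟨fun y => (∫ y : YS, Real.exp (-(1 * ‖y.1‖)) ∂μY)⁻¹ * Real.exp (-(1 * ‖y.1‖)),
    by fun_prop, h1.const_mul _, ?_⟩
  rw [integral_const_mul]
  exact inv_mul_cancel₀ h2.ne'

theorem TF.one_eq (hg : TF g) (c : Tens N (A × Fin 2)) (v : R3 → ℝ) (hv : Measurable v)
    (hi : ∀ a b, Integrable (fun x => g a x * g b x * v x)) (i : Fin N) :
    Integrable (fun w => ‖lc (fun _ => so g) c w‖ ^ 2 * v (w i).1) (pm (Fin N) μY) ∧
    ∫ w, ‖lc (fun _ => so g) c w‖ ^ 2 * v (w i).1 ∂(pm (Fin N) μY) =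
      G1i (spin1 (fun a b => ov (g a) (g b))) (spin1 (fun a b => ∫ x, g a x * g b x * v x)) c i := by
  have h := integral_lc_one (N := N) μY (fun p q => (hg.so_ov p q).1) c i
    (v := fun y => v y.1) (fun p q => (hg.so_v v hv hi p q).1)
  refine ⟨h.1, h.2.trans ?_⟩
  unfold G1i
  simp only [(hg.so_ov _ _).2, (hg.so_v v hv hi _ _).2]

theorem TF.two_eq (hg : TF g) (c : Tens N (A × Fin 2)) {i j : Fin N} (hij : i ≠ j) :
    Integrable (fun w => ‖lc (fun _ => so g) c w‖ ^ 2 * kk (w i) (w j)) (pm (Fin N) μY) ∧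
    ∫ w, ‖lc (fun _ => so g) c w‖ ^ 2 * kk (w i) (w j) ∂(pm (Fin N) μY) =
      G2ij (spin1 (fun a b => ov (g a) (g b))) (spin2 (coulM g)) c i j := by
  obtain ⟨h, hm, hi, h1⟩ := exists_weight
  have h := integral_lc_two (N := N) μY (so_measurable hg.cont) (fun p q => (hg.so_ov p q).1) c
    hij kk_meas hg.kk_int hm hi h1
  refine ⟨h.1, h.2.trans ?_⟩
  unfold G2ij
  simp only [(hg.so_ov _ _).2, hg.kk_eq]

theorem TF.rinv_int (hg : TF g) (a b : A) : Integrable (fun x => g a x * g b x * (1 / ‖x‖)) := by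
  have := hg.pot_int a b 0
  simpa only [dist_zero_right] using this

theorem TF.gm_int (hg : TF g) (y : R3) (a b : A) :
    Integrable (fun x => g a x * g b x * (1 / ‖x‖ - 1 / dist x y)) := by
  have := (hg.rinv_int a b).sub (hg.pot_int a b y)
  refine this.congr (Filter.Eventually.of_forall fun x => ?_)
  simp only [Pi.sub_apply]
  ring

theorem TF.scaledE_eq {m : ℕ} (hg : TF g) (c : Tens N (A × Fin 2)) (lam : ℝ) (w : Fin m → ℝ)
    (y : Fin m → R3) :
    scaledE lam w y (tw g c) = EF (spin1 (fun a b => ov (g a) (g b)))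
      (spin1 (fun a b => dir (g a) (g b))) (spin1 (fun a b => rinv (g a) (g b)))
      (spin2 (coulM g)) (fun b => spin1 (fun a a' => gm (y b) (g a) (g a'))) lam w c := by
  unfold scaledE EF
  rw [hg.kinetic_eq]
  congr 1
  set F : (Fin N → YS) → ℝ := fun z => ‖lc (fun _ => so g) c z‖ ^ 2 with hF
  have hm1 : Measurable (fun x : R3 => 1 / ‖x‖) := measurable_const.div (by fun_prop)
  have hm2 : ∀ b, Measurable (fun x : R3 => 1 / ‖x‖ - 1 / dist x (y b)) := fun b =>
    hm1.sub (measurable_const.div (by fun_prop))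
  have e1 := fun i => hg.one_eq c (fun x => 1 / ‖x‖) hm1 hg.rinv_int i
  have e2 := fun (b : Fin m) i => hg.one_eq c (fun x => 1 / ‖x‖ - 1 / dist x (y b)) (hm2 b)
    (hg.gm_int (y b)) i
  have e3 := fun (i j : Fin N) (hij : i ≠ j) => hg.two_eq c hij
  have hsum : ∀ z : Fin N → YS, scaledV lam w y (fun i => (z i).1) * F z =
      -(∑ i, F z * (1 / ‖(z i).1‖)) + lam * ((∑ i, ∑ j ∈ Ioi i, F z * kk (z i) (z j)) +
        ∑ b, w b * ∑ i, F z * (1 / ‖(z i).1‖ - 1 / dist (z i).1 (y b))) := by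
    intro z
    unfold scaledV kk
    simp only [← Finset.mul_sum]
    have : ∑ i, ∑ b, w b * (1 / ‖(z i).1‖ - 1 / dist (z i).1 (y b)) =
        ∑ b, w b * ∑ i, (1 / ‖(z i).1‖ - 1 / dist (z i).1 (y b)) := by
      rw [Finset.sum_comm]
      simp only [Finset.mul_sum]
    rw [this]
    have h2 : ∑ b, w b * (F z * ∑ i, (1 / ‖(z i).1‖ - 1 / dist (z i).1 (y b))) =
        F z * ∑ b, w b * ∑ i, (1 / ‖(z i).1‖ - 1 / dist (z i).1 (y b)) := by
      rw [Finset.mul_sum]
      exact Finset.sum_congr rfl fun b _ => by ring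
    rw [h2]
    ring
  have i1 : Integrable (fun z => ∑ i, F z * (1 / ‖(z i).1‖)) (pm (Fin N) μY) :=
    integrable_finsetSum _ fun i _ => (e1 i).1
  have i2 : Integrable (fun z => ∑ i, ∑ j ∈ Ioi i, F z * kk (z i) (z j)) (pm (Fin N) μY) :=
    integrable_finsetSum _ fun i _ => integrable_finsetSum _ fun j hj =>
      (e3 i j (Finset.mem_Ioi.1 hj).ne).1
  have i3 : ∀ b, Integrable (fun z => w b * ∑ i, F z * (1 / ‖(z i).1‖ - 1 / dist (z i).1 (y b)))
      (pm (Fin N) μY) := fun b =>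
    (integrable_finsetSum _ fun i _ => (e2 b i).1).const_mul _
  have i4 : Integrable (fun z => ∑ b, w b * ∑ i, F z * (1 / ‖(z i).1‖ - 1 / dist (z i).1 (y b)))
      (pm (Fin N) μY) := integrable_finsetSum _ fun b _ => i3 b
  have iall : Integrable (fun z => scaledV lam w y (fun i => (z i).1) * F z) (pm (Fin N) μY) := by
    simp only [hsum]
    exact i1.neg.add ((i2.add i4).const_mul lam)
  have hpow := integral_pow iall
  have hL : ∑ s, ∫ x, scaledV lam w y x * ‖tw g c x s‖ ^ 2 =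
      ∫ z, scaledV lam w y (fun i => (z i).1) * F z ∂(pm (Fin N) μY) := by
    rw [hpow]
    rfl
  rw [hL]
  simp only [hsum]
  have i5 : Integrable (fun z => (∑ i, ∑ j ∈ Ioi i, F z * kk (z i) (z j)) +
      ∑ b, w b * ∑ i, F z * (1 / ‖(z i).1‖ - 1 / dist (z i).1 (y b))) (pm (Fin N) μY) := i2.add i4
  rw [integral_add i1.fun_neg (i5.const_mul lam), integral_neg, integral_const_mul,
    integral_add i2 i4, integral_finsetSum _ fun i _ => (e1 i).1,
    integral_finsetSum _ fun i _ => integrable_finsetSum _ fun j hj =>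
      (e3 i j (Finset.mem_Ioi.1 hj).ne).1,
    integral_finsetSum _ fun b _ => i3 b]
  congr 1
  · unfold G1
    congr 1
    refine Finset.sum_congr rfl fun i _ => ?_
    rw [(e1 i).2]
    unfold rinv
    simp only [mul_one_div]
  · congr 2
    · unfold G2
      refine Finset.sum_congr rfl fun i _ => ?_
      rw [integral_finsetSum _ fun j hj => (e3 i j (Finset.mem_Ioi.1 hj).ne).1]
      exact Finset.sum_congr rfl fun j hj => (e3 i j (Finset.mem_Ioi.1 hj).ne).2
    · refine Finset.sum_congr rfl fun b _ => ?_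
      rw [integral_const_mul, integral_finsetSum _ fun i _ => (e2 b i).1]
      unfold G1 gm
      congr 1
      exact Finset.sum_congr rfl fun i _ => (e2 b i).2

end energy

end Vale.Agent.P370.NB.U
end
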