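import Vale.Agent.P370.MathlibUsed
import Vale.Agent.P370.Bdl.B8
import Vale.Agent.P370.Bdl.B2
import Vale.Agent.P370.Bdl.B6
import Vale.Agent.P370.Bdl.B3
import Vale.Agent.P370.Bdl.B1
import Vale.Agent.P370.Bdl.B4

set_option linter.all false

section

set_option exponentiation.threshold 10000

namespace Vale.Agent.P370.Red

open Chains Finset

/-! ### integer approximations -/

theorem isq_bounds {Q m : ℕ} (hQ : 1 ≤ Q) (hm : 1 ≤ m) :
    (isq Q m : ℝ) / Q ≤ 1 / √(m : ℝ) ∧ 1 / √(m : ℝ) ≤ (isq Q m : ℝ) / Q + 1 / Q := by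
  have hQ0 : (0 : ℝ) < Q := by exact_mod_cast hQ
  have hm0 : (0 : ℝ) < m := by exact_mod_cast hm
  have hs0 : 0 < √(m : ℝ) := Real.sqrt_pos.mpr hm0
  have hss : √(m : ℝ) ^ 2 = m := Real.sq_sqrt hm0.le
  constructor
  · rw [div_le_div_iff₀ hQ0 hs0, one_mul]
    have h1 : isq Q m ^ 2 * m ≤ Q ^ 2 := by
      have h2 : isq Q m ^ 2 ≤ Q ^ 2 / m := by
        unfold isq; exact Nat.sqrt_le' _
      calc isq Q m ^ 2 * m ≤ Q ^ 2 / m * m := Nat.mul_le_mul_right _ h2
        _ ≤ Q ^ 2 := Nat.div_mul_le_self _ _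
    have h3 : ((isq Q m : ℝ) * √(m : ℝ)) ^ 2 ≤ (Q : ℝ) ^ 2 := by
      rw [mul_pow, hss]; exact_mod_cast h1
    exact le_of_sq_le_sq h3 hQ0.le
  · rw [← add_div, div_le_div_iff₀ hs0 hQ0, one_mul]
    have h1 : Q ^ 2 < (isq Q m + 1) ^ 2 * m := by
      have h2 : Q ^ 2 / m < (isq Q m + 1) ^ 2 := by
        unfold isq; exact Nat.lt_succ_sqrt' _
      exact (Nat.div_lt_iff_lt_mul hm).mp h2
    have h3 : (Q : ℝ) ^ 2 ≤ (((isq Q m : ℝ) + 1) * √(m : ℝ)) ^ 2 := by
      rw [mul_pow, hss]; exact_mod_cast h1.le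
    exact le_of_sq_le_sq h3 (by positivity)
where
  le_of_sq_le_sq {a b : ℝ} (h : a ^ 2 ≤ b ^ 2) (hb : 0 ≤ b) : a ≤ b :=
    le_of_not_gt (fun hlt => by nlinarith only [h, hb, hlt])

theorem cast_sq2 (a b : ℕ) : ((sq2 a b : ℕ) : ℝ) = ((a : ℝ) - b) ^ 2 := by
  unfold sq2
  rcases le_total a b with h | h
  · rw [Nat.sub_eq_zero_of_le h]
    push_cast [Nat.cast_sub h]; ring
  · rw [Nat.sub_eq_zero_of_le h]
    push_cast [Nat.cast_sub h]; ring

theorem tri_sum (L : ℕ) (f : ℕ → ℕ → ℝ) (hs : ∀ m m', f m m' = f m' m)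
    (h0 : ∀ m, f m m = 0) :
    ∑ m ∈ range L, ∑ m' ∈ range L, f m m' = 2 * ∑ m ∈ range L, ∑ m' ∈ range m, f m m' := by
  induction L with
  | zero => simp
  | succ L ih =>
    rw [sum_range_succ, sum_range_succ (fun m => ∑ m' ∈ range m, f m m')]
    simp only [sum_range_succ, sum_add_distrib]
    rw [ih, h0]
    have : ∑ x ∈ range L, f x L = ∑ x ∈ range L, f L x :=
      sum_congr rfl (fun x _ => hs x L)
    rw [this]
    ring

variable {w : List Bool} {B : ℕ}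

theorem Wp_eq (a b : Site (nn w) B) :
    Wp (Am w) a b = 1 / √((dP w (nn w) B (eqS _ _ a).val (eqS _ _ b).val : ℕ) : ℝ) := by
  unfold Wp dP
  rw [fX_eq, fX_eq, fY_eq, fY_eq, fH_eq, fH_eq]
  push_cast
  rw [cast_sq2, cast_sq2, cast_sq2]

theorem Wm_eq (a b : Site (nn w) B) :
    Wm (Am w) a b = 1 / √((dM w (nn w) B (eqS _ _ a).val (eqS _ _ b).val : ℕ) : ℝ) := by
  unfold Wm dM
  rw [fX_eq, fX_eq, fY_eq, fY_eq, fH_eq, fH_eq]
  push_cast
  rw [cast_sq2, cast_sq2]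

theorem sum_site (n B : ℕ) (g : ℕ → ℝ) :
    ∑ a : Site n B, g (eqS n B a).val = ∑ t ∈ range (NT n B), g t := by
  rw [Equiv.sum_comp (eqS n B) (fun t => g t.val)]
  exact Fin.sum_univ_eq_sum_range g _

theorem sum_site2 (n B : ℕ) (g : ℕ → ℕ → ℝ) :
    ∑ a : Site n B, ∑ b : Site n B, g (eqS n B a).val (eqS n B b).val =
      ∑ t ∈ range (NT n B), ∑ t' ∈ range (NT n B), g t t' := by
  rw [← sum_site n B (fun t => ∑ t' ∈ range (NT n B), g t t')]
  exact sum_congr rfl (fun a _ => sum_site n B (fun t' => g (eqS n B a).val t'))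

theorem sq2_comm (a b : ℕ) : sq2 a b = sq2 b a := by unfold sq2; ring

theorem dP_comm (n t t' : ℕ) : dP w n B t t' = dP w n B t' t := by
  unfold dP; rw [sq2_comm, sq2_comm (fY n B t), sq2_comm (fH w n B t)]

theorem dM_comm (n t t' : ℕ) : dM w n B t t' = dM w n B t' t := by
  unfold dM; rw [sq2_comm, sq2_comm (fY n B t), add_comm (fH w n B t)]

theorem slf_cst_eq :
    slf (nn w) B (Am w) + 4 * cst (nn w) B (Am w) =
      ∑ t ∈ range (NT (nn w) B), (1 / √(((2 * fH w (nn w) B t) ^ 2 : ℕ) : ℝ) +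
        ∑ t' ∈ range t, 2 * (1 / √((dP w (nn w) B t t' : ℕ) : ℝ) +
          1 / √((dM w (nn w) B t t' : ℕ) : ℝ))) := by
  rw [sum_add_distrib]
  congr 1
  · unfold slf
    rw [← sum_site (nn w) B (fun t => 1 / √(((2 * fH w (nn w) B t) ^ 2 : ℕ) : ℝ))]
    refine sum_congr rfl (fun a _ => ?_)
    rw [fH_eq]
    push_cast
    rw [Real.sqrt_sq (by positivity)]
  · unfold cst
    have h1 : (∑ a : Site (nn w) B, ∑ b : Site (nn w) B,
        if a = b then (0 : ℝ) else (Wp (Am w) a b + Wm (Am w) a b) / 2) =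
        ∑ t ∈ range (NT (nn w) B), ∑ t' ∈ range (NT (nn w) B),
          (if t = t' then (0 : ℝ) else
            (1 / √((dP w (nn w) B t t' : ℕ) : ℝ) + 1 / √((dM w (nn w) B t t' : ℕ) : ℝ)) / 2) := by
      rw [← sum_site2 (nn w) B (fun t t' : ℕ => if t = t' then (0 : ℝ) else
            (1 / √((dP w (nn w) B t t' : ℕ) : ℝ) + 1 / √((dM w (nn w) B t t' : ℕ) : ℝ)) / 2)]
      refine sum_congr rfl (fun a _ => sum_congr rfl (fun b _ => ?_))
      rw [Wp_eq, Wm_eq]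
      by_cases hab : a = b
      · subst hab; simp
      · have : ¬ (eqS _ _ a).val = (eqS _ _ b).val := fun h =>
          hab ((eqS _ _).injective (Fin.ext h))
        simp only [hab, if_false, this]
    rw [h1, tri_sum]
    · rw [← mul_assoc, ← mul_assoc, mul_sum]
      refine sum_congr rfl (fun t _ => ?_)
      rw [mul_sum]
      refine sum_congr rfl (fun t' ht' => ?_)
      rw [mem_range] at ht'
      rw [if_neg (by omega)]
      ring
    · intro m m'
      rw [dP_comm, dM_comm]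
      by_cases h : m = m'
      · subst h; rfl
      · rw [if_neg h, if_neg (fun h' => h h'.symm)]
    · intro m; simp

theorem sg_mul {n B : ℕ} (a b : Site n B) :
    sg a * sg b = if fP n B (eqS n B a).val = fP n B (eqS n B b).val then (1 : ℝ) else -1 := by
  rw [fP_eq, fP_eq]
  have h1 : fP n B (eqS n B a).val < 2 := fP_lt
  have h2 : fP n B (eqS n B b).val < 2 := fP_lt
  interval_cases fP n B (eqS n B a).val <;> interval_cases fP n B (eqS n B b).val <;> norm_num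

theorem cst_sg_eq :
    cst (nn w) B (Am w) + isingE (Am w) (fun a : Site (nn w) B => sg a) =
      ∑ t ∈ range (NT (nn w) B), ∑ t' ∈ range t,
        1 / √(((if fP (nn w) B t = fP (nn w) B t' then dP w (nn w) B t t' else
          dM w (nn w) B t t' : ℕ)) : ℝ) := by
  unfold cst isingE
  rw [← mul_add, ← sum_add_distrib]
  have h1 : (∑ a : Site (nn w) B, ((∑ b : Site (nn w) B,
        if a = b then (0 : ℝ) else (Wp (Am w) a b + Wm (Am w) a b) / 2) +
        ∑ b : Site (nn w) B, J (Am w) a b * sg a * sg b)) =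
        ∑ t ∈ range (NT (nn w) B), ∑ t' ∈ range (NT (nn w) B),
          (if t = t' then (0 : ℝ) else
            1 / √(((if fP (nn w) B t = fP (nn w) B t' then dP w (nn w) B t t' else
          dM w (nn w) B t t' : ℕ)) : ℝ)) := by
    rw [← sum_site2 (nn w) B (fun t t' : ℕ => if t = t' then (0 : ℝ) else
            1 / √(((if fP (nn w) B t = fP (nn w) B t' then dP w (nn w) B t t' else
          dM w (nn w) B t t' : ℕ)) : ℝ))]
    refine sum_congr rfl (fun a _ => ?_)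
    rw [← sum_add_distrib]
    refine sum_congr rfl (fun b _ => ?_)
    by_cases hab : a = b
    · subst hab; simp [J]
    · have : ¬ (eqS _ _ a).val = (eqS _ _ b).val := fun h =>
        hab ((eqS _ _).injective (Fin.ext h))
      simp only [hab, if_false, this]
      have hJ : J (Am w) a b = (1 / 2) * (Wp (Am w) a b - Wm (Am w) a b) := by
        unfold J Wp Wm
        rw [if_neg hab]
      rw [hJ, mul_assoc, sg_mul, Wp_eq, Wm_eq]
      split_ifs <;> ring
  rw [h1, tri_sum]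
  · rw [← mul_assoc]
    norm_num
    refine sum_congr rfl (fun t _ => ?_)
    refine sum_congr rfl (fun t' ht' => ?_)
    rw [mem_range] at ht'
    rw [if_neg (by omega)]
  · intro m m'
    rw [dP_comm, dM_comm]
    by_cases h : m = m'
    · subst h; rfl
    · have h' : ¬ m' = m := fun h' => h h'.symm
      by_cases h2 : fP (nn w) B m = fP (nn w) B m'
      · simp only [h, h2, if_true, if_false, h']
      · have h3 : ¬ fP (nn w) B m' = fP (nn w) B m := fun h' => h2 h'.symm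
        simp only [h, h', h2, h3, if_false]
  · intro m; simp

end Vale.Agent.P370.Red
end

section

open MeasureTheory Filter Topology

namespace Vale.Agent.P370

theorem ae_distinct (N : ℕ) :
    ∀ᵐ x : Fin N → R3, ∀ i j, i ≠ j → x i ≠ x j := by
  rw [ae_all_iff]
  intro i
  rw [ae_all_iff]
  intro j
  by_cases hij : i = j
  · exact ae_of_all _ fun x h => absurd hij h
  · have h1 : volume (((LinearMap.ker (((ContinuousLinearMap.proj (R := ℝ)
        (φ := fun _ : Fin N => R3) i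
        - ContinuousLinearMap.proj (R := ℝ) (φ := fun _ : Fin N => R3) j) :
          (Fin N → R3) →L[ℝ] R3) : (Fin N → R3) →ₗ[ℝ] R3)) : Submodule ℝ (Fin N → R3)) :
          Set (Fin N → R3)) = 0 := by
      apply Measure.addHaar_submodule
      intro htop
      have h2 : (Pi.single i (EuclideanSpace.single 0 1) : Fin N → R3) ∈
          (⊤ : Submodule ℝ (Fin N → R3)) := Submodule.mem_top
      rw [← htop] at h2
      simp only [LinearMap.mem_ker] at h2
      have h3 : (Pi.single i (EuclideanSpace.single 0 1) : Fin N → R3) i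
          - (Pi.single i (EuclideanSpace.single 0 1) : Fin N → R3) j = 0 := h2
      rw [Pi.single_eq_same, Pi.single_eq_of_ne (Ne.symm hij), sub_zero] at h3
      have h4 := congrArg (fun v : R3 => v 0) h3
      simp at h4
    rw [← compl_mem_ae_iff] at h1
    filter_upwards [h1] with x hx _ hxx
    apply hx
    simp only [SetLike.mem_coe, LinearMap.mem_ker]
    show x i - x j = 0
    rw [hxx, sub_self]

theorem proj_single {N : ℕ} (i : Fin N) (k : Fin 3) :
    (ContinuousLinearMap.proj (R := ℝ) (φ := fun _ : Fin N => R3) i)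
      (Pi.single i (EuclideanSpace.single k 1)) = EuclideanSpace.single k 1 := by
  simp

theorem proj_sub_single {N : ℕ} (i j : Fin N) (hij : i ≠ j) (k : Fin 3) :
    (ContinuousLinearMap.proj (R := ℝ) (φ := fun _ : Fin N => R3) i
      - ContinuousLinearMap.proj (R := ℝ) (φ := fun _ : Fin N => R3) j)
      (Pi.single i (EuclideanSpace.single k 1)) = EuclideanSpace.single k 1 := by
  simp [Pi.single_eq_of_ne (Ne.symm hij)]

theorem integrable_nuc {N : ℕ} (g : (Fin N → R3) → ℂ) (hg : ContDiff ℝ 1 g)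
    (hc : HasCompactSupport g) (i : Fin N) (c : R3) :
    Integrable (fun x => ‖g x‖ ^ 2 / dist (x i) c) := by
  have := coulomb_integrable volume g hg hc
    (ContinuousLinearMap.proj (R := ℝ) (φ := fun _ : Fin N => R3) i)
    (fun k => Pi.single i (EuclideanSpace.single k 1)) (fun k => proj_single i k) c
  simpa only [dist_eq_norm, ContinuousLinearMap.proj_apply] using this

theorem integrable_ee {N : ℕ} (g : (Fin N → R3) → ℂ) (hg : ContDiff ℝ 1 g)
    (hc : HasCompactSupport g) (i j : Fin N) (hij : i ≠ j) :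
    Integrable (fun x => ‖g x‖ ^ 2 / dist (x i) (x j)) := by
  have := coulomb_integrable volume g hg hc
    (ContinuousLinearMap.proj (R := ℝ) (φ := fun _ : Fin N => R3) i
      - ContinuousLinearMap.proj (R := ℝ) (φ := fun _ : Fin N => R3) j)
    (fun k => Pi.single i (EuclideanSpace.single k 1)) (fun k => proj_sub_single i j hij k) 0
  simpa only [dist_eq_norm, sub_apply, ContinuousLinearMap.proj_apply, sub_zero] using this

theorem integrable_coulombV {M N : ℕ} (R : Fin M → R3) (Z : Fin M → ℕ)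
    (g : (Fin N → R3) → ℂ) (hg : ContDiff ℝ 1 g) (hc : HasCompactSupport g) :
    Integrable (fun x => coulombV R Z x * ‖g x‖ ^ 2) ∧
    ∫ x, coulombV R Z x * ‖g x‖ ^ 2 =
      -(∑ i, ∑ α, Z α * ∫ x, ‖g x‖ ^ 2 / dist (x i) (R α))
        + ∑ i, ∑ j ∈ Finset.Ioi i, ∫ x, ‖g x‖ ^ 2 / dist (x i) (x j) := by
  have e : (fun x => coulombV R Z x * ‖g x‖ ^ 2)
      = fun x => -(∑ i, ∑ α, (Z α : ℝ) * (‖g x‖ ^ 2 / dist (x i) (R α)))
        + ∑ i, ∑ j ∈ Finset.Ioi i, ‖g x‖ ^ 2 / dist (x i) (x j) := by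
    ext x
    unfold coulombV
    rw [add_mul, neg_mul, Finset.sum_mul, Finset.sum_mul]
    congr 1
    · congr 1
      apply Finset.sum_congr rfl; intro i _
      rw [Finset.sum_mul]
      apply Finset.sum_congr rfl; intro α _
      ring
    · apply Finset.sum_congr rfl; intro i _
      rw [Finset.sum_mul]
      apply Finset.sum_congr rfl; intro j _
      ring
  have i1 : ∀ (i : Fin N) (α : Fin M),
      Integrable (fun x => (Z α : ℝ) * (‖g x‖ ^ 2 / dist (x i) (R α))) :=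
    fun i α => (integrable_nuc g hg hc i (R α)).const_mul _
  have i1s : ∀ (i : Fin N),
      Integrable (fun x => ∑ α, (Z α : ℝ) * (‖g x‖ ^ 2 / dist (x i) (R α))) :=
    fun i => integrable_finsetSum _ fun α _ => i1 i α
  have i1t : Integrable (fun x => ∑ i, ∑ α, (Z α : ℝ) * (‖g x‖ ^ 2 / dist (x i) (R α))) :=
    integrable_finsetSum _ fun i _ => i1s i
  have i2 : ∀ (i j : Fin N), j ∈ Finset.Ioi i →
      Integrable (fun x => ‖g x‖ ^ 2 / dist (x i) (x j)) :=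
    fun i j hj => integrable_ee g hg hc i j (Finset.mem_Ioi.1 hj).ne
  have i2s : ∀ (i : Fin N),
      Integrable (fun x => ∑ j ∈ Finset.Ioi i, ‖g x‖ ^ 2 / dist (x i) (x j)) :=
    fun i => integrable_finsetSum _ fun j hj => i2 i j hj
  have i2t : Integrable (fun x => ∑ i, ∑ j ∈ Finset.Ioi i, ‖g x‖ ^ 2 / dist (x i) (x j)) :=
    integrable_finsetSum _ fun i _ => i2s i
  rw [e]
  have i1n : Integrable (fun x => -(∑ i, ∑ α, (Z α : ℝ) * (‖g x‖ ^ 2 / dist (x i) (R α)))) :=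
    i1t.neg
  refine ⟨i1n.add i2t, ?_⟩
  rw [integral_add i1n i2t]
  have e1 : ∫ x, -(∑ i, ∑ α, (Z α : ℝ) * (‖g x‖ ^ 2 / dist (x i) (R α)))
      = -(∑ i, ∑ α, Z α * ∫ x, ‖g x‖ ^ 2 / dist (x i) (R α)) := by
    rw [integral_neg, integral_finsetSum _ fun i _ => i1s i]
    congr 1
    apply Finset.sum_congr rfl; intro i _
    rw [integral_finsetSum _ fun α _ => i1 i α]
    apply Finset.sum_congr rfl; intro α _
    rw [integral_const_mul]
  have e2 : ∫ x, ∑ i, ∑ j ∈ Finset.Ioi i, ‖g x‖ ^ 2 / dist (x i) (x j)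
      = ∑ i, ∑ j ∈ Finset.Ioi i, ∫ x, ‖g x‖ ^ 2 / dist (x i) (x j) := by
    rw [integral_finsetSum _ fun i _ => i2s i]
    apply Finset.sum_congr rfl; intro i _
    rw [integral_finsetSum _ fun j hj => i2 i j hj]
  rw [← e1, ← e2]

theorem atomic_lower {M N : ℕ} (hNM : N ≤ M) (R : Fin M → R3) (D ρ θ : ℝ) (hρ : 4 ≤ ρ)
    (hMρ : (M : ℝ) ≤ ρ) (hD : 16 * M * ρ ≤ D)
    (hsep : ∀ α β, α ≠ β → D ≤ dist (R α) (R β))
    (hθ : ∀ T : Finset (Fin M), T.card = M - N → θ ≤ pairEnergy R T)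
    (ψ : Wave N) (hψ : IsTestState ψ) :
    (-(N : ℝ) / 2 - pairEnergy R Finset.univ + θ - 5 * (M / ρ ^ 2 + M ^ 2 * ρ / D ^ 2)) *
      normSq ψ ≤ energy R (fun _ => 1) ψ := by
  set E := -(N : ℝ) / 2 - pairEnergy R Finset.univ + θ - 5 * (M / ρ ^ 2 + M ^ 2 * ρ / D ^ 2)
    with hE
  have key : ∀ s, E * (∫ x, ‖ψ x s‖ ^ 2) ≤ (1 / 2) * (∑ i, ∑ k : Fin 3,
      ∫ x, ‖fderiv ℝ (fun y => ψ y s) x (Pi.single i (EuclideanSpace.single k 1))‖ ^ 2)
      + ∫ x, coulombV R (fun _ => 1) x * ‖ψ x s‖ ^ 2 := by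
    intro s
    set g : (Fin N → R3) → ℂ := fun y => ψ y s with hg_def
    have hg : ContDiff ℝ 1 g := (hψ.smooth s).of_le (by exact_mod_cast le_top)
    have hc : HasCompactSupport g := hψ.compactSupport s
    have hn : Continuous (fun x => ‖g x‖ ^ 2) := by have := hg.continuous; fun_prop
    have hnc : HasCompactSupport (fun x => ‖g x‖ ^ 2) :=
      hc.comp_left (g := fun z : ℂ => ‖z‖ ^ 2) (by simp only [norm_zero, ne_eq, OfNat.ofNat_ne_zero, not_false_eq_true, zero_pow])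
    have hni : Integrable (fun x => ‖g x‖ ^ 2) := hn.integrable_of_hasCompactSupport hnc
    have hgdc : ∀ w, HasCompactSupport (fun x => fderiv ℝ g x w) := fun w => by
      have := hc.fderiv (𝕜 := ℝ)
      exact this.comp_left (g := fun (L : (Fin N → R3) →L[ℝ] ℂ) => L w) (by simp)
    have cgd : ∀ w, Continuous (fun x => fderiv ℝ g x w) := fun w =>
      (hg.continuous_fderiv (by norm_num)).clm_apply continuous_const
    have hdi : ∀ w, Integrable (fun x => ‖fderiv ℝ g x w‖ ^ 2) := fun w => by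
      apply Continuous.integrable_of_hasCompactSupport
      · have := cgd w; (clear * - hg; fun_prop)
      · exact (hgdc w).comp_left (g := fun z : ℂ => ‖z‖ ^ 2) (by simp)
    have hsep' : ∀ a b, a ≠ b → 2 * (2 * ρ) ≤ ‖R a - R b‖ := by
      intro a b hab
      rw [← dist_eq_norm]
      refine le_trans ?_ (hsep a b hab)
      have hM1 : (1:ℝ) ≤ M := by
        have : 0 < M := lt_of_le_of_lt (Nat.zero_le _) a.2
        exact_mod_cast this
      linarith only [mul_nonneg_of_nonpos_of_nonpos (Mathlib.Tactic.Linarith.sub_nonpos_of_le hM1) (Mathlib.Tactic.Linarith.sub_nonpos_of_le hρ), mul_nonneg_of_nonpos_of_nonpos (Mathlib.Tactic.Linarith.sub_nonpos_of_le (Mathlib.Tactic.Linarith.natCast_nonneg ℝ M)) (Mathlib.Tactic.Linarith.sub_nonpos_of_le hρ), hM1, hD]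
    have hob := fun i : Fin N => onebody_lower volume g hg hc
      (ContinuousLinearMap.proj (R := ℝ) (φ := fun _ : Fin N => R3) i)
      (fun k => Pi.single i (EuclideanSpace.single k 1)) (fun k => proj_single i k) R
      (ρ := 2 * ρ) (by linarith only [hρ]) hsep'
    simp only [ContinuousLinearMap.proj_apply] at hob
    have hV := integrable_coulombV R (fun _ => 1) g hg hc
    have i2 : ∀ (i j : Fin N), j ∈ Finset.Ioi i →
        Integrable (fun x => ‖g x‖ ^ 2 / dist (x i) (x j)) :=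
      fun i j hj => integrable_ee g hg hc i j (Finset.mem_Ioi.1 hj).ne
    have i2s : ∀ (i : Fin N),
        Integrable (fun x => ∑ j ∈ Finset.Ioi i, ‖g x‖ ^ 2 / dist (x i) (x j)) :=
      fun i => integrable_finsetSum _ fun j hj => i2 i j hj
    have i2t : Integrable (fun x => ∑ i, ∑ j ∈ Finset.Ioi i, ‖g x‖ ^ 2 / dist (x i) (x j)) :=
      integrable_finsetSum _ fun i _ => i2s i
    have iU : Integrable (fun x => ∑ i, (∑ a, ueff (2 * ρ) ‖x i - R a‖) * ‖g x‖ ^ 2) :=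
      integrable_finsetSum _ fun i _ => (hob i).1
    -- pointwise bound
    have hpt : E * (∫ x, ‖g x‖ ^ 2) ≤ ∫ x, ((∑ i, (∑ a, ueff (2 * ρ) ‖x i - R a‖) * ‖g x‖ ^ 2)
        + ∑ i, ∑ j ∈ Finset.Ioi i, ‖g x‖ ^ 2 / dist (x i) (x j)) := by
      rw [← integral_const_mul]
      apply integral_mono_ae (hni.const_mul _) (iU.add i2t)
      filter_upwards [ae_distinct N] with x hx
      have h1 := pointwise_lower' hNM R D ρ θ hρ hMρ hD hsep hθ x hx
      have h2 : (∑ i, (∑ a, ueff (2 * ρ) ‖x i - R a‖) * ‖g x‖ ^ 2)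
        + ∑ i, ∑ j ∈ Finset.Ioi i, ‖g x‖ ^ 2 / dist (x i) (x j)
        = (∑ i, (∑ α, ueff (2 * ρ) ‖x i - R α‖) +
        ∑ i, ∑ j ∈ Finset.Ioi i, 1 / dist (x i) (x j)) * ‖g x‖ ^ 2 := by
        rw [add_mul, Finset.sum_mul, Finset.sum_mul]
        congr 1
        apply Finset.sum_congr rfl; intro i _
        rw [Finset.sum_mul]
        apply Finset.sum_congr rfl; intro j _
        ring
      show E * ‖g x‖ ^ 2 ≤ (∑ i, (∑ a, ueff (2 * ρ) ‖x i - R a‖) * ‖g x‖ ^ 2)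
        + ∑ i, ∑ j ∈ Finset.Ioi i, ‖g x‖ ^ 2 / dist (x i) (x j)
      rw [h2]
      exact mul_le_mul_of_nonneg_right h1 (by (clear * -; positivity))
    rw [integral_add iU i2t, integral_finsetSum _ fun i _ => (hob i).1,
      integral_finsetSum _ fun i _ => i2s i] at hpt
    have h3 : ∑ i, ∫ x, (∑ a, ueff (2 * ρ) ‖x i - R a‖) * ‖g x‖ ^ 2
        ≤ ∑ i, (1 / 2 * (∑ k : Fin 3, ∫ x, ‖fderiv ℝ g x
          (Pi.single i (EuclideanSpace.single k 1))‖ ^ 2)
          - ∑ α, ∫ x, ‖g x‖ ^ 2 / dist (x i) (R α)) := by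
      apply Finset.sum_le_sum
      intro i _
      refine le_trans (hob i).2 (le_of_eq ?_)
      rw [integral_finsetSum _ fun k _ => hdi _]
      congr 1
      simp only [← dist_eq_norm]
      rw [integral_finsetSum _ fun α _ => integrable_nuc g hg hc i (R α)]
    rw [hV.2]
    rw [Finset.sum_sub_distrib, ← Finset.mul_sum] at h3
    have h4 : ∑ i, ∫ x, ∑ j ∈ Finset.Ioi i, ‖g x‖ ^ 2 / dist (x i) (x j)
        = ∑ i, ∑ j ∈ Finset.Ioi i, ∫ x, ‖g x‖ ^ 2 / dist (x i) (x j) := by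
      apply Finset.sum_congr rfl; intro i _
      rw [integral_finsetSum _ fun j hj => i2 i j hj]
    rw [h4] at hpt
    simp only [Nat.cast_one, one_mul]
    linarith only [hpt, h3]
  unfold energy kinetic normSq
  rw [Finset.mul_sum, Finset.mul_sum, ← Finset.sum_add_distrib]
  exact Finset.sum_le_sum fun s _ => key s

end Vale.Agent.P370
end

section

/-!
The space of block singlets as a space of qubits (H6), part A.
-/

namespace Vale.Agent.P370.H

open Finset ComplexConjugate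

variable {B : Type} [Fintype B] [DecidableEq B]

/-- integer version of `eb` -/
def ebi (x : Bool) (s : Fin 4 → Fin 2) : ℤ :=
  if x then
    (if s 0 = s 1 ∧ s 2 = s 3 ∧ s 0 ≠ s 2 then 2
      else if s 0 ≠ s 1 ∧ s 2 ≠ s 3 then -1 else 0)
  else
    (if s 0 ≠ s 1 ∧ s 2 ≠ s 3 then (if s 0 = s 2 then 1 else -1) else 0)

/-- normalisation -/
noncomputable def nb (x : Bool) : ℝ := if x then (√12)⁻¹ else 1 / 2

theorem eb_eq (x : Bool) (s : Fin 4 → Fin 2) : eb x s = (ebi x s : ℝ) * nb x := by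
  unfold eb ebi nb
  cases x
  · simp only [Bool.false_eq_true, if_false]
    split_ifs <;> norm_num
  · simp only [if_true]
    split_ifs <;> simp [div_eq_mul_inv]

theorem ebi_orth : ∀ x y : Bool, ∑ s : Fin 4 → Fin 2, ebi x s * ebi y s =
    if x = y then (if x then 12 else 4) else 0 := by
  (clear * -; decide)

theorem ebi_bs : ∀ (y : Bool) (σ : Fin 4 → Fin 2),
    ∑ g : Fin 4, ∑ k : Fin 4, (if g = k then 0 else ebi y (σ ∘ Equiv.swap g k)) = 0 := by
  decide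

theorem ebi_swap1 : ∀ (y : Bool) (σ : Fin 4 → Fin 2),
    ebi y (σ ∘ Equiv.swap 0 1) = (if y then 1 else -1) * ebi y σ := by
  decide

theorem ebi_swap2 : ∀ (y : Bool) (σ : Fin 4 → Fin 2),
    2 * ebi y (σ ∘ Equiv.swap 0 2) = (if y then -ebi true σ - 3 * ebi false σ
      else ebi false σ - ebi true σ) := by
  (clear * -; decide)

theorem ebi_swap3 : ∀ (y : Bool) (σ : Fin 4 → Fin 2),
    2 * ebi y (σ ∘ Equiv.swap 0 3) = (if y then -ebi true σ + 3 * ebi false σ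
      else ebi false σ + ebi true σ) := by
  decide

/-- one block: orthonormality -/
theorem eb_orth (x y : Bool) : ∑ s : Fin 4 → Fin 2, eb x s * eb y s =
    if x = y then (1 : ℝ) else 0 := by
  have h : ∑ s : Fin 4 → Fin 2, eb x s * eb y s =
      ((∑ s : Fin 4 → Fin 2, ebi x s * ebi y s : ℤ) : ℝ) * (nb x * nb y) := by
    push_cast
    rw [Finset.sum_mul]
    refine Finset.sum_congr rfl fun s _ => ?_
    rw [eb_eq, eb_eq]
    ring
  have h12 : (√12 : ℝ)⁻¹ * (√12)⁻¹ = 1 / 12 := by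
    rw [← mul_inv, Real.mul_self_sqrt (by norm_num)]
    norm_num
  rw [h, ebi_orth]
  by_cases hxy : x = y
  · subst hxy
    cases x
    · simp only [↓reduceIte, Bool.false_eq_true, Int.cast_ofNat, nb, one_div]
      norm_num
    · simp only [if_true, nb]
      rw [h12]
      norm_num
  · simp [hxy]

/-- sums over configurations of products over blocks -/
theorem sum_blocks (F : B → (Fin 4 → Fin 2) → ℂ) :
    ∑ s : B × Fin 4 → Fin 2, ∏ b, F b (fun g => s (b, g)) = ∏ b, ∑ σ : Fin 4 → Fin 2, F b σ := by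
  rw [Finset.prod_univ_sum, Fintype.piFinset_univ]
  exact Fintype.sum_equiv (Equiv.curry B (Fin 4) (Fin 2)) _ _ (fun s => rfl)

/-- the factor of the other blocks -/
noncomputable def rest (b : B) (x : B → Bool) (s : B × Fin 4 → Fin 2) : ℂ :=
  ∏ b' ∈ univ.erase b, (eb (x b') (fun g => s (b', g)) : ℂ)

theorem prod_split (b : B) (x : B → Bool) (s : B × Fin 4 → Fin 2) :
    ∏ b', (eb (x b') (fun g => s (b', g)) : ℂ) = (eb (x b) (fun g => s (b, g)) : ℂ) * rest b x s :=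
  (Finset.mul_prod_erase univ _ (mem_univ b)).symm

theorem iota_split (b : B) (u : (B → Bool) → ℂ) (s : B × Fin 4 → Fin 2) :
    iota u s = ∑ x, u x * ((eb (x b) (fun g => s (b, g)) : ℂ) * rest b x s) := by
  unfold iota
  exact Finset.sum_congr rfl fun x _ => by rw [prod_split b]

theorem rest_swap (b : B) (g k : Fin 4) (x : B → Bool) (s : B × Fin 4 → Fin 2) :
    rest b x (s ∘ Equiv.swap (b, g) (b, k)) = rest b x s := by
  unfold rest
  refine Finset.prod_congr rfl fun b' hb' => ?_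
  have hne : b' ≠ b := (Finset.mem_erase.mp hb').1
  congr 2
  funext j
  show s (Equiv.swap (b, g) (b, k) (b', j)) = s (b', j)
  rw [Equiv.swap_apply_of_ne_of_ne]
  · exact fun h => hne (congrArg Prod.fst h)
  · exact fun h => hne (congrArg Prod.fst h)

omit [Fintype B] in
theorem block_swap (b : B) (g k : Fin 4) (s : B × Fin 4 → Fin 2) :
    (fun j => (s ∘ Equiv.swap (b, g) (b, k)) (b, j)) = (fun j => s (b, j)) ∘ Equiv.swap g k := by
  funext j
  show s (Equiv.swap (b, g) (b, k) (b, j)) = s (b, Equiv.swap g k j)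
  congr 1
  by_cases h1 : j = g
  · subst h1
    rw [Equiv.swap_apply_left, Equiv.swap_apply_left]
  · by_cases h2 : j = k
    · subst h2
      rw [Equiv.swap_apply_right, Equiv.swap_apply_right]
    · rw [Equiv.swap_apply_of_ne_of_ne h1 h2, Equiv.swap_apply_of_ne_of_ne]
      · exact fun h => h1 (congrArg Prod.snd h)
      · exact fun h => h2 (congrArg Prod.snd h)

theorem iota_swap (b : B) (g k : Fin 4) (u : (B → Bool) → ℂ) (s : B × Fin 4 → Fin 2) :
    iota u (s ∘ Equiv.swap (b, g) (b, k)) =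
      ∑ x, u x * ((eb (x b) ((fun j => s (b, j)) ∘ Equiv.swap g k) : ℂ) * rest b x s) := by
  rw [iota_split b]
  refine Finset.sum_congr rfl fun x _ => ?_
  rw [rest_swap, block_swap]

/-- one block: total spin zero -/
theorem eb_bs (y : Bool) (σ : Fin 4 → Fin 2) :
    ∑ g : Fin 4, ∑ k : Fin 4, (if g = k then 3 / 4 * (eb y σ : ℂ) else
      1 / 2 * (eb y (σ ∘ Equiv.swap g k) : ℂ) - 1 / 4 * (eb y σ : ℂ)) = 0 := by
  have h1 : ∑ g : Fin 4, ∑ k : Fin 4, (if g = k then 3 / 4 * (eb y σ : ℂ) else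
      1 / 2 * (eb y (σ ∘ Equiv.swap g k) : ℂ) - 1 / 4 * (eb y σ : ℂ)) =
      (∑ g : Fin 4, ∑ k : Fin 4, if g = k then 3 / 4 * (eb y σ : ℂ) else - (1 / 4) * (eb y σ : ℂ)) +
      1 / 2 * (nb y : ℂ) * ((∑ g : Fin 4, ∑ k : Fin 4,
        (if g = k then 0 else ebi y (σ ∘ Equiv.swap g k)) : ℤ) : ℂ) := by
    push_cast
    rw [Finset.mul_sum, ← Finset.sum_add_distrib]
    refine Finset.sum_congr rfl fun g _ => ?_
    rw [Finset.mul_sum, ← Finset.sum_add_distrib]
    refine Finset.sum_congr rfl fun k _ => ?_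
    by_cases hgk : g = k
    · simp only [hgk, ↓reduceIte, one_div, mul_zero, add_zero]
    · simp only [hgk, if_false]
      rw [eb_eq y (σ ∘ Equiv.swap g k)]
      push_cast
      ring
  rw [h1, ebi_bs]
  have h2 : ∑ g : Fin 4, ∑ k : Fin 4,
      (if g = k then 3 / 4 * (eb y σ : ℂ) else - (1 / 4) * (eb y σ : ℂ)) = 0 := by
    simp only [Fin.sum_univ_four]
    simp only [↓reduceIte, Fin.isValue, zero_ne_one, one_div, neg_mul, Fin.reduceEq, one_ne_zero]
    ring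
  rw [h2]
  simp only [one_div, Int.cast_zero, mul_zero, add_zero]

theorem iota_bs (u : (B → Bool) → ℂ) : IsBS (iota u) := by
  intro b
  funext s
  have h1 : ∀ g k : Fin 4, (if g = k then (3 / 4 : ℂ) • iota u else
      dotS (b, g) (b, k) (iota u)) s = ∑ x, u x * rest b x s *
        (if g = k then 3 / 4 * (eb (x b) (fun j => s (b, j)) : ℂ) else
          1 / 2 * (eb (x b) ((fun j => s (b, j)) ∘ Equiv.swap g k) : ℂ) -
            1 / 4 * (eb (x b) (fun j => s (b, j)) : ℂ)) := by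
    intro g k
    by_cases hgk : g = k
    · simp only [hgk, if_true]
      rw [Pi.smul_apply, iota_split b, smul_eq_mul, Finset.mul_sum]
      exact Finset.sum_congr rfl fun x _ => by ring
    · simp only [hgk, if_false]
      unfold dotS
      rw [iota_swap, iota_split b, Finset.mul_sum, Finset.mul_sum, ← Finset.sum_sub_distrib]
      exact Finset.sum_congr rfl fun x _ => by ring
  rw [Finset.sum_apply]
  simp only [Finset.sum_apply, h1]
  rw [Finset.sum_congr rfl fun g _ => Finset.sum_comm, Finset.sum_comm]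
  simp only [← Finset.mul_sum, eb_bs, mul_zero, Finset.sum_const_zero]
  rfl

theorem iotaA_iota (u : (B → Bool) → ℂ) : iotaA (iota u) = u := by
  funext x
  unfold iotaA iota
  have h1 : ∀ y : B → Bool, ∑ s : B × Fin 4 → Fin 2,
      (∏ b, (eb (x b) (fun g => s (b, g)) : ℂ)) * (u y * ∏ b, (eb (y b) (fun g => s (b, g)) : ℂ)) =
      if x = y then u y else 0 := by
    intro y
    have h2 : ∑ s : B × Fin 4 → Fin 2,
      (∏ b, (eb (x b) (fun g => s (b, g)) : ℂ)) * (u y * ∏ b, (eb (y b) (fun g => s (b, g)) : ℂ)) =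
      u y * ∑ s : B × Fin 4 → Fin 2, ∏ b, ((eb (x b) (fun g => s (b, g)) : ℂ) *
        (eb (y b) (fun g => s (b, g)) : ℂ)) := by
      rw [Finset.mul_sum]
      refine Finset.sum_congr rfl fun s _ => ?_
      rw [Finset.prod_mul_distrib]
      ring
    rw [h2, sum_blocks (fun b σ => (eb (x b) σ : ℂ) * (eb (y b) σ : ℂ))]
    have h3 : ∀ b, ∑ σ : Fin 4 → Fin 2, (eb (x b) σ : ℂ) * (eb (y b) σ : ℂ) =
        if x b = y b then 1 else 0 := by
      intro b
      have := congrArg (fun r : ℝ => (r : ℂ)) (eb_orth (x b) (y b))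
      push_cast at this
      rw [this]
      split_ifs <;> simp
    rw [Finset.prod_congr rfl fun b _ => h3 b]
    by_cases hxy : x = y
    · subst hxy; simp only [↓reduceIte, prod_const_one, mul_one]
    · obtain ⟨b, hb⟩ := Function.ne_iff.mp hxy
      rw [Finset.prod_eq_zero (mem_univ b) (by simp [hb])]
      simp [hxy]
  calc ∑ s : B × Fin 4 → Fin 2, (∏ b, (eb (x b) (fun g => s (b, g)) : ℂ)) *
        ∑ y : B → Bool, u y * ∏ b, (eb (y b) (fun g => s (b, g)) : ℂ)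
      = ∑ s : B × Fin 4 → Fin 2, ∑ y : B → Bool, (∏ b, (eb (x b) (fun g => s (b, g)) : ℂ)) *
        (u y * ∏ b, (eb (y b) (fun g => s (b, g)) : ℂ)) :=
          Finset.sum_congr rfl fun s _ => Finset.mul_sum _ _ _
    _ = ∑ y : B → Bool, if x = y then u y else 0 := by
        rw [Finset.sum_comm]
        exact Finset.sum_congr rfl fun y _ => h1 y
    _ = u x := by simp only [sum_ite_eq, mem_univ, ↓reduceIte]

theorem sip_iota (u : (B → Bool) → ℂ) (Φ : SSt (B × Fin 4)) :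
    sip (iota u) Φ = ∑ x, conj (u x) * iotaA Φ x := by
  unfold sip iota iotaA
  calc ∑ s : B × Fin 4 → Fin 2,
        conj (∑ x : B → Bool, u x * ∏ b, (eb (x b) (fun g => s (b, g)) : ℂ)) * Φ s
      = ∑ s : B × Fin 4 → Fin 2, ∑ x : B → Bool,
        conj (u x) * ((∏ b, (eb (x b) (fun g => s (b, g)) : ℂ)) * Φ s) := by
          refine Finset.sum_congr rfl fun s _ => ?_
          rw [map_sum, Finset.sum_mul]
          refine Finset.sum_congr rfl fun x _ => ?_
          rw [map_mul, map_prod]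
          simp only [Complex.conj_ofReal]
          ring
    _ = _ := by
          rw [Finset.sum_comm]
          exact Finset.sum_congr rfl fun x _ => (Finset.mul_sum _ _ _).symm

theorem snorm2_eq_sip {I : Type} [Fintype I] [DecidableEq I] (Φ : SSt I) :
    (snorm2 Φ : ℂ) = sip Φ Φ := by
  unfold snorm2 sip
  push_cast
  exact Finset.sum_congr rfl fun s _ => (Complex.conj_mul' (Φ s)).symm

theorem snorm2_iota (u : (B → Bool) → ℂ) : snorm2 (iota u) = ∑ x, ‖u x‖ ^ 2 := by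
  have h : (snorm2 (iota u) : ℂ) = ((∑ x, ‖u x‖ ^ 2 : ℝ) : ℂ) := by
    rw [snorm2_eq_sip, sip_iota, iotaA_iota]
    push_cast
    exact Finset.sum_congr rfl fun x _ => Complex.conj_mul' (u x)
  exact_mod_cast h

/-- one block: the pair operators -/
theorem eb_swap (y : Bool) (g : Fin 4) (hg : g ≠ 0) (σ : Fin 4 → Fin 2) :
    (eb y (σ ∘ Equiv.swap 0 g) : ℂ) =
      -((if g.pred hg = 0 then 1 else -(1 / 2) : ℂ) * ((if y then -1 else 1) * (eb y σ : ℂ))) -
      (if g.pred hg = 0 then 0 else if g.pred hg = 1 then ((√3 : ℝ) : ℂ) / 2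
        else -((√3 : ℝ) : ℂ) / 2) * (eb (!y) σ : ℂ) := by
  have h3 : (√3 : ℝ) * √3 = 3 := Real.mul_self_sqrt (by norm_num)
  have nbt : nb true = √3 / 6 := by
    have h12 : (√12 : ℝ) = 2 * √3 := by
      rw [show (12 : ℝ) = 2 ^ 2 * 3 by norm_num, Real.sqrt_mul (by norm_num),
        Real.sqrt_sq (by norm_num)]
    have h30 : (√3 : ℝ) ≠ 0 := by positivity
    simp only [nb, if_true, h12]
    field_simp
    linarith [h3]
  have nbf : nb false = 1 / 2 := by simp only [nb, Bool.false_eq_true, ↓reduceIte, one_div]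
  have key : eb y (σ ∘ Equiv.swap 0 g) =
      -((if g.pred hg = 0 then 1 else -(1 / 2) : ℝ) * ((if y then -1 else 1) * eb y σ)) -
      (if g.pred hg = 0 then 0 else if g.pred hg = 1 then √3 / 2
        else -√3 / 2) * eb (!y) σ := by
    simp only [eb_eq]
    fin_cases g
    · exact absurd rfl hg
    · have e := ebi_swap1 y σ
      have e' : (ebi y (σ ∘ Equiv.swap 0 1) : ℝ) = (if y then 1 else -1) * ebi y σ := by
        rw [e]; cases y <;> simp
      show (ebi y (σ ∘ Equiv.swap 0 1) : ℝ) * nb y = _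
      rw [e']
      cases y <;> simp
    · have e := ebi_swap2 y σ
      have e' : 2 * (ebi y (σ ∘ Equiv.swap 0 2) : ℝ) =
          (if y then -(ebi true σ : ℝ) - 3 * ebi false σ else ebi false σ - ebi true σ) := by
        have := congrArg (fun r : ℤ => (r : ℝ)) e
        cases y <;> simpa using this
      show (ebi y (σ ∘ Equiv.swap 0 2) : ℝ) * nb y =
        -((-(1 / 2) : ℝ) * ((if y then -1 else 1) * ((ebi y σ : ℝ) * nb y))) -
          √3 / 2 * ((ebi (!y) σ : ℝ) * nb (!y))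
      cases y
      · simp only [Bool.false_eq_true, if_false, Bool.not_false, nbt, nbf] at e' ⊢
        linear_combination (1 / 4) * e' + (1 / 12) * (ebi true σ : ℝ) * h3
      · simp only [if_true, Bool.not_true, nbt, nbf] at e' ⊢
        linear_combination (√3 / 12) * e'
    · have e := ebi_swap3 y σ
      have e' : 2 * (ebi y (σ ∘ Equiv.swap 0 3) : ℝ) =
          (if y then -(ebi true σ : ℝ) + 3 * ebi false σ else ebi false σ + ebi true σ) := by
        have := congrArg (fun r : ℤ => (r : ℝ)) e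
        cases y <;> simpa using this
      show (ebi y (σ ∘ Equiv.swap 0 3) : ℝ) * nb y =
        -((-(1 / 2) : ℝ) * ((if y then -1 else 1) * ((ebi y σ : ℝ) * nb y))) -
          -√3 / 2 * ((ebi (!y) σ : ℝ) * nb (!y))
      cases y
      · simp only [Bool.false_eq_true, if_false, Bool.not_false, nbt, nbf] at e' ⊢
        linear_combination (1 / 4) * e' - (1 / 12) * (ebi true σ : ℝ) * h3
      · simp only [if_true, nbt, Bool.not_true, nbf] at e' ⊢
        linear_combination (√3 / 12) * e'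
  rw [key]
  cases y <;> push_cast <;> split_ifs <;> simp

theorem rest_update (b : B) (x : B → Bool) (c : Bool) (s : B × Fin 4 → Fin 2) :
    rest b (Function.update x b c) s = rest b x s := by
  unfold rest
  refine Finset.prod_congr rfl fun b' hb' => ?_
  rw [Function.update_of_ne (Finset.mem_erase.mp hb').1]

/-- flipping one qubit -/
theorem sum_flip (b : B) (f : (B → Bool) → ℂ) :
    ∑ x : B → Bool, f (Function.update x b (!x b)) = ∑ x, f x := by
  have hinv : Function.Involutive (fun x : B → Bool => Function.update x b (!x b)) := by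
    intro x
    funext b'
    by_cases h : b' = b
    · subst h; simp
    · simp [Function.update_of_ne h]
  exact Equiv.sum_comp (hinv.toPerm _) f

/-- pair operators on block singlets -/
theorem dotS_iota (b : B) (g : Fin 4) (hg : g ≠ 0) (u : (B → Bool) → ℂ) :
    dotS (b, 0) (b, g) (iota u) =
      iota (fun x => -(1 / 4) * u x - 1 / 2 * sgm (g.pred hg) b u x) := by
  funext s
  set σ : Fin 4 → Fin 2 := fun j => s (b, j) with hσ
  set c0 : ℂ := (if g.pred hg = 0 then 1 else -(1 / 2) : ℂ) with hc0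
  set c1 : ℂ := (if g.pred hg = 0 then 0 else if g.pred hg = 1 then ((√3 : ℝ) : ℂ) / 2
        else -((√3 : ℝ) : ℂ) / 2) with hc1
  have hl : dotS (b, 0) (b, g) (iota u) s = ∑ x, u x * rest b x s *
      (1 / 2 * (-(c0 * ((if x b then -1 else 1) * (eb (x b) σ : ℂ))) - c1 * (eb (!x b) σ : ℂ)) -
        1 / 4 * (eb (x b) σ : ℂ)) := by
    unfold dotS
    rw [iota_swap, iota_split b, Finset.mul_sum, Finset.mul_sum, ← Finset.sum_sub_distrib]
    refine Finset.sum_congr rfl fun x _ => ?_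
    rw [eb_swap (x b) g hg]
    ring
  have hr : iota (fun x => -(1 / 4) * u x - 1 / 2 * sgm (g.pred hg) b u x) s =
      ∑ x, u x * rest b x s * (-(1 / 4) * (eb (x b) σ : ℂ) -
        1 / 2 * (c0 * ((if x b then -1 else 1) * (eb (x b) σ : ℂ)))) -
      1 / 2 * c1 * ∑ x, u (Function.update x b (!x b)) * ((eb (x b) σ : ℂ) * rest b x s) := by
    rw [iota_split b, Finset.mul_sum, ← Finset.sum_sub_distrib]
    refine Finset.sum_congr rfl fun x _ => ?_
    unfold sgm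
    ring
  have hf : ∑ x : B → Bool, u (Function.update x b (!x b)) * ((eb (x b) σ : ℂ) * rest b x s) =
      ∑ x, u x * ((eb (!x b) σ : ℂ) * rest b x s) := by
    rw [← sum_flip b (fun x => u x * ((eb (!x b) σ : ℂ) * rest b x s))]
    refine Finset.sum_congr rfl fun x _ => ?_
    rw [rest_update, Function.update_self, Bool.not_not]
  rw [hl, hr, hf, Finset.mul_sum, ← Finset.sum_sub_distrib]
  refine Finset.sum_congr rfl fun x _ => ?_
  ring

end Vale.Agent.P370.H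
end

section

/-!
Second order perturbation theory (H7).
-/

set_option linter.unusedSectionVars false

namespace Vale.Agent.P370.H

open Finset ComplexConjugate

section ptapi

variable {I : Type} [Fintype I] [DecidableEq I]

/-- the norm of a spin state -/
noncomputable def ptN (Φ : SSt I) : ℝ := ‖(WithLp.toLp 2 Φ : EuclideanSpace ℂ (I → Fin 2))‖

/-- real part of the inner product -/
noncomputable def ptR (Φ Ψ : SSt I) : ℝ := (sip Φ Ψ).re

lemma ptN_nonneg (Φ : SSt I) : 0 ≤ ptN Φ := norm_nonneg _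

lemma ptN_sq (Φ : SSt I) : ptN Φ ^ 2 = snorm2 Φ := by
  rw [ptN, EuclideanSpace.norm_sq_eq]
  rfl

lemma ptN_add_le (Φ Ψ : SSt I) : ptN (Φ + Ψ) ≤ ptN Φ + ptN Ψ :=
  norm_add_le (WithLp.toLp 2 Φ : EuclideanSpace ℂ (I → Fin 2)) (WithLp.toLp 2 Ψ)

lemma ptN_smul (c : ℂ) (Φ : SSt I) : ptN (c • Φ) = ‖c‖ * ptN Φ :=
  norm_smul c (WithLp.toLp 2 Φ : EuclideanSpace ℂ (I → Fin 2))

lemma ptN_zero : ptN (0 : SSt I) = 0 := norm_zero

lemma ptN_sum_le {α : Type*} (A : Finset α) (f : α → SSt I) :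
    ptN (∑ a ∈ A, f a) ≤ ∑ a ∈ A, ptN (f a) := by
  classical
  induction A using Finset.induction_on with
  | empty => simp only [sum_empty, ptN_zero, Std.le_refl]
  | insert a A ha ih =>
    rw [Finset.sum_insert ha, Finset.sum_insert ha]
    exact (ptN_add_le _ _).trans (by linarith)

lemma ptN_comp (Φ : SSt I) (i j : I) : ptN (fun s => Φ (s ∘ Equiv.swap i j)) = ptN Φ := by
  have h : ptN (fun s => Φ (s ∘ Equiv.swap i j)) ^ 2 = ptN Φ ^ 2 := by
    rw [ptN_sq, ptN_sq, snorm2, snorm2]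
    exact Equiv.sum_comp (Equiv.arrowCongr (Equiv.swap i j) (Equiv.refl (Fin 2)))
      (fun s => ‖Φ s‖ ^ 2)
  exact (pow_left_inj₀ (ptN_nonneg _) (ptN_nonneg _) two_ne_zero).1 h

lemma ptN_dotS (i j : I) (Φ : SSt I) : ptN (dotS i j Φ) ≤ 3 / 4 * ptN Φ := by
  have h : dotS i j Φ = (1 / 2 : ℂ) • (fun s => Φ (s ∘ Equiv.swap i j)) + (-(1 / 4) : ℂ) • Φ := by
    funext s
    simp only [dotS, Pi.add_apply, Pi.smul_apply, smul_eq_mul]
    ring
  rw [h]
  refine (ptN_add_le _ _).trans ?_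
  rw [ptN_smul, ptN_smul, ptN_comp]
  have h1 : ‖(1 / 2 : ℂ)‖ = 1 / 2 := by (clear * -; norm_num)
  have h2 : ‖(-(1 / 4) : ℂ)‖ = 1 / 4 := by norm_num
  rw [h1, h2]
  linarith only []

lemma ptR_comm (Φ Ψ : SSt I) : ptR Φ Ψ = ptR Ψ Φ := by
  simp only [ptR, sip, Complex.re_sum]
  refine Finset.sum_congr rfl fun s _ => ?_
  simp only [Complex.mul_re, Complex.conj_re, Complex.conj_im, neg_mul, sub_neg_eq_add]
  ring

lemma ptR_add (Φ Ψ Ψ' : SSt I) : ptR Φ (Ψ + Ψ') = ptR Φ Ψ + ptR Φ Ψ' := by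
  simp only [ptR, sip, Pi.add_apply, mul_add, Finset.sum_add_distrib, Complex.add_re]

lemma ptR_smul (c : ℝ) (Φ Ψ : SSt I) : ptR Φ ((c : ℂ) • Ψ) = c * ptR Φ Ψ := by
  simp only [ptR, sip, Pi.smul_apply, smul_eq_mul]
  have : ∀ s, conj (Φ s) * ((c : ℂ) * Ψ s) = (c : ℂ) * (conj (Φ s) * Ψ s) := fun s => by ring
  simp only [this]
  rw [← Finset.mul_sum, Complex.re_ofReal_mul]

lemma ptR_add_left (Φ Φ' Ψ : SSt I) : ptR (Φ + Φ') Ψ = ptR Φ Ψ + ptR Φ' Ψ := by
  rw [ptR_comm, ptR_add, ptR_comm Ψ, ptR_comm Ψ]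

lemma ptR_smul_left (c : ℝ) (Φ Ψ : SSt I) : ptR ((c : ℂ) • Φ) Ψ = c * ptR Φ Ψ := by
  rw [ptR_comm, ptR_smul, ptR_comm]

lemma ptR_zero (Φ : SSt I) : ptR Φ 0 = 0 := by simp only [ptR, sip, Pi.zero_apply, mul_zero, sum_const_zero, Complex.zero_re]

lemma ptR_sum {α : Type*} (A : Finset α) (Φ : SSt I) (f : α → SSt I) :
    ptR Φ (∑ a ∈ A, f a) = ∑ a ∈ A, ptR Φ (f a) := by
  classical
  induction A using Finset.induction_on with
  | empty => simp only [sum_empty, ptR_zero]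
  | insert a A ha ih => rw [Finset.sum_insert ha, Finset.sum_insert ha, ptR_add, ih]

lemma ptR_self (Φ : SSt I) : ptR Φ Φ = snorm2 Φ := by
  simp only [ptR, sip, snorm2, Complex.re_sum]
  refine Finset.sum_congr rfl fun s _ => ?_
  rw [Complex.conj_mul', ← Complex.ofReal_pow, Complex.ofReal_re]

lemma pt_snorm2_nonneg' (Φ : SSt I) : 0 ≤ snorm2 Φ := by
  rw [← ptN_sq]; positivity

lemma pt_sip_norm_le (Φ Ψ : SSt I) : ‖sip Φ Ψ‖ ≤ ptN Φ * ptN Ψ := by
  have h : sip Φ Ψ = inner ℂ (WithLp.toLp 2 Φ : EuclideanSpace ℂ (I → Fin 2))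
      (WithLp.toLp 2 Ψ) := by
    rw [PiLp.inner_apply]
    refine Finset.sum_congr rfl fun s _ => ?_
    simp only [mul_comm, RCLike.inner_apply]
  rw [h]
  exact norm_inner_le_norm _ _

lemma ptR_abs_le (Φ Ψ : SSt I) : |ptR Φ Ψ| ≤ ptN Φ * ptN Ψ :=
  (Complex.abs_re_le_norm _).trans (pt_sip_norm_le Φ Ψ)

lemma pt_dotS_add (i j : I) (Φ Ψ : SSt I) : dotS i j (Φ + Ψ) = dotS i j Φ + dotS i j Ψ := by
  funext s; simp only [dotS, Pi.add_apply]; ring

lemma pt_dotS_smul (i j : I) (c : ℂ) (Φ : SSt I) : dotS i j (c • Φ) = c • dotS i j Φ := by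
  funext s; simp only [dotS, Pi.smul_apply, smul_eq_mul]; ring

lemma pt_dotS_comm (i j : I) (Φ : SSt I) : dotS i j Φ = dotS j i Φ := by
  funext s; simp only [dotS, Equiv.swap_comm]

lemma ptR_dotS (i j : I) (Φ Ψ : SSt I) : ptR Φ (dotS i j Ψ) = ptR (dotS i j Φ) Ψ := by
  have h : ∑ s, conj (Φ s) * Ψ (s ∘ Equiv.swap i j)
      = ∑ s, conj (Φ (s ∘ Equiv.swap i j)) * Ψ s := by
    rw [← Equiv.sum_comp (Equiv.arrowCongr (Equiv.swap i j) (Equiv.refl (Fin 2)))]
    refine Finset.sum_congr rfl fun s _ => ?_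
    have e : ((Equiv.arrowCongr (Equiv.swap i j) (Equiv.refl (Fin 2))) s)
        = s ∘ Equiv.swap i j := rfl
    rw [e]
    congr 2
    funext x
    simp
  have h1 : sip Φ (dotS i j Ψ) = sip (dotS i j Φ) Ψ := by
    simp only [sip, dotS]
    have e1 : ∀ s, conj (Φ s) * (1 / 2 * Ψ (s ∘ Equiv.swap i j) - 1 / 4 * Ψ s)
        = 1 / 2 * (conj (Φ s) * Ψ (s ∘ Equiv.swap i j)) - 1 / 4 * (conj (Φ s) * Ψ s) := by
      intro s; ring
    have e2 : ∀ s, conj (1 / 2 * Φ (s ∘ Equiv.swap i j) - 1 / 4 * Φ s) * Ψ s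
        = 1 / 2 * (conj (Φ (s ∘ Equiv.swap i j)) * Ψ s) - 1 / 4 * (conj (Φ s) * Ψ s) := by
      intro s
      simp only [map_sub, map_mul, map_div₀, map_one, map_ofNat]
      ring
    simp only [e1, sum_sub_distrib, ← mul_sum, h, e2]
  rw [ptR, ptR, h1]

end ptapi


section ptops

variable {B : Type} [Fintype B] [DecidableEq B]

/-- the perturbation inside the blocks -/
noncomputable def ptV (d : B → Fin 3 → ℝ) (Φ : SSt (B × Fin 4)) : SSt (B × Fin 4) :=
  ∑ b : B, ∑ a : Fin 3, (d b a : ℂ) • dotS (b, 0) (b, a.succ) Φ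

/-- couplings between the blocks in the unit `s ^ 6` -/
noncomputable def ptc (s : ℝ) (t : B → B → Fin 3 → Fin 3 → ℝ) (b b' : B) (g h : Fin 4) : ℝ :=
  if hg : g ≠ 0 then (if hh : h ≠ 0 then t b b' (g.pred hg) (h.pred hh) else 0)
  else (if h = 0 then s else 0)

lemma ptc_symm {s : ℝ} {t : B → B → Fin 3 → Fin 3 → ℝ}
    (hts : ∀ b b' a a', t b b' a a' = t b' b a' a) (b b' : B) (g h : Fin 4) :
    ptc s t b b' g h = ptc s t b' b h g := by
  unfold ptc
  by_cases hg : g = 0 <;> by_cases hh : h = 0 <;> simp [hg, hh]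
  exact hts _ _ _ _

lemma ptV_add (d : B → Fin 3 → ℝ) (Φ Ψ : SSt (B × Fin 4)) :
    ptV d (Φ + Ψ) = ptV d Φ + ptV d Ψ := by
  simp only [ptV, pt_dotS_add, smul_add, Finset.sum_add_distrib]

lemma ptV_smul (d : B → Fin 3 → ℝ) (c : ℂ) (Φ : SSt (B × Fin 4)) :
    ptV d (c • Φ) = c • ptV d Φ := by
  simp only [ptV, pt_dotS_smul, smul_sum, smul_comm c]

lemma pt_inter_add (c : B → B → Fin 4 → Fin 4 → ℝ) (Φ Ψ : SSt (B × Fin 4)) :
    inter c (Φ + Ψ) = inter c Φ + inter c Ψ := by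
  unfold inter
  rw [← smul_add, ← Finset.sum_add_distrib]
  congr 1
  refine Finset.sum_congr rfl fun b _ => ?_
  rw [← Finset.sum_add_distrib]
  refine Finset.sum_congr rfl fun b' _ => ?_
  split_ifs
  · simp
  · simp only [pt_dotS_add, smul_add, Finset.sum_add_distrib]

lemma pt_inter_smul (c : B → B → Fin 4 → Fin 4 → ℝ) (k : ℂ) (Φ : SSt (B × Fin 4)) :
    inter c (k • Φ) = k • inter c Φ := by
  have h : ∀ X Y : SSt (B × Fin 4), X = k • Y → (1 / 2 : ℂ) • X = k • ((1 / 2 : ℂ) • Y) := by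
    rintro X Y rfl
    exact smul_comm _ _ _
  unfold inter
  refine h _ _ ?_
  rw [Finset.smul_sum]
  refine Finset.sum_congr rfl fun b _ => ?_
  rw [Finset.smul_sum]
  refine Finset.sum_congr rfl fun b' _ => ?_
  split_ifs
  · simp
  · simp only [pt_dotS_smul, Finset.smul_sum, smul_comm k]

lemma pt_casimir_add (Φ Ψ : SSt (B × Fin 4)) :
    casimir (Φ + Ψ) = casimir Φ + casimir Ψ := by
  unfold casimir
  rw [← Finset.sum_add_distrib]
  refine Finset.sum_congr rfl fun b _ => ?_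
  rw [← smul_add, ← Finset.sum_add_distrib]
  congr 1
  refine Finset.sum_congr rfl fun g _ => ?_
  rw [← Finset.sum_add_distrib]
  refine Finset.sum_congr rfl fun k _ => ?_
  split_ifs
  · rw [smul_add]
  · rw [pt_dotS_add]

lemma pt_casimir_smul (c : ℂ) (Φ : SSt (B × Fin 4)) : casimir (c • Φ) = c • casimir Φ := by
  have h : ∀ X Y : SSt (B × Fin 4), X = c • Y → (1 / 2 : ℂ) • X = c • ((1 / 2 : ℂ) • Y) := by
    rintro X Y rfl
    exact smul_comm _ _ _
  unfold casimir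
  rw [Finset.smul_sum]
  refine Finset.sum_congr rfl fun b _ => ?_
  refine h _ _ ?_
  rw [Finset.smul_sum]
  refine Finset.sum_congr rfl fun g _ => ?_
  rw [Finset.smul_sum]
  refine Finset.sum_congr rfl fun k _ => ?_
  split_ifs
  · rw [smul_comm]
  · rw [pt_dotS_smul]

lemma ptR_ptV_eq (d : B → Fin 3 → ℝ) (Φ Ψ : SSt (B × Fin 4)) :
    ptR Φ (ptV d Ψ) = ∑ b : B, ∑ a : Fin 3, d b a * ptR Φ (dotS (b, 0) (b, a.succ) Ψ) := by
  rw [ptV, ptR_sum]
  refine Finset.sum_congr rfl fun b _ => ?_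
  rw [ptR_sum]
  exact Finset.sum_congr rfl fun a _ => ptR_smul _ _ _

lemma ptR_ptV (d : B → Fin 3 → ℝ) (Φ Ψ : SSt (B × Fin 4)) :
    ptR Φ (ptV d Ψ) = ptR (ptV d Φ) Ψ := by
  rw [ptR_comm (ptV d Φ), ptR_ptV_eq, ptR_ptV_eq]
  refine Finset.sum_congr rfl fun b _ => Finset.sum_congr rfl fun a _ => ?_
  rw [ptR_dotS, ptR_comm]

lemma ptR_inter_eq (c : B → B → Fin 4 → Fin 4 → ℝ) (Φ Ψ : SSt (B × Fin 4)) :
    ptR Φ (inter c Ψ) = 1 / 2 * ∑ b : B, ∑ b' : B, if b = b' then 0 else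
      ∑ g : Fin 4, ∑ h : Fin 4, c b b' g h * ptR Φ (dotS (b, g) (b', h) Ψ) := by
  have h2 : ((1 / 2 : ℂ)) = (((1 / 2 : ℝ)) : ℂ) := by push_cast; ring
  rw [inter, h2, ptR_smul, ptR_sum]
  congr 1
  refine Finset.sum_congr rfl fun b _ => ?_
  rw [ptR_sum]
  refine Finset.sum_congr rfl fun b' _ => ?_
  split_ifs
  · exact ptR_zero _
  · rw [ptR_sum]
    refine Finset.sum_congr rfl fun g _ => ?_
    rw [ptR_sum]
    exact Finset.sum_congr rfl fun h _ => ptR_smul _ _ _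

lemma ptR_inter (c : B → B → Fin 4 → Fin 4 → ℝ) (Φ Ψ : SSt (B × Fin 4)) :
    ptR Φ (inter c Ψ) = ptR (inter c Φ) Ψ := by
  rw [ptR_comm (inter c Φ), ptR_inter_eq, ptR_inter_eq]
  refine congrArg (fun x : ℝ => 1 / 2 * x) ?_
  refine Finset.sum_congr rfl fun b _ => Finset.sum_congr rfl fun b' _ => ?_
  split_ifs
  · rfl
  · refine Finset.sum_congr rfl fun g _ => Finset.sum_congr rfl fun h _ => ?_
    rw [ptR_dotS, ptR_comm]

lemma ptR_casimir (Φ Ψ : SSt (B × Fin 4)) : ptR Φ (casimir Ψ) = ptR (casimir Φ) Ψ := by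
  rw [ptR, ptR, casimir_symm]

lemma ptR_casimir_eq (Φ Ψ : SSt (B × Fin 4)) :
    ptR Φ (casimir Ψ) = 1 / 2 * ∑ b : B, ∑ g : Fin 4, ∑ k : Fin 4,
      if g = k then 3 / 4 * ptR Φ Ψ else ptR Φ (dotS (b, g) (b, k) Ψ) := by
  have h2 : ((1 / 2 : ℂ)) = (((1 / 2 : ℝ)) : ℂ) := by push_cast; ring
  have h3 : ((3 / 4 : ℂ)) = (((3 / 4 : ℝ)) : ℂ) := by push_cast; ring
  rw [casimir, ptR_sum, Finset.mul_sum]
  refine Finset.sum_congr rfl fun b _ => ?_
  rw [h2, ptR_smul, ptR_sum]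
  congr 1
  refine Finset.sum_congr rfl fun g _ => ?_
  rw [ptR_sum]
  refine Finset.sum_congr rfl fun k _ => ?_
  split_ifs
  · rw [h3, ptR_smul]
  · rfl

/-- sum over pairs of spins as a sum over pairs in the blocks and between the blocks -/
lemma pt_sum_split (f : B × Fin 4 → B × Fin 4 → ℝ) :
    ∑ p, ∑ q, f p q = (∑ b : B, ∑ g : Fin 4, ∑ k : Fin 4, f (b, g) (b, k)) +
      ∑ b : B, ∑ b' : B, if b = b' then 0 else ∑ g : Fin 4, ∑ k : Fin 4, f (b, g) (b', k) := by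
  rw [Fintype.sum_prod_type, ← Finset.sum_add_distrib]
  refine Finset.sum_congr rfl fun b _ => ?_
  have h1 : ∀ g : Fin 4, ∑ q, f (b, g) q = ∑ b' : B, ∑ k : Fin 4, f (b, g) (b', k) := fun g =>
    Fintype.sum_prod_type _
  rw [Finset.sum_congr rfl fun g _ => h1 g, Finset.sum_comm]
  rw [← Finset.add_sum_erase _ _ (Finset.mem_univ b)]
  congr 1
  rw [← Finset.add_sum_erase (a := b) Finset.univ (fun b' => if b = b' then (0 : ℝ) else
    ∑ g : Fin 4, ∑ k : Fin 4, f (b, g) (b', k)) (Finset.mem_univ b), if_pos rfl, zero_add]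
  refine Finset.sum_congr rfl fun b' hb' => ?_
  rw [if_neg (Ne.symm (Finset.ne_of_mem_erase hb'))]

/-- the energy, decomposed -/
lemma pt_hs (s : ℝ) (t : B → B → Fin 3 → Fin 3 → ℝ) (d : B → Fin 3 → ℝ)
    (Φ : SSt (B × Fin 4)) :
    hs (jw s t d) Φ = -(3 / 2 * s ^ 10 * Fintype.card B) * snorm2 Φ +
      (s ^ 10 * ptR Φ (casimir Φ) + ptR Φ (ptV d Φ) + s ^ 6 * ptR Φ (inter (ptc s t) Φ)) := by
  have hin : ∀ b : B, (∑ g : Fin 4, ∑ k : Fin 4, if ((b, g) : B × Fin 4) = (b, k) then (0 : ℝ) else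
        jw s t d (b, g) (b, k) * (sip Φ (dotS (b, g) (b, k) Φ)).re)
      = s ^ 10 * (∑ g : Fin 4, ∑ k : Fin 4,
          if g = k then 3 / 4 * ptR Φ Φ else ptR Φ (dotS (b, g) (b, k) Φ))
        - 3 * s ^ 10 * snorm2 Φ + 2 * ∑ a : Fin 3, d b a * ptR Φ (dotS (b, 0) (b, a.succ) Φ) := by
    intro b
    have hc : ∀ g k : Fin 4, ptR Φ (dotS (b, g) (b, k) Φ) = ptR Φ (dotS (b, k) (b, g) Φ) :=
      fun g k => by rw [pt_dotS_comm]
    have e1 : ((1 : Fin 3)).succ = (2 : Fin 4) := rfl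
    have e0 : ((0 : Fin 3)).succ = (1 : Fin 4) := rfl
    have e2 : ((2 : Fin 3)).succ = (3 : Fin 4) := rfl
    have p1 : ∀ h, Fin.pred (1 : Fin 4) h = 0 := fun h => rfl
    have p2 : ∀ h, Fin.pred (2 : Fin 4) h = 1 := fun h => rfl
    have p3 : ∀ h, Fin.pred (3 : Fin 4) h = 2 := fun h => rfl
    have hR : ∀ X Y : SSt (B × Fin 4), (sip X Y).re = ptR X Y := fun X Y => rfl
    simp only [hR]
    simp only [Prod.mk.injEq, true_and, jw, ↓reduceIte, Fin.isValue, ne_eq, dite_not, Fin.sum_univ_four, ↓reduceDIte, add_zero, one_ne_zero, p1, dite_eq_ite, ite_self, Fin.reduceEq, p2, p3, zero_ne_one, zero_add, ptR_self, Fin.sum_univ_three, e0, e1, e2]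
    rw [hc 1 0, hc 2 0, hc 3 0, hc 2 1, hc 3 1, hc 3 2]
    ring
  have hout : ∀ b b' : B, b ≠ b' → (∑ g : Fin 4, ∑ k : Fin 4,
        if ((b, g) : B × Fin 4) = (b', k) then (0 : ℝ) else
        jw s t d (b, g) (b', k) * (sip Φ (dotS (b, g) (b', k) Φ)).re)
      = s ^ 6 * ∑ g : Fin 4, ∑ k : Fin 4, ptc s t b b' g k * ptR Φ (dotS (b, g) (b', k) Φ) := by
    intro b b' hb
    rw [Finset.mul_sum]
    refine Finset.sum_congr rfl fun g _ => ?_
    rw [Finset.mul_sum]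
    refine Finset.sum_congr rfl fun k _ => ?_
    rw [if_neg (fun h => hb (congrArg Prod.fst h)), ← ptR, ← mul_assoc]
    congr 1
    simp only [jw, ptc, if_neg hb]
    split_ifs <;> ring
  rw [hs, pt_sum_split, Finset.sum_congr rfl fun b _ => hin b, ptR_casimir_eq, ptR_ptV_eq,
    ptR_inter_eq]
  have h5 : (∑ b : B, ∑ b' : B, if b = b' then (0 : ℝ) else ∑ g : Fin 4, ∑ k : Fin 4,
        if ((b, g) : B × Fin 4) = (b', k) then (0 : ℝ) else
        jw s t d (b, g) (b', k) * (sip Φ (dotS (b, g) (b', k) Φ)).re)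
      = s ^ 6 * ∑ b : B, ∑ b' : B, if b = b' then (0 : ℝ) else
        ∑ g : Fin 4, ∑ k : Fin 4, ptc s t b b' g k * ptR Φ (dotS (b, g) (b', k) Φ) := by
    rw [Finset.mul_sum]
    refine Finset.sum_congr rfl fun b _ => ?_
    rw [Finset.mul_sum]
    refine Finset.sum_congr rfl fun b' _ => ?_
    split_ifs with hb
    · rw [mul_zero]
    · exact hout b b' hb
  rw [h5]
  simp only [Finset.sum_add_distrib, Finset.sum_sub_distrib, ← Finset.mul_sum,
    Finset.sum_const, Finset.card_univ, nsmul_eq_mul]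
  ring

end ptops

section ptteff

variable {B : Type} [Fintype B] [DecidableEq B]

lemma ptc_sum (s : ℝ) (t : B → B → Fin 3 → Fin 3 → ℝ) (b b' : B) (f : Fin 4 → Fin 4 → ℝ) :
    ∑ g, ∑ h, ptc s t b b' g h * f g h =
      s * f 0 0 + ∑ a : Fin 3, ∑ a' : Fin 3, t b b' a a' * f a.succ a'.succ := by
  have h00 : ptc s t b b' 0 0 = s := by simp [ptc]
  have h01 : ∀ a : Fin 3, ptc s t b b' 0 a.succ = 0 := fun a => by simp [ptc]
  have h10 : ∀ a : Fin 3, ptc s t b b' a.succ 0 = 0 := fun a => by simp [ptc]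
  have h11 : ∀ a a' : Fin 3, ptc s t b b' a.succ a'.succ = t b b' a a' := fun a a' => by
    simp only [ptc, Fin.isValue, ne_eq, Fin.succ_ne_zero, not_false_eq_true, ↓reduceDIte, Fin.pred_succ]
  rw [Fin.sum_univ_succ]
  congr 1
  · rw [Fin.sum_univ_succ]
    simp [h00, h01]
  · refine Finset.sum_congr rfl fun a _ => ?_
    rw [Fin.sum_univ_succ]
    simp only [Fin.isValue, h10, zero_mul, h11, zero_add]

/-- real part of the inner product of qubit states -/
noncomputable def ptq (u w : (B → Bool) → ℂ) : ℝ := (∑ x, conj (u x) * w x).re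

/-- the operator `-1/4 - σ/2` -/
noncomputable def ptm (a : Fin 3) (b : B) (w : (B → Bool) → ℂ) : (B → Bool) → ℂ :=
  fun x => -(1 / 4) * w x - 1 / 2 * sgm a b w x

lemma ptq_self (u : (B → Bool) → ℂ) : ptq u u = ∑ x, ‖u x‖ ^ 2 := by
  rw [ptq, Complex.re_sum]
  refine Finset.sum_congr rfl fun s _ => ?_
  rw [Complex.conj_mul', ← Complex.ofReal_pow, Complex.ofReal_re]

lemma ptq_lin (u w w' : (B → Bool) → ℂ) :
    ptq u (fun x => -(1 / 4) * w x - 1 / 2 * w' x) = -(1 / 4) * ptq u w - 1 / 2 * ptq u w' := by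
  have h : ∀ x, conj (u x) * (-(1 / 4) * w x - 1 / 2 * w' x)
      = ((-(1 / 4) : ℝ) : ℂ) * (conj (u x) * w x) - ((1 / 2 : ℝ) : ℂ) * (conj (u x) * w' x) := by
    intro x; push_cast; ring
  rw [ptq, ptq, ptq, Finset.sum_congr rfl fun x _ => h x, Finset.sum_sub_distrib,
    ← Finset.mul_sum, ← Finset.mul_sum, Complex.sub_re, Complex.re_ofReal_mul,
    Complex.re_ofReal_mul]

lemma pt_sgm_ptm (a a' : Fin 3) (b b' : B) (u : (B → Bool) → ℂ) :
    sgm a b (ptm a' b' u) = fun x => -(1 / 4) * sgm a b u x - 1 / 2 * sgm a b (sgm a' b' u) x := by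
  funext x
  simp only [sgm, ptm]
  ring

lemma ptq_ptm (a : Fin 3) (b : B) (u : (B → Bool) → ℂ) :
    ptq u (ptm a b u) = -(1 / 4) * (∑ x, ‖u x‖ ^ 2) - 1 / 2 * ptq u (sgm a b u) := by
  have h : ptm a b u = fun x => -(1 / 4) * u x - 1 / 2 * sgm a b u x := rfl
  rw [h, ptq_lin, ptq_self]

lemma ptq_ptm2 (a a' : Fin 3) (b b' : B) (u : (B → Bool) → ℂ) :
    ptq u (ptm a b (ptm a' b' u)) = 1 / 16 * (∑ x, ‖u x‖ ^ 2) + 1 / 8 * ptq u (sgm a b u) +
      1 / 8 * ptq u (sgm a' b' u) + 1 / 4 * ptq u (sgm a b (sgm a' b' u)) := by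
  have h : ptm a b (ptm a' b' u) =
      fun x => -(1 / 4) * ptm a' b' u x - 1 / 2 * sgm a b (ptm a' b' u) x := rfl
  rw [h, ptq_lin, ptq_ptm, pt_sgm_ptm, ptq_lin]
  ring

lemma pt_hcl_succ_iota (a : Fin 3) (b : B) (u : (B → Bool) → ℂ) :
    hcl b a.succ (iota u) = iota (ptm a b u) := by
  rw [hcl, if_neg (Fin.succ_ne_zero a), dotS_iota b a.succ (Fin.succ_ne_zero a), Fin.pred_succ]
  rfl

lemma ptR_iota (u w : (B → Bool) → ℂ) : ptR (iota u) (iota w) = ptq u w := by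
  rw [ptR, sip_iota, iotaA_iota]
  rfl

lemma pt_dotS_succ_iota (a : Fin 3) (b : B) (u : (B → Bool) → ℂ) :
    dotS (b, 0) (b, a.succ) (iota u) = iota (ptm a b u) := by
  rw [dotS_iota b a.succ (Fin.succ_ne_zero a), Fin.pred_succ]
  rfl

lemma ptR_ptV_iota (d : B → Fin 3 → ℝ) (u : (B → Bool) → ℂ) :
    ptR (iota u) (ptV d (iota u)) = -∑ b : B, ∑ a : Fin 3, d b a *
      (1 / 4 * (∑ x, ‖u x‖ ^ 2) + 1 / 2 * ptq u (sgm a b u)) := by
  rw [ptR_ptV_eq, ← Finset.sum_neg_distrib]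
  refine Finset.sum_congr rfl fun b _ => ?_
  rw [← Finset.sum_neg_distrib]
  refine Finset.sum_congr rfl fun a _ => ?_
  rw [pt_dotS_succ_iota, ptR_iota, ptq_ptm]
  ring

lemma ptN_hcl (b : B) (g : Fin 4) (Φ : SSt (B × Fin 4)) : ptN (hcl b g Φ) ≤ 3 / 4 * ptN Φ := by
  unfold hcl
  split_ifs
  · rw [ptN_smul]
    have : ‖(3 / 4 : ℂ)‖ = 3 / 4 := by norm_num
    rw [this]
  · exact ptN_dotS _ _ _

lemma pt_cls0 (g : Fin 4) : cls 0 g = g := by
  revert g; decide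

lemma pt_cls0' (g : Fin 4) : cls g 0 = g := by
  revert g; decide

/-- the part of the second order energy which is quadratic in the small couplings -/
noncomputable def ptTT (t : B → B → Fin 3 → Fin 3 → ℝ) (u : (B → Bool) → ℂ) : ℝ :=
  ∑ b : B, ∑ b' : B, if b = b' then 0 else
    ∑ a : Fin 3, ∑ a' : Fin 3, t b b' a a' * ∑ e : Fin 3, ∑ e' : Fin 3, t b b' e e' *
      ptR (iota u) (hcl b (cls a.succ e.succ) (hcl b' (cls a'.succ e'.succ) (iota u)))

lemma ptTT_abs (t : B → B → Fin 3 → Fin 3 → ℝ)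
    (ht0 : ∀ b b' a a', 0 ≤ t b b' a a') (ht1 : ∀ b b' a a', t b b' a a' ≤ 1)
    (u : (B → Bool) → ℂ) :
    |ptTT t u| ≤ 729 / 16 * (Fintype.card B : ℝ) ^ 2 * snorm2 (iota u) := by
  have h1 : ∀ (b b' : B) (a a' e e' : Fin 3),
      |ptR (iota u) (hcl b (cls a.succ e.succ) (hcl b' (cls a'.succ e'.succ) (iota u)))|
        ≤ 9 / 16 * snorm2 (iota u) := by
    intro b b' a a' e e'
    refine (ptR_abs_le _ _).trans ?_
    rw [← ptN_sq]
    have h2 := ptN_hcl b (cls a.succ e.succ) (hcl b' (cls a'.succ e'.succ) (iota u))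
    have h3 := ptN_hcl b' (cls a'.succ e'.succ) (iota u)
    have h4 := ptN_nonneg (iota u)
    calc ptN (iota u) * ptN (hcl b (cls a.succ e.succ) (hcl b' (cls a'.succ e'.succ) (iota u)))
        ≤ ptN (iota u) * (3 / 4 * (3 / 4 * ptN (iota u))) := by
          refine mul_le_mul_of_nonneg_left (h2.trans ?_) h4
          linarith
      _ = 9 / 16 * ptN (iota u) ^ 2 := by ring
  have hS := pt_snorm2_nonneg' (iota u)
  have h5 : ∀ b b' : B, |if b = b' then (0 : ℝ) else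
      ∑ a : Fin 3, ∑ a' : Fin 3, t b b' a a' * ∑ e : Fin 3, ∑ e' : Fin 3, t b b' e e' *
      ptR (iota u) (hcl b (cls a.succ e.succ) (hcl b' (cls a'.succ e'.succ) (iota u)))|
      ≤ 729 / 16 * snorm2 (iota u) := by
    intro b b'
    split_ifs
    · rw [abs_zero]; (clear * - hS; positivity)
    · have h6 : ∀ a a' : Fin 3, |t b b' a a' * ∑ e : Fin 3, ∑ e' : Fin 3, t b b' e e' *
          ptR (iota u) (hcl b (cls a.succ e.succ) (hcl b' (cls a'.succ e'.succ) (iota u)))|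
          ≤ 81 / 16 * snorm2 (iota u) := by
        intro a a'
        rw [abs_mul, abs_of_nonneg (ht0 _ _ _ _)]
        have h7 : |∑ e : Fin 3, ∑ e' : Fin 3, t b b' e e' *
          ptR (iota u) (hcl b (cls a.succ e.succ) (hcl b' (cls a'.succ e'.succ) (iota u)))|
          ≤ ∑ e : Fin 3, ∑ e' : Fin 3, 9 / 16 * snorm2 (iota u) := by
          refine (Finset.abs_sum_le_sum_abs _ _).trans (Finset.sum_le_sum fun e _ => ?_)
          refine (Finset.abs_sum_le_sum_abs _ _).trans (Finset.sum_le_sum fun e' _ => ?_)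
          rw [abs_mul, abs_of_nonneg (ht0 _ _ _ _)]
          calc t b b' e e' * _ ≤ 1 * (9 / 16 * snorm2 (iota u)) :=
                mul_le_mul (ht1 _ _ _ _) (h1 b b' a a' e e') (abs_nonneg _) zero_le_one
            _ = _ := one_mul _
        have h8 : ∑ e : Fin 3, ∑ e' : Fin 3, 9 / 16 * snorm2 (iota u)
            = 81 / 16 * snorm2 (iota u) := by
          simp only [sum_const, card_univ, Fintype.card_fin, nsmul_eq_mul, Nat.cast_ofNat]
          ring
        rw [h8] at h7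
        calc t b b' a a' * _ ≤ 1 * (81 / 16 * snorm2 (iota u)) :=
              mul_le_mul (ht1 _ _ _ _) h7 (abs_nonneg _) zero_le_one
          _ = _ := one_mul _
      refine (Finset.abs_sum_le_sum_abs _ _).trans ?_
      refine (Finset.sum_le_sum fun a _ => (Finset.abs_sum_le_sum_abs _ _).trans
        (Finset.sum_le_sum fun a' _ => h6 a a')).trans ?_
      simp only [sum_const, card_univ, Fintype.card_fin, nsmul_eq_mul, Nat.cast_ofNat]
      linarith only []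
  refine (Finset.abs_sum_le_sum_abs _ _).trans ?_
  refine (Finset.sum_le_sum fun b _ => (Finset.abs_sum_le_sum_abs _ _).trans
    (Finset.sum_le_sum fun b' _ => h5 b b')).trans ?_
  simp only [Finset.sum_const, Finset.card_univ, nsmul_eq_mul]
  rw [sq]
  exact le_of_eq (by ring)

lemma pt_snorm2_inter_iota (s : ℝ) (t : B → B → Fin 3 → Fin 3 → ℝ)
    (hts : ∀ b b' a a', t b b' a a' = t b' b a' a) (u : (B → Bool) → ℂ) :
    snorm2 (inter (ptc s t) (iota u)) = 1 / 6 * ((∑ b : B, ∑ b' : B, if b = b' then 0 else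
      (9 / 16 * s ^ 2 * (∑ x, ‖u x‖ ^ 2) + ∑ a : Fin 3, ∑ a' : Fin 3, t b b' a a' * (2 * s) *
        (1 / 16 * (∑ x, ‖u x‖ ^ 2) + 1 / 4 * ptq u (sgm a b u) +
          1 / 4 * ptq u (sgm a b (sgm a' b' u))))) + ptTT t u) := by
  rw [snorm2_inter (ptc s t) (fun b b' g h => ptc_symm hts b b' g h) (iota u) (iota_bs u)]
  congr 1
  -- the terms of one pair of blocks
  have hterm : ∀ b b' : B, (∑ g, ∑ h, ∑ g', ∑ h', ptc s t b b' g h * ptc s t b b' g' h' *
        (sip (iota u) (hcl b (cls g g') (hcl b' (cls h h') (iota u)))).re)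
      = 9 / 16 * s ^ 2 * (∑ x, ‖u x‖ ^ 2) + (∑ a : Fin 3, ∑ a' : Fin 3, t b b' a a' * (2 * s) *
        (1 / 16 * (∑ x, ‖u x‖ ^ 2) + 1 / 8 * ptq u (sgm a b u) + 1 / 8 * ptq u (sgm a' b' u) +
          1 / 4 * ptq u (sgm a b (sgm a' b' u)))) +
        ∑ a : Fin 3, ∑ a' : Fin 3, t b b' a a' * ∑ e : Fin 3, ∑ e' : Fin 3, t b b' e e' *
      ptR (iota u) (hcl b (cls a.succ e.succ) (hcl b' (cls a'.succ e'.succ) (iota u))) := by
    intro b b'
    have hR : ∀ X Y : SSt (B × Fin 4), (sip X Y).re = ptR X Y := fun X Y => rfl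
    have e1 : ∀ g h : Fin 4, (∑ g', ∑ h', ptc s t b b' g h * ptc s t b b' g' h' *
        (sip (iota u) (hcl b (cls g g') (hcl b' (cls h h') (iota u)))).re)
        = ptc s t b b' g h * ∑ g', ∑ h', ptc s t b b' g' h' *
        ptR (iota u) (hcl b (cls g g') (hcl b' (cls h h') (iota u))) := by
      intro g h
      rw [Finset.mul_sum]
      refine Finset.sum_congr rfl fun g' _ => ?_
      rw [Finset.mul_sum]
      refine Finset.sum_congr rfl fun h' _ => ?_
      rw [hR, mul_assoc]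
    rw [Finset.sum_congr rfl fun g _ => Finset.sum_congr rfl fun h _ => e1 g h]
    rw [ptc_sum s t b b' (fun g h => ∑ g', ∑ h', ptc s t b b' g' h' *
        ptR (iota u) (hcl b (cls g g') (hcl b' (cls h h') (iota u))))]
    have e2 : ∀ g h : Fin 4, (∑ g', ∑ h', ptc s t b b' g' h' *
        ptR (iota u) (hcl b (cls g g') (hcl b' (cls h h') (iota u))))
        = s * ptR (iota u) (hcl b (cls g 0) (hcl b' (cls h 0) (iota u))) +
          ∑ a : Fin 3, ∑ a' : Fin 3, t b b' a a' *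
            ptR (iota u) (hcl b (cls g a.succ) (hcl b' (cls h a'.succ) (iota u))) := fun g h =>
      ptc_sum s t b b' (fun g' h' =>
        ptR (iota u) (hcl b (cls g g') (hcl b' (cls h h') (iota u))))
    simp only [e2]
    simp only [pt_cls0, pt_cls0']
    have e3 : ptR (iota u) (hcl b 0 (hcl b' 0 (iota u))) = 9 / 16 * ∑ x, ‖u x‖ ^ 2 := by
      have h34 : ((3 / 4 : ℂ)) = (((3 / 4 : ℝ)) : ℂ) := by push_cast; ring
      simp only [hcl, if_true, h34, ptR_smul, ptR_self, snorm2_iota]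
      ring
    have e4 : ∀ a a' : Fin 3, ptR (iota u) (hcl b a.succ (hcl b' a'.succ (iota u)))
        = 1 / 16 * (∑ x, ‖u x‖ ^ 2) + 1 / 8 * ptq u (sgm a b u) +
      1 / 8 * ptq u (sgm a' b' u) + 1 / 4 * ptq u (sgm a b (sgm a' b' u)) := by
      intro a a'
      rw [pt_hcl_succ_iota, pt_hcl_succ_iota, ptR_iota, ptq_ptm2]
    simp only [e3, e4]
    have e5 : ∀ a a' : Fin 3, t b b' a a' * (s * (1 / 16 * (∑ x, ‖u x‖ ^ 2) +
        1 / 8 * ptq u (sgm a b u) + 1 / 8 * ptq u (sgm a' b' u) +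
          1 / 4 * ptq u (sgm a b (sgm a' b' u))) +
        ∑ e : Fin 3, ∑ e' : Fin 3, t b b' e e' *
          ptR (iota u) (hcl b (cls a.succ e.succ) (hcl b' (cls a'.succ e'.succ) (iota u))))
        = s * (t b b' a a' * (1 / 16 * (∑ x, ‖u x‖ ^ 2) +
        1 / 8 * ptq u (sgm a b u) + 1 / 8 * ptq u (sgm a' b' u) +
          1 / 4 * ptq u (sgm a b (sgm a' b' u)))) +
        t b b' a a' * ∑ e : Fin 3, ∑ e' : Fin 3, t b b' e e' *
          ptR (iota u) (hcl b (cls a.succ e.succ) (hcl b' (cls a'.succ e'.succ) (iota u))) := by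
      intro a a'; ring
    simp only [e5, sum_add_distrib]
    have e6 : ∀ a a' : Fin 3, t b b' a a' * (2 * s) * (1 / 16 * (∑ x, ‖u x‖ ^ 2) +
        1 / 8 * ptq u (sgm a b u) + 1 / 8 * ptq u (sgm a' b' u) +
          1 / 4 * ptq u (sgm a b (sgm a' b' u)))
        = 2 * s * (t b b' a a' * (1 / 16 * (∑ x, ‖u x‖ ^ 2) +
        1 / 8 * ptq u (sgm a b u) + 1 / 8 * ptq u (sgm a' b' u) +
          1 / 4 * ptq u (sgm a b (sgm a' b' u)))) := by
      intro a a'; ring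
    simp only [← mul_sum, e6]
    ring
  have hsplit : ∀ b b' : B, (if b = b' then (0 : ℝ) else ∑ g, ∑ h, ∑ g', ∑ h',
        ptc s t b b' g h * ptc s t b b' g' h' *
        (sip (iota u) (hcl b (cls g g') (hcl b' (cls h h') (iota u)))).re)
      = (if b = b' then 0 else (9 / 16 * s ^ 2 * (∑ x, ‖u x‖ ^ 2) +
        ∑ a : Fin 3, ∑ a' : Fin 3, t b b' a a' * (2 * s) *
        (1 / 16 * (∑ x, ‖u x‖ ^ 2) + 1 / 4 * ptq u (sgm a b u) +
          1 / 4 * ptq u (sgm a b (sgm a' b' u))))) +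
        ((if b = b' then 0 else ∑ a : Fin 3, ∑ a' : Fin 3, t b b' a a' * (s / 4) *
          ptq u (sgm a' b' u)) -
        (if b = b' then 0 else ∑ a : Fin 3, ∑ a' : Fin 3, t b b' a a' * (s / 4) *
          ptq u (sgm a b u))) +
        (if b = b' then 0 else ∑ a : Fin 3, ∑ a' : Fin 3, t b b' a a' *
          ∑ e : Fin 3, ∑ e' : Fin 3, t b b' e e' *
      ptR (iota u) (hcl b (cls a.succ e.succ) (hcl b' (cls a'.succ e'.succ) (iota u)))) := by
    intro b b'
    by_cases hb : b = b'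
    · simp [hb]
    · simp only [if_neg hb]
      rw [hterm b b', ← Finset.sum_sub_distrib]
      have e7 : ∀ x y z w v : ℝ, y = z + w → x + y + v = x + z + w + v := by
        intro x y z w v h; linarith only [h]
      refine e7 _ _ _ _ _ ?_
      rw [← Finset.sum_add_distrib]
      refine Finset.sum_congr rfl fun a _ => ?_
      rw [← Finset.sum_sub_distrib, ← Finset.sum_add_distrib]
      refine Finset.sum_congr rfl fun a' _ => ?_
      ring
  have hsym : (∑ b : B, ∑ b' : B, if b = b' then (0 : ℝ) else ∑ a : Fin 3, ∑ a' : Fin 3,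
        t b b' a a' * (s / 4) * ptq u (sgm a' b' u))
      = ∑ b : B, ∑ b' : B, if b = b' then (0 : ℝ) else ∑ a : Fin 3, ∑ a' : Fin 3,
        t b b' a a' * (s / 4) * ptq u (sgm a b u) := by
    rw [Finset.sum_comm]
    refine Finset.sum_congr rfl fun b _ => Finset.sum_congr rfl fun b' _ => ?_
    by_cases hb : b = b'
    · simp [hb]
    · rw [if_neg hb, if_neg (Ne.symm hb), Finset.sum_comm]
      refine Finset.sum_congr rfl fun a _ => Finset.sum_congr rfl fun a' _ => ?_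
      rw [hts b b' a a']
  rw [Finset.sum_congr rfl fun b _ => Finset.sum_congr rfl fun b' _ => hsplit b b']
  simp only [sum_add_distrib, sum_sub_distrib]
  rw [hsym, sub_self, add_zero]
  rfl

/-- the effective energy as second order energy -/
lemma pt_teff (s : ℝ) (t : B → B → Fin 3 → Fin 3 → ℝ) (d : B → Fin 3 → ℝ)
    (hts : ∀ b b' a a', t b b' a a' = t b' b a' a) (u : (B → Bool) → ℂ) :
    teff s t d u = -(3 / 2 * s ^ 10 * Fintype.card B) * (∑ x, ‖u x‖ ^ 2) +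
      ptR (iota u) (ptV d (iota u)) - s ^ 2 / 2 * snorm2 (inter (ptc s t) (iota u)) +
      s ^ 2 / 12 * ptTT t u := by
  have hq : ∀ w, (∑ x, conj (u x) * w x).re = ptq u w := fun w => rfl
  rw [pt_snorm2_inter_iota s t hts u, ptR_ptV_iota]
  simp only [teff, hq]
  have h1 : (∑ b : B, ∑ b' : B, if b = b' then (0 : ℝ) else
      (3 / 64 * s ^ 4 * (∑ x, ‖u x‖ ^ 2) +
      ∑ a : Fin 3, ∑ a' : Fin 3, t b b' a a' * s ^ 3 *
        (1 / 96 * (∑ x, ‖u x‖ ^ 2) + 1 / 24 * ptq u (sgm a b u) +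
          1 / 24 * ptq u (sgm a b (sgm a' b' u)))))
      = s ^ 2 / 12 * ∑ b : B, ∑ b' : B, if b = b' then 0 else
      (9 / 16 * s ^ 2 * (∑ x, ‖u x‖ ^ 2) + ∑ a : Fin 3, ∑ a' : Fin 3, t b b' a a' * (2 * s) *
        (1 / 16 * (∑ x, ‖u x‖ ^ 2) + 1 / 4 * ptq u (sgm a b u) +
          1 / 4 * ptq u (sgm a b (sgm a' b' u)))) := by
    have e0 : ∀ (k : ℝ) (f : B → B → ℝ), k * ∑ b : B, ∑ b' : B, f b b' =
        ∑ b : B, ∑ b' : B, k * f b b' := fun k f => by simp only [Finset.mul_sum]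
    rw [e0]
    refine Finset.sum_congr rfl fun b _ => Finset.sum_congr rfl fun b' _ => ?_
    by_cases hb : b = b'
    · simp [hb]
    · simp only [if_neg hb]
      have e9 : ∀ (k : ℝ) (f : Fin 3 → Fin 3 → ℝ), k * ∑ b, ∑ b', f b b' =
        ∑ b, ∑ b', k * f b b' := fun k f => by simp only [mul_sum]
      rw [mul_add, e9]
      refine congrArg₂ (· + ·) (by ring) ?_
      refine Finset.sum_congr rfl fun a _ => Finset.sum_congr rfl fun a' _ => ?_
      ring
  rw [h1]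
  ring

end ptteff

section ptmain

variable {B : Type} [Fintype B] [DecidableEq B]

lemma pt_V_abs (s : ℝ) (d : B → Fin 3 → ℝ) (hd : ∀ b a, |d b a| ≤ s ^ 3)
    (Φ : SSt (B × Fin 4)) :
    |ptR Φ (ptV d Φ)| ≤ 9 / 4 * (Fintype.card B : ℝ) * s ^ 3 * snorm2 Φ := by
  rw [ptR_ptV_eq]
  have h1 : ∀ (b : B) (a : Fin 3), |d b a * ptR Φ (dotS (b, 0) (b, a.succ) Φ)|
      ≤ s ^ 3 * (3 / 4 * snorm2 Φ) := by
    intro b a
    rw [abs_mul]
    refine mul_le_mul (hd b a) ?_ (abs_nonneg _) ((abs_nonneg _).trans (hd b a))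
    refine (ptR_abs_le _ _).trans ?_
    rw [← ptN_sq]
    have h2 := ptN_dotS (b, 0) (b, a.succ) Φ
    have h3 := ptN_nonneg Φ
    linarith only [mul_nonneg_of_nonpos_of_nonpos (Mathlib.Tactic.Linarith.sub_nonpos_of_le h2) (Mathlib.Tactic.Linarith.sub_nonpos_of_le h3)]
  refine (Finset.abs_sum_le_sum_abs _ _).trans ?_
  refine (Finset.sum_le_sum fun b _ => (Finset.abs_sum_le_sum_abs _ _).trans
    (Finset.sum_le_sum fun a _ => h1 b a)).trans ?_
  simp only [Finset.sum_const, Finset.card_univ, nsmul_eq_mul, Fintype.card_fin]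
  exact le_of_eq (by push_cast; ring)

lemma pt_inter_N (s : ℝ) (t : B → B → Fin 3 → Fin 3 → ℝ) (hs : 6 ≤ s)
    (ht0 : ∀ b b' a a', 0 ≤ t b b' a a') (ht1 : ∀ b b' a a', t b b' a a' ≤ 1)
    (Φ : SSt (B × Fin 4)) :
    ptN (inter (ptc s t) Φ) ≤ (Fintype.card B : ℝ) ^ 2 * s * ptN Φ := by
  have hN := ptN_nonneg Φ
  have h0 : ∀ b b' g h, 0 ≤ ptc s t b b' g h := by
    intro b b' g h
    unfold ptc
    split_ifs
    · exact ht0 _ _ _ _
    · exact le_rfl
    · linarith only [hs]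
    · exact le_rfl
  have h1 : ∀ b b' : B, ptN (if b = b' then 0 else
      ∑ g : Fin 4, ∑ h : Fin 4, (ptc s t b b' g h : ℂ) • dotS (b, g) (b', h) Φ)
      ≤ 2 * s * ptN Φ := by
    intro b b'
    split_ifs
    · rw [ptN_zero]; (clear * - hs hN; positivity)
    · have h2 : ∀ g h : Fin 4, ptN ((ptc s t b b' g h : ℂ) • dotS (b, g) (b', h) Φ)
          ≤ ptc s t b b' g h * (3 / 4 * ptN Φ) := by
        intro g h
        rw [ptN_smul, Complex.norm_real, Real.norm_of_nonneg (h0 b b' g h)]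
        exact mul_le_mul_of_nonneg_left (ptN_dotS _ _ _) (h0 b b' g h)
      refine (ptN_sum_le _ _).trans ?_
      refine (Finset.sum_le_sum fun g _ => (ptN_sum_le _ _).trans
        (Finset.sum_le_sum fun h _ => h2 g h)).trans ?_
      rw [ptc_sum s t b b' fun g h => 3 / 4 * ptN Φ]
      have h3 : ∑ a : Fin 3, ∑ a' : Fin 3, t b b' a a' * (3 / 4 * ptN Φ)
          ≤ ∑ a : Fin 3, ∑ a' : Fin 3, (3 / 4 * ptN Φ) := by
        refine Finset.sum_le_sum fun a _ => Finset.sum_le_sum fun a' _ => ?_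
        exact mul_le_of_le_one_left (by (clear * - hN; positivity)) (ht1 _ _ _ _)
      simp only [Finset.sum_const, Finset.card_univ, nsmul_eq_mul, Fintype.card_fin] at h3
      push_cast at h3
      linarith only [hN, h3, mul_nonneg_of_nonpos_of_nonpos (Mathlib.Tactic.Linarith.sub_nonpos_of_le hN) (Mathlib.Tactic.Linarith.sub_nonpos_of_le hs)]
  rw [inter, ptN_smul]
  have h4 : ‖(1 / 2 : ℂ)‖ = 1 / 2 := by norm_num
  rw [h4]
  have h5 := (ptN_sum_le Finset.univ (fun b : B => ∑ b' : B, if b = b' then 0 else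
      ∑ g : Fin 4, ∑ h : Fin 4, (ptc s t b b' g h : ℂ) • dotS (b, g) (b', h) Φ)).trans
      (Finset.sum_le_sum fun b _ => (ptN_sum_le _ _).trans
        (Finset.sum_le_sum fun b' _ => h1 b b'))
  simp only [Finset.sum_const, Finset.card_univ, nsmul_eq_mul] at h5
  calc 1 / 2 * _ ≤ 1 / 2 * ((Fintype.card B : ℝ) * ((Fintype.card B : ℝ) * (2 * s * ptN Φ))) :=
        mul_le_mul_of_nonneg_left h5 (by norm_num)
    _ = _ := by ring

lemma pt_inter_snorm (s : ℝ) (t : B → B → Fin 3 → Fin 3 → ℝ) (hs : 6 ≤ s)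
    (ht0 : ∀ b b' a a', 0 ≤ t b b' a a') (ht1 : ∀ b b' a a', t b b' a a' ≤ 1)
    (Φ : SSt (B × Fin 4)) :
    snorm2 (inter (ptc s t) Φ) ≤ (Fintype.card B : ℝ) ^ 4 * s ^ 2 * snorm2 Φ := by
  have h := pow_le_pow_left₀ (ptN_nonneg _) (pt_inter_N s t hs ht0 ht1 Φ) 2
  rw [ptN_sq] at h
  refine h.trans (le_of_eq ?_)
  rw [mul_pow, ptN_sq]
  ring

lemma pt_inter_abs (s : ℝ) (t : B → B → Fin 3 → Fin 3 → ℝ) (hs : 6 ≤ s)
    (ht0 : ∀ b b' a a', 0 ≤ t b b' a a') (ht1 : ∀ b b' a a', t b b' a a' ≤ 1)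
    (Φ : SSt (B × Fin 4)) :
    |ptR Φ (inter (ptc s t) Φ)| ≤ (Fintype.card B : ℝ) ^ 2 * s * snorm2 Φ := by
  refine (ptR_abs_le _ _).trans ?_
  have h := pt_inter_N s t hs ht0 ht1 Φ
  have h3 := ptN_nonneg Φ
  rw [← ptN_sq]
  calc ptN Φ * ptN (inter (ptc s t) Φ)
      ≤ ptN Φ * ((Fintype.card B : ℝ) ^ 2 * s * ptN Φ) := mul_le_mul_of_nonneg_left h h3
    _ = _ := by ring

/-- expansion of a symmetric form -/
lemma pt_expand (L : SSt (B × Fin 4) → SSt (B × Fin 4))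
    (hadd : ∀ Φ Ψ, L (Φ + Ψ) = L Φ + L Ψ) (hsymm : ∀ Φ Ψ, ptR Φ (L Ψ) = ptR (L Φ) Ψ)
    (v w : SSt (B × Fin 4)) :
    ptR (v + w) (L (v + w)) = ptR v (L v) + 2 * ptR w (L v) + ptR w (L w) := by
  have h : ptR v (L w) = ptR w (L v) := by rw [hsymm, ptR_comm]
  rw [hadd, ptR_add, ptR_add_left, ptR_add_left, h]
  ring

lemma pt_iotaA_add (Φ Ψ : SSt (B × Fin 4)) : iotaA (Φ + Ψ) = iotaA Φ + iotaA Ψ := by
  funext x
  simp only [iotaA, Pi.add_apply, mul_add, sum_add_distrib]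

lemma pt_iotaA_smul (c : ℂ) (Φ : SSt (B × Fin 4)) : iotaA (c • Φ) = c • iotaA Φ := by
  funext x
  simp only [iotaA, Pi.smul_apply, smul_eq_mul, Finset.mul_sum]
  exact Finset.sum_congr rfl fun s _ => by ring

lemma pt_iotaA_inter (c : B → B → Fin 4 → Fin 4 → ℝ) (u : (B → Bool) → ℂ) :
    iotaA (inter c (iota u)) = 0 := by
  set X := inter c (iota u) with hX
  have h1 : sip (iota (iotaA X)) X = 0 := inter_bs c (iota u) _ (iota_bs u) (iota_bs _)
  rw [sip_iota] at h1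
  have h2 : ((∑ x, ‖iotaA X x‖ ^ 2 : ℝ) : ℂ) = 0 := by
    rw [← h1]
    push_cast
    exact Finset.sum_congr rfl fun x _ => (Complex.conj_mul' _).symm
  have h3 : ∑ x, ‖iotaA X x‖ ^ 2 = 0 := by exact_mod_cast h2
  funext x
  have h4 := (Finset.sum_eq_zero_iff_of_nonneg fun x _ => by (clear * -; (clear * -; positivity))).1 h3 x
    (Finset.mem_univ x)
  simpa using h4

lemma ptR_V_of_orth (d : B → Fin 3 → ℝ) (u : (B → Bool) → ℂ) (w : SSt (B × Fin 4))
    (hw : ∀ u', ptR w (iota u') = 0) : ptR w (ptV d (iota u)) = 0 := by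
  rw [ptR_ptV_eq]
  refine Finset.sum_eq_zero fun b _ => Finset.sum_eq_zero fun a _ => ?_
  rw [pt_dotS_succ_iota, hw, mul_zero]

lemma ptR_iota_of_iotaA (w : SSt (B × Fin 4)) (hw : iotaA w = 0) (u' : (B → Bool) → ℂ) :
    ptR w (iota u') = 0 := by
  rw [ptR_comm, ptR, sip_iota, hw]
  simp only [Pi.zero_apply, mul_zero, sum_const_zero, Complex.zero_re]

lemma pt_basic {n s : ℝ} (hn : 1 ≤ n) (hs : 10 ^ 4 * n ^ 6 ≤ s) :
    10 ^ 4 ≤ s ∧ n ≤ n ^ 2 ∧ n ^ 2 ≤ n ^ 6 ∧ 10 ^ 4 * n ^ 2 ≤ s := by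
  have hn6 : 1 ≤ n ^ 6 := one_le_pow₀ hn
  have h2 : n ^ 2 ≤ n ^ 6 := pow_le_pow_right₀ hn (by norm_num)
  refine ⟨by linarith, ?_, h2, by linarith only [hs, h2]⟩
  calc n = n ^ 1 := (pow_one n).symm
    _ ≤ n ^ 2 := pow_le_pow_right₀ hn (by norm_num)

lemma pt_Q1 {n s : ℝ} (hn : 1 ≤ n) (hs : 10 ^ 4 * n ^ 6 ≤ s) :
    n * s ^ 3 ≤ n ^ 2 * s ^ 7 / 100 ∧ n ^ 2 * s ^ 2 ≤ n ^ 2 * s ^ 7 / 100 := by
  obtain ⟨h1, h2, h3, h4⟩ := pt_basic hn hs
  have hs0 : 0 < s := by linarith only [h1]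
  have e4 : 100 ≤ s ^ 4 := by
    calc (100 : ℝ) ≤ s := by linarith only [h1]
      _ = s ^ 1 := (pow_one s).symm
      _ ≤ s ^ 4 := pow_le_pow_right₀ (by linarith only [h1]) (by norm_num)
  have e1 : s ^ 3 ≤ s ^ 7 / 100 := by
    rw [le_div_iff₀ (by norm_num)]
    calc s ^ 3 * 100 ≤ s ^ 3 * s ^ 4 := mul_le_mul_of_nonneg_left e4 (by positivity)
      _ = s ^ 7 := by ring
  have e2 : s ^ 2 ≤ s ^ 7 / 100 := (pow_le_pow_right₀ (by linarith only [h1]) (by norm_num)).trans e1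
  constructor
  · calc n * s ^ 3 ≤ n ^ 2 * (s ^ 7 / 100) := mul_le_mul h2 e1 (by positivity) (by positivity)
      _ = _ := by ring
  · calc n ^ 2 * s ^ 2 ≤ n ^ 2 * (s ^ 7 / 100) := mul_le_mul_of_nonneg_left e2 (by positivity)
      _ = _ := by ring

lemma pt_Q2 {n s : ℝ} (hn : 1 ≤ n) (hs : 10 ^ 4 * n ^ 6 ≤ s) :
    2 * (2 * n ^ 2 * s ^ 7) ≤ s ^ 10 := by
  obtain ⟨h1, h2, h3, h4⟩ := pt_basic hn hs
  have hs0 : 0 < s := by linarith only [h1]
  have e2 : 4 * n ^ 2 ≤ s ^ 3 := by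
    have e3 : s ≤ s ^ 3 := by
      calc s = s ^ 1 := (pow_one s).symm
        _ ≤ s ^ 3 := pow_le_pow_right₀ (by linarith only [h1]) (by norm_num)
    have : 0 ≤ n ^ 2 := by (clear * - hn; positivity)
    linarith only [hs, h1, h3, e3]
  calc 2 * (2 * n ^ 2 * s ^ 7) = 4 * n ^ 2 * s ^ 7 := by ring
    _ ≤ s ^ 3 * s ^ 7 := mul_le_mul_of_nonneg_right e2 (by positivity)
    _ = s ^ 10 := by ring

lemma pt_eta {n s nv nX : ℝ} (hs0 : 0 < s) (hX : nX ≤ n ^ 4 * s ^ 2 * nv) :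
    (1 / (2 * s ^ 4)) ^ 2 * nX ≤ n ^ 4 / (4 * s ^ 6) * nv := by
  calc (1 / (2 * s ^ 4)) ^ 2 * nX ≤ (1 / (2 * s ^ 4)) ^ 2 * (n ^ 4 * s ^ 2 * nv) :=
        mul_le_mul_of_nonneg_left hX (by (clear * - hs0; positivity))
    _ = _ := by field_simp; ring

lemma pt_err {n s nv : ℝ} (hn : 1 ≤ n) (hs : 10 ^ 4 * n ^ 6 ≤ s) (hnv : 0 ≤ nv) :
    2 * n ^ 6 * s * nv + 4 * n ^ 2 * s ^ 2 * nv ≤ 10 ^ 4 * n ^ 6 * s ^ 2 * nv := by
  obtain ⟨h1, h2, h3, h4⟩ := pt_basic hn hs
  have hs0 : 0 < s := by linarith only [h1]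
  have e0 : s ≤ s ^ 2 := by
    calc s = s ^ 1 := (pow_one s).symm
      _ ≤ s ^ 2 := pow_le_pow_right₀ (by linarith only [h1]) (by norm_num)
  have e1 : n ^ 6 * s ≤ n ^ 6 * s ^ 2 := mul_le_mul_of_nonneg_left e0 (by positivity)
  have e2 : n ^ 2 * s ^ 2 ≤ n ^ 6 * s ^ 2 := mul_le_mul_of_nonneg_right h3 (by positivity)
  have e3 : 0 ≤ n ^ 6 * s ^ 2 := by positivity
  have e4 : 2 * n ^ 6 * s + 4 * n ^ 2 * s ^ 2 ≤ 10 ^ 4 * n ^ 6 * s ^ 2 := by linarith only [e1, e2, e3]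
  calc 2 * n ^ 6 * s * nv + 4 * n ^ 2 * s ^ 2 * nv = (2 * n ^ 6 * s + 4 * n ^ 2 * s ^ 2) * nv := by
        ring
    _ ≤ _ := mul_le_mul_of_nonneg_right e4 hnv

lemma pt_TT {n s nv TT : ℝ} (hTT : |TT| ≤ 729 / 16 * n ^ 2 * nv) (hnv : 0 ≤ nv) :
    |s ^ 2 / 12 * TT| ≤ 4 * n ^ 2 * s ^ 2 * nv := by
  rw [abs_mul, abs_of_nonneg (by (clear * -; positivity) : 0 ≤ s ^ 2 / 12)]
  calc s ^ 2 / 12 * |TT| ≤ s ^ 2 / 12 * (729 / 16 * n ^ 2 * nv) :=
        mul_le_mul_of_nonneg_left hTT (by (clear * -; positivity))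
    _ = 243 / 64 * (n ^ 2 * s ^ 2 * nv) := by ring
    _ ≤ 4 * (n ^ 2 * s ^ 2 * nv) := mul_le_mul_of_nonneg_right (by (clear * -; norm_num)) (by (clear * - hnv; positivity))
    _ = _ := by ring

/-- arithmetic of the lower bound -/
lemma pt_num_lower {n s E0 lam nv nw ny nX K r X1 VV WW T TT hsv : ℝ} (hn : 1 ≤ n)
    (hs : 10 ^ 4 * n ^ 6 ≤ s) (hnv : 0 ≤ nv) (hnw : 0 ≤ nw) (hny : 0 ≤ ny)
    (ha : s ^ 10 * ny ≤ s ^ 10 * K + 2 * s ^ 6 * r + s ^ 2 / 2 * nX)
    (hb : hsv = E0 * (nv + nw) + (s ^ 10 * K + (X1 + VV) + s ^ 6 * (2 * r + WW)))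
    (hVV : |VV| ≤ 9 / 4 * n * s ^ 3 * nw) (hWW : |WW| ≤ n ^ 2 * s * nw)
    (hT : T = E0 * nv + X1 - s ^ 2 / 2 * nX + s ^ 2 / 12 * TT)
    (hTT : |TT| ≤ 729 / 16 * n ^ 2 * nv) (hlam : lam * nv ≤ T)
    (hlam2 : lam ≤ E0 + (9 / 4 * n * s ^ 3 + 4 * n ^ 2 * s ^ 2))
    (hw : nw ≤ 2 * ny + 2 * (1 / (2 * s ^ 4)) ^ 2 * nX) (hX : nX ≤ n ^ 4 * s ^ 2 * nv) :
    (lam - 10 ^ 4 * n ^ 6 * s ^ 2) * (nv + nw) ≤ hsv := by
  obtain ⟨h1, h2, h3, h4⟩ := pt_basic hn hs
  have hs0 : 0 < s := by linarith only [h1]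
  obtain ⟨q1, q2⟩ := pt_Q1 hn hs
  have q3 := pt_Q2 hn hs
  have hη := pt_eta hs0 hX
  have herr := pt_err hn hs hnv
  have hTT2 := (abs_le.1 (pt_TT (s := s) hTT hnv)).2
  obtain ⟨Q, hQ⟩ : ∃ Q : ℝ, Q = 2 * n ^ 2 * s ^ 7 := ⟨_, rfl⟩
  have hQ0 : 0 ≤ Q := by rw [hQ]; (clear * - hn h1; positivity)
  have hQ1 : 9 / 4 * n * s ^ 3 + n ^ 2 * s ^ 7 + (9 / 4 * n * s ^ 3 + 4 * n ^ 2 * s ^ 2) ≤ Q := by
    have : 0 ≤ n ^ 2 * s ^ 7 := by (clear * - hn h1; positivity)
    rw [hQ]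
    linarith only [q1, q2, hQ, hQ0]
  rw [← hQ] at q3
  have hQw : Q * nw ≤ s ^ 10 * ny + n ^ 6 * s * nv := by
    have e1 : Q * nw ≤ Q * (2 * ny + 2 * (n ^ 4 / (4 * s ^ 6) * nv)) := by
      refine mul_le_mul_of_nonneg_left ?_ hQ0
      linarith only [hw, hη]
    have e2 : Q * (2 * (n ^ 4 / (4 * s ^ 6) * nv)) = n ^ 6 * s * nv := by
      rw [hQ]; field_simp; ring
    have e3 : 2 * Q * ny ≤ s ^ 10 * ny := mul_le_mul_of_nonneg_right q3 hny
    have e4 : Q * (2 * ny + 2 * (n ^ 4 / (4 * s ^ 6) * nv)) = 2 * Q * ny +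
      Q * (2 * (n ^ 4 / (4 * s ^ 6) * nv)) := by ring
    rw [e4, e2] at e1
    linarith only [e1, e3]
  have hV2 := (abs_le.1 hVV).1
  have hW2 := (abs_le.1 hWW).1
  have hW3 : -(n ^ 2 * s ^ 7 * nw) ≤ s ^ 6 * WW := by
    calc -(n ^ 2 * s ^ 7 * nw) = s ^ 6 * -(n ^ 2 * s * nw) := by ring
      _ ≤ _ := mul_le_mul_of_nonneg_left hW2 (by (clear * - h1; positivity))
  have hlw : lam * nw ≤ (E0 + (9 / 4 * n * s ^ 3 + 4 * n ^ 2 * s ^ 2)) * nw :=
    mul_le_mul_of_nonneg_right hlam2 hnw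
  have hQ1w := mul_le_mul_of_nonneg_right hQ1 hnw
  have herrw : 0 ≤ 10 ^ 4 * n ^ 6 * s ^ 2 * nw := by (clear * - hn h1 hnw; (clear * - hn h1 hnw; positivity))
  have hn6s : 0 ≤ n ^ 6 * s * nv := by (clear * - hn h1 hnv; positivity)
  have hgoal : (lam - 10 ^ 4 * n ^ 6 * s ^ 2) * (nv + nw) = lam * nv + lam * nw -
      10 ^ 4 * n ^ 6 * s ^ 2 * nv - 10 ^ 4 * n ^ 6 * s ^ 2 * nw := by ring
  have e5 : (E0 + (9 / 4 * n * s ^ 3 + 4 * n ^ 2 * s ^ 2)) * nw = E0 * nw +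
    (9 / 4 * n * s ^ 3 + 4 * n ^ 2 * s ^ 2) * nw := by ring
  have e6 : (9 / 4 * n * s ^ 3 + n ^ 2 * s ^ 7 + (9 / 4 * n * s ^ 3 + 4 * n ^ 2 * s ^ 2)) * nw
    = 9 / 4 * n * s ^ 3 * nw + n ^ 2 * s ^ 7 * nw +
      (9 / 4 * n * s ^ 3 + 4 * n ^ 2 * s ^ 2) * nw := by ring
  have e7 : E0 * (nv + nw) + (s ^ 10 * K + (X1 + VV) + s ^ 6 * (2 * r + WW))
    = E0 * nv + E0 * nw + s ^ 10 * K + X1 + VV + 2 * s ^ 6 * r + s ^ 6 * WW := by ring
  rw [hgoal, hb, e7]
  rw [e5] at hlw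
  rw [e6] at hQ1w
  clear e5 e6 e7 hgoal q1 q2 q3 hlam2 hW2 hWW hVV hTT hX hw hη hQ1 h1 h2 h3 h4 hs hn
  generalize (9 / 4 * n * s ^ 3 + 4 * n ^ 2 * s ^ 2) * nw = a1 at *
  generalize 9 / 4 * n * s ^ 3 * nw = a2 at *
  generalize n ^ 2 * s ^ 7 * nw = a3 at *
  generalize 10 ^ 4 * n ^ 6 * s ^ 2 * nw = a4 at *
  generalize 10 ^ 4 * n ^ 6 * s ^ 2 * nv = a5 at *
  generalize s ^ 6 * WW = a6 at *
  generalize s ^ 10 * K = a7 at *
  generalize s ^ 10 * ny = a8 at *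
  generalize 2 * s ^ 6 * r = a9 at *
  generalize s ^ 2 / 2 * nX = b1 at *
  generalize s ^ 2 / 12 * TT = b2 at *
  generalize 4 * n ^ 2 * s ^ 2 * nv = b3 at *
  have herr2 : 2 * (n ^ 6 * s * nv) + b3 ≤ a5 := by
    calc 2 * (n ^ 6 * s * nv) + b3 = 2 * n ^ 6 * s * nv + b3 := by ring
      _ ≤ a5 := herr
  generalize n ^ 6 * s * nv = b4 at *
  linarith only [hlam, hlw, hV2, hQ1w, herrw, hW3, ha, hT, hTT2, hn6s, hQw, herr2]

/-- arithmetic of the upper bound -/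
lemma pt_num_upper {n s nv nX ne X1 VV WW TT c2 : ℝ} (hn : 1 ≤ n)
    (hs : 10 ^ 4 * n ^ 6 ≤ s) (hnv : 0 ≤ nv) (hnX : 0 ≤ nX)
    (hne : ne = (1 / (2 * s ^ 4)) ^ 2 * nX) (hc0 : 0 ≤ c2) (hc1 : c2 ≤ 1)
    (hc : c2 * (nv + ne) = nv) (hX1 : |X1| ≤ 9 / 4 * n * s ^ 3 * nv)
    (hVV : |VV| ≤ 9 / 4 * n * s ^ 3 * nX) (hWW : |WW| ≤ n ^ 2 * s * nX)
    (hTT : |TT| ≤ 729 / 16 * n ^ 2 * nv) (hX : nX ≤ n ^ 4 * s ^ 2 * nv) :
    c2 * (X1 - s ^ 2 / 2 * nX + (1 / (2 * s ^ 4)) ^ 2 * VV + s ^ 6 * ((1 / (2 * s ^ 4)) ^ 2 * WW))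
      ≤ X1 - s ^ 2 / 2 * nX + s ^ 2 / 12 * TT + 10 ^ 4 * n ^ 6 * s ^ 2 * nv := by
  obtain ⟨h1, h2, h3, h4⟩ := pt_basic hn hs
  have hs0 : 0 < s := by linarith only [h1]
  obtain ⟨q1, q2⟩ := pt_Q1 hn hs
  have hη := pt_eta hs0 hX
  rw [← hne] at hη
  have herr := pt_err hn hs hnv
  have hTT2 := (abs_le.1 (pt_TT (s := s) hTT hnv)).1
  have hne0 : 0 ≤ ne := by rw [hne]; (clear * - h1 hnX; positivity)
  obtain ⟨k, hk⟩ : ∃ k : ℝ, k = (1 / (2 * s ^ 4)) ^ 2 := ⟨_, rfl⟩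
  have hk0 : 0 ≤ k := by rw [hk]; positivity
  rw [← hk] at hne ⊢
  have hδ' : |k * VV + s ^ 6 * (k * WW)| ≤ (9 / 4 * n * s ^ 3 + n ^ 2 * s ^ 7) * ne := by
    have e1 : |k * VV| ≤ 9 / 4 * n * s ^ 3 * ne := by
      rw [abs_mul, abs_of_nonneg hk0, hne]
      calc k * |VV| ≤ k * (9 / 4 * n * s ^ 3 * nX) := mul_le_mul_of_nonneg_left hVV hk0
        _ = _ := by ring
    have e2 : |s ^ 6 * (k * WW)| ≤ n ^ 2 * s ^ 7 * ne := by
      rw [abs_mul, abs_mul, abs_of_nonneg hk0, abs_of_nonneg (by (clear * - h1; positivity) : 0 ≤ s ^ 6), hne]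
      calc s ^ 6 * (k * |WW|) ≤ s ^ 6 * (k * (n ^ 2 * s * nX)) :=
            mul_le_mul_of_nonneg_left (mul_le_mul_of_nonneg_left hWW hk0) (by (clear * - h1; positivity))
        _ = _ := by ring
    have e3 := abs_add_le (k * VV) (s ^ 6 * (k * WW))
    have e : (9 / 4 * n * s ^ 3 + n ^ 2 * s ^ 7) * ne = 9 / 4 * n * s ^ 3 * ne +
      n ^ 2 * s ^ 7 * ne := by ring
    rw [e]
    linarith only [e1, e2, e3]
  obtain ⟨Y, hY⟩ : ∃ Y : ℝ, Y = X1 - s ^ 2 / 2 * nX := ⟨_, rfl⟩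
  obtain ⟨δ, hδ⟩ : ∃ δ : ℝ, δ = k * VV + s ^ 6 * (k * WW) := ⟨_, rfl⟩
  have hYabs : |Y| ≤ (9 / 4 * n * s ^ 3 + n ^ 4 * s ^ 4) * nv := by
    have e1 : |s ^ 2 / 2 * nX| ≤ n ^ 4 * s ^ 4 * nv := by
      rw [abs_of_nonneg (by (clear * - h1 hnX; (clear * - h1 hnX; positivity)))]
      calc s ^ 2 / 2 * nX ≤ s ^ 2 / 2 * (n ^ 4 * s ^ 2 * nv) :=
            mul_le_mul_of_nonneg_left hX (by (clear * - h1; positivity))
        _ = 1 / 2 * (n ^ 4 * s ^ 4 * nv) := by ring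
        _ ≤ _ := by
          have : 0 ≤ n ^ 4 * s ^ 4 * nv := by (clear * - hn h1 hnv; positivity)
          linarith only [this]
    have e3 := abs_sub X1 (s ^ 2 / 2 * nX)
    have e : (9 / 4 * n * s ^ 3 + n ^ 4 * s ^ 4) * nv = 9 / 4 * n * s ^ 3 * nv +
      n ^ 4 * s ^ 4 * nv := by ring
    rw [e, hY]
    linarith only [hX1, e1, e3]
  rw [← hδ] at hδ'
  have h1c : (1 - c2) * nv ≤ ne := by
    have e : (1 - c2) * nv = c2 * ne := by linarith only [hc]
    rw [e]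
    exact mul_le_of_le_one_left hne0 hc1
  have hA : (c2 - 1) * Y ≤ (9 / 4 * n * s ^ 3 + n ^ 4 * s ^ 4) * ne := by
    calc (c2 - 1) * Y = (1 - c2) * (-Y) := by ring
      _ ≤ (1 - c2) * |Y| := mul_le_mul_of_nonneg_left (neg_le_abs Y) (by linarith only [hc1])
      _ ≤ (1 - c2) * ((9 / 4 * n * s ^ 3 + n ^ 4 * s ^ 4) * nv) :=
          mul_le_mul_of_nonneg_left hYabs (by linarith only [hc1])
      _ = (9 / 4 * n * s ^ 3 + n ^ 4 * s ^ 4) * ((1 - c2) * nv) := by ring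
      _ ≤ _ := mul_le_mul_of_nonneg_left h1c (by (clear * - hn h1; positivity))
  have hB : c2 * δ ≤ (9 / 4 * n * s ^ 3 + n ^ 2 * s ^ 7) * ne := by
    calc c2 * δ ≤ c2 * |δ| := mul_le_mul_of_nonneg_left (le_abs_self _) hc0
      _ ≤ 1 * |δ| := mul_le_mul_of_nonneg_right hc1 (abs_nonneg _)
      _ = |δ| := one_mul _
      _ ≤ _ := hδ'
  have hsum : (9 / 4 * n * s ^ 3 + n ^ 4 * s ^ 4) + (9 / 4 * n * s ^ 3 + n ^ 2 * s ^ 7)
      ≤ 8 * n ^ 2 * s ^ 7 := by
    have a2 : n ^ 4 * s ^ 4 ≤ n ^ 2 * s ^ 7 := by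
      have e1 : n ^ 2 ≤ s := by
        have : 0 ≤ n ^ 2 := by positivity
        linarith only [hs, h1, h3]
      calc n ^ 4 * s ^ 4 = n ^ 2 * s ^ 4 * n ^ 2 := by ring
        _ ≤ n ^ 2 * s ^ 4 * s := mul_le_mul_of_nonneg_left e1 (by positivity)
        _ = n ^ 2 * s ^ 5 := by ring
        _ ≤ n ^ 2 * s ^ 7 := mul_le_mul_of_nonneg_left
          (pow_le_pow_right₀ (by linarith only [h1]) (by norm_num)) (by positivity)
    have a3 : 0 ≤ n ^ 2 * s ^ 7 := by positivity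
    linarith only [q1, a2, a3]
  have hfin : (9 / 4 * n * s ^ 3 + n ^ 4 * s ^ 4) * ne + (9 / 4 * n * s ^ 3 + n ^ 2 * s ^ 7) * ne
      ≤ 2 * n ^ 6 * s * nv := by
    calc (9 / 4 * n * s ^ 3 + n ^ 4 * s ^ 4) * ne + (9 / 4 * n * s ^ 3 + n ^ 2 * s ^ 7) * ne
        = ((9 / 4 * n * s ^ 3 + n ^ 4 * s ^ 4) + (9 / 4 * n * s ^ 3 + n ^ 2 * s ^ 7)) * ne := by
          ring
      _ ≤ 8 * n ^ 2 * s ^ 7 * ne := mul_le_mul_of_nonneg_right hsum hne0
      _ ≤ 8 * n ^ 2 * s ^ 7 * (n ^ 4 / (4 * s ^ 6) * nv) :=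
          mul_le_mul_of_nonneg_left hη (by (clear * - hn h1; positivity))
      _ = 2 * n ^ 6 * s * nv := by field_simp; ring
  have hgoal : c2 * (X1 - s ^ 2 / 2 * nX + k * VV + s ^ 6 * (k * WW))
      = Y + (c2 - 1) * Y + c2 * δ := by rw [hδ, hY]; ring
  rw [hgoal, ← hY]
  linarith only [herr, hTT2, hA, hB, hfin]

theorem r2_lower (s : ℝ) (t : B → B → Fin 3 → Fin 3 → ℝ) (d : B → Fin 3 → ℝ)
    (hB : 2 ≤ Fintype.card B) (hsB : 10 ^ 4 * (Fintype.card B : ℝ) ^ 6 ≤ s)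
    (ht0 : ∀ b b' a a', 0 ≤ t b b' a a') (ht1 : ∀ b b' a a', t b b' a a' ≤ 1)
    (hts : ∀ b b' a a', t b b' a a' = t b' b a' a) (hd : ∀ b a, |d b a| ≤ s ^ 3)
    (lam : ℝ) (h : ∀ u : (B → Bool) → ℂ, lam * (∑ x, ‖u x‖ ^ 2) ≤ teff s t d u)
    (Φ : SSt (B × Fin 4)) :
    (lam - 10 ^ 4 * (Fintype.card B : ℝ) ^ 6 * s ^ 2) * snorm2 Φ ≤ hs (jw s t d) Φ := by
  have hn : (1 : ℝ) ≤ Fintype.card B := by exact_mod_cast (by omega : 1 ≤ Fintype.card B)
  have hn6 : (1 : ℝ) ≤ (Fintype.card B : ℝ) ^ 6 := one_le_pow₀ hn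
  have hs1 : 10 ^ 4 ≤ s := by linarith only [hsB, hn6]
  have hs6 : 6 ≤ s := by linarith only [hsB, hn6]
  have hs0 : 0 < s := by linarith only [hsB, hn6]
  obtain ⟨u, hu⟩ : ∃ u', u' = iotaA Φ := ⟨_, rfl⟩
  obtain ⟨v, hv⟩ : ∃ v', v' = iota u := ⟨_, rfl⟩
  obtain ⟨w, hw⟩ : ∃ w', w' = Φ + ((-1 : ℝ) : ℂ) • v := ⟨_, rfl⟩
  obtain ⟨X, hX⟩ : ∃ X', X' = inter (ptc s t) v := ⟨_, rfl⟩
  obtain ⟨k, hk⟩ : ∃ k' : ℝ, k' = 1 / (2 * s ^ 4) := ⟨_, rfl⟩
  obtain ⟨y, hy⟩ : ∃ y', y' = w + (k : ℂ) • X := ⟨_, rfl⟩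
  have hvbs : IsBS v := by rw [hv]; exact iota_bs u
  have hvw : v + w = Φ := by
    rw [hw]
    have : ((-1 : ℝ) : ℂ) = -1 := by push_cast; ring
    rw [this, neg_smul, one_smul]
    abel
  have hwA : iotaA w = 0 := by
    rw [hw, pt_iotaA_add, pt_iotaA_smul, hv, iotaA_iota]
    have : ((-1 : ℝ) : ℂ) = -1 := by push_cast; ring
    rw [this, neg_smul, one_smul, ← hu, add_neg_cancel]
  have hXA : iotaA X = 0 := by rw [hX, hv]; exact pt_iotaA_inter _ _
  have hyA : iotaA y = 0 := by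
    rw [hy, pt_iotaA_add, pt_iotaA_smul, hwA, hXA, smul_zero, add_zero]
  have hwi : ∀ u', ptR w (iota u') = 0 := ptR_iota_of_iotaA w hwA
  have hvv : snorm2 v = ∑ x, ‖u x‖ ^ 2 := by rw [hv]; exact snorm2_iota u
  have hcv : casimir v = 0 := casimir_bs v hvbs
  have hcX : casimir X = (2 : ℂ) • X := by
    rw [hX]
    exact casimir_inter (ptc s t) (fun b b' g h => ptc_symm hts b b' g h) v hvbs
  have hvX : ptR v X = 0 := by
    rw [ptR, hX, inter_bs (ptc s t) v v hvbs hvbs]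
    rfl
  have hwv : ptR w v = 0 := by rw [hv]; exact hwi u
  have hwV : ptR w (ptV d v) = 0 := by rw [hv]; exact ptR_V_of_orth d u w hwi
  -- the gap
  have hgap : snorm2 y ≤ ptR w (casimir w) + 4 * k * ptR w X + 2 * k ^ 2 * snorm2 X := by
    have h1 := casimir_gap y
    rw [hyA] at h1
    have h2 : (sip y (casimir y)).re = ptR y (casimir y) := rfl
    rw [h2, hy, pt_expand casimir pt_casimir_add ptR_casimir] at h1
    have h3 : casimir ((k : ℂ) • X) = ((2 * k : ℝ) : ℂ) • X := by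
      rw [pt_casimir_smul, hcX, smul_smul]
      congr 1
      push_cast
      ring
    rw [ptR_comm ((k : ℂ) • X) (casimir w), ← ptR_casimir, h3, ptR_smul, ptR_smul_left,
      ptR_smul, ptR_self] at h1
    simp only [Pi.zero_apply, norm_zero] at h1
    have h4 : ∑ x : B → Bool, (0 : ℝ) ^ 2 = 0 := by simp
    rw [h4, ← hy] at h1
    linarith only [h1]
  have hsplit : snorm2 Φ = snorm2 v + snorm2 w := by
    rw [← hvw, ← ptR_self, ← ptR_self, ← ptR_self, ptR_add, ptR_add_left, ptR_add_left,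
      ptR_comm v w, hwv]
    ring
  have hwy : snorm2 w ≤ 2 * snorm2 y + 2 * k ^ 2 * snorm2 X := by
    have h1 : w = y + ((-k : ℝ) : ℂ) • X := by
      rw [hy, add_assoc, ← add_smul]
      push_cast
      rw [add_neg_cancel, zero_smul, add_zero]
    have h2 : ptN w ≤ ptN y + |k| * ptN X := by
      conv_lhs => rw [h1]
      refine (ptN_add_le _ _).trans ?_
      rw [ptN_smul, Complex.norm_real, Real.norm_eq_abs, abs_neg]
    have h3 := ptN_nonneg w
    have h4 := ptN_nonneg y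
    have h5 := ptN_nonneg X
    rw [← ptN_sq, ← ptN_sq, ← ptN_sq]
    have h6 : ptN w ^ 2 ≤ (ptN y + |k| * ptN X) ^ 2 := pow_le_pow_left₀ h3 h2 2
    have h7 : k ^ 2 = |k| ^ 2 := (sq_abs k).symm
    rw [h7]
    linarith only [h6, sq_nonneg (ptN y - |k| * ptN X)]
  have hlam2 : lam ≤ -(3 / 2 * s ^ 10 * Fintype.card B) +
      (9 / 4 * (Fintype.card B : ℝ) * s ^ 3 + 4 * (Fintype.card B : ℝ) ^ 2 * s ^ 2) := by
    set u0 : (B → Bool) → ℂ := fun x => if x = (fun _ => false) then 1 else 0 with hu0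
    have h1 : ∑ x, ‖u0 x‖ ^ 2 = 1 := by
      rw [Finset.sum_eq_single (fun _ => false)]
      · simp only [hu0, ↓reduceIte, norm_one, one_pow]
      · intro x _ hx
        simp [hu0, hx]
      · intro hx; exact absurd (Finset.mem_univ _) hx
    have h2 := h u0
    rw [pt_teff s t d hts u0, h1] at h2
    have h3 := (abs_le.1 (pt_V_abs s d hd (iota u0))).2
    have h4 := (abs_le.1 (ptTT_abs t ht0 ht1 u0)).2
    rw [snorm2_iota, h1] at h3 h4
    have h5 := pt_snorm2_nonneg' (inter (ptc s t) (iota u0))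
    have h6 : 0 ≤ s ^ 2 / 2 * snorm2 (inter (ptc s t) (iota u0)) := by (clear * - hs1 h5; (clear * - hs1 h5; positivity))
    have h7 : s ^ 2 / 12 * ptTT t u0 ≤ s ^ 2 / 12 * (729 / 16 * (Fintype.card B : ℝ) ^ 2 * 1) := by
      (clear * - h4 hs1; gcongr)
    have h8 : 0 ≤ (Fintype.card B : ℝ) ^ 2 * s ^ 2 := by (clear * - hB hs1; positivity)
    linarith only [h2, h3, h6, h7, h8]
  rw [hsplit]
  refine pt_num_lower (n := Fintype.card B) (s := s)
    (E0 := -(3 / 2 * s ^ 10 * Fintype.card B)) (lam := lam) (nv := snorm2 v) (nw := snorm2 w)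
    (ny := snorm2 y) (nX := snorm2 X) (K := ptR w (casimir w)) (r := ptR w X)
    (X1 := ptR v (ptV d v)) (VV := ptR w (ptV d w)) (WW := ptR w (inter (ptc s t) w))
    (T := teff s t d u) (TT := ptTT t u) hn hsB (pt_snorm2_nonneg' _) (pt_snorm2_nonneg' _)
    (pt_snorm2_nonneg' _) ?_ ?_ (pt_V_abs s d hd w) (pt_inter_abs s t hs6 ht0 ht1 w) ?_ ?_ ?_ hlam2
    ?_ ?_
  · have h1 := mul_le_mul_of_nonneg_left hgap (by (clear * - hs1; positivity) : 0 ≤ s ^ 10)
    refine h1.trans (le_of_eq ?_)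
    rw [hk]
    field_simp
    ring
  · rw [pt_hs, hsplit]
    rw [← hvw, pt_expand casimir pt_casimir_add ptR_casimir, hcv,
      pt_expand (ptV d) (ptV_add d) (ptR_ptV d),
      pt_expand (inter (ptc s t)) (pt_inter_add _) (ptR_inter _), ← hX, hvX,
      hwV, ptR_zero, ptR_zero]
    ring
  · rw [pt_teff s t d hts u, hX, hvv, hv]
  · have h1 := ptTT_abs t ht0 ht1 u
    rw [hv]
    exact h1
  · rw [hvv]; exact h u
  · rw [← hk]; exact hwy
  · rw [hX]; exact pt_inter_snorm s t hs6 ht0 ht1 v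

theorem r2_upper (s : ℝ) (t : B → B → Fin 3 → Fin 3 → ℝ) (d : B → Fin 3 → ℝ)
    (hB : 2 ≤ Fintype.card B) (hsB : 10 ^ 4 * (Fintype.card B : ℝ) ^ 6 ≤ s)
    (ht0 : ∀ b b' a a', 0 ≤ t b b' a a') (ht1 : ∀ b b' a a', t b b' a a' ≤ 1)
    (hts : ∀ b b' a a', t b b' a a' = t b' b a' a) (hd : ∀ b a, |d b a| ≤ s ^ 3)
    (u : (B → Bool) → ℂ) :
    ∃ Φ : SSt (B × Fin 4), snorm2 Φ = ∑ x, ‖u x‖ ^ 2 ∧
      hs (jw s t d) Φ ≤ teff s t d u +
        10 ^ 4 * (Fintype.card B : ℝ) ^ 6 * s ^ 2 * (∑ x, ‖u x‖ ^ 2) := by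
  have hn : (1 : ℝ) ≤ Fintype.card B := by exact_mod_cast (by omega : 1 ≤ Fintype.card B)
  have hn6 : (1 : ℝ) ≤ (Fintype.card B : ℝ) ^ 6 := one_le_pow₀ hn
  have hs1 : 10 ^ 4 ≤ s := by linarith only [hsB, hn6]
  have hs6 : 6 ≤ s := by linarith only [hsB, hn6]
  have hs0 : 0 < s := by linarith only [hsB, hn6]
  obtain ⟨v, hv⟩ : ∃ v', v' = iota u := ⟨_, rfl⟩
  obtain ⟨X, hX⟩ : ∃ X', X' = inter (ptc s t) v := ⟨_, rfl⟩
  obtain ⟨k, hk⟩ : ∃ k' : ℝ, k' = 1 / (2 * s ^ 4) := ⟨_, rfl⟩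
  obtain ⟨y, hy⟩ : ∃ y', y' = v + ((-k : ℝ) : ℂ) • X := ⟨_, rfl⟩
  have hvbs : IsBS v := by rw [hv]; exact iota_bs u
  have hvv : snorm2 v = ∑ x, ‖u x‖ ^ 2 := by rw [hv]; exact snorm2_iota u
  have hcv : casimir v = 0 := casimir_bs v hvbs
  have hcX : casimir X = (2 : ℂ) • X := by
    rw [hX]
    exact casimir_inter (ptc s t) (fun b b' g h => ptc_symm hts b b' g h) v hvbs
  have hXi : ∀ u', ptR X (iota u') = 0 := fun u' => by
    rw [ptR_comm, ptR, hX, inter_bs (ptc s t) v (iota u') hvbs (iota_bs u')]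
    rfl
  have hvX : ptR v X = 0 := by rw [ptR_comm, hv]; exact hXi u
  have hXV : ptR X (ptV d v) = 0 := by rw [hv]; exact ptR_V_of_orth d u X hXi
  obtain ⟨ne, hne⟩ : ∃ ne' : ℝ, ne' = k ^ 2 * snorm2 X := ⟨_, rfl⟩
  have hny : snorm2 y = snorm2 v + ne := by
    rw [← ptR_self y, hy, ptR_add, ptR_add_left, ptR_add_left, ptR_smul, ptR_smul, ptR_smul_left,
      ptR_smul_left, hvX, ptR_comm X v, hvX, ptR_self, ptR_self, hne]
    ring
  have hnv0 := pt_snorm2_nonneg' v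
  have hnX0 := pt_snorm2_nonneg' X
  have hne0 : 0 ≤ ne := by rw [hne]; (clear * - hnX0; positivity)
  obtain ⟨c2, hc2⟩ : ∃ c' : ℝ, c' = snorm2 v / (snorm2 v + ne) := ⟨_, rfl⟩
  have hc20 : 0 ≤ c2 := by rw [hc2]; (clear * - hnv0 hne0; positivity)
  have hc21 : c2 ≤ 1 := by rw [hc2]; exact div_le_one_of_le₀ (by linarith only [hne0]) (by (clear * - hnv0 hne0; positivity))
  have hcc : c2 * (snorm2 v + ne) = snorm2 v := by
    rcases eq_or_ne (snorm2 v + ne) 0 with h | h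
    · rw [h, mul_zero]; linarith only [hne0, h, hnv0]
    · rw [hc2, div_mul_cancel₀ _ h]
  have hsq : Real.sqrt c2 ^ 2 = c2 := Real.sq_sqrt hc20
  refine ⟨((Real.sqrt c2 : ℝ) : ℂ) • y, ?_, ?_⟩
  · rw [← ptR_self, ptR_smul, ptR_smul_left, ptR_self, hny, ← hvv]
    calc Real.sqrt c2 * (Real.sqrt c2 * (snorm2 v + ne))
        = Real.sqrt c2 ^ 2 * (snorm2 v + ne) := by ring
      _ = snorm2 v := by rw [hsq, hcc]
  · have hen : hs (jw s t d) (((Real.sqrt c2 : ℝ) : ℂ) • y) =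
        c2 * hs (jw s t d) y := by
      rw [pt_hs, pt_hs, pt_casimir_smul, ptV_smul, pt_inter_smul, ptR_smul, ptR_smul, ptR_smul,
        ptR_smul_left, ptR_smul_left, ptR_smul_left, ← ptR_self, ptR_smul, ptR_smul_left,
        ptR_self]
      generalize Real.sqrt c2 = q at hsq
      rw [← hsq]
      ring
    have hc3 : casimir (((-k : ℝ) : ℂ) • X) = ((2 * -k : ℝ) : ℂ) • X := by
      rw [pt_casimir_smul, hcX, smul_smul]
      congr 1
      push_cast
      ring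
    have hHy : hs (jw s t d) y = -(3 / 2 * s ^ 10 * Fintype.card B) * (snorm2 v + ne) +
        (ptR v (ptV d v) - s ^ 2 / 2 * snorm2 X + k ^ 2 * ptR X (ptV d X) +
          s ^ 6 * (k ^ 2 * ptR X (inter (ptc s t) X))) := by
      rw [pt_hs, hny, hy, pt_expand casimir pt_casimir_add ptR_casimir, hcv, hc3,
        pt_expand (ptV d) (ptV_add d) (ptR_ptV d),
        pt_expand (inter (ptc s t)) (pt_inter_add _) (ptR_inter _), ← hX, hvX, ptV_smul,
        pt_inter_smul]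
      simp only [ptR_zero, ptR_smul, ptR_smul_left, ptR_self, hXV]
      rw [hk]
      field_simp
      ring
    rw [hen, hHy, pt_teff s t d hts u, ← hvv, ← hv, ← hX]
    have hfin := pt_num_upper (n := Fintype.card B) (s := s) (nv := snorm2 v) (nX := snorm2 X)
      (ne := ne) (X1 := ptR v (ptV d v)) (VV := ptR X (ptV d X))
      (WW := ptR X (inter (ptc s t) X)) (TT := ptTT t u) (c2 := c2) hn hsB hnv0 hnX0
      (by rw [hne, hk]) hc20
      hc21 hcc (pt_V_abs s d hd v) (pt_V_abs s d hd X) (pt_inter_abs s t hs6 ht0 ht1 X)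
      (by rw [hv]; exact ptTT_abs t ht0 ht1 u)
      (by rw [hX]; exact pt_inter_snorm s t hs6 ht0 ht1 v)
    rw [← hk] at hfin
    have e1 : ∀ E a : ℝ, c2 * (E * (snorm2 v + ne) + a) = E * snorm2 v + c2 * a := by
      intro E a
      calc c2 * (E * (snorm2 v + ne) + a) = E * (c2 * (snorm2 v + ne)) + c2 * a := by ring
        _ = _ := by rw [hcc]
    rw [e1]
    linarith only [hfin]

end ptmain

end Vale.Agent.P370.H
end

section

/-!
KC4: radial integrals.
-/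

namespace Vale.Agent.P370.KC

open Finset MeasureTheory Set Vale.Agent.P370.Q

theorem rad_int (m : ℕ) {α : ℝ} (hα : 0 < α) :
    IntegrableOn (fun r => r ^ m * Real.exp (-(α * r))) (Ioi 0) ∧
      ∫ r in Ioi (0 : ℝ), r ^ m * Real.exp (-(α * r)) = (m.factorial : ℝ) / α ^ (m + 1) := by
  constructor
  · have hm : (-1 : ℝ) < m := by
      have : (0 : ℝ) ≤ m := Nat.cast_nonneg m
      linarith
    have h := integrableOn_rpow_mul_exp_neg_mul_rpow (p := 1) (s := m) (b := α) hm one_pos hα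
    refine h.congr_fun (fun r _ => ?_) measurableSet_Ioi
    simp only [Real.rpow_natCast, Real.rpow_one, neg_mul]
  · have h := Real.integral_rpow_mul_exp_neg_mul_Ioi (a := (m : ℝ) + 1) (r := α) (by (clear * -; positivity)) hα
    rw [Real.Gamma_nat_eq_factorial, add_sub_cancel_right, ← Nat.cast_succ,
      Real.rpow_natCast] at h
    simp only [Real.rpow_natCast] at h
    rw [h, one_div, inv_pow, mul_comm, div_eq_mul_inv]

/-- `∫_r^∞ s^q e^{-β s} ds` -/
private noncomputable def gq (q : ℕ) (β r : ℝ) : ℝ :=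
  Real.exp (-(β * r)) * ∑ i ∈ range (q + 1),
    (q.factorial : ℝ) / (i.factorial : ℝ) / β ^ (q + 1 - i) * r ^ i

private theorem gq_zero (q : ℕ) (β : ℝ) : gq q β 0 = (q.factorial : ℝ) / β ^ (q + 1) := by
  unfold gq
  rw [mul_zero, neg_zero, Real.exp_zero, one_mul, Finset.sum_range_succ', Finset.sum_eq_zero]
  · simp only [Nat.factorial_zero, Nat.cast_one, div_one, tsub_zero, pow_zero, mul_one, zero_add]
  · intro i _
    simp only [Nat.reduceSubDiff, ne_eq, Nat.add_eq_zero_iff, one_ne_zero, and_false, not_false_eq_true, zero_pow, mul_zero]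

private theorem gq_poly_deriv (q : ℕ) {β : ℝ} (hβ : 0 < β) (r : ℝ) :
    ∑ i ∈ range (q + 1), (q.factorial : ℝ) / (i.factorial : ℝ) / β ^ (q + 1 - i) *
      ((i : ℝ) * r ^ (i - 1)) =
    β * (∑ i ∈ range (q + 1), (q.factorial : ℝ) / (i.factorial : ℝ) / β ^ (q + 1 - i) * r ^ i) -
      r ^ q := by
  rw [Finset.sum_range_succ' (fun i => (q.factorial : ℝ) / (i.factorial : ℝ) / β ^ (q + 1 - i) *
      ((i : ℝ) * r ^ (i - 1))),
    Finset.sum_range_succ (fun i => (q.factorial : ℝ) / (i.factorial : ℝ) / β ^ (q + 1 - i) *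
      r ^ i), mul_add, Finset.mul_sum]
  have h1 : β * ((q.factorial : ℝ) / (q.factorial : ℝ) / β ^ (q + 1 - q) * r ^ q) = r ^ q := by
    rw [Nat.add_sub_cancel_left, pow_one, div_self (by (clear * -; positivity))]
    (clear * - hβ; field_simp)
  rw [h1]
  simp only [Nat.cast_zero, zero_mul, mul_zero, add_zero, add_sub_cancel_right]
  apply Finset.sum_congr rfl
  intro i hi
  have hi' : i < q := Finset.mem_range.mp hi
  have e1 : q + 1 - (i + 1) = q - i := by (clear * - hi'; omega)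
  have e2 : q + 1 - i = (q - i) + 1 := by omega
  rw [e1, e2, Nat.factorial_succ, pow_succ, Nat.add_sub_cancel]
  push_cast
  field_simp

private theorem gq_deriv (q : ℕ) {β : ℝ} (hβ : 0 < β) (r : ℝ) :
    HasDerivAt (gq q β) (-(r ^ q * Real.exp (-(β * r)))) r := by
  have h1 : HasDerivAt (fun r => Real.exp (-(β * r))) (-β * Real.exp (-(β * r))) r := by
    have h := ((hasDerivAt_id r).const_mul β).neg.exp
    simp only [id, mul_one] at h
    rw [mul_comm]
    exact h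
  have h2 : HasDerivAt (fun r : ℝ => ∑ i ∈ range (q + 1),
      (q.factorial : ℝ) / (i.factorial : ℝ) / β ^ (q + 1 - i) * r ^ i)
      (∑ i ∈ range (q + 1), (q.factorial : ℝ) / (i.factorial : ℝ) / β ^ (q + 1 - i) *
      ((i : ℝ) * r ^ (i - 1))) r := by
    apply HasDerivAt.fun_sum
    intro i _
    exact (hasDerivAt_pow i r).const_mul _
  have h3 := h1.mul h2
  refine h3.congr_deriv ?_
  rw [gq_poly_deriv q hβ]
  ring

private theorem gq_tendsto (q : ℕ) {β : ℝ} (hβ : 0 < β) :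
    Filter.Tendsto (gq q β) Filter.atTop (nhds 0) := by
  have h0 : ∀ i : ℕ, Filter.Tendsto (fun r : ℝ => r ^ i * Real.exp (-(β * r)))
      Filter.atTop (nhds 0) := by
    intro i
    have h := Real.tendsto_pow_mul_exp_neg_atTop_nhds_zero i
    have h2 : Filter.Tendsto (fun r : ℝ => β * r) Filter.atTop Filter.atTop :=
      Filter.tendsto_id.const_mul_atTop hβ
    have h3 := (h.comp h2).const_mul ((1 / β) ^ i)
    rw [mul_zero] at h3
    refine h3.congr fun r => ?_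
    have e : (1 / β) ^ i * β ^ i = 1 := by
      rw [← mul_pow, one_div_mul_cancel hβ.ne', one_pow]
    simp only [Function.comp]
    rw [mul_pow, ← mul_assoc, ← mul_assoc, e, one_mul]
  have h1 : Filter.Tendsto (fun r : ℝ => ∑ i ∈ range (q + 1),
      (q.factorial : ℝ) / (i.factorial : ℝ) / β ^ (q + 1 - i) * (r ^ i * Real.exp (-(β * r))))
      Filter.atTop (nhds (∑ i ∈ range (q + 1),
      (q.factorial : ℝ) / (i.factorial : ℝ) / β ^ (q + 1 - i) * 0)) := by
    apply tendsto_finsetSum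
    intro i _
    exact (h0 i).const_mul _
  simp only [mul_zero, Finset.sum_const_zero] at h1
  refine h1.congr fun r => ?_
  unfold gq
  rw [Finset.mul_sum]
  apply Finset.sum_congr rfl
  intro i _
  ring

private theorem gq_int (q : ℕ) {β : ℝ} (hβ : 0 < β) {r : ℝ} (hr : 0 ≤ r) :
    IntegrableOn (fun s => s ^ q * Real.exp (-(β * s))) (Ioi r) ∧
    ∫ s in Ioi r, s ^ q * Real.exp (-(β * s)) = gq q β r := by
  have hI : IntegrableOn (fun s => s ^ q * Real.exp (-(β * s))) (Ioi r) :=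
    (rad_int q hβ).1.mono_set (Ioi_subset_Ioi hr)
  refine ⟨hI, ?_⟩
  have h := integral_Ioi_of_hasDerivAt_of_tendsto' (a := r) (f := gq q β)
    (f' := fun s => -(s ^ q * Real.exp (-(β * s)))) (m := 0)
    (fun x _ => gq_deriv q hβ x) hI.neg (gq_tendsto q hβ)
  rw [integral_neg] at h
  linarith

private theorem gq_mul (p q : ℕ) (α β r : ℝ) :
    r ^ p * Real.exp (-(α * r)) * gq q β r =
      ∑ i ∈ range (q + 1), (q.factorial : ℝ) / (i.factorial : ℝ) / β ^ (q + 1 - i) *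
        (r ^ (p + i) * Real.exp (-((α + β) * r))) := by
  unfold gq
  rw [Finset.mul_sum, Finset.mul_sum]
  apply Finset.sum_congr rfl
  intro i _
  have : Real.exp (-((α + β) * r)) = Real.exp (-(α * r)) * Real.exp (-(β * r)) := by
    rw [← Real.exp_add]
    congr 1
    ring
  rw [this, pow_add]
  ring

private theorem gq_Jf (p q : ℕ) {α β : ℝ} (hα : 0 < α) (hβ : 0 < β) :
    IntegrableOn (fun r => r ^ p * Real.exp (-(α * r)) * gq q β r) (Ioi 0) ∧
    ∫ r in Ioi (0 : ℝ), r ^ p * Real.exp (-(α * r)) * gq q β r = Jf p q α β := by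
  have hI : ∀ i ∈ range (q + 1), IntegrableOn (fun r : ℝ =>
      (q.factorial : ℝ) / (i.factorial : ℝ) / β ^ (q + 1 - i) *
        (r ^ (p + i) * Real.exp (-((α + β) * r)))) (Ioi 0) := fun i _ =>
    ((rad_int (p + i) (add_pos hα hβ)).1).const_mul _
  simp only [gq_mul]
  constructor
  · exact integrable_finsetSum _ hI
  · rw [integral_finsetSum _ hI]
    unfold Jf
    apply Finset.sum_congr rfl
    intro i _
    rw [integral_const_mul, (rad_int (p + i) (add_pos hα hβ)).2]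
    (clear * - hα hβ; field_simp)

theorem Jf_eq (p q : ℕ) {α β : ℝ} (hα : 0 < α) (hβ : 0 < β) :
    IntegrableOn (fun r => r ^ p * Real.exp (-(α * r)) *
      ∫ s in Ioi r, s ^ q * Real.exp (-(β * s))) (Ioi 0) ∧
    ∫ r in Ioi (0 : ℝ), r ^ p * Real.exp (-(α * r)) *
      ∫ s in Ioi r, s ^ q * Real.exp (-(β * s)) = Jf p q α β := by
  obtain ⟨h1, h2⟩ := gq_Jf p q hα hβ
  have h3 : ∀ r ∈ Ioi (0 : ℝ), r ^ p * Real.exp (-(α * r)) * gq q β r =
      r ^ p * Real.exp (-(α * r)) * ∫ s in Ioi r, s ^ q * Real.exp (-(β * s)) := by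
    intro r hr
    rw [(gq_int q hβ (le_of_lt hr)).2]
  constructor
  · exact h1.congr_fun h3 measurableSet_Ioi
  · rw [← h2]
    exact (setIntegral_congr_fun measurableSet_Ioi h3).symm

/-- the two triangles make up the quadrant -/
private theorem Jf_add (p q : ℕ) {α β : ℝ} (hα : 0 < α) (hβ : 0 < β) :
    Jf p q α β + Jf q p β α = (p.factorial : ℝ) / α ^ (p + 1) * ((q.factorial : ℝ) / β ^ (q + 1)) := by
  obtain ⟨h1, h2⟩ := gq_Jf p q hα hβ
  obtain ⟨h3, h4⟩ := gq_Jf q p hβ hα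
  have hd : ∀ x ∈ Ici (0 : ℝ), HasDerivAt (fun x => gq p α x * gq q β x)
      (-(x ^ p * Real.exp (-(α * x)) * gq q β x + x ^ q * Real.exp (-(β * x)) * gq p α x)) x := by
    intro x _
    have := (gq_deriv p hα x).mul (gq_deriv q hβ x)
    refine this.congr_deriv ?_
    ring
  have ht : Filter.Tendsto (fun x => gq p α x * gq q β x) Filter.atTop (nhds 0) := by
    have := (gq_tendsto p hα).mul (gq_tendsto q hβ)
    rwa [mul_zero] at this
  have h := integral_Ioi_of_hasDerivAt_of_tendsto' hd (h1.add h3).neg ht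
  rw [integral_neg, integral_add h1 h3, h2, h4, gq_zero, gq_zero] at h
  linarith

private theorem inner_eq (a L : ℕ) {α : ℝ} (hα : 0 < α) (ha : L + 1 ≤ a) {s : ℝ} (hs : 0 < s) :
    IntegrableOn (fun r => r ^ a * Real.exp (-(α * r)) *
      (min r s ^ L / max r s ^ (L + 1))) (Ioi 0) ∧
    ∫ r in Ioi (0 : ℝ), r ^ a * Real.exp (-(α * r)) *
      (min r s ^ L / max r s ^ (L + 1)) =
    (((a + L).factorial : ℝ) / α ^ (a + L + 1) - gq (a + L) α s) / s ^ (L + 1) +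
      s ^ L * gq (a - L - 1) α s := by
  have hA := (rad_int (a + L) hα).1
  have hB := gq_int (a - L - 1) hα hs.le
  have hC := gq_int (a + L) hα hs.le
  have hsub : Ioc (0 : ℝ) s ⊆ Ioi 0 := Ioc_subset_Ioi_self
  have hU : Ioi (0 : ℝ) = Ioc 0 s ∪ Ioi s := (Ioc_union_Ioi_eq_Ioi hs.le).symm
  have hdis : Disjoint (Ioc (0 : ℝ) s) (Ioi s) := by
    rw [Set.disjoint_left]
    intro x hx hx'
    exact absurd hx.2 (not_le.mpr hx')
  -- the two pieces
  have e1 : ∀ r ∈ Ioc (0 : ℝ) s, r ^ (a + L) * Real.exp (-(α * r)) / s ^ (L + 1) =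
      r ^ a * Real.exp (-(α * r)) * (min r s ^ L / max r s ^ (L + 1)) := by
    intro r hr
    rw [min_eq_left hr.2, max_eq_right hr.2, pow_add]
    ring
  have e2 : ∀ r ∈ Ioi s, s ^ L * (r ^ (a - L - 1) * Real.exp (-(α * r))) =
      r ^ a * Real.exp (-(α * r)) * (min r s ^ L / max r s ^ (L + 1)) := by
    intro r hr
    have hr' : s < r := hr
    have hr0 : 0 < r := hs.trans hr'
    rw [min_eq_right hr'.le, max_eq_left hr'.le]
    have : r ^ a = r ^ (a - L - 1) * r ^ (L + 1) := by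
      rw [← pow_add]
      congr 1
      omega
    rw [this]
    field_simp
  have i1 : IntegrableOn (fun r : ℝ => r ^ (a + L) * Real.exp (-(α * r)) / s ^ (L + 1))
      (Ioc 0 s) := (hA.mono_set hsub).div_const _
  have i2 : IntegrableOn (fun r : ℝ => s ^ L * (r ^ (a - L - 1) * Real.exp (-(α * r))))
      (Ioi s) := hB.1.const_mul _
  have j1 := i1.congr_fun e1 measurableSet_Ioc
  have j2 := i2.congr_fun e2 measurableSet_Ioi
  have k1 : ∫ r in Ioc (0 : ℝ) s, r ^ (a + L) * Real.exp (-(α * r)) =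
      ((a + L).factorial : ℝ) / α ^ (a + L + 1) - gq (a + L) α s := by
    have h := (rad_int (a + L) hα).2
    rw [hU, setIntegral_union hdis measurableSet_Ioi (hA.mono_set hsub) hC.1, hC.2] at h
    linarith only [h]
  constructor
  · rw [hU]
    exact j1.union j2
  · rw [hU, setIntegral_union hdis measurableSet_Ioi j1 j2,
      ← setIntegral_congr_fun measurableSet_Ioc e1, ← setIntegral_congr_fun measurableSet_Ioi e2,
      integral_div, integral_const_mul, k1, hB.2]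

theorem Phi_eq (a b L : ℕ) {α β : ℝ} (hα : 0 < α) (hβ : 0 < β) (ha : L + 1 ≤ a)
    (hb : L + 1 ≤ b) :
    (∀ s : ℝ, 0 < s → IntegrableOn (fun r => r ^ a * Real.exp (-(α * r)) *
      (min r s ^ L / max r s ^ (L + 1))) (Ioi 0)) ∧
    IntegrableOn (fun s => s ^ b * Real.exp (-(β * s)) * ∫ r in Ioi (0 : ℝ),
      r ^ a * Real.exp (-(α * r)) * (min r s ^ L / max r s ^ (L + 1))) (Ioi 0) ∧
    ∫ s in Ioi (0 : ℝ), s ^ b * Real.exp (-(β * s)) * ∫ r in Ioi (0 : ℝ),
      r ^ a * Real.exp (-(α * r)) * (min r s ^ L / max r s ^ (L + 1)) = Phi a b L α β := by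
  refine ⟨fun s hs => (inner_eq a L hα ha hs).1, ?_⟩
  obtain ⟨h1, h2⟩ := gq_Jf (b - L - 1) (a + L) hβ hα
  obtain ⟨h3, h4⟩ := gq_Jf (b + L) (a - L - 1) hβ hα
  obtain ⟨h5, h6⟩ := rad_int (b - L - 1) hβ
  have h5' := h5.const_mul (((a + L).factorial : ℝ) / α ^ (a + L + 1))
  have e : ∀ s ∈ Ioi (0 : ℝ),
      (((a + L).factorial : ℝ) / α ^ (a + L + 1) * (s ^ (b - L - 1) * Real.exp (-(β * s))) -
        s ^ (b - L - 1) * Real.exp (-(β * s)) * gq (a + L) α s) +
        s ^ (b + L) * Real.exp (-(β * s)) * gq (a - L - 1) α s =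
      s ^ b * Real.exp (-(β * s)) * ∫ r in Ioi (0 : ℝ),
      r ^ a * Real.exp (-(α * r)) * (min r s ^ L / max r s ^ (L + 1)) := by
    intro s hs
    have hs' : (0 : ℝ) < s := hs
    rw [(inner_eq a L hα ha hs).2]
    have : s ^ b = s ^ (b - L - 1) * s ^ (L + 1) := by
      rw [← pow_add]
      congr 1
      (clear * - hb; omega)
    rw [pow_add s b L, mul_add]
    have e2 : s ^ b * Real.exp (-(β * s)) *
        ((((a + L).factorial : ℝ) / α ^ (a + L + 1) - gq (a + L) α s) / s ^ (L + 1)) =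
        s ^ (b - L - 1) * Real.exp (-(β * s)) *
          (((a + L).factorial : ℝ) / α ^ (a + L + 1) - gq (a + L) α s) := by
      rw [this]
      (clear * - hα hs'; field_simp)
    rw [e2]
    ring
  have h8 : IntegrableOn (fun s : ℝ =>
      ((a + L).factorial : ℝ) / α ^ (a + L + 1) * (s ^ (b - L - 1) * Real.exp (-(β * s))) -
        s ^ (b - L - 1) * Real.exp (-(β * s)) * gq (a + L) α s) (Ioi 0) := h5'.sub h1
  have h9 : IntegrableOn (fun s : ℝ =>
      (((a + L).factorial : ℝ) / α ^ (a + L + 1) * (s ^ (b - L - 1) * Real.exp (-(β * s))) -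
        s ^ (b - L - 1) * Real.exp (-(β * s)) * gq (a + L) α s) +
        s ^ (b + L) * Real.exp (-(β * s)) * gq (a - L - 1) α s) (Ioi 0) := h8.add h3
  constructor
  · exact h9.congr_fun e measurableSet_Ioi
  · rw [← setIntegral_congr_fun measurableSet_Ioi e]
    rw [integral_add h8 h3, integral_sub h5' h1, integral_const_mul, h6, h2, h4]
    unfold Phi
    have h7 := Jf_add (a + L) (b - L - 1) hα hβ
    linarith only [h7]

private theorem Jf_nonneg (p q : ℕ) {α β : ℝ} (hα : 0 < α) (hβ : 0 < β) : 0 ≤ Jf p q α β := by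
  unfold Jf
  apply Finset.sum_nonneg
  intro i _
  (clear * - hβ hα; positivity)

theorem Phi_nonneg (a b L : ℕ) {α β : ℝ} (hα : 0 < α) (hβ : 0 < β) : 0 ≤ Phi a b L α β :=
  add_nonneg (Jf_nonneg _ _ hα hβ) (Jf_nonneg _ _ hβ hα)

theorem kp_eq (k : ℕ) : Hyd.kap k = kp k := rfl

theorem lc_eq (k l j : ℕ) : Hyd.cf (Hyd.kap k) l j = lag k l j := by
  induction j with
  | zero =>
    unfold lag
    rw [Finset.range_zero, Finset.prod_empty]
    rfl
  | succ j ih =>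
    unfold lag at ih ⊢
    rw [Finset.prod_range_succ, ← ih, Hyd.cf, kp_eq, mul_comm]

theorem rad_eq (k l : ℕ) (r : ℝ) :
    Hyd.rad k l r = (∑ j ∈ Finset.range (k + 1 - l), lag k l j * r ^ j) *
      Real.exp (-(kp k * r)) := by
  unfold Hyd.rad Hyd.Lr
  simp only [lc_eq]
  rw [kp_eq, neg_mul]

theorem nrm_eq (k l : ℕ) : Hyd.radN k l = nrm k l := by
  have hk : 0 < 2 * kp k := mul_pos two_pos (Hyd.kap_pos k)
  have hI : ∀ i ∈ Finset.range (k + 1 - l), ∀ j ∈ Finset.range (k + 1 - l),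
      IntegrableOn (fun r : ℝ => lag k l i * lag k l j *
        (r ^ (2 * l + 2 + i + j) * Real.exp (-(2 * kp k * r)))) (Ioi 0) := fun i _ j _ =>
    ((rad_int (2 * l + 2 + i + j) hk).1).const_mul _
  have e : ∀ r : ℝ, r ^ (2 * l + 2) * Hyd.rad k l r ^ 2 =
      ∑ i ∈ Finset.range (k + 1 - l), ∑ j ∈ Finset.range (k + 1 - l), lag k l i * lag k l j *
        (r ^ (2 * l + 2 + i + j) * Real.exp (-(2 * kp k * r))) := by
    intro r
    rw [rad_eq, mul_pow, sq (∑ j ∈ Finset.range (k + 1 - l), lag k l j * r ^ j),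
      Finset.sum_mul_sum]
    have e1 : Real.exp (-(kp k * r)) ^ 2 = Real.exp (-(2 * kp k * r)) := by
      rw [sq, ← Real.exp_add]
      congr 1
      ring
    rw [e1, Finset.sum_mul, Finset.mul_sum]
    apply Finset.sum_congr rfl
    intro i _
    rw [Finset.sum_mul, Finset.mul_sum]
    apply Finset.sum_congr rfl
    intro j _
    rw [pow_add r (2 * l + 2 + i) j, pow_add r (2 * l + 2) i]
    ring
  unfold Hyd.radN nrm
  simp only [e]
  rw [integral_finsetSum _ fun i hi => integrable_finsetSum _ (hI i hi)]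
  apply Finset.sum_congr rfl
  intro i hi
  rw [integral_finsetSum _ (hI i hi)]
  apply Finset.sum_congr rfl
  intro j _
  rw [integral_const_mul, (rad_int (2 * l + 2 + i + j) hk).2]
  congr 3
  ring

theorem nrm_pos (k l : ℕ) (hl : l ≤ k) : 0 < nrm k l := by
  rw [← nrm_eq]
  exact Hyd.radN_pos hl

end Vale.Agent.P370.KC
end

section

/-!
Newton theorem for null powers (Funk-Hecke with the Coulomb kernel).
-/

namespace Vale.Agent.P370.Q

open MeasureTheory Finset ComplexConjugate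

namespace S3

/-- north pole -/
noncomputable def ez : R3 := EuclideanSpace.single 2 1

theorem inner_ez_sp (θ φ : ℝ) : inner ℝ ez (sp θ φ) = Real.cos θ := by
  simp only [ez, Fin.isValue, sp, EuclideanSpace.inner_single_left, Real.ringHom_apply, Matrix.cons_val, one_mul]

theorem norm_ez : ‖ez‖ = 1 := by
  simp [ez]

theorem cdot_sp (c : C3) (θ φ : ℝ) :
    cdot c (sp θ φ) = Xf (c 0) (c 1) (c 2) (Real.sin θ) (Real.cos θ) φ := by
  unfold cdot Xf sp
  rw [Fin.sum_univ_three]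
  simp only [Fin.isValue, Matrix.cons_val_zero, Complex.ofReal_mul, Complex.ofReal_sin, Complex.ofReal_cos, Matrix.cons_val_one, Matrix.cons_val]
  ring

theorem sph_zonal_null (c : C3) (hc : cc c c = 0) (N : ℕ) (f : ℝ → ℝ)
    (hf : ContinuousOn f (Set.Icc (-1) 1)) :
    sph (fun u => (f (inner ℝ ez u) : ℝ) • cdot c u ^ N) =
      ((1 / 2) * ∫ t in (-1 : ℝ)..1, f t * lp N t : ℝ) • (c 2) ^ N := by
  have hc' : c 0 ^ 2 + c 1 ^ 2 + c 2 ^ 2 = 0 := by
    unfold cc at hc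
    rw [Fin.sum_univ_three] at hc
    linear_combination hc
  have h1 : sph (fun u => (f (inner ℝ ez u) : ℝ) • cdot c u ^ N) =
      sph (fun u => (f (inner ℝ ez u) * lp N (inner ℝ ez u) : ℝ) • (c 2) ^ N) := by
    unfold sph
    congr 1
    apply intervalIntegral.integral_congr
    intro θ _
    simp only
    simp only [inner_ez_sp, cdot_sp]
    rw [intervalIntegral.integral_smul, intervalIntegral.integral_smul,
      laplace_eq _ _ _ _ _ hc' (Real.sin_sq_add_cos_sq θ)]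
    rw [intervalIntegral.integral_const]
    simp only [Complex.real_smul]
    push_cast
    ring
  rw [h1]
  have h2 := sph_zonal ez norm_ez (fun t => (f t * lp N t : ℝ) • (c 2) ^ N)
    ((hf.mul (lp_continuous N).continuousOn).smul continuousOn_const)
  rw [h2, intervalIntegral.integral_smul_const, smul_smul]

theorem sph_zonal_real (f : ℝ → ℝ) (e : R3) (he : ‖e‖ = 1)
    (hf : ContinuousOn f (Set.Icc (-1) 1)) :
    sph (fun u => (f (inner ℝ e u) : ℝ)) = (1 / 2) * ∫ t in (-1 : ℝ)..1, f t := by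
  rw [sph_zonal e he f hf, smul_eq_mul]

theorem dist_eq (e u : R3) (he : ‖e‖ = 1) (hu : ‖u‖ = 1) (r ρ : ℝ) :
    dist (r • e) (ρ • u) = √(Dd r ρ (inner ℝ e u)) := by
  rw [dist_eq_norm, ← Real.sqrt_sq (norm_nonneg _)]
  congr 1
  rw [@norm_sub_sq_real, norm_smul, norm_smul, he, hu, inner_smul_left, inner_smul_right]
  unfold Dd
  simp only [Real.norm_eq_abs, mul_one, sq_abs, Real.ringHom_apply]
  ring

/-- the linear functional -/
noncomputable def cdotL (c : C3) : R3 →ₗ[ℝ] ℂ where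
  toFun := cdot c
  map_add' x y := by
    unfold cdot
    rw [← Finset.sum_add_distrib]
    apply Finset.sum_congr rfl
    intro k _
    simp
    ring
  map_smul' t x := by
    unfold cdot
    simp only [RingHom.id_apply, Finset.smul_sum]
    apply Finset.sum_congr rfl
    intro k _
    simp
    ring

theorem cdotL_apply (c : C3) (x : R3) : cdotL c x = cdot c x := rfl

/-- rotated vector -/
noncomputable def rot (g : R3 ≃ₗᵢ[ℝ] R3) (c : C3) : C3 :=
  fun k => cdot c (g (EuclideanSpace.single k 1))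

theorem cdot_rot (g : R3 ≃ₗᵢ[ℝ] R3) (c : C3) (u : R3) : cdot (rot g c) u = cdot c (g u) := by
  have hu : u = ∑ k, u k • (EuclideanSpace.single k (1 : ℝ) : R3) := by
    ext i
    simp [Fin.sum_univ_three]
    fin_cases i <;> simp
  have : cdot c (g u) = cdotL c (g u) := rfl
  rw [this]
  conv_rhs => rw [hu]
  rw [map_sum, map_sum]
  unfold cdot rot
  apply Finset.sum_congr rfl
  intro k _
  rw [map_smul, map_smul, cdotL_apply, Complex.real_smul]
  ring

/-- real part -/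
noncomputable def reP (c : C3) : R3 := WithLp.toLp 2 (fun k => (c k).re)
/-- imaginary part -/
noncomputable def imP (c : C3) : R3 := WithLp.toLp 2 (fun k => (c k).im)

theorem cdot_ri (c : C3) (x : R3) :
    cdot c x = ((inner ℝ (reP c) x : ℝ) : ℂ) + Complex.I * ((inner ℝ (imP c) x : ℝ) : ℂ) := by
  unfold cdot reP imP
  simp only [PiLp.inner_apply]
  apply Complex.ext
  · simp only [Fin.sum_univ_three, Fin.isValue, Complex.add_re, Complex.mul_re, Complex.ofReal_re, Complex.ofReal_im, mul_zero, sub_zero, RCLike.inner_apply, Real.ringHom_apply, Complex.ofReal_add, Complex.ofReal_mul, Complex.I_re, zero_mul, Complex.I_im, Complex.add_im, Complex.mul_im, add_zero, sub_self]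
    ring
  · simp only [Fin.sum_univ_three, Fin.isValue, Complex.add_im, Complex.mul_im, Complex.ofReal_im, mul_zero, Complex.ofReal_re, zero_add, RCLike.inner_apply, Real.ringHom_apply, Complex.ofReal_add, Complex.ofReal_mul, zero_mul, add_zero, Complex.I_re, Complex.I_im, Complex.add_re, Complex.mul_re, sub_zero, one_mul]
    ring

theorem cc_ri (c : C3) (a b : R3) (h : ∀ k, c k = (a k : ℂ) + Complex.I * (b k : ℂ)) :
    cc c c = ((inner ℝ a a - inner ℝ b b : ℝ) : ℂ) + 2 * Complex.I * ((inner ℝ a b : ℝ) : ℂ) := by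
  unfold cc
  simp only [PiLp.inner_apply, h, Fin.sum_univ_three, Real.inner_apply]
  push_cast
  linear_combination ((b 0 : ℂ) ^ 2 + (b 1 : ℂ) ^ 2 + (b 2 : ℂ) ^ 2) * Complex.I_sq

theorem cc_rot (g : R3 ≃ₗᵢ[ℝ] R3) (c : C3) : cc (rot g c) (rot g c) = cc c c := by
  have h1 : cc c c = ((inner ℝ (reP c) (reP c) - inner ℝ (imP c) (imP c) : ℝ) : ℂ) +
      2 * Complex.I * ((inner ℝ (reP c) (imP c) : ℝ) : ℂ) := by
    apply cc_ri
    intro k
    apply Complex.ext
    · simp [reP, imP]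
    · simp [reP, imP]
  rw [h1, cc_ri (rot g c) (g.symm (reP c)) (g.symm (imP c))]
  · simp only [LinearIsometryEquiv.inner_map_map]
  · intro k
    unfold rot
    rw [cdot_ri]
    have e : ∀ a : R3, (inner ℝ a (g (EuclideanSpace.single k 1)) : ℝ) = g.symm a k := by
      intro a
      rw [← LinearIsometryEquiv.inner_map_map g.symm, g.symm_apply_apply,
        EuclideanSpace.inner_single_right]
      simp
    rw [e, e]

end S3

open S3

/-- Newton's theorem for null powers (Funk-Hecke with the Coulomb kernel) -/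
theorem sph_newton (c : C3) (hc : cc c c = 0) (N : ℕ) (ρ : ℝ) (hρ : 0 < ρ) (x : R3)
    (hx : x ≠ 0) (hne : ‖x‖ ≠ ρ) :
    sph (fun u => (1 / dist x (ρ • u) : ℝ) • cdot c u ^ N) =
      (1 / (2 * (N : ℝ) + 1) * (min ‖x‖ ρ ^ N / max ‖x‖ ρ ^ (N + 1)) / ‖x‖ ^ N : ℝ) •
        cdot c x ^ N := by
  have hr : 0 < ‖x‖ := norm_pos_iff.2 hx
  obtain ⟨e, he, hxe⟩ : ∃ e : R3, ‖e‖ = 1 ∧ x = ‖x‖ • e := by
    refine ⟨(1 / ‖x‖) • x, ?_, ?_⟩
    · rw [norm_smul, Real.norm_of_nonneg (by (clear * - hx; positivity))]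
      (clear * - hx; field_simp)
    · rw [smul_smul, mul_one_div_cancel hr.ne', one_smul]
  obtain ⟨g, hg⟩ : ∃ g : R3 ≃ₗᵢ[ℝ] R3, g ez = e :=
    ⟨_, Submodule.reflection_sub (v := ez) (w := e) (by rw [norm_ez, he])⟩
  have hf : ContinuousOn (fun t => 1 / √(Dd ‖x‖ ρ t)) (Set.Icc (-1 : ℝ) 1) := by
    have := cA hr hρ hne
    rwa [Set.uIcc_of_le (by norm_num)] at this
  have h1 : sph (fun u => (1 / dist x (ρ • u) : ℝ) • cdot c u ^ N) =
      sph (fun u => (1 / dist x (ρ • g u) : ℝ) • cdot c (g u) ^ N) := by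
    symm
    apply sph_rot g (fun u => (1 / dist x (ρ • u) : ℝ) • cdot c u ^ N)
    have A : ContinuousOn (fun u => (1 / dist x (ρ • u) : ℝ)) (Metric.sphere (0 : R3) 1) := by
      apply ContinuousOn.div continuousOn_const (by (clear * -; fun_prop))
      intro u hu
      have hu' : ‖u‖ = 1 := by simpa using hu
      have : x ≠ ρ • u := by
        intro h
        apply hne
        rw [h, norm_smul, hu', Real.norm_of_nonneg hρ.le, mul_one]
      exact (dist_pos.2 this).ne'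
    have B : Continuous (cdot c) := (cdotL c).continuous_of_finiteDimensional
    exact A.smul (B.pow N).continuousOn
  rw [h1]
  have h2 : sph (fun u => (1 / dist x (ρ • g u) : ℝ) • cdot c (g u) ^ N) =
      sph (fun u => ((fun t => 1 / √(Dd ‖x‖ ρ t)) (inner ℝ ez u) : ℝ) • cdot (rot g c) u ^ N) := by
    apply sph_congr
    intro u hu
    have e1 : dist x (ρ • g u) = √(Dd ‖x‖ ρ (inner ℝ ez u)) := by
      conv_lhs => rw [hxe]
      rw [dist_eq e (g u) he (by rw [g.norm_map, hu]), ← hg, g.inner_map_map]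
    rw [cdot_rot, e1]
  rw [h2, sph_zonal_null _ ((cc_rot g c).trans hc) N _ hf]
  have h3 : (1 / 2) * ∫ t in (-1 : ℝ)..1, 1 / √(Dd ‖x‖ ρ t) * lp N t = aI ‖x‖ ρ N := rfl
  rw [h3, aI_eq hr hρ hne]
  have h4 : rot g c 2 = cdot c e := by
    unfold rot
    rw [← hg]
    rfl
  have h5 : cdot c x = ‖x‖ • cdot c e := by
    have : cdot c (‖x‖ • e) = ‖x‖ • cdot c e := (cdotL c).map_smul ‖x‖ e
    rw [← this, ← hxe]
  rw [h4, h5, smul_pow, smul_smul]
  congr 1
  (clear * - hx hρ; field_simp)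

theorem sph_newton_zero (ρ : ℝ) (hρ : 0 < ρ) (x : R3) (hne : ‖x‖ ≠ ρ) :
    sph (fun u => (1 / dist x (ρ • u) : ℝ)) = 1 / max ‖x‖ ρ := by
  rcases eq_or_ne x 0 with hx | hx
  · subst hx
    have : sph (fun u : R3 => (1 / dist 0 (ρ • u) : ℝ)) = sph (fun _ => (1 / ρ : ℝ)) := by
      apply sph_congr
      intro u hu
      rw [dist_zero_left, norm_smul, hu, Real.norm_of_nonneg hρ.le, mul_one]
    rw [this, sph_const, norm_zero, max_eq_right hρ.le]
  · have hr : 0 < ‖x‖ := norm_pos_iff.2 hx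
    obtain ⟨e, he, hxe⟩ : ∃ e : R3, ‖e‖ = 1 ∧ x = ‖x‖ • e := by
      refine ⟨(1 / ‖x‖) • x, ?_, ?_⟩
      · rw [norm_smul, Real.norm_of_nonneg (by (clear * - hx; positivity))]
        field_simp
      · rw [smul_smul, mul_one_div_cancel hr.ne', one_smul]
    have hf : ContinuousOn (fun t => 1 / √(Dd ‖x‖ ρ t)) (Set.Icc (-1 : ℝ) 1) := by
      have := cA hr hρ hne
      rwa [Set.uIcc_of_le (by (clear * -; norm_num))] at this
    have h2 : sph (fun u => (1 / dist x (ρ • u) : ℝ)) =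
        sph (fun u => ((fun t => 1 / √(Dd ‖x‖ ρ t)) (inner ℝ e u) : ℝ)) := by
      apply sph_congr
      intro u hu
      have e1 : dist x (ρ • u) = √(Dd ‖x‖ ρ (inner ℝ e u)) := by
        conv_lhs => rw [hxe]
        rw [dist_eq e u he hu]
      rw [e1]
    rw [h2, sph_zonal_real _ e he hf]
    have h3 : (1 / 2) * ∫ t in (-1 : ℝ)..1, 1 / √(Dd ‖x‖ ρ t) = aI ‖x‖ ρ 0 := by
      unfold aI
      simp only [one_div, S3.lp, mul_one]
    rw [h3, aI_eq hr hρ hne]
    simp only [CharP.cast_eq_zero, mul_zero, zero_add, ne_eq, one_ne_zero, not_false_eq_true, div_self, pow_zero, pow_one, one_div, one_mul]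

end Vale.Agent.P370.Q
end

section

/-!
Radial integrals of the potential `(1/r - 1/ρ)_+`.
-/

namespace Vale.Agent.P370.Q

open MeasureTheory Finset ComplexConjugate Hyd

theorem I0_ge (n : ℕ) (hn : 1 ≤ n) : 1 / 4 ≤ I0 n := by
  have hn0 : (0 : ℝ) < n := by exact_mod_cast hn
  have h : I0 n = ((2 * n).factorial : ℝ) / (2 / (n : ℝ)) ^ (2 * n + 1) := by
    rw [← integral_pow_exp (2 * n) (b := 2 / (n : ℝ)) (by (clear * - hn; positivity))]
    unfold I0
    refine setIntegral_congr_fun measurableSet_Ioi fun r _ => ?_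
    congr 2
    ring
  rw [h]
  rcases Nat.eq_or_lt_of_le hn with h1 | h1
  · rw [← h1]
    norm_num [Nat.factorial]
  · have h2 : (2 / (n : ℝ)) ^ (2 * n + 1) ≤ 1 := by
      apply pow_le_one₀ (by positivity)
      rw [div_le_one hn0]
      exact_mod_cast h1
    have h3 : (1 : ℝ) ≤ ((2 * n).factorial : ℝ) := by
      exact_mod_cast Nat.one_le_iff_ne_zero.2 (Nat.factorial_ne_zero _)
    rw [le_div_iff₀ (by positivity)]
    nlinarith only [h2, h3]

/-- the numerator of `xr` -/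
theorem xr_num_eq (n : ℕ) (hn : 1 ≤ n) {ρ : ℝ} (hρ : 0 < ρ) :
    ∫ r in Set.Ioi (0 : ℝ), r ^ (2 * n) * Real.exp (-(2 * r / n)) * Vr ρ r
      = ∫ r in (0 : ℝ)..ρ, r ^ (2 * n) * Real.exp (-(2 * r / n)) * (1 / r - 1 / ρ) := by
  rw [intervalIntegral.integral_of_le hρ.le]
  have h1 : ∫ r in Set.Ioc (0 : ℝ) ρ, r ^ (2 * n) * Real.exp (-(2 * r / n)) * (1 / r - 1 / ρ)
      = ∫ r in Set.Ioc (0 : ℝ) ρ, r ^ (2 * n) * Real.exp (-(2 * r / n)) * Vr ρ r := by
    refine setIntegral_congr_fun measurableSet_Ioc fun r hr => ?_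
    have h2 : Vr ρ r = 1 / r - 1 / ρ := by
      unfold Vr
      rw [max_eq_left]
      rw [sub_nonneg]
      exact one_div_le_one_div_of_le hr.1 hr.2
    rw [h2]
  rw [h1]
  refine setIntegral_eq_of_subset_of_forall_sdiff_eq_zero measurableSet_Ioi
    (fun r hr => hr.1) fun r hr => ?_
  have hr1 : (0 : ℝ) < r := hr.1
  have hr2 : ρ < r := by
    by_contra hcon
    exact hr.2 ⟨hr1, not_lt.1 hcon⟩
  have h2 : Vr ρ r = 0 := by
    unfold Vr
    rw [max_eq_right]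
    rw [sub_nonpos]
    exact one_div_le_one_div_of_le hρ hr2.le
  rw [h2, mul_zero]

theorem xr_bounds (n : ℕ) (hn : 1 ≤ n) (ρ : ℝ) (hρ : 0 < ρ) (_hρ2 : ρ ≤ 1) :
    0 ≤ xr n ρ ∧ xr n ρ ≤ ρ ^ (2 * n) := by
  have hI := I0_ge n hn
  have hI0 : 0 < I0 n := by linarith only [hI]
  have hn0 : (0 : ℝ) < n := by exact_mod_cast hn
  have hpt : ∀ r ∈ Set.Ioc (0 : ℝ) ρ, r ^ (2 * n) * Real.exp (-(2 * r / n)) * (1 / r - 1 / ρ)
      = r ^ (2 * n - 1) * (1 - r / ρ) * Real.exp (-(2 * r / n)) := by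
    intro r hr
    have hr0 := hr.1
    obtain ⟨m, hm⟩ : ∃ m, 2 * n = m + 1 := ⟨2 * n - 1, by omega⟩
    rw [hm, Nat.add_sub_cancel, pow_succ]
    (clear * - hρ hr0; field_simp)
  have hcont : Continuous fun r : ℝ => r ^ (2 * n - 1) * (1 - r / ρ) * Real.exp (-(2 * r / n)) := by
    (clear * -; fun_prop)
  have hnum0 : 0 ≤ ∫ r in (0 : ℝ)..ρ, r ^ (2 * n) * Real.exp (-(2 * r / n)) * (1 / r - 1 / ρ) := by
    rw [intervalIntegral.integral_of_le hρ.le]
    refine setIntegral_nonneg measurableSet_Ioc fun r hr => ?_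
    have h1 : 0 ≤ 1 / r - 1 / ρ := by
      rw [sub_nonneg]
      exact one_div_le_one_div_of_le hr.1 hr.2
    have := hr.1
    (clear * - this h1; positivity)
  have hnum1 : ∫ r in (0 : ℝ)..ρ, r ^ (2 * n) * Real.exp (-(2 * r / n)) * (1 / r - 1 / ρ)
      ≤ ρ ^ (2 * n) / (2 * n * (2 * n + 1)) := by
    have h1 : ∫ r in (0 : ℝ)..ρ, r ^ (2 * n - 1) * (1 - r / ρ)
        = ρ ^ (2 * n) / (2 * n * (2 * n + 1)) := by
      have h2 : ∀ r : ℝ, r ^ (2 * n - 1) * (1 - r / ρ)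
          = r ^ (2 * n - 1) - 1 / ρ * r ^ (2 * n) := by
        intro r
        obtain ⟨m, hm⟩ : ∃ m, 2 * n = m + 1 := ⟨2 * n - 1, by (clear * - hn; omega)⟩
        rw [hm, Nat.add_sub_cancel, pow_succ]
        (clear * - hρ; field_simp)
      simp only [h2]
      rw [intervalIntegral.integral_sub (Continuous.intervalIntegrable (by (clear * -; fun_prop)) _ _)
        (Continuous.intervalIntegrable (by fun_prop) _ _), intervalIntegral.integral_const_mul,
        integral_pow, integral_pow]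
      obtain ⟨m, hm⟩ : ∃ m, 2 * n = m + 1 := ⟨2 * n - 1, by (clear * - hn; omega)⟩
      have hm' : 2 * (n : ℝ) = m + 1 := by exact_mod_cast hm
      rw [hm, Nat.add_sub_cancel, hm', zero_pow (Nat.succ_ne_zero _),
        zero_pow (Nat.succ_ne_zero _), sub_zero, sub_zero]
      push_cast
      field_simp
      ring
    rw [← h1, intervalIntegral.integral_of_le hρ.le, intervalIntegral.integral_of_le hρ.le,
      setIntegral_congr_fun measurableSet_Ioc hpt]
    refine setIntegral_mono_on ?_ ?_ measurableSet_Ioc fun r hr => ?_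
    · exact (hcont.continuousOn.integrableOn_Icc (a := 0) (b := ρ)).mono_set
        Set.Ioc_subset_Icc_self
    · have hc : Continuous fun r : ℝ => r ^ (2 * n - 1) * (1 - r / ρ) := by (clear * -; fun_prop)
      exact (hc.continuousOn.integrableOn_Icc (a := 0) (b := ρ)).mono_set
        Set.Ioc_subset_Icc_self
    · have h3 : 0 ≤ 1 - r / ρ := by
        rw [sub_nonneg, div_le_one hρ]
        exact hr.2
      have h4 : Real.exp (-(2 * r / n)) ≤ 1 := by
        rw [Real.exp_le_one_iff, neg_nonpos]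
        have := hr.1.le
        (clear * - this hn; positivity)
      have h5 : 0 ≤ r ^ (2 * n - 1) * (1 - r / ρ) := mul_nonneg (pow_nonneg hr.1.le _) h3
      exact mul_le_of_le_one_right h5 h4
  unfold xr
  refine ⟨div_nonneg hnum0 hI0.le, ?_⟩
  rw [div_le_iff₀ hI0]
  refine hnum1.trans ?_
  have h6 : (6 : ℝ) ≤ 2 * n * (2 * n + 1) := by
    have : (1 : ℝ) ≤ n := by exact_mod_cast hn
    nlinarith only [this]
  calc ρ ^ (2 * n) / (2 * n * (2 * n + 1)) ≤ ρ ^ (2 * n) / 6 := by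
        gcongr
    _ ≤ ρ ^ (2 * n) * (1 / 4) := by
        have : 0 ≤ ρ ^ (2 * n) := by (clear * - hρ; positivity)
        (clear * - this; linarith)
    _ ≤ ρ ^ (2 * n) * I0 n := by
        gcongr

theorem vfun_eq_prod (n : ℕ) (P : Poly3) (x : R3) :
    vfun n P x = ev P x * Real.exp (-(‖x‖ / n)) := rfl

theorem bform_top (n : ℕ) (hn : 1 ≤ n) {φ ψ : R3 → ℝ} (hφ : InV n φ) (hψ : InV n ψ) (ρ : ℝ)
    (hρ : 0 < ρ) : bform ρ φ ψ = xr n ρ * ov φ ψ := by
  obtain ⟨P, hP, rfl⟩ := hφ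
  obtain ⟨P', hP', rfl⟩ := hψ
  have hI := I0_ge n hn
  have hI0 : I0 n ≠ 0 := by linarith only [hI]
  have hdeg : n - 1 + (n - 1) + 2 = 2 * n := by omega
  have hexp : ∀ r : ℝ, Real.exp (-(r / n)) * Real.exp (-(r / n)) = Real.exp (-(2 * r / n)) := by
    intro r
    rw [← Real.exp_add]
    congr 1
    ring
  have h1 := integral_homog hP.1 hP'.1 fun r => Real.exp (-(2 * r / n)) * Vr ρ r
  have h2 := integral_homog hP.1 hP'.1 fun r => Real.exp (-(2 * r / n))
  rw [hdeg] at h1 h2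
  have e1 : bform ρ (vfun n P) (vfun n P')
      = ∫ x : R3, ev P x * ev P' x * (Real.exp (-(2 * ‖x‖ / n)) * Vr ρ ‖x‖) := by
    unfold bform
    refine integral_congr_ae (Filter.Eventually.of_forall fun x => ?_)
    simp only
    rw [vfun_eq_prod, vfun_eq_prod, ← hexp]
    unfold Vr
    ring
  have e2 : ov (vfun n P) (vfun n P')
      = ∫ x : R3, ev P x * ev P' x * Real.exp (-(2 * ‖x‖ / n)) := by
    unfold ov
    refine integral_congr_ae (Filter.Eventually.of_forall fun x => ?_)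
    simp only
    rw [vfun_eq_prod, vfun_eq_prod, ← hexp]
    ring
  rw [e1, e2]
  refine h1.trans ?_
  have h3 : ∫ x : R3, ev P x * ev P' x * Real.exp (-(2 * ‖x‖ / n)) = Hyd.sph P P' * I0 n := h2
  rw [h3]
  have h4 : ∫ r in Set.Ioi (0 : ℝ), r ^ (2 * n) * (Real.exp (-(2 * r / n)) * Vr ρ r)
      = xr n ρ * I0 n := by
    unfold xr
    rw [div_mul_cancel₀ _ hI0, ← xr_num_eq n hn hρ]
    refine setIntegral_congr_fun measurableSet_Ioi fun r _ => ?_
    ring
  rw [h4]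
  ring

end Vale.Agent.P370.Q
end

section

/-!
Isolation of the top subspace.
-/

namespace Vale.Agent.P370.Q

open MeasureTheory Finset ComplexConjugate Hyd

theorem top_mem_Eig {k : ℕ} {P : Pl} (hP : P ∈ Hyd.Harm k) : (P, (0 : Pl)) ∈ Eig (k + 1) := by
  have h1 := zf_mem_Eig le_rfl hP
  have e : k + 1 - k = 1 := by omega
  have e2 : zf (Hyd.kap k) k (k + 1 - k) P = (P, 0) := by
    unfold zf pw
    rw [e, Finset.sum_range_one]
    simp only [cf, Even.zero, ↓reduceIte, Nat.zero_div, pow_zero, one_mul, one_smul]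
  rwa [e2] at h1

theorem vfun_eq_xp (k : ℕ) (P : Poly3) : vfun (k + 1) P = xp (Hyd.kap k) P 0 := by
  funext x
  have h0 : ev (0 : Pl) x = 0 := by simp only [ev, map_zero]
  unfold vfun xp Hyd.kap
  rw [h0, mul_zero, add_zero]
  show ev P x * _ = _
  congr 2
  push_cast
  ring

theorem InV.isShell {n : ℕ} (hn : 1 ≤ n) {φ : R3 → ℝ} (hφ : InV n φ) : IsShell n φ := by
  obtain ⟨k, rfl⟩ : ∃ k, n = k + 1 := ⟨n - 1, by omega⟩
  obtain ⟨P, hP, rfl⟩ := hφ
  rw [Nat.add_sub_cancel] at hP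
  refine (isShell_iff hn).2 ⟨(P, 0), top_mem_Eig (mem_Harm.2 hP), ?_⟩
  rw [vfun_eq_xp, kap_eq]

/-- isolation of the top subspace -/
theorem isolation (n : ℕ) (hn : 2 ≤ n) (ρ : ℝ) (hρ : 0 < ρ) (hρ2 : ρ ≤ 1 / 2 ^ (8 * n ^ 2))
    (φ : R3 → ℝ) (hφ : IsShell n φ) :
    ∃ φ1 φ2 : R3 → ℝ, φ = φ1 + φ2 ∧ InV n φ1 ∧ IsShell n φ2 ∧ (∀ ψ, InV n ψ → ov φ2 ψ = 0) ∧
      (∀ ψ, InV n ψ → bform ρ φ2 ψ = 0) ∧
      (xr n ρ + ρ ^ (2 * n - 2) / 2 ^ (16 * n ^ 2)) * ov φ2 φ2 ≤ bform ρ φ2 φ2 := by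
  obtain ⟨k, rfl⟩ : ∃ k, n = k + 1 := ⟨n - 1, by omega⟩
  obtain ⟨z, hz, rfl⟩ := (isShell_iff (by omega)).1 hφ
  obtain ⟨P, z2, hP, hz2, hsplit, h1, h2, h3⟩ := isolation_aux hρ hρ2 hz
  have hvP : ∀ P' : Pl, vfun (k + 1) P' = (toAdm (kap_pos k) (P', 0)).1.1 := fun P' =>
    vfun_eq_xp k P'
  refine ⟨vfun (k + 1) P, xp (Hyd.kap k) z2.1 z2.2, ?_, ⟨P, ?_, rfl⟩, ?_, ?_, ?_, ?_⟩
  · rw [← kap_eq]
    have h4 := congrArg (fun u : AdmS => u.1.1) (map_add (toAdm (kap_pos k)) (P, 0) z2)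
    rw [← hsplit] at h4
    rw [hvP]
    exact h4
  · rw [Nat.add_sub_cancel]
    exact mem_Harm.1 hP
  · rw [kap_eq]
    exact (isShell_iff (by omega)).2 ⟨z2, hz2, rfl⟩
  · rintro ψ ⟨P', hP', rfl⟩
    rw [Nat.add_sub_cancel] at hP'
    rw [hvP]
    exact h1 P' (mem_Harm.2 hP')
  · rintro ψ ⟨P', hP', rfl⟩
    rw [Nat.add_sub_cancel] at hP'
    rw [hvP]
    exact h2 P' (mem_Harm.2 hP')
  · have h4 : ov (xp (Hyd.kap k) z2.1 z2.2) (xp (Hyd.kap k) z2.1 z2.2)
        = ipB (toAdm (kap_pos k) z2) (toAdm (kap_pos k) z2) := rfl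
    have h5 : bform ρ (xp (Hyd.kap k) z2.1 z2.2) (xp (Hyd.kap k) z2.1 z2.2)
        = VB hρ (toAdm (kap_pos k) z2) (toAdm (kap_pos k) z2) := rfl
    rw [h4, h5]
    refine le_trans ?_ h3
    have h6 : 0 ≤ ipB (toAdm (kap_pos k) z2) (toAdm (kap_pos k) z2) := ip_nonneg _
    refine mul_le_mul_of_nonneg_right ?_ h6
    have hρ1 : ρ ≤ 1 := hρ2.trans (by
      rw [div_le_one (by positivity)]
      exact one_le_pow₀ (by norm_num))
    have h7 := (xr_bounds (k + 1) (by omega) ρ hρ hρ1).2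
    have e1 : 2 * (k + 1) - 2 = 2 * k := by omega
    have e2 : 2 * (k + 1) = 2 * k + 2 := by ring
    rw [e1]
    rw [e2, pow_add] at h7
    have h8 : ρ ^ 2 ≤ 1 / 2 ^ (16 * (k + 1) ^ 2) := by
      have h9 := pow_le_pow_left₀ hρ.le hρ2 2
      refine h9.trans (le_of_eq ?_)
      rw [div_pow, one_pow, ← pow_mul]
      congr 2
      ring
    have h10 : ρ ^ (2 * k) * ρ ^ 2 ≤ ρ ^ (2 * k) / 2 ^ (16 * (k + 1) ^ 2) := by
      rw [div_eq_mul_one_div]
      exact mul_le_mul_of_nonneg_left h8 (by positivity)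
    linarith only [h7, h10]

end Vale.Agent.P370.Q
end

section

/-!
Scaling to heavy nucleus units.
-/

namespace Vale.Agent.P370.Q

open MeasureTheory Finset ComplexConjugate

/-- dilated wave function -/
noncomputable def dil {N : ℕ} (t : ℝ) (ψ : Wave N) : Wave N :=
  fun x s => ((Real.sqrt (t ^ (3 * N)) : ℝ) : ℂ) * ψ (t • x) s

theorem dil_finrank (N : ℕ) : Module.finrank ℝ (Fin N → R3) = 3 * N := by
  rw [Module.finrank_pi_fintype]
  simp only [finrank_euclideanSpace, Fintype.card_fin, sum_const, card_univ, smul_eq_mul, mul_comm]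

theorem dil_integral {N : ℕ} {t : ℝ} (ht : 0 < t) (f : (Fin N → R3) → ℝ) :
    ∫ x, t ^ (3 * N) * f (t • x) = ∫ x, f x := by
  rw [integral_const_mul, Measure.integral_comp_smul, dil_finrank, smul_eq_mul,
    abs_of_nonneg (by (clear * - ht; positivity)), ← mul_assoc, mul_inv_cancel₀ (by positivity), one_mul]

theorem dil_norm_sq {N : ℕ} {t : ℝ} (ht : 0 < t) (z : ℂ) :
    ‖((Real.sqrt (t ^ (3 * N)) : ℝ) : ℂ) * z‖ ^ 2 = t ^ (3 * N) * ‖z‖ ^ 2 := by
  rw [norm_mul, mul_pow, Complex.norm_real, Real.norm_eq_abs, sq_abs,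
    Real.sq_sqrt (by positivity)]

theorem normSq_dil {N : ℕ} {t : ℝ} (ht : 0 < t) (ψ : Wave N) :
    normSq (dil t ψ) = normSq ψ := by
  unfold normSq dil
  refine Finset.sum_congr rfl fun s _ => ?_
  simp only [dil_norm_sq ht]
  exact dil_integral ht (fun x => ‖ψ x s‖ ^ 2)

theorem isTestState_dil {N : ℕ} {t : ℝ} (ht : 0 < t) {ψ : Wave N} (h : IsTestState ψ) :
    IsTestState (dil t ψ) := by
  refine ⟨fun s => ?_, fun s => ?_, fun π x s => ?_⟩
  · exact contDiff_const.mul ((h.smooth s).comp (contDiff_const_smul t))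
  · have h1 : HasCompactSupport (fun x => ψ (t • x) s) :=
      (h.compactSupport s).comp_homeomorph (Homeomorph.smulOfNeZero t ht.ne')
    exact h1.mul_left
  · have h1 := h.antisymm π (t • x) s
    unfold dil
    have h2 : (t • fun i => x (π i)) = fun i => (t • x) (π i) := rfl
    rw [h2, h1]
    ring

theorem fderiv_dil {N : ℕ} {t : ℝ} {ψ : Wave N} (h : IsTestState ψ)
    (s : Fin N → Fin 2) (x v : Fin N → R3) :
    fderiv ℝ (fun y => dil t ψ y s) x v =
      ((Real.sqrt (t ^ (3 * N)) : ℝ) : ℂ) * (t * fderiv ℝ (fun y => ψ y s) (t • x) v) := by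
  have hd : DifferentiableAt ℝ (fun y => ψ y s) (t • x) :=
    (h.smooth s).differentiable (by simp) _
  have h1 : HasFDerivAt (fun y : Fin N → R3 => t • y)
      (t • ContinuousLinearMap.id ℝ (Fin N → R3)) x := by
    exact (hasFDerivAt_id x).const_smul t
  have h2 := (hd.hasFDerivAt.comp x h1).const_mul ((Real.sqrt (t ^ (3 * N)) : ℝ) : ℂ)
  have h3 : fderiv ℝ (fun y => dil t ψ y s) x = _ := h2.fderiv
  rw [h3]
  simp only [ContinuousLinearMap.comp_smulₛₗ, Real.ringHom_apply, ContinuousLinearMap.comp_id, smul_apply, Complex.real_smul, smul_eq_mul]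

theorem kinetic_dil {N : ℕ} {t : ℝ} (ht : 0 < t) {ψ : Wave N} (h : IsTestState ψ) :
    kinetic (dil t ψ) = t ^ 2 * kinetic ψ := by
  unfold kinetic
  simp only [fderiv_dil h, dil_norm_sq ht]
  have h1 : ∀ (s : Fin N → Fin 2) (i : Fin N) (k : Fin 3),
      ∫ x, t ^ (3 * N) * ‖(t : ℂ) * (fderiv ℝ (fun y => ψ y s) (t • x))
        (Pi.single i (EuclideanSpace.single k 1))‖ ^ 2 =
      t ^ 2 * ∫ x, ‖fderiv ℝ (fun y => ψ y s) x
        (Pi.single i (EuclideanSpace.single k 1))‖ ^ 2 := by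
    intro s i k
    rw [dil_integral ht (fun x => ‖(t : ℂ) * (fderiv ℝ (fun y => ψ y s) x)
        (Pi.single i (EuclideanSpace.single k 1))‖ ^ 2)]
    rw [← integral_const_mul]
    congr 1
    funext x
    rw [norm_mul, mul_pow, Complex.norm_real, Real.norm_eq_abs, sq_abs]
  simp only [h1, ← Finset.mul_sum]
  ring

theorem potential_dil {N m : ℕ} (T : ℕ) (w : Fin m → ℕ) (hT : ∑ b, w b < T)
    (y : Fin m → R3) (x : Fin N → R3) :
    coulombV (M := m + 1) (Fin.cons 0 (fun b => (1 / (T : ℝ)) • y b))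
        (Fin.cons (T - ∑ b, w b) w) x =
      (T : ℝ) ^ 2 * scaledV (1 / T) (fun b => (w b : ℝ)) y ((T : ℝ) • x) := by
  have hT0 : (0 : ℝ) < T := by
    have : 0 < T := lt_of_le_of_lt (Nat.zero_le _) hT
    exact_mod_cast this
  have hd : ∀ a b : R3, dist ((T : ℝ) • a) ((T : ℝ) • b) = T * dist a b := by
    intro a b
    rw [dist_smul₀, Real.norm_eq_abs, abs_of_pos hT0]
  have hd2 : ∀ (a b : R3), dist ((T : ℝ) • a) b = T * dist a ((1 / (T : ℝ)) • b) := by
    intro a b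
    rw [← hd, smul_smul, mul_one_div_cancel hT0.ne', one_smul]
  have hn : ∀ a : R3, ‖(T : ℝ) • a‖ = T * ‖a‖ := by
    intro a
    rw [norm_smul, Real.norm_eq_abs, abs_of_pos hT0]
  unfold coulombV scaledV
  have hc : (((T - ∑ b, w b : ℕ)) : ℝ) = T - ∑ b, (w b : ℝ) := by
    rw [Nat.cast_sub hT.le]
    push_cast
    rfl
  have e1 : ∀ i : Fin N, (∑ α : Fin (m + 1), ((Fin.cons (T - ∑ b, w b) w : Fin (m + 1) → ℕ) α : ℝ) /
      dist (x i) ((Fin.cons 0 (fun b => (1 / (T : ℝ)) • y b) : Fin (m + 1) → R3) α)) =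
      (T - ∑ b, (w b : ℝ)) / ‖x i‖ + ∑ b, (w b : ℝ) / dist (x i) ((1 / (T : ℝ)) • y b) := by
    intro i
    rw [Fin.sum_univ_succ]
    simp only [Fin.cons_zero, Fin.cons_succ, dist_zero_right, hc]
  simp only [e1, Pi.smul_apply, hd, hd2, hn]
  have e2 : ∀ i : Fin N, ∑ b, (w b : ℝ) * (1 / ((T : ℝ) * ‖x i‖) -
      1 / ((T : ℝ) * dist (x i) ((1 / (T : ℝ)) • y b))) =
      (1 / (T : ℝ)) * ((∑ b, (w b : ℝ)) / ‖x i‖ -
        ∑ b, (w b : ℝ) / dist (x i) ((1 / (T : ℝ)) • y b)) := by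
    intro i
    rw [mul_sub, Finset.sum_div, Finset.mul_sum, Finset.mul_sum, ← Finset.sum_sub_distrib]
    refine Finset.sum_congr rfl fun b _ => ?_
    rw [one_div, one_div, mul_inv, mul_inv, one_div]
    ring
  simp only [e2]
  have e3 : ∀ i : Fin N, ∀ j : Fin N, 1 / ((T : ℝ) * dist (x i) (x j)) =
      (1 / (T : ℝ)) * (1 / dist (x i) (x j)) := by
    intro i j
    rw [one_div, mul_inv, one_div, one_div]
  have e4 : ∀ i : Fin N, 1 / ((T : ℝ) * ‖x i‖) = (1 / (T : ℝ)) * (1 / ‖x i‖) := by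
    intro i
    rw [one_div, mul_inv, one_div, one_div]
  simp only [e3, e4, ← Finset.mul_sum]
  simp only [sub_div, sum_add_distrib, sum_sub_distrib]
  have e5 : ∑ i : Fin N, (T : ℝ) / ‖x i‖ = T * ∑ i : Fin N, 1 / ‖x i‖ := by
    rw [Finset.mul_sum]
    exact Finset.sum_congr rfl fun i _ => by ring
  rw [e5]
  field_simp
  ring

theorem energy_dil {N m : ℕ} (T : ℕ) (w : Fin m → ℕ) (hT : ∑ b, w b < T)
    (y : Fin m → R3) {ψ : Wave N} (h : IsTestState ψ) :
    energyForm (M := m + 1) (Fin.cons 0 (fun b => (1 / (T : ℝ)) • y b))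
        (Fin.cons (T - ∑ b, w b) w) (dil (T : ℝ) ψ) =
      (T : ℝ) ^ 2 * scaledE (1 / T) (fun b => (w b : ℝ)) y ψ := by
  have hT0 : (0 : ℝ) < T := by
    have : 0 < T := lt_of_le_of_lt (Nat.zero_le _) hT
    exact_mod_cast this
  rw [energyForm_eq _ _ (isTestState_dil hT0 h)]
  unfold energy scaledE
  rw [kinetic_dil hT0 h, mul_add, Finset.mul_sum]
  congr 1
  refine Finset.sum_congr rfl fun s _ => ?_
  rw [← integral_const_mul]
  rw [← dil_integral hT0 (fun x => (T : ℝ) ^ 2 *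
    (scaledV (1 / T) (fun b => (w b : ℝ)) y x * ‖ψ x s‖ ^ 2))]
  congr 1
  funext x
  rw [potential_dil T w hT]
  unfold dil
  rw [dil_norm_sq hT0]
  ring

theorem dil_dil {N : ℕ} {t : ℝ} (ht : 0 < t) (ψ : Wave N) :
    dil t (dil t⁻¹ ψ) = ψ := by
  funext x s
  unfold dil
  rw [smul_smul, inv_mul_cancel₀ ht.ne', one_smul, ← mul_assoc, ← Complex.ofReal_mul,
    ← Real.sqrt_mul (by positivity), ← mul_pow, mul_inv_cancel₀ ht.ne', one_pow, Real.sqrt_one,
    Complex.ofReal_one, one_mul]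

/-- scaling: the ground energy of the molecule with a nucleus of charge `T - ∑ w b` at the origin
and nuclei of charge `w b` at `y b / T` -/
theorem scaling_lower {N m : ℕ} (T : ℕ) (w : Fin m → ℕ) (hT : ∑ b, w b < T) (y : Fin m → R3)
    (L : ℝ)
    (hL : ∀ ψ : Wave N, IsTestState ψ → normSq ψ = 1 →
      L ≤ scaledE (1 / T) (fun b => (w b : ℝ)) y ψ) :
    (((T : ℝ) ^ 2 * L : ℝ) : EReal) ≤
      groundEnergy (M := m + 1) (Fin.cons 0 (fun b => (1 / (T : ℝ)) • y b))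
        (Fin.cons (T - ∑ b, w b) w) N := by
  have hT0 : (0 : ℝ) < T := by
    have : 0 < T := lt_of_le_of_lt (Nat.zero_le _) hT
    exact_mod_cast this
  unfold groundEnergy
  refine le_iInf fun φ => le_iInf fun hφ => le_iInf fun hm => ?_
  rw [EReal.coe_le_coe_iff]
  have hψ : IsTestState (dil (T : ℝ)⁻¹ φ) := isTestState_dil (inv_pos.2 hT0) hφ
  have h1 : normSq (dil (T : ℝ)⁻¹ φ) = 1 := by
    rw [normSq_dil (inv_pos.2 hT0), ← mass_eq, hm]
  have h2 := energy_dil T w hT y hψ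
  rw [dil_dil hT0] at h2
  rw [h2]
  exact mul_le_mul_of_nonneg_left (hL _ hψ h1) (by (clear * - hT0; positivity))

theorem scaling_upper {N m : ℕ} (T : ℕ) (w : Fin m → ℕ) (hT : ∑ b, w b < T) (y : Fin m → R3)
    (U : ℝ)
    (ψ : Wave N) (hψ : IsTestState ψ) (hψ1 : normSq ψ = 1)
    (hU : scaledE (1 / T) (fun b => (w b : ℝ)) y ψ ≤ U) :
    groundEnergy (M := m + 1) (Fin.cons 0 (fun b => (1 / (T : ℝ)) • y b))
        (Fin.cons (T - ∑ b, w b) w) N ≤
      (((T : ℝ) ^ 2 * U : ℝ) : EReal) := by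
  have hT0 : (0 : ℝ) < T := by
    have : 0 < T := lt_of_le_of_lt (Nat.zero_le _) hT
    exact_mod_cast this
  unfold groundEnergy
  refine iInf_le_of_le (dil (T : ℝ) ψ) (iInf_le_of_le (isTestState_dil hT0 hψ)
    (iInf_le_of_le ?_ ?_))
  · rw [mass_eq, normSq_dil hT0, hψ1]
  · rw [EReal.coe_le_coe_iff, energy_dil T w hT y hψ]
    exact mul_le_mul_of_nonneg_left hU (by (clear * - hT0; positivity))

end Vale.Agent.P370.Q
end
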