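import Vale.Agent.P370.MathlibUsed
import Vale.Agent.P370.Bdl.B5
import Vale.Agent.P370.Bdl.B8
import Vale.Agent.P370.Bdl.B4
import Vale.Agent.P370.Bdl.B2

set_option linter.all false

section

/-!
Great circle orbitals: the sites belong to the top subspace, top device, contraction.
-/

namespace Vale.Agent.P370.Q

open MeasureTheory Finset ComplexConjugate

/-! ### real and imaginary parts of null powers -/

/-- real part of the linear form -/
noncomputable def c1u : Poly3 := MvPolynomial.X 2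

/-- imaginary part of the linear form -/
noncomputable def c1v (α : ℝ) : Poly3 :=
  MvPolynomial.C (Real.cos α) * MvPolynomial.X 0 + MvPolynomial.C (Real.sin α) * MvPolynomial.X 1

/-- real and imaginary part of the powers of the linear form -/
noncomputable def c1AB (α : ℝ) : ℕ → Poly3 × Poly3
  | 0 => (1, 0)
  | l + 1 => ((c1AB α l).1 * c1u - (c1AB α l).2 * c1v α, (c1AB α l).1 * c1v α + (c1AB α l).2 * c1u)

noncomputable def c1A (α : ℝ) (l : ℕ) : Poly3 := (c1AB α l).1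
noncomputable def c1B (α : ℝ) (l : ℕ) : Poly3 := (c1AB α l).2

theorem c1A_zero (α : ℝ) : c1A α 0 = 1 := rfl
theorem c1B_zero (α : ℝ) : c1B α 0 = 0 := rfl
theorem c1A_succ (α : ℝ) (l : ℕ) : c1A α (l + 1) = c1A α l * c1u - c1B α l * c1v α := rfl
theorem c1B_succ (α : ℝ) (l : ℕ) : c1B α (l + 1) = c1A α l * c1v α + c1B α l * c1u := rfl

theorem c1u_hom : c1u.IsHomogeneous 1 := MvPolynomial.isHomogeneous_X ℝ 2

theorem c1v_hom (α : ℝ) : (c1v α).IsHomogeneous 1 := by
  unfold c1v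
  refine MvPolynomial.IsHomogeneous.add ?_ ?_
  · simpa using (MvPolynomial.isHomogeneous_C (Fin 3) (Real.cos α)).mul
      (MvPolynomial.isHomogeneous_X ℝ (0 : Fin 3))
  · simpa using (MvPolynomial.isHomogeneous_C (Fin 3) (Real.sin α)).mul
      (MvPolynomial.isHomogeneous_X ℝ (1 : Fin 3))

theorem c1AB_hom (α : ℝ) (l : ℕ) :
    (c1A α l).IsHomogeneous l ∧ (c1B α l).IsHomogeneous l := by
  induction l with
  | zero =>
    exact ⟨MvPolynomial.isHomogeneous_one _ _, MvPolynomial.isHomogeneous_zero _ _ _⟩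
  | succ l ih =>
    rw [c1A_succ, c1B_succ]
    exact ⟨(ih.1.mul c1u_hom).sub (ih.2.mul (c1v_hom α)),
      (ih.1.mul (c1v_hom α)).add (ih.2.mul c1u_hom)⟩

/-- gradient of the real part -/
noncomputable def c1uk (k : Fin 3) : ℝ := if k = 2 then 1 else 0

/-- gradient of the imaginary part -/
noncomputable def c1vk (α : ℝ) (k : Fin 3) : ℝ := ![Real.cos α, Real.sin α, 0] k

theorem c1u_pd (k : Fin 3) : MvPolynomial.pderiv k c1u = MvPolynomial.C (c1uk k) := by
  unfold c1u c1uk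
  fin_cases k <;> simp [MvPolynomial.pderiv_X]

theorem c1v_pd (α : ℝ) (k : Fin 3) : MvPolynomial.pderiv k (c1v α) = MvPolynomial.C (c1vk α k) := by
  unfold c1v c1vk
  fin_cases k <;> simp [MvPolynomial.pderiv_X]

theorem c1_pd (α : ℝ) (k : Fin 3) (l : ℕ) :
    MvPolynomial.pderiv k (c1A α (l + 1)) = ((l : Poly3) + 1) *
        (c1A α l * MvPolynomial.C (c1uk k) - c1B α l * MvPolynomial.C (c1vk α k)) ∧
    MvPolynomial.pderiv k (c1B α (l + 1)) = ((l : Poly3) + 1) *
        (c1A α l * MvPolynomial.C (c1vk α k) + c1B α l * MvPolynomial.C (c1uk k)) := by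
  induction l with
  | zero =>
    rw [c1A_succ, c1B_succ, c1A_zero, c1B_zero]
    simp [c1u_pd, c1v_pd]
  | succ l ih =>
    constructor
    · rw [c1A_succ α (l + 1)]
      rw [map_sub, Derivation.leibniz, Derivation.leibniz, ih.1, ih.2, c1u_pd, c1v_pd]
      simp only [smul_eq_mul]
      rw [c1A_succ α l, c1B_succ α l]
      push_cast
      ring
    · rw [c1B_succ α (l + 1)]
      rw [map_add, Derivation.leibniz, Derivation.leibniz, ih.1, ih.2, c1u_pd, c1v_pd]
      simp only [smul_eq_mul]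
      rw [c1A_succ α l, c1B_succ α l]
      push_cast
      ring

theorem c1_uv (α : ℝ) : ∑ k, (c1uk k * c1uk k - c1vk α k * c1vk α k) = 0 ∧
    ∑ k, c1uk k * c1vk α k = 0 := by
  constructor
  · simp [Fin.sum_univ_three, c1uk, c1vk]
    have := Real.sin_sq_add_cos_sq α
    linarith only [this]
  · simp [c1uk, c1vk]

theorem c1_pd_zero (α : ℝ) (k : Fin 3) :
    MvPolynomial.pderiv k (c1A α 0) = 0 ∧ MvPolynomial.pderiv k (c1B α 0) = 0 := by
  rw [c1A_zero, c1B_zero]
  simp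

theorem c1_lap (α : ℝ) (l : ℕ) : lap (c1A α l) = 0 ∧ lap (c1B α l) = 0 := by
  have hC1 : ∑ k, (MvPolynomial.C (c1uk k) * MvPolynomial.C (c1uk k) -
      MvPolynomial.C (c1vk α k) * MvPolynomial.C (c1vk α k) : Poly3) = 0 := by
    have h := congrArg (MvPolynomial.C (σ := Fin 3)) (c1_uv α).1
    simpa [map_sum] using h
  have hC2 : ∑ k, (MvPolynomial.C (c1uk k) * MvPolynomial.C (c1vk α k) : Poly3) = 0 := by
    have h := congrArg (MvPolynomial.C (σ := Fin 3)) (c1_uv α).2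
    simpa [map_sum] using h
  cases l with
  | zero =>
    unfold lap
    constructor
    · refine Finset.sum_eq_zero fun k _ => ?_
      rw [(c1_pd_zero α k).1, map_zero]
    · refine Finset.sum_eq_zero fun k _ => ?_
      rw [(c1_pd_zero α k).2, map_zero]
  | succ l =>
    have hcast : ∀ k : Fin 3, MvPolynomial.pderiv k ((l : Poly3) + 1) = 0 := by
      intro k
      have : ((l : Poly3) + 1) = MvPolynomial.C ((l : ℝ) + 1) := by simp
      rw [this, MvPolynomial.pderiv_C]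
    cases l with
    | zero =>
      unfold lap
      constructor
      · refine Finset.sum_eq_zero fun k _ => ?_
        rw [(c1_pd α k 0).1, Derivation.leibniz, hcast, map_sub, Derivation.leibniz,
          Derivation.leibniz, MvPolynomial.pderiv_C, MvPolynomial.pderiv_C, (c1_pd_zero α k).1,
          (c1_pd_zero α k).2]
        simp
      · refine Finset.sum_eq_zero fun k _ => ?_
        rw [(c1_pd α k 0).2, Derivation.leibniz, hcast, map_add, Derivation.leibniz,
          Derivation.leibniz, MvPolynomial.pderiv_C, MvPolynomial.pderiv_C, (c1_pd_zero α k).1,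
          (c1_pd_zero α k).2]
        simp
    | succ m =>
      unfold lap
      constructor
      · have h : ∀ k : Fin 3, MvPolynomial.pderiv k (MvPolynomial.pderiv k (c1A α (m + 1 + 1))) =
            ((((m + 1 : ℕ) : Poly3) + 1) * ((m : Poly3) + 1) * c1A α m) *
              (MvPolynomial.C (c1uk k) * MvPolynomial.C (c1uk k) -
                MvPolynomial.C (c1vk α k) * MvPolynomial.C (c1vk α k)) -
            (2 * (((m + 1 : ℕ) : Poly3) + 1) * ((m : Poly3) + 1) * c1B α m) *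
              (MvPolynomial.C (c1uk k) * MvPolynomial.C (c1vk α k)) := by
          intro k
          rw [(c1_pd α k (m + 1)).1, Derivation.leibniz, hcast, map_sub, Derivation.leibniz,
            Derivation.leibniz, MvPolynomial.pderiv_C, MvPolynomial.pderiv_C, (c1_pd α k m).1,
            (c1_pd α k m).2]
          simp only [smul_eq_mul]
          ring
        rw [Finset.sum_congr rfl (fun k _ => h k), Finset.sum_sub_distrib, ← Finset.mul_sum,
          ← Finset.mul_sum, hC1, hC2, mul_zero, mul_zero, sub_zero]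
      · have h : ∀ k : Fin 3, MvPolynomial.pderiv k (MvPolynomial.pderiv k (c1B α (m + 1 + 1))) =
            ((((m + 1 : ℕ) : Poly3) + 1) * ((m : Poly3) + 1) * c1B α m) *
              (MvPolynomial.C (c1uk k) * MvPolynomial.C (c1uk k) -
                MvPolynomial.C (c1vk α k) * MvPolynomial.C (c1vk α k)) +
            (2 * (((m + 1 : ℕ) : Poly3) + 1) * ((m : Poly3) + 1) * c1A α m) *
              (MvPolynomial.C (c1uk k) * MvPolynomial.C (c1vk α k)) := by
          intro k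
          rw [(c1_pd α k (m + 1)).2, Derivation.leibniz, hcast, map_add, Derivation.leibniz,
            Derivation.leibniz, MvPolynomial.pderiv_C, MvPolynomial.pderiv_C, (c1_pd α k m).1,
            (c1_pd α k m).2]
          simp only [smul_eq_mul]
          ring
        rw [Finset.sum_congr rfl (fun k _ => h k), Finset.sum_add_distrib, ← Finset.mul_sum,
          ← Finset.mul_sum, hC1, hC2, mul_zero, mul_zero, add_zero]

theorem c1_cdot (α : ℝ) (x : R3) :
    (cdot (av α) x).re = x 2 ∧ (cdot (av α) x).im = Real.cos α * x 0 + Real.sin α * x 1 := by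
  unfold cdot av
  rw [Fin.sum_univ_three]
  simp only [Matrix.cons_val_zero, Matrix.cons_val_one, Matrix.cons_val]
  constructor
  · simp
  · simp [-Complex.ofReal_cos, -Complex.ofReal_sin]

theorem c1_pe (α : ℝ) (l : ℕ) (x : R3) :
    pe (c1A α l) x = (cdot (av α) x ^ l).re ∧ pe (c1B α l) x = (cdot (av α) x ^ l).im := by
  have hu : pe c1u x = x 2 := by simp [pe, c1u]
  have hv : pe (c1v α) x = Real.cos α * x 0 + Real.sin α * x 1 := by simp [pe, c1v]
  induction l with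
  | zero =>
    rw [c1A_zero, c1B_zero]
    simp [pe]
  | succ l ih =>
    have hA : pe (c1A α (l + 1)) x = pe (c1A α l) x * pe c1u x - pe (c1B α l) x * pe (c1v α) x := by
      rw [c1A_succ]; simp [pe]
    have hB : pe (c1B α (l + 1)) x = pe (c1A α l) x * pe (c1v α) x + pe (c1B α l) x * pe c1u x := by
      rw [c1B_succ]; simp [pe]
    rw [hA, hB, hu, hv, ih.1, ih.2, pow_succ, Complex.mul_re, Complex.mul_im, (c1_cdot α x).1,
      (c1_cdot α x).2]
    exact ⟨rfl, rfl⟩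

theorem c1_harm (α : ℝ) (l : ℕ) : Harm l (c1A α l) ∧ Harm l (c1B α l) :=
  ⟨⟨(c1AB_hom α l).1, (c1_lap α l).1⟩, ⟨(c1AB_hom α l).2, (c1_lap α l).2⟩⟩

theorem c1_fsite (n : ℕ) (α : ℝ) : fsite n α = vfun n (c1A α (n - 1)) := by
  funext x
  unfold fsite vfun
  rw [(c1_pe α (n - 1) x).1]

theorem c1_gsite (n : ℕ) (α : ℝ) : gsite n α = vfun n (c1B α (n - 1)) := by
  funext x
  unfold gsite vfun
  rw [(c1_pe α (n - 1) x).2]

theorem fsite_InV' (n : ℕ) (α : ℝ) : InV n (fsite n α) :=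
  ⟨c1A α (n - 1), (c1_harm α (n - 1)).1, c1_fsite n α⟩

theorem gsite_InV' (n : ℕ) (α : ℝ) : InV n (gsite n α) :=
  ⟨c1B α (n - 1), (c1_harm α (n - 1)).2, c1_gsite n α⟩

/-! ### sphere averages and continuous linear maps -/

theorem continuous_sp : Continuous (fun p : ℝ × ℝ => sp p.1 p.2) := by
  unfold sp
  refine (PiLp.continuous_toLp 2 _).comp ?_
  refine continuous_pi fun i => ?_
  fin_cases i
  · exact (Real.continuous_sin.comp continuous_fst).mul (Real.continuous_cos.comp continuous_snd)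
  · exact (Real.continuous_sin.comp continuous_fst).mul (Real.continuous_sin.comp continuous_snd)
  · exact Real.continuous_cos.comp continuous_fst

theorem sph_clm {E F : Type} [NormedAddCommGroup E] [NormedSpace ℝ E] [CompleteSpace E]
    [NormedAddCommGroup F] [NormedSpace ℝ F] [CompleteSpace F] (L : E →L[ℝ] F) (f : R3 → E)
    (hf : Continuous f) : sph (fun u => L (f u)) = L (sph f) := by
  unfold sph
  have h0 : Continuous (fun p : ℝ × ℝ => Real.sin p.1 • f (sp p.1 p.2)) :=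
    (Real.continuous_sin.comp continuous_fst).smul (hf.comp continuous_sp)
  have h1 : ∀ θ : ℝ, ∫ φ in (0 : ℝ)..(2 * Real.pi), Real.sin θ • L (f (sp θ φ)) =
      L (∫ φ in (0 : ℝ)..(2 * Real.pi), Real.sin θ • f (sp θ φ)) := by
    intro θ
    rw [← ContinuousLinearMap.intervalIntegral_comp_comm]
    · refine intervalIntegral.integral_congr fun φ _ => ?_
      simp
    · exact (h0.comp (Continuous.prodMk_right θ)).intervalIntegrable _ _
  simp only [h1]
  rw [map_smul]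
  congr 1
  refine ContinuousLinearMap.intervalIntegral_comp_comm L ?_
  exact (intervalIntegral.continuous_parametric_intervalIntegral_of_continuous'
    (f := fun θ φ => Real.sin θ • f (sp θ φ)) h0 0 (2 * Real.pi)).intervalIntegrable _ _

theorem sph_re (f : R3 → ℂ) (hf : Continuous f) : sph (fun u => (f u).re) = (sph f).re :=
  sph_clm Complex.reCLM f hf

theorem sph_im (f : R3 → ℂ) (hf : Continuous f) : sph (fun u => (f u).im) = (sph f).im :=
  sph_clm Complex.imCLM f hf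

theorem continuous_pe' (P : Poly3) : Continuous (pe P) := by
  unfold pe
  exact (MvPolynomial.continuous_eval P).comp (continuous_pi fun i => by fun_prop)

theorem continuous_cdot' (c : C3) : Continuous (cdot c) := by
  unfold cdot
  exact continuous_finsetSum _ fun k _ => continuous_const.mul
    (Complex.continuous_ofReal.comp (by fun_prop))

/-! ### the top device -/

theorem c1_null (α : ℝ) : cc (av α) (av α) = 0 := by
  simp only [cc, av, Fin.sum_univ_three, Matrix.cons_val_zero, Matrix.cons_val_one,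
    Matrix.cons_val]
  have h : (Real.cos α : ℂ) ^ 2 + (Real.sin α : ℂ) ^ 2 = 1 := by
    exact_mod_cast congrArg ((↑) : ℝ → ℂ) (Real.cos_sq_add_sin_sq α)
  linear_combination (-1 : ℂ) * h + ((Real.cos α : ℂ) ^ 2 + (Real.sin α : ℂ) ^ 2) *
    Complex.I_sq

theorem c1_pc_mul (P P' : Poly3) (c : C3) : pc (P * P') c = pc P c * pc P' c := by
  unfold pc; simp

theorem c1_ov_f (n : ℕ) (hn : 1 ≤ n) (α : ℝ) {P : Poly3} (hP : Harm (n - 1) P) :
    ov (vfun n P) (fsite n α) = 4 * Real.pi * I0 n * (Am (n - 1) * (pc P (av α)).re) ∧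
    ov (vfun n P) (gsite n α) = 4 * Real.pi * I0 n * (Am (n - 1) * (pc P (av α)).im) := by
  have hcont : Continuous (fun u : R3 => cdot (av α) u ^ (n - 1) * (pe P u : ℂ)) :=
    ((continuous_cdot' _).pow _).mul (Complex.continuous_ofReal.comp (continuous_pe' P))
  have hE := sph_eval (av α) (c1_null α) (n - 1) P hP.1
  constructor
  · rw [c1_fsite, vfun_ov n hn hP (c1_harm α (n - 1)).1]
    congr 1
    have h1 : sph (fun u => pe P u * pe (c1A α (n - 1)) u) =
        sph (fun u => (cdot (av α) u ^ (n - 1) * (pe P u : ℂ)).re) := by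
      refine sph_congr fun u _ => ?_
      rw [(c1_pe α (n - 1) u).1, Complex.mul_re, Complex.ofReal_re, Complex.ofReal_im]
      ring
    rw [h1, sph_re _ hcont, hE, Complex.mul_re, Complex.ofReal_re, Complex.ofReal_im]
    ring
  · rw [c1_gsite, vfun_ov n hn hP (c1_harm α (n - 1)).2]
    congr 1
    have h1 : sph (fun u => pe P u * pe (c1B α (n - 1)) u) =
        sph (fun u => (cdot (av α) u ^ (n - 1) * (pe P u : ℂ)).im) := by
      refine sph_congr fun u _ => ?_
      rw [(c1_pe α (n - 1) u).2, Complex.mul_im, Complex.ofReal_re, Complex.ofReal_im]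
      ring
    rw [h1, sph_im _ hcont, hE, Complex.mul_im, Complex.ofReal_re, Complex.ofReal_im]
    ring

theorem c1_nf (n : ℕ) (hn : 1 ≤ n) :
    nf n = 2 * Real.pi * 2 ^ (n - 1) * I0 n * Am (n - 1) := by
  obtain ⟨m, rfl⟩ : ∃ m, n = m + 1 := ⟨n - 1, by omega⟩
  rw [I0_eq (m + 1) hn]
  unfold nf Am
  have e1 : m + 1 - 1 = m := by omega
  rw [e1]
  have h1 : ((2 * (m + 1)).factorial : ℝ) = (2 * m + 2) * ((2 * m + 1).factorial : ℝ) := by
    have : 2 * (m + 1) = (2 * m + 1) + 1 := by ring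
    rw [this, Nat.factorial_succ]
    push_cast
    ring
  rw [h1]
  have h2 : ((2 * m + 1).factorial : ℝ) ≠ 0 := by positivity
  have h3 : (((m + 1 : ℕ) : ℝ) / 2) ^ (2 * (m + 1) + 1) =
      ((m + 1 : ℕ) : ℝ) ^ (2 * (m + 1) + 1) / (2 ^ m * 2 ^ m * 8) := by
    rw [div_pow]
    congr 1
    rw [← pow_add]
    have : (8 : ℝ) = 2 ^ 3 := by norm_num
    rw [this, ← pow_add]
    congr 1
    ring
  rw [h3]
  field_simp
  push_cast
  ring

/-- the top multipole is a rank two form on the top subspace -/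
theorem top_rank_two' (n : ℕ) (hn : 2 ≤ n) (α : ℝ) {P P' : Poly3} (hP : Harm (n - 1) P)
    (hP' : Harm (n - 1) P') :
    4 * Real.pi * I0 n *
        sph (fun u => (cdot (av α) u ^ (2 * (n - 1))).re * (pe P u * pe P' u)) =
      gam n / nf n * (ov (vfun n P) (fsite n α) * ov (vfun n P') (fsite n α) -
        ov (vfun n P) (gsite n α) * ov (vfun n P') (gsite n α)) := by
  have hn1 : 1 ≤ n := by omega
  have hcont : Continuous (fun u : R3 => cdot (av α) u ^ (2 * (n - 1)) * (pe (P * P') u : ℂ)) :=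
    ((continuous_cdot' _).pow _).mul (Complex.continuous_ofReal.comp (continuous_pe' _))
  have hE := sph_eval (av α) (c1_null α) (2 * (n - 1)) (P * P')
    (by rw [two_mul]; exact hP.1.mul hP'.1)
  have h1 : sph (fun u => (cdot (av α) u ^ (2 * (n - 1))).re * (pe P u * pe P' u)) =
      sph (fun u => (cdot (av α) u ^ (2 * (n - 1)) * (pe (P * P') u : ℂ)).re) := by
    refine sph_congr fun u _ => ?_
    rw [Complex.mul_re, Complex.ofReal_re, Complex.ofReal_im]
    have : pe (P * P') u = pe P u * pe P' u := by simp [pe]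
    rw [this]
    ring
  rw [h1, sph_re _ hcont, hE, (c1_ov_f n hn1 α hP).1, (c1_ov_f n hn1 α hP).2,
    (c1_ov_f n hn1 α hP').1, (c1_ov_f n hn1 α hP').2, c1_pc_mul, Complex.mul_re,
    Complex.ofReal_re, Complex.ofReal_im, Complex.mul_re]
  rw [c1_nf n hn1]
  unfold gam
  have hA : Am (n - 1) ≠ 0 := by unfold Am; positivity
  have hI : I0 n ≠ 0 := by
    rw [I0_eq n hn1]
    have : (0 : ℝ) < n := by exact_mod_cast hn1
    positivity
  have hpi := Real.pi_ne_zero
  have h2 : (2 : ℝ) ^ (n - 1) ≠ 0 := by positivity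
  field_simp
  ring

/-! ### contraction -/

theorem c1_norm_cdot_le (γ : ℝ) (u : R3) (hu : ‖u‖ = 1) : ‖cdot (av γ) u‖ ≤ 1 := by
  have h0 : ‖u‖ ^ 2 = u 0 ^ 2 + u 1 ^ 2 + u 2 ^ 2 := by
    rw [EuclideanSpace.norm_sq_eq, Fin.sum_univ_three]
    simp
  rw [hu] at h0
  have h1 : ‖cdot (av γ) u‖ ^ 2 ≤ 1 := by
    rw [← Complex.normSq_eq_norm_sq, Complex.normSq_apply, (c1_cdot γ u).1, (c1_cdot γ u).2]
    have := Real.sin_sq_add_cos_sq γ
    have h2 : (Real.cos γ * u 0 + Real.sin γ * u 1) ^ 2 +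
        (Real.sin γ * u 0 - Real.cos γ * u 1) ^ 2 = u 0 ^ 2 + u 1 ^ 2 := by
      linear_combination (u 0 ^ 2 + u 1 ^ 2) * this
    linarith only [h0, h2, sq_nonneg (Real.sin γ * u 0 - Real.cos γ * u 1)]
  nlinarith only [h1]

/-- devices are contractions on the top subspace -/
theorem dev_contr' (n q : ℕ) (hn : 2 ≤ n) (γ : ℝ) {P P' : Poly3} (hP : Harm (n - 1) P)
    (hP' : Harm (n - 1) P') :
    |4 * Real.pi * I0 n * sph (fun u => (cdot (av γ) u ^ (2 * q)).re * (pe P u * pe P' u))| ≤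
      Real.sqrt (ov (vfun n P) (vfun n P) * ov (vfun n P') (vfun n P')) := by
  have hn1 : 1 ≤ n := by omega
  rw [vfun_ov n hn1 hP hP, vfun_ov n hn1 hP' hP']
  set w : R3 → ℝ := fun u => (cdot (av γ) u ^ (2 * q)).re with hw
  set a := sph (fun u => pe P u * pe P u) with ha
  set b := sph (fun u => pe P' u * pe P' u) with hb
  set c := sph (fun u => w u * (pe P u * pe P' u)) with hc
  have hI : 0 < I0 n := by
    rw [I0_eq n hn1]
    have : (0 : ℝ) < n := by exact_mod_cast hn1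
    positivity
  have hw1 : ∀ u, ‖u‖ = 1 → |w u| ≤ 1 := by
    intro u hu
    refine (Complex.abs_re_le_norm _).trans ?_
    rw [norm_pow]
    exact pow_le_one₀ (norm_nonneg _) (c1_norm_cdot_le γ u hu)
  have hcP := continuous_pe' P
  have hcP' := continuous_pe' P'
  have hcw : Continuous w := Complex.continuous_re.comp ((continuous_cdot' _).pow _)
  have key : ∀ t : ℝ, 0 ≤ a * (t * t) + (-2 * c) * t + b := by
    intro t
    have h1 : sph (fun u => (2 * t) • (w u * (pe P u * pe P' u))) ≤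
        sph (fun u => (t * t) • (pe P u * pe P u) + pe P' u * pe P' u) := by
      refine sph_mono (by fun_prop) (by fun_prop) fun u hu => ?_
      have h2 := abs_le.1 (hw1 u hu)
      simp only [smul_eq_mul]
      have h3 : w u * w u ≤ 1 := by linarith only [mul_nonneg_of_nonpos_of_nonpos (Mathlib.Tactic.Linarith.sub_nonpos_of_le h2.left) (Mathlib.Tactic.Linarith.sub_nonpos_of_le h2.right)]
      linarith only [sq_nonneg (t * pe P u - w u * pe P' u), mul_nonneg (sub_nonneg.2 h3) (mul_self_nonneg (pe P' u))]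
    rw [sph_smul, sph_add (by fun_prop) (by fun_prop), sph_smul] at h1
    simp only [smul_eq_mul] at h1
    linarith
  have hd := discrim_le_zero key
  unfold discrim at hd
  have hc2 : c ^ 2 ≤ a * b := by linarith only [hd]
  have hab : 0 ≤ 4 * Real.pi * I0 n := by positivity
  rw [show 4 * Real.pi * I0 n * a * (4 * Real.pi * I0 n * b) =
    (4 * Real.pi * I0 n) ^ 2 * (a * b) by ring, Real.sqrt_mul (by positivity),
    Real.sqrt_sq hab, abs_mul, abs_of_nonneg hab]
  exact mul_le_mul_of_nonneg_left (Real.abs_le_sqrt hc2) hab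

end Vale.Agent.P370.Q
end

section

/-! Rotations acting on the eigenspaces. -/

namespace Vale.Agent.P370.Hyd

open MeasureTheory Filter Topology MvPolynomial

/-- matrix of a linear isometry -/
noncomputable def rmat (g : R3 ≃ₗᵢ[ℝ] R3) : Matrix (Fin 3) (Fin 3) ℝ := fun i j => g (ei j) i

theorem vec_sum (x : R3) : x = ∑ j, x j • ei j := by
  ext j
  rw [WithLp.ofLp_sum, Finset.sum_apply, Finset.sum_eq_single j]
  · rw [PiLp.smul_apply, ei_apply, if_pos rfl, smul_eq_mul, mul_one]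
  · intro b _ hb
    rw [PiLp.smul_apply, ei_apply, if_neg hb.symm, smul_zero]
  · intro h
    exact absurd (Finset.mem_univ j) h

theorem rmat_apply (g : R3 ≃ₗᵢ[ℝ] R3) (x : R3) (i : Fin 3) : g x i = ∑ j, rmat g i j * x j := by
  conv_lhs => rw [vec_sum x]
  rw [map_sum, WithLp.ofLp_sum, Finset.sum_apply]
  refine Finset.sum_congr rfl fun j _ => ?_
  rw [map_smul, PiLp.smul_apply, smul_eq_mul, mul_comm]
  rfl

theorem inner_eq (x y : R3) : inner ℝ x y = ∑ i, x i * y i := by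
  rw [PiLp.inner_apply]
  refine Finset.sum_congr rfl fun i _ => ?_
  simp [mul_comm]

theorem rmat_col (g : R3 ≃ₗᵢ[ℝ] R3) (j k : Fin 3) :
    ∑ i, rmat g i j * rmat g i k = if j = k then 1 else 0 := by
  have h := g.inner_map_map (ei j) (ei k)
  rw [inner_eq, inner_eq] at h
  have h2 : ∑ i, (ei j) i * (ei k) i = if j = k then (1 : ℝ) else 0 := by
    simp only [ei_apply]
    by_cases hjk : j = k
    · subst hjk
      simp
    · rw [if_neg hjk]
      refine Finset.sum_eq_zero fun i _ => ?_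
      by_cases hi : i = j
      · subst hi
        rw [if_neg hjk, mul_zero]
      · rw [if_neg hi, zero_mul]
  rw [h2] at h
  exact h

theorem rmat_row (g : R3 ≃ₗᵢ[ℝ] R3) (j k : Fin 3) :
    ∑ i, rmat g j i * rmat g k i = if j = k then 1 else 0 := by
  have h1 : (rmat g).transpose * rmat g = 1 := by
    ext j k
    rw [Matrix.mul_apply, Matrix.one_apply]
    simp only [Matrix.transpose_apply]
    exact rmat_col g j k
  have h2 : rmat g * (rmat g).transpose = 1 := mul_eq_one_comm.1 h1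
  have h3 := congrFun (congrFun h2 j) k
  rw [Matrix.mul_apply, Matrix.one_apply] at h3
  exact h3

/-- the linear forms -/
noncomputable def rlin (g : R3 ≃ₗᵢ[ℝ] R3) (i : Fin 3) : Pl := ∑ j, C (rmat g i j) * X j

/-- substitution -/
noncomputable def rsub (g : R3 ≃ₗᵢ[ℝ] R3) : Pl →ₐ[ℝ] Pl := aeval (rlin g)

theorem rsub_X (g : R3 ≃ₗᵢ[ℝ] R3) (i : Fin 3) : rsub g (X i) = rlin g i := by
  unfold rsub
  rw [aeval_X]

theorem rsub_C (g : R3 ≃ₗᵢ[ℝ] R3) (a : ℝ) : rsub g (C a) = C a := by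
  unfold rsub
  rw [aeval_C]
  rfl

theorem ev_rsub (g : R3 ≃ₗᵢ[ℝ] R3) (P : Pl) (x : R3) : ev (rsub g P) x = ev P (g x) := by
  induction P using MvPolynomial.induction_on with
  | C a => rw [rsub_C, ev_C, ev_C]
  | add P Q hP hQ => rw [map_add, ev_add, ev_add, hP, hQ]
  | mul_X P i hP =>
    rw [map_mul, ev_mul, ev_mul, hP, rsub_X, ev_X, rmat_apply]
    congr 1
    unfold rlin ev
    simp

theorem pderiv_rsub (g : R3 ≃ₗᵢ[ℝ] R3) (i : Fin 3) (P : Pl) :
    pderiv i (rsub g P) = ∑ k, C (rmat g k i) * rsub g (pderiv k P) := by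
  induction P using MvPolynomial.induction_on with
  | C a =>
    rw [rsub_C]
    simp
  | add P Q hP hQ =>
    rw [map_add, map_add, hP, hQ, ← Finset.sum_add_distrib]
    refine Finset.sum_congr rfl fun k _ => ?_
    rw [map_add, map_add, mul_add]
  | mul_X P j hP =>
    have h1 : pderiv i (rlin g j) = C (rmat g j i) := by
      unfold rlin
      rw [map_sum, Finset.sum_eq_single i]
      · rw [Derivation.leibniz, pderiv_X_self, pderiv_C]
        simp
      · intro b _ hb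
        rw [Derivation.leibniz, pderiv_X_of_ne hb, pderiv_C]
        simp
      · intro h
        exact absurd (Finset.mem_univ i) h
    rw [map_mul, Derivation.leibniz, hP, rsub_X, h1]
    have h2 : ∀ k, C (rmat g k i) * rsub g (pderiv k (P * X j))
        = rlin g j * (C (rmat g k i) * rsub g (pderiv k P))
          + (if k = j then rsub g P * C (rmat g j i) else 0) := by
      intro k
      rw [Derivation.leibniz, map_add, smul_eq_mul, smul_eq_mul, map_mul, map_mul, rsub_X]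
      by_cases hk : k = j
      · subst hk
        rw [if_pos rfl, pderiv_X_self, map_one]
        ring
      · rw [if_neg hk, pderiv_X_of_ne (fun h => hk h.symm), map_zero]
        ring
    rw [Finset.sum_congr rfl fun k _ => h2 k, Finset.sum_add_distrib, ← Finset.mul_sum,
      Finset.sum_ite_eq', if_pos (Finset.mem_univ j), smul_eq_mul, smul_eq_mul]
    ring

theorem lapP_rsub (g : R3 ≃ₗᵢ[ℝ] R3) (P : Pl) : lapP (rsub g P) = rsub g (lapP P) := by
  have h1 : ∀ i, pderiv i (pderiv i (rsub g P))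
      = ∑ k, ∑ m, C (rmat g k i * rmat g m i) * rsub g (pderiv m (pderiv k P)) := by
    intro i
    rw [pderiv_rsub, map_sum]
    refine Finset.sum_congr rfl fun k _ => ?_
    rw [Derivation.leibniz, pderiv_C, pderiv_rsub, smul_eq_mul, smul_zero, add_zero,
      Finset.mul_sum]
    refine Finset.sum_congr rfl fun m _ => ?_
    rw [C_mul, mul_assoc]
  unfold lapP
  rw [Finset.sum_congr rfl fun i _ => h1 i, Finset.sum_comm, map_sum]
  refine Finset.sum_congr rfl fun k _ => ?_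
  rw [Finset.sum_comm]
  rw [Finset.sum_eq_single k]
  · rw [← Finset.sum_mul, ← map_sum, rmat_row, if_pos rfl, C_1, one_mul]
  · intro m _ hm
    rw [← Finset.sum_mul, ← map_sum, rmat_row, if_neg hm.symm, C_0, zero_mul]
  · intro h
    exact absurd (Finset.mem_univ k) h

theorem eul_rsub (g : R3 ≃ₗᵢ[ℝ] R3) (P : Pl) : eul (rsub g P) = rsub g (eul P) := by
  unfold eul
  rw [map_sum]
  have h1 : ∀ i, X i * pderiv i (rsub g P)
      = ∑ k, (C (rmat g k i) * X i) * rsub g (pderiv k P) := by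
    intro i
    rw [pderiv_rsub, Finset.mul_sum]
    exact Finset.sum_congr rfl fun k _ => by ring
  rw [Finset.sum_congr rfl fun i _ => h1 i, Finset.sum_comm]
  refine Finset.sum_congr rfl fun k _ => ?_
  rw [← Finset.sum_mul, map_mul, rsub_X]
  rfl

theorem rsub_nsq (g : R3 ≃ₗᵢ[ℝ] R3) : rsub g nsq = nsq := by
  rw [← sub_eq_zero]
  by_contra hcon
  obtain ⟨x, hx⟩ := ev_ne_zero hcon
  apply hx
  have h1 : ev (rsub g nsq - nsq) x = ev (rsub g nsq) x - ev nsq x := by simp [ev]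
  rw [h1, ev_rsub, ev_nsq, ev_nsq, g.norm_map, sub_self]

theorem rsub_mem_lt (g : R3 ≃ₗᵢ[ℝ] R3) {N : ℕ} {P : Pl} (hP : P ∈ lt N) : rsub g P ∈ lt N := by
  refine lt_induction (S := lt N) (rsub g).toLinearMap (fun d c hd => ?_) hP
  show rsub g (monomial d c) ∈ lt N
  have h1 : (rsub g (monomial d c)).IsHomogeneous (1 * d.degree) :=
    (isHomogeneous_monomial (σ := Fin 3) c (n := d.degree) rfl).aeval (rlin g) fun i => by
      unfold rlin
      refine IsHomogeneous.sum _ _ _ fun j _ => ?_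
      have := (isHomogeneous_C (Fin 3) (rmat g i j)).mul (isHomogeneous_X ℝ j)
      rwa [zero_add] at this
  refine isHomogeneous_mem_lt h1 ?_
  omega

/-- action on pairs -/
noncomputable def rpair (g : R3 ≃ₗᵢ[ℝ] R3) (z : Pl × Pl) : Pl × Pl := (rsub g z.1, rsub g z.2)

theorem rpair_mem_Eig (g : R3 ≃ₗᵢ[ℝ] R3) {n : ℕ} {z : Pl × Pl} (hz : z ∈ Eig n) :
    rpair g z ∈ Eig n := by
  rw [mem_Eig] at hz ⊢
  obtain ⟨⟨h1, h2⟩, h3⟩ := hz
  refine ⟨⟨rsub_mem_lt g h1, rsub_mem_lt g h2⟩, ?_⟩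
  rw [TL_apply] at h3 ⊢
  have e1 : TP (1 / (n : ℝ)) z.1 z.2 = z.1 := congrArg Prod.fst h3
  have e2 : TQ (1 / (n : ℝ)) z.1 z.2 = z.2 := congrArg Prod.snd h3
  refine Prod.ext ?_ ?_
  · show TP (1 / (n : ℝ)) (rsub g z.1) (rsub g z.2) = rsub g z.1
    conv_rhs => rw [← e1]
    unfold TP
    rw [eul_rsub, eul_rsub, lapP_rsub]
    simp only [map_sub, map_mul, map_add, rsub_C, rsub_nsq]
  · show TQ (1 / (n : ℝ)) (rsub g z.1) (rsub g z.2) = rsub g z.2
    conv_rhs => rw [← e2]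
    unfold TQ
    rw [eul_rsub, lapP_rsub]
    simp only [map_sub, map_mul, map_add, rsub_C]

theorem xp_rpair (g : R3 ≃ₗᵢ[ℝ] R3) (κ : ℝ) (z : Pl × Pl) (x : R3) :
    xp κ (rpair g z).1 (rpair g z).2 x = xp κ z.1 z.2 (g x) := by
  unfold xp rpair
  simp only
  rw [ev_rsub, ev_rsub, g.norm_map]

end Vale.Agent.P370.Hyd
end

section

/-!
Rotation invariance of the closed shells.
-/

namespace Vale.Agent.P370.Q

open MeasureTheory Finset ComplexConjugate Hyd

theorem IsShell.one_le {n : ℕ} {φ : R3 → ℝ} (hφ : IsShell n φ) : 1 ≤ n := by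
  obtain ⟨P, Q, h, -⟩ := hφ
  have := h.1
  omega

theorem IsShell.comp_isometry {n : ℕ} {φ : R3 → ℝ} (hφ : IsShell n φ) (g : R3 ≃ₗᵢ[ℝ] R3) :
    IsShell n (fun x => φ (g x)) := by
  have hn := hφ.one_le
  obtain ⟨z, hz, rfl⟩ := (isShell_iff hn).1 hφ
  refine (isShell_iff hn).2 ⟨rpair g z, rpair_mem_Eig g hz, ?_⟩
  funext x
  exact (xp_rpair g _ z x).symm

theorem integral_comp_isometry (g : R3 ≃ₗᵢ[ℝ] R3) (F : R3 → ℝ) :
    ∫ x, F (g x) = ∫ x, F x :=
  g.measurePreserving.integral_comp g.toHomeomorph.measurableEmbedding F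

theorem ov_comp_isometry (g : R3 ≃ₗᵢ[ℝ] R3) (f h : R3 → ℝ) :
    ov (fun x => f (g x)) (fun x => h (g x)) = ov f h :=
  integral_comp_isometry g fun x => f x * h x

theorem m1_ov_comm (f h : R3 → ℝ) : ov f h = ov h f := by
  unfold ov
  simp only [mul_comm]

theorem m1_ov_sum_left {ι : Type*} (s : Finset ι) (a : ι → ℝ) {f : ι → R3 → ℝ}
    (hf : ∀ i ∈ s, Nice (f i)) {h : R3 → ℝ} (hh : Nice h) :
    ov (fun x => ∑ i ∈ s, a i * f i x) h = ∑ i ∈ s, a i * ov (f i) h := by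
  unfold ov
  rw [show (fun x => (∑ i ∈ s, a i * f i x) * h x) = fun x => ∑ i ∈ s, a i * (f i x * h x) by
    funext x
    rw [Finset.sum_mul]
    exact Finset.sum_congr rfl fun i _ => mul_assoc _ _ _]
  rw [integral_finsetSum _ fun i hi => ((nice_integrable_rinv (hf i hi) hh).2).const_mul (a i)]
  exact Finset.sum_congr rfl fun i _ => integral_const_mul _ _

/-- the kernel of the closed shells is rotation invariant -/
theorem closed_kernel {n : ℕ} {C O : Type} [Fintype C] [DecidableEq C] [Fintype O]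
    [DecidableEq O] (B : ShellBasis n (C ⊕ O)) (hC : ∀ c, B.lev (Sum.inl c) < n)
    (hO : ∀ o, B.lev (Sum.inr o) = n) (g : R3 ≃ₗᵢ[ℝ] R3) (x y : R3) :
    ∑ c : C, B.χ (Sum.inl c) (g x) * B.χ (Sum.inl c) (g y) =
      ∑ c : C, B.χ (Sum.inl c) x * B.χ (Sum.inl c) y := by
  -- notation
  obtain ⟨χ, hχ⟩ : ∃ χ : C → R3 → ℝ, ∀ c, χ c = B.χ (Sum.inl c) := ⟨_, fun _ => rfl⟩
  have hχS : ∀ c, IsShell (B.lev (Sum.inl c)) (χ c) := fun c => by
    rw [hχ]
    exact B.mem _
  have hnice : ∀ c, Nice (χ c) := fun c => (hχS c).nice (B.lev_pos _)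
  have hort : ∀ c d, ov (χ c) (χ d) = if c = d then 1 else 0 := by
    intro c d
    rw [hχ, hχ, B.ortho]
    by_cases h : c = d
    · subst h
      rw [if_pos rfl, if_pos rfl]
    · rw [if_neg h, if_neg]
      intro h'
      exact h (Sum.inl_injective h')
  -- expansion of the rotated functions
  obtain ⟨u, hu⟩ : ∃ u : C → C → ℝ, ∀ c d, u c d = ov (χ d) (fun x => χ c (g x)) :=
    ⟨_, fun _ _ => rfl⟩
  let U : Matrix C C ℝ := Matrix.of u
  have hexp : ∀ c, (fun x => χ c (g x)) = fun x => ∑ d, u c d * χ d x := by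
    intro c
    have h1 := shell_expand (B.lev_pos (Sum.inl c) |>.trans (hC c).le) B (B.lev_pos (Sum.inl c))
      (hC c).le ((hχS c).comp_isometry g)
    rw [h1]
    funext x
    rw [Fintype.sum_sum_type]
    have h2 : ∑ o : O, (if B.lev (Sum.inr o) = B.lev (Sum.inl c) then
        ov (B.χ (Sum.inr o)) (fun x => χ c (g x)) else 0) * B.χ (Sum.inr o) x = 0 := by
      refine Finset.sum_eq_zero fun o _ => ?_
      rw [if_neg, zero_mul]
      rw [hO o]
      exact (hC c).ne'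
    rw [h2, add_zero]
    refine Finset.sum_congr rfl fun d _ => ?_
    rw [hu, ← hχ d]
    by_cases hd : B.lev (Sum.inl d) = B.lev (Sum.inl c)
    · rw [if_pos hd]
    · rw [if_neg hd, shell_ortho (B.lev_pos _) (B.lev_pos _) hd (hχS d)
        ((hχS c).comp_isometry g)]
  have hUU : U * U.transpose = 1 := by
    ext c d
    rw [Matrix.mul_apply, Matrix.one_apply]
    have h1 : ov (fun x => χ c (g x)) (fun x => χ d (g x)) = if c = d then 1 else 0 := by
      rw [ov_comp_isometry, hort]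
    rw [← h1]
    conv_rhs => rw [hexp c]
    rw [m1_ov_sum_left _ _ (fun i _ => hnice i)
      (((hχS d).comp_isometry g).nice (B.lev_pos _))]
    refine Finset.sum_congr rfl fun e _ => ?_
    rw [← hu]
    rfl
  have hUU' : U.transpose * U = 1 := mul_eq_one_comm.1 hUU
  have hcol : ∀ d e, ∑ c, u c d * u c e = if d = e then 1 else 0 := by
    intro d e
    have := congrFun (congrFun hUU' d) e
    rw [Matrix.mul_apply, Matrix.one_apply] at this
    exact this
  simp only [← hχ]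
  have h3 : ∀ c, χ c (g x) * χ c (g y) = ∑ d, ∑ e, (u c d * u c e) * (χ d x * χ e y) := by
    intro c
    have h4 : χ c (g x) = ∑ d, u c d * χ d x := congrFun (hexp c) x
    have h5 : χ c (g y) = ∑ d, u c d * χ d y := congrFun (hexp c) y
    rw [h4, h5, Finset.sum_mul_sum]
    exact Finset.sum_congr rfl fun d _ => Finset.sum_congr rfl fun e _ => by ring
  rw [Finset.sum_congr rfl fun c _ => h3 c, Finset.sum_comm]
  refine Finset.sum_congr rfl fun d _ => ?_
  rw [Finset.sum_comm, Finset.sum_eq_single d]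
  · rw [← Finset.sum_mul, hcol, if_pos rfl, one_mul]
  · intro e _ he
    rw [← Finset.sum_mul, hcol, if_neg he.symm, zero_mul]
  · intro h
    exact absurd (Finset.mem_univ d) h

theorem integrable_gm {f h : R3 → ℝ} (hf : Nice f) (hh : Nice h) (y : R3) :
    Integrable fun x => f x * h x * (1 / ‖x‖ - 1 / dist x y) := by
  have h1 := (nice_integrable_rinv hf hh).1
  have h2 := nice_integrable_nuc hf hh y
  refine (h1.sub h2).congr (Filter.Eventually.of_forall fun x => ?_)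
  simp only [Pi.sub_apply]
  ring

/-- the one-body trace of the closed shells only depends on the distance from the origin -/
theorem closed_gm {n : ℕ} {C O : Type} [Fintype C] [DecidableEq C] [Fintype O]
    [DecidableEq O] (B : ShellBasis n (C ⊕ O)) (hC : ∀ c, B.lev (Sum.inl c) < n)
    (hO : ∀ o, B.lev (Sum.inr o) = n) (y y' : R3) (hy : ‖y‖ = ‖y'‖) :
    ∑ c : C, gm y (B.χ (Sum.inl c)) (B.χ (Sum.inl c)) =
      ∑ c : C, gm y' (B.χ (Sum.inl c)) (B.χ (Sum.inl c)) := by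
  have hnice : ∀ c, Nice (B.χ (Sum.inl c)) := fun c => (B.mem _).nice (B.lev_pos _)
  obtain ⟨g, hg⟩ : ∃ g : R3 ≃ₗᵢ[ℝ] R3, g y' = y :=
    ⟨_, Submodule.reflection_sub (v := y') (w := y) hy.symm⟩
  have hsum : ∀ w : R3, ∑ c : C, gm w (B.χ (Sum.inl c)) (B.χ (Sum.inl c))
      = ∫ x, (∑ c : C, B.χ (Sum.inl c) x * B.χ (Sum.inl c) x) * (1 / ‖x‖ - 1 / dist x w) := by
    intro w
    unfold gm
    rw [← integral_finsetSum _ fun c _ => integrable_gm (hnice c) (hnice c) w]
    refine integral_congr_ae (Filter.Eventually.of_forall fun x => ?_)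
    simp only
    rw [Finset.sum_mul]
  rw [hsum, hsum, ← integral_comp_isometry g]
  refine integral_congr_ae (Filter.Eventually.of_forall fun x => ?_)
  simp only
  rw [closed_kernel B hC hO g x x, g.norm_map, ← hg, g.dist_map]

end Vale.Agent.P370.Q
end

section

/-!
Auxiliary results for `Mean2`: isometries, finite Fourier sums, invariance of the mean field.
-/

namespace Vale.Agent.P370.Q

open MeasureTheory Finset ComplexConjugate

/-! ### isometries of space -/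

theorem mean2_norm_sq (x : R3) : ‖x‖ ^ 2 = x 0 ^ 2 + x 1 ^ 2 + x 2 ^ 2 := by
  rw [EuclideanSpace.norm_sq_eq, Fin.sum_univ_three]
  simp only [Real.norm_eq_abs, sq_abs]

/-- linear map given by a matrix -/
noncomputable def m2lin (A : Fin 3 → Fin 3 → ℝ) : R3 →ₗ[ℝ] R3 where
  toFun x := WithLp.toLp 2 fun i => ∑ j, A i j * x j
  map_add' x y := by
    ext i
    simp only [PiLp.add_apply, mul_add, Finset.sum_add_distrib]
  map_smul' c x := by
    ext i
    simp only [PiLp.smul_apply, smul_eq_mul, RingHom.id_apply, Finset.mul_sum]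
    exact Finset.sum_congr rfl fun j _ => by ring

theorem m2lin_apply (A : Fin 3 → Fin 3 → ℝ) (x : R3) (i : Fin 3) :
    m2lin A x i = A i 0 * x 0 + A i 1 * x 1 + A i 2 * x 2 := by
  show ∑ j, A i j * x j = _
  rw [Fin.sum_univ_three]

/-- a norm preserving linear map is an isometry -/
noncomputable def m2iso (A : Fin 3 → Fin 3 → ℝ) (h : ∀ x : R3, ‖m2lin A x‖ ^ 2 = ‖x‖ ^ 2) :
    R3 ≃ₗᵢ[ℝ] R3 :=
  LinearIsometry.toLinearIsometryEquiv
    ⟨m2lin A, fun x => by
      have h1 := h x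
      exact (sq_eq_sq₀ (norm_nonneg _) (norm_nonneg _)).1 h1⟩ rfl

theorem m2iso_apply (A : Fin 3 → Fin 3 → ℝ) (h : ∀ x : R3, ‖m2lin A x‖ ^ 2 = ‖x‖ ^ 2) (x : R3)
    (i : Fin 3) : m2iso A h x i = A i 0 * x 0 + A i 1 * x 1 + A i 2 * x 2 :=
  m2lin_apply A x i

/-- matrix of the rotation about `nuv α` by `θ` -/
noncomputable def rotA (α θ : ℝ) : Fin 3 → Fin 3 → ℝ :=
  ![![Real.cos α ^ 2 * Real.cos θ + Real.sin α ^ 2,
      Real.cos α * Real.sin α * Real.cos θ - Real.sin α * Real.cos α,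
      Real.cos α * Real.sin θ],
    ![Real.sin α * Real.cos α * Real.cos θ - Real.cos α * Real.sin α,
      Real.sin α ^ 2 * Real.cos θ + Real.cos α ^ 2,
      Real.sin α * Real.sin θ],
    ![-(Real.sin θ * Real.cos α), -(Real.sin θ * Real.sin α), Real.cos θ]]

theorem rotA_norm (α θ : ℝ) (x : R3) : ‖m2lin (rotA α θ) x‖ ^ 2 = ‖x‖ ^ 2 := by
  rw [mean2_norm_sq, mean2_norm_sq, m2lin_apply, m2lin_apply, m2lin_apply]
  simp only [rotA, Matrix.cons_val_zero, Matrix.cons_val_one, Matrix.cons_val]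
  have h1 := Real.sin_sq_add_cos_sq α
  have h2 := Real.sin_sq_add_cos_sq θ
  set s := Real.sin α
  set c := Real.cos α
  set S := Real.sin θ
  set C := Real.cos θ
  -- components along the frame
  have e0 : (c ^ 2 * C + s ^ 2) * x 0 + (c * s * C - s * c) * x 1 + c * S * x 2 =
      c * (S * x 2 + C * (c * x 0 + s * x 1)) - s * (-s * x 0 + c * x 1) := by ring
  have e1 : (s * c * C - c * s) * x 0 + (s ^ 2 * C + c ^ 2) * x 1 + s * S * x 2 =
      s * (S * x 2 + C * (c * x 0 + s * x 1)) + c * (-s * x 0 + c * x 1) := by ring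
  have e2 : -(S * c) * x 0 + -(S * s) * x 1 + C * x 2 = C * x 2 - S * (c * x 0 + s * x 1) := by
    ring
  rw [e0, e1, e2]
  linear_combination ((S * x 2 + C * (c * x 0 + s * x 1)) ^ 2 + (-s * x 0 + c * x 1) ^ 2 +
    x 0 ^ 2 + x 1 ^ 2) * h1 + (x 2 ^ 2 + (c * x 0 + s * x 1) ^ 2) * h2

/-- the rotation about `nuv α` by `θ` -/
noncomputable def rotR (α θ : ℝ) : R3 ≃ₗᵢ[ℝ] R3 := m2iso (rotA α θ) (rotA_norm α θ)

/-- matrix of the rotation about the third axis -/
noncomputable def zrotA (α : ℝ) : Fin 3 → Fin 3 → ℝ :=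
  ![![Real.cos α, Real.sin α, 0], ![-Real.sin α, Real.cos α, 0], ![0, 0, 1]]

theorem zrotA_norm (α : ℝ) (x : R3) : ‖m2lin (zrotA α) x‖ ^ 2 = ‖x‖ ^ 2 := by
  rw [mean2_norm_sq, mean2_norm_sq, m2lin_apply, m2lin_apply, m2lin_apply]
  simp only [zrotA, Matrix.cons_val_zero, Matrix.cons_val_one, Matrix.cons_val]
  have h1 := Real.sin_sq_add_cos_sq α
  linear_combination (x 0 ^ 2 + x 1 ^ 2) * h1

/-- the rotation about the third axis -/
noncomputable def zrotR (α : ℝ) : R3 ≃ₗᵢ[ℝ] R3 := m2iso (zrotA α) (zrotA_norm α)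

theorem cdot_av (α : ℝ) (x : R3) :
    cdot (av α) x = (x 2 : ℂ) + Complex.I * ((Real.cos α * x 0 + Real.sin α * x 1 : ℝ) : ℂ) := by
  simp only [cdot, av, Fin.sum_univ_three, Matrix.cons_val_zero, Matrix.cons_val_one,
    Matrix.cons_val]
  push_cast
  ring

theorem cdot_av_zrot (α : ℝ) (x : R3) : cdot (av 0) (zrotR α x) = cdot (av α) x := by
  rw [cdot_av, cdot_av]
  unfold zrotR
  rw [m2iso_apply, m2iso_apply, m2iso_apply]
  simp only [zrotA, Matrix.cons_val_zero, Matrix.cons_val_one, Matrix.cons_val, Real.cos_zero,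
    Real.sin_zero]
  push_cast
  ring

/-- the wave vector of the circle `β` on the rotated point -/
theorem cdot_av_rot (α β θ : ℝ) (x : R3) :
    cdot (av β) (rotR α θ x) =
      ((1 + Real.cos (β - α)) / 2 : ℝ) * (Complex.exp (Complex.I * θ) * cdot (av α) x) +
      ((1 - Real.cos (β - α)) / 2 : ℝ) * (Complex.exp (-(Complex.I * θ)) * conj (cdot (av α) x)) +
      Complex.I * ((Real.sin (β - α) * (-Real.sin α * x 0 + Real.cos α * x 1) : ℝ) : ℂ) := by
  have h1 : Complex.exp (Complex.I * θ) = (Real.cos θ : ℂ) + Complex.I * (Real.sin θ : ℂ) := by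
    rw [mul_comm, Complex.exp_mul_I, Complex.ofReal_cos, Complex.ofReal_sin, mul_comm]
  have h2 : Complex.exp (-(Complex.I * θ)) =
      (Real.cos θ : ℂ) - Complex.I * (Real.sin θ : ℂ) := by
    have h3 : -(Complex.I * (θ : ℂ)) = ((-θ : ℝ) : ℂ) * Complex.I := by push_cast; ring
    rw [h3, Complex.exp_mul_I, ← Complex.ofReal_cos, ← Complex.ofReal_sin, Real.cos_neg,
      Real.sin_neg]
    push_cast
    ring
  rw [h1, h2]
  apply Complex.ext
  · rw [cdot_av, cdot_av]
    unfold rotR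
    rw [m2iso_apply, m2iso_apply, m2iso_apply]
    simp only [rotA, Matrix.cons_val_zero, Matrix.cons_val_one, Matrix.cons_val]
    simp only [map_add, map_mul, Complex.conj_ofReal, Complex.conj_I, Complex.add_re,
      Complex.mul_re, Complex.ofReal_re, Complex.I_re, Complex.ofReal_im, Complex.I_im,
      Complex.sub_re, Complex.sub_im, Complex.mul_im, Complex.add_im, Complex.neg_re,
      Complex.neg_im]
    ring
  · rw [cdot_av, cdot_av]
    unfold rotR
    rw [m2iso_apply, m2iso_apply, m2iso_apply]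
    simp only [rotA, Matrix.cons_val_zero, Matrix.cons_val_one, Matrix.cons_val]
    simp only [map_add, map_mul, Complex.conj_ofReal, Complex.conj_I, Complex.add_re,
      Complex.mul_re, Complex.ofReal_re, Complex.I_re, Complex.ofReal_im, Complex.I_im,
      Complex.sub_re, Complex.sub_im, Complex.mul_im, Complex.add_im, Complex.neg_re,
      Complex.neg_im]
    rw [Real.cos_sub, Real.sin_sub]
    have h4 := Real.sin_sq_add_cos_sq α
    set s := Real.sin α
    set c := Real.cos α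
    set s' := Real.sin β
    set c' := Real.cos β
    set S := Real.sin θ
    set C := Real.cos θ
    ring

/-! ### finite Fourier sums -/

/-- averaging a polynomial of small degree over roots of unity gives the constant term -/
theorem avg_poly {M : ℕ} {ω : ℂ} (hω : IsPrimitiveRoot ω M) (T : Polynomial ℂ)
    (hT : T.natDegree < M) : ∑ j ∈ range M, T.eval (ω ^ j) = M * T.eval 0 := by
  have h1 : ∀ z : ℂ, T.eval z = ∑ k ∈ range M, T.coeff k * z ^ k := fun z =>
    Polynomial.eval_eq_sum_range' hT z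
  have h2 : ∀ k ∈ range M, ∑ j ∈ range M, T.coeff k * (ω ^ j) ^ k =
      if k = 0 then M * T.coeff 0 else 0 := by
    intro k hk
    rw [mem_range] at hk
    rw [← Finset.mul_sum]
    split_ifs with h0
    · subst h0
      simp [mul_comm]
    · have h3 : ∑ j ∈ range M, (ω ^ j) ^ k = ∑ j ∈ range M, (ω ^ k) ^ j :=
        Finset.sum_congr rfl fun j _ => by rw [← pow_mul, ← pow_mul, mul_comm]
      have h4 : ω ^ k ≠ 1 := fun h => by
        have := hω.dvd_of_pow_eq_one k h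
        exact absurd (Nat.le_of_dvd (Nat.pos_of_ne_zero h0) this) (not_le.2 hk)
      have h5 : (ω ^ k) ^ M = 1 := by rw [← pow_mul, mul_comm, pow_mul, hω.pow_eq_one, one_pow]
      rw [h3, geom_sum_eq h4, h5, sub_self, zero_div, mul_zero]
  have hM : 0 < M := lt_of_le_of_lt (Nat.zero_le _) hT
  calc ∑ j ∈ range M, T.eval (ω ^ j)
      = ∑ j ∈ range M, ∑ k ∈ range M, T.coeff k * (ω ^ j) ^ k :=
        Finset.sum_congr rfl fun j _ => h1 _
    _ = ∑ k ∈ range M, ∑ j ∈ range M, T.coeff k * (ω ^ j) ^ k := Finset.sum_comm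
    _ = ∑ k ∈ range M, (if k = 0 then (M : ℂ) * T.coeff 0 else 0) := Finset.sum_congr rfl h2
    _ = M * T.coeff 0 := by
        rw [Finset.sum_ite_eq' (range M) 0 fun _ => (M : ℂ) * T.coeff 0]
        simp [hM]
    _ = M * T.eval 0 := by rw [Polynomial.coeff_zero_eq_eval_zero]

theorem avg_quad {M l : ℕ} (hM : 2 * l < M) {ω : ℂ} (hω : IsPrimitiveRoot ω M) (A B C : ℂ) :
    ∑ j ∈ range M, (A + B * ω ^ j + C * (ω ^ j) ^ 2) ^ l = M * A ^ l := by
  open Polynomial in
  have h1 := avg_poly hω ((Polynomial.C A + Polynomial.C B * X + Polynomial.C C * X ^ 2) ^ l) (by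
    have h2 : (Polynomial.C A + Polynomial.C B * X + Polynomial.C C * X ^ 2).natDegree ≤ 2 := by
      compute_degree
    have h3 := Polynomial.natDegree_pow_le_of_le l h2
    omega)
  simpa using h1

/-! ### invariance of the Coulomb integrals -/

theorem nuc_iso (g : R3 ≃ₗᵢ[ℝ] R3) (f1 f2 : R3 → ℝ) (y : R3) :
    nuc y (fun x => f1 (g x)) (fun x => f2 (g x)) = nuc (g y) f1 f2 := by
  unfold nuc
  have h1 : (fun x => f1 (g x) * f2 (g x) / dist x y) =
      fun x => (fun z => f1 z * f2 z / dist z (g y)) (g x) := by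
    funext x
    show _ = f1 (g x) * f2 (g x) / dist (g x) (g y)
    rw [g.dist_map]
  rw [h1]
  exact g.measurePreserving.integral_comp' (f := g.toMeasurableEquiv)
    (fun z => f1 z * f2 z / dist z (g y))

theorem coul_iso (g : R3 ≃ₗᵢ[ℝ] R3) (f1 f2 f3 f4 : R3 → ℝ) :
    coul (fun x => f1 (g x)) (fun x => f2 (g x)) (fun x => f3 (g x)) (fun x => f4 (g x)) =
      coul f1 f2 f3 f4 := by
  unfold coul
  simp only [nuc_iso]
  exact g.measurePreserving.integral_comp' (f := g.toMeasurableEquiv)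
    (fun w => nuc w f1 f2 * (f3 w * f4 w))

theorem nuc_bound {f1 f2 : R3 → ℝ} (h1 : Nice f1) (h2 : Nice f2) (y : R3) :
    |nuc y f1 f2| ≤ (4 * dir f1 f1 + ov f2 f2) / 2 := by
  obtain ⟨hi, hb⟩ := hardy_nice h1 y
  have hi2 : Integrable (fun x => f2 x * f2 x) := (nice_integrable_rinv h2 h2).2
  unfold nuc ov
  calc |∫ x, f1 x * f2 x / dist x y| ≤ ∫ x, |f1 x * f2 x / dist x y| := abs_integral_le_integral_abs
    _ ≤ ∫ x, (f1 x ^ 2 / dist x y ^ 2 + f2 x * f2 x) / 2 := by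
        apply integral_mono (nice_integrable_nuc h1 h2 y).abs ((hi.add hi2).div_const 2)
        intro x
        show |f1 x * f2 x / dist x y| ≤ (f1 x ^ 2 / dist x y ^ 2 + f2 x * f2 x) / 2
        have e1 : f1 x * f2 x / dist x y = (f1 x / dist x y) * f2 x := by ring
        have e2 : f1 x ^ 2 / dist x y ^ 2 = (f1 x / dist x y) ^ 2 := by rw [div_pow]
        rw [e1, e2, abs_le]
        constructor
        · nlinarith [sq_nonneg (f1 x / dist x y + f2 x)]
        · nlinarith [sq_nonneg (f1 x / dist x y - f2 x)]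
    _ = ((∫ x, f1 x ^ 2 / dist x y ^ 2) + ∫ x, f2 x * f2 x) / 2 := by
        rw [integral_div, integral_add hi hi2]
    _ ≤ (4 * dir f1 f1 + ∫ x, f2 x * f2 x) / 2 := by linarith

theorem nuc_meas {f1 f2 : R3 → ℝ} (h1 : Continuous f1) (h2 : Continuous f2) :
    StronglyMeasurable (fun y => nuc y f1 f2) := by
  have h3 : StronglyMeasurable (fun q : R3 × R3 => f1 q.2 * f2 q.2 / dist q.2 q.1) := by
    apply Measurable.stronglyMeasurable
    have e1 : Measurable fun q : R3 × R3 => f1 q.2 := h1.measurable.comp measurable_snd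
    have e2 : Measurable fun q : R3 × R3 => f2 q.2 := h2.measurable.comp measurable_snd
    have e3 : Measurable fun q : R3 × R3 => dist q.2 q.1 :=
      (continuous_snd.dist continuous_fst).measurable
    exact (e1.mul e2).div e3
  exact h3.integral_prod_right'

theorem coul_integrable {f1 f2 f3 f4 : R3 → ℝ} (h1 : Nice f1) (h2 : Nice f2) (h3 : Nice f3)
    (h4 : Nice f4) : Integrable (fun y => nuc y f1 f2 * (f3 y * f4 y)) :=
  Integrable.bdd_mul (nice_integrable_rinv h3 h4).2 (nuc_meas h1.cont h2.cont).aestronglyMeasurable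
    (Filter.Eventually.of_forall fun y => nuc_bound h1 h2 y)

/-! ### dependence on the kernel -/

theorem kernel_direct {C : Type} [Fintype C] {χ : C → R3 → ℝ} (hχ : ∀ c, Nice (χ c))
    {F G : R3 → ℝ} (hF : Nice F) (hG : Nice G) :
    ∑ c, coul F G (χ c) (χ c) = ∫ y, nuc y F G * ∑ c, χ c y * χ c y := by
  unfold coul
  rw [← integral_finsetSum _ fun c _ => coul_integrable hF hG (hχ c) (hχ c)]
  congr 1
  funext y
  rw [Finset.mul_sum]

theorem kernel_exch {C : Type} [Fintype C] {χ : C → R3 → ℝ} (hχ : ∀ c, Nice (χ c))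
    {F G : R3 → ℝ} (hF : Nice F) (hG : Nice G) :
    ∑ c, coul F (χ c) (χ c) G =
      ∫ y, (∫ x, F x * (∑ c, χ c x * χ c y) / dist x y) * G y := by
  unfold coul
  rw [← integral_finsetSum _ fun c _ => coul_integrable hF (hχ c) (hχ c) hG]
  congr 1
  funext y
  have h1 : ∫ x, F x * (∑ c, χ c x * χ c y) / dist x y = ∑ c, nuc y F (χ c) * χ c y := by
    unfold nuc
    have h2 : ∀ c, (∫ x, F x * χ c x / dist x y) * χ c y =
        ∫ x, F x * χ c x / dist x y * χ c y := fun c => (integral_mul_const _ _).symm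
    simp only [h2]
    rw [← integral_finsetSum _ fun c _ => (nice_integrable_nuc hF (hχ c) y).mul_const _]
    congr 1
    funext x
    rw [Finset.mul_sum, Finset.sum_div]
    exact Finset.sum_congr rfl fun c _ => by ring
  rw [h1, Finset.sum_mul]
  exact Finset.sum_congr rfl fun c _ => by ring

/-! ### polynomials and isometries -/

theorem expPoly_iso (κ : ℝ) (P Q : Poly3) (A : Fin 3 → Fin 3 → ℝ)
    (h : ∀ x : R3, ‖m2lin A x‖ ^ 2 = ‖x‖ ^ 2) :
    ∃ P' Q' : Poly3, ∀ x, expPoly κ P Q (m2iso A h x) = expPoly κ P' Q' x := by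
  let T : Fin 3 → Poly3 := fun i => ∑ j, MvPolynomial.C (A i j) * MvPolynomial.X j
  have hT : ∀ (P : Poly3) (x : R3), pe (MvPolynomial.bind₁ T P) x = pe P (m2iso A h x) := by
    intro P x
    have h1 := MvPolynomial.eval₂Hom_bind₁ (RingHom.id ℝ) (fun i => x i) T P
    have h2 : (fun i => MvPolynomial.eval₂Hom (RingHom.id ℝ) (fun i => x i) (T i)) =
        fun i => m2iso A h x i := by
      funext i
      rw [m2iso_apply]
      show MvPolynomial.eval (fun i => x i) (T i) = _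
      simp only [T, Fin.sum_univ_three, map_add, map_mul, MvPolynomial.eval_C,
        MvPolynomial.eval_X]
    rw [h2] at h1
    exact h1
  refine ⟨MvPolynomial.bind₁ T P, MvPolynomial.bind₁ T Q, fun x => ?_⟩
  unfold expPoly
  rw [hT, hT, LinearIsometryEquiv.norm_map]

theorem nice_shell {n : ℕ} (hn : 1 ≤ n) {φ : R3 → ℝ} (hφ : IsShell n φ) : Nice φ := by
  obtain ⟨P, Q, -, -, -, rfl⟩ := hφ
  have : (0 : ℝ) < 1 / n := by
    have : (0 : ℝ) < n := by exact_mod_cast hn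
    positivity
  exact nice_expPoly this P Q

theorem nice_shell_iso {n : ℕ} (hn : 1 ≤ n) {φ : R3 → ℝ} (hφ : IsShell n φ)
    (A : Fin 3 → Fin 3 → ℝ) (h : ∀ x : R3, ‖m2lin A x‖ ^ 2 = ‖x‖ ^ 2) :
    Nice (fun x => φ (m2iso A h x)) := by
  obtain ⟨P, Q, -, -, -, rfl⟩ := hφ
  have h0 : (0 : ℝ) < 1 / n := by
    have : (0 : ℝ) < n := by exact_mod_cast hn
    positivity
  obtain ⟨P', Q', h1⟩ := expPoly_iso (1 / n) P Q A h
  have h2 : (fun x => expPoly (1 / n) P Q (m2iso A h x)) = expPoly (1 / n) P' Q' := funext h1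
  rw [h2]
  exact nice_expPoly h0 P' Q'

theorem vfun_eq (n : ℕ) (P : Poly3) : vfun n P = expPoly (1 / n) P 0 := by
  funext x
  unfold vfun expPoly pe
  rw [map_zero, mul_zero, add_zero]
  congr 2
  ring

theorem nice_vfun {n : ℕ} (hn : 1 ≤ n) (P : Poly3) : Nice (vfun n P) := by
  have h0 : (0 : ℝ) < 1 / n := by
    have : (0 : ℝ) < n := by exact_mod_cast hn
    positivity
  rw [vfun_eq]
  exact nice_expPoly h0 P 0

theorem nice_vfun_iso {n : ℕ} (hn : 1 ≤ n) (P : Poly3)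
    (A : Fin 3 → Fin 3 → ℝ) (h : ∀ x : R3, ‖m2lin A x‖ ^ 2 = ‖x‖ ^ 2) :
    Nice (fun x => vfun n P (m2iso A h x)) := by
  have h0 : (0 : ℝ) < 1 / n := by
    have : (0 : ℝ) < n := by exact_mod_cast hn
    positivity
  obtain ⟨P', Q', h1⟩ := expPoly_iso (1 / n) P 0 A h
  have h2 : (fun x => vfun n P (m2iso A h x)) = expPoly (1 / n) P' Q' := by
    rw [vfun_eq]
    exact funext h1
  rw [h2]
  exact nice_expPoly h0 P' Q'

/-- real and imaginary parts of powers of linear forms are polynomials -/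
theorem exists_poly_pow (v : C3) (l : ℕ) : ∃ P Q : Poly3,
    (∀ x, pe P x = (cdot v x ^ l).re) ∧ ∀ x, pe Q x = (cdot v x ^ l).im := by
  let Lr : Poly3 := ∑ k, MvPolynomial.C (v k).re * MvPolynomial.X k
  let Li : Poly3 := ∑ k, MvPolynomial.C (v k).im * MvPolynomial.X k
  have hr : ∀ x, pe Lr x = (cdot v x).re := by
    intro x
    simp only [Lr, pe, cdot, map_sum, map_mul, MvPolynomial.eval_C, MvPolynomial.eval_X,
      Complex.re_sum, Complex.mul_re, Complex.ofReal_re, Complex.ofReal_im, mul_zero, sub_zero]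
  have hi : ∀ x, pe Li x = (cdot v x).im := by
    intro x
    simp only [Li, pe, cdot, map_sum, map_mul, MvPolynomial.eval_C, MvPolynomial.eval_X,
      Complex.im_sum, Complex.mul_im, Complex.ofReal_re, Complex.ofReal_im, mul_zero, zero_add]
  induction l with
  | zero => exact ⟨1, 0, fun x => by simp [pe], fun x => by simp [pe]⟩
  | succ l ih =>
    obtain ⟨P, Q, hP, hQ⟩ := ih
    refine ⟨P * Lr - Q * Li, P * Li + Q * Lr, fun x => ?_, fun x => ?_⟩
    · rw [pow_succ, Complex.mul_re, ← hP, ← hQ, ← hr, ← hi]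
      simp only [pe, map_sub, map_mul]
    · rw [pow_succ, Complex.mul_im, ← hP, ← hQ, ← hr, ← hi]
      simp only [pe, map_add, map_mul]

theorem fsite_vfun (n : ℕ) (α : ℝ) : ∃ P : Poly3, fsite n α = vfun n P := by
  obtain ⟨P, -, hP, -⟩ := exists_poly_pow (av α) (n - 1)
  refine ⟨P, ?_⟩
  funext x
  unfold fsite vfun
  rw [hP]

theorem gsite_vfun (n : ℕ) (α : ℝ) : ∃ P : Poly3, gsite n α = vfun n P := by
  obtain ⟨-, Q, -, hQ⟩ := exists_poly_pow (av α) (n - 1)
  refine ⟨Q, ?_⟩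
  funext x
  unfold gsite vfun
  rw [hQ]

/-! ### the mean field as a symmetric bilinear form -/

theorem coul_symm3 (f g f' g' : R3 → ℝ) : coul f g f' g' = coul f g g' f' := by
  unfold coul
  congr 1
  funext y
  rw [mul_comm (f' y)]

section mf

variable {n : ℕ} {C O : Type} [Fintype C] [DecidableEq C] [Fintype O] [DecidableEq O]
  (B : ShellBasis n (C ⊕ O))

theorem nice_basis (a : C ⊕ O) : Nice (B.χ a) := nice_shell (B.lev_pos a) (B.mem a)

theorem mfield_symm {f g : R3 → ℝ} (hf : Nice f) (hg : Nice g) :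
    mfield B f g = mfield B g f := by
  unfold mfield
  refine Finset.sum_congr rfl fun c _ => ?_
  rw [coul_symm1 f g, coul_symm2 hf (nice_basis B _) (nice_basis B _) hg,
    coul_symm1 (B.χ (Sum.inl c)) g, coul_symm3 g (B.χ (Sum.inl c)) f]

theorem mfield_sum_left {ι : Type} (s : Finset ι) (a : ι → ℝ) (f : ι → R3 → ℝ)
    (hf : ∀ i ∈ s, Nice (f i)) {g : R3 → ℝ} (hg : Nice g) :
    mfield B (fun x => ∑ i ∈ s, a i * f i x) g = ∑ i ∈ s, a i * mfield B (f i) g := by
  unfold mfield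
  have h1 : ∀ c : C, coul (fun x => ∑ i ∈ s, a i * f i x) g (B.χ (Sum.inl c))
      (B.χ (Sum.inl c)) = ∑ i ∈ s, a i * coul (f i) g (B.χ (Sum.inl c)) (B.χ (Sum.inl c)) :=
    fun c => coul_sum_left s a f hf hg (nice_basis B _) (nice_basis B _)
  have h2 : ∀ c : C, coul (fun x => ∑ i ∈ s, a i * f i x) (B.χ (Sum.inl c))
      (B.χ (Sum.inl c)) g = ∑ i ∈ s, a i * coul (f i) (B.χ (Sum.inl c)) (B.χ (Sum.inl c)) g :=
    fun c => coul_sum_left s a f hf (nice_basis B _) (nice_basis B _) hg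
  simp only [h1, h2, Finset.mul_sum]
  rw [Finset.sum_comm]
  refine Finset.sum_congr rfl fun c _ => ?_
  rw [← Finset.sum_sub_distrib]
  exact Finset.sum_congr rfl fun i _ => by ring

theorem mfield_sum_right {ι : Type} (s : Finset ι) (a : ι → ℝ) (f : ι → R3 → ℝ)
    (hf : ∀ i ∈ s, Nice (f i)) {g : R3 → ℝ} (hg : Nice g)
    (hs : Nice (fun x => ∑ i ∈ s, a i * f i x)) :
    mfield B g (fun x => ∑ i ∈ s, a i * f i x) = ∑ i ∈ s, a i * mfield B g (f i) := by
  rw [mfield_symm B hg hs, mfield_sum_left B s a f hf hg]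
  exact Finset.sum_congr rfl fun i hi => by rw [mfield_symm B (hf i hi) hg]

theorem mfield_comb_left (a b : ℝ) {f f' g : R3 → ℝ} (hf : Nice f) (hf' : Nice f')
    (hg : Nice g) :
    mfield B (fun x => a * f x + b * f' x) g = a * mfield B f g + b * mfield B f' g := by
  have h := mfield_sum_left B (Finset.univ : Finset (Fin 2)) ![a, b] ![f, f']
    (fun i _ => by
      fin_cases i
      · exact hf
      · exact hf') hg
  simpa [Fin.sum_univ_two] using h

theorem mfield_smul_right (a : ℝ) {f g : R3 → ℝ} (hf : Nice f) (hg : Nice g) :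
    mfield B g (fun x => a * f x) = a * mfield B g f := by
  have h1 : Nice (fun x => a * f x) := nice_smul hf a
  rw [mfield_symm B hg h1, mfield_symm B hg hf]
  have h := mfield_comb_left B a 0 hf hf hg
  simpa using h

theorem mfield_iso (R : R3 ≃ₗᵢ[ℝ] R3)
    (hk : ∀ x y, ∑ c : C, B.χ (Sum.inl c) (R x) * B.χ (Sum.inl c) (R y) =
      ∑ c : C, B.χ (Sum.inl c) x * B.χ (Sum.inl c) y)
    (hR : ∀ c : C, Nice (fun x => B.χ (Sum.inl c) (R x)))
    {f g : R3 → ℝ} (hf : Nice fun x => f (R x)) (hg : Nice fun x => g (R x)) :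
    mfield B (fun x => f (R x)) (fun x => g (R x)) = mfield B f g := by
  have hm : ∀ F G : R3 → ℝ, mfield B F G =
      2 * ∑ c : C, coul F G (B.χ (Sum.inl c)) (B.χ (Sum.inl c)) -
        ∑ c : C, coul F (B.χ (Sum.inl c)) (B.χ (Sum.inl c)) G := by
    intro F G
    unfold mfield
    rw [Finset.sum_sub_distrib, Finset.mul_sum]
  have h1 : ∑ c : C, coul (fun x => f (R x)) (fun x => g (R x)) (B.χ (Sum.inl c))
      (B.χ (Sum.inl c)) = ∑ c : C, coul f g (B.χ (Sum.inl c)) (B.χ (Sum.inl c)) := by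
    rw [kernel_direct (χ := fun c => B.χ (Sum.inl c)) (fun c => nice_basis B _) hf hg]
    have h2 : ∀ c : C, coul f g (B.χ (Sum.inl c)) (B.χ (Sum.inl c)) =
        coul (fun x => f (R x)) (fun x => g (R x)) (fun x => B.χ (Sum.inl c) (R x))
          (fun x => B.χ (Sum.inl c) (R x)) := fun c => (coul_iso R _ _ _ _).symm
    simp only [h2]
    rw [kernel_direct (χ := fun c x => B.χ (Sum.inl c) (R x)) hR hf hg]
    congr 1
    funext y
    rw [hk y y]
  have h3 : ∑ c : C, coul (fun x => f (R x)) (B.χ (Sum.inl c)) (B.χ (Sum.inl c))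
      (fun x => g (R x)) = ∑ c : C, coul f (B.χ (Sum.inl c)) (B.χ (Sum.inl c)) g := by
    rw [kernel_exch (χ := fun c => B.χ (Sum.inl c)) (fun c => nice_basis B _) hf hg]
    have h2 : ∀ c : C, coul f (B.χ (Sum.inl c)) (B.χ (Sum.inl c)) g =
        coul (fun x => f (R x)) (fun x => B.χ (Sum.inl c) (R x))
          (fun x => B.χ (Sum.inl c) (R x)) (fun x => g (R x)) :=
      fun c => (coul_iso R _ _ _ _).symm
    simp only [h2]
    rw [kernel_exch (χ := fun c x => B.χ (Sum.inl c) (R x)) hR hf hg]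
    congr 1
    funext y
    congr 2
    funext x
    rw [hk x y]
  rw [hm, hm, h1, h3]

end mf

/-! ### the averaged site functions -/

theorem exp_theta (M : ℕ) (j : ℕ) :
    Complex.exp (Complex.I * ((2 * Real.pi * j / M : ℝ) : ℂ)) =
      Complex.exp (2 * Real.pi * Complex.I / M) ^ j := by
  rw [← Complex.exp_nat_mul]
  congr 1
  push_cast
  ring

theorem site_sum {M l : ℕ} (hM : 2 * l < M) (p q : ℝ) (z R : ℂ) :
    (∑ j ∈ range M, Complex.exp (Complex.I * ((2 * Real.pi * j / M : ℝ) : ℂ)) ^ l *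
      ((p : ℂ) * (Complex.exp (Complex.I * ((2 * Real.pi * j / M : ℝ) : ℂ)) * z) +
        (q : ℂ) * (Complex.exp (-(Complex.I * ((2 * Real.pi * j / M : ℝ) : ℂ))) * conj z) +
        R) ^ l = M * ((q : ℂ) * conj z) ^ l) ∧
    (∑ j ∈ range M, Complex.exp (-(Complex.I * ((2 * Real.pi * j / M : ℝ) : ℂ))) ^ l *
      ((p : ℂ) * (Complex.exp (Complex.I * ((2 * Real.pi * j / M : ℝ) : ℂ)) * z) +
        (q : ℂ) * (Complex.exp (-(Complex.I * ((2 * Real.pi * j / M : ℝ) : ℂ))) * conj z) +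
        R) ^ l = M * ((p : ℂ) * z) ^ l) := by
  have hM0 : M ≠ 0 := by omega
  have hω : IsPrimitiveRoot (Complex.exp (2 * Real.pi * Complex.I / M)) M :=
    Complex.isPrimitiveRoot_exp M hM0
  set ω := Complex.exp (2 * Real.pi * Complex.I / M) with hωd
  have hω0 : ω ≠ 0 := Complex.exp_ne_zero _
  have e1 : ∀ j : ℕ, Complex.exp (-(Complex.I * ((2 * Real.pi * j / M : ℝ) : ℂ))) =
      (ω⁻¹) ^ j := by
    intro j
    rw [Complex.exp_neg, exp_theta M, inv_pow]
  constructor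
  · rw [← avg_quad hM hω ((q : ℂ) * conj z) R ((p : ℂ) * z)]
    refine Finset.sum_congr rfl fun j _ => ?_
    rw [e1, exp_theta M, ← hωd, ← mul_pow, inv_pow]
    congr 1
    have : ω ^ j ≠ 0 := pow_ne_zero _ hω0
    field_simp
    ring
  · rw [← avg_quad hM hω.inv ((p : ℂ) * z) R ((q : ℂ) * conj z)]
    refine Finset.sum_congr rfl fun j _ => ?_
    rw [e1, exp_theta M, ← hωd, ← mul_pow, inv_pow]
    congr 1
    have : ω ^ j ≠ 0 := pow_ne_zero _ hω0
    field_simp
    ring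

theorem cos_mul_exp (l : ℕ) (θ : ℝ) : ((Real.cos (l * θ) : ℝ) : ℂ) =
    (Complex.exp (Complex.I * (θ : ℂ)) ^ l + Complex.exp (-(Complex.I * (θ : ℂ))) ^ l) / 2 := by
  rw [Complex.ofReal_cos, Complex.cos, ← Complex.exp_nat_mul, ← Complex.exp_nat_mul]
  congr 3
  · push_cast
    ring
  · push_cast
    ring

theorem sin_mul_exp (l : ℕ) (θ : ℝ) : ((Real.sin (l * θ) : ℝ) : ℂ) =
    (Complex.exp (-(Complex.I * (θ : ℂ))) ^ l - Complex.exp (Complex.I * (θ : ℂ)) ^ l) *
      Complex.I / 2 := by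
  rw [Complex.ofReal_sin, Complex.sin, ← Complex.exp_nat_mul, ← Complex.exp_nat_mul]
  congr 4
  · push_cast
    ring
  · push_cast
    ring

/-- weight of the contraction -/
noncomputable def wpq (n : ℕ) (α β : ℝ) : ℝ :=
  ((1 + Real.cos (β - α)) / 2) ^ (n - 1) + ((1 - Real.cos (β - α)) / 2) ^ (n - 1)

theorem site_avg {n M : ℕ} (hM : 2 * (n - 1) < M) (α β : ℝ) (x : R3) :
    (∑ j ∈ range M, Real.cos (((n - 1 : ℕ) : ℝ) * (2 * Real.pi * j / M)) *
      fsite n β (rotR α (2 * Real.pi * j / M) x) = (M / 2 * wpq n α β) * fsite n α x) ∧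
    (∑ j ∈ range M, Real.sin (((n - 1 : ℕ) : ℝ) * (2 * Real.pi * j / M)) *
      fsite n β (rotR α (2 * Real.pi * j / M) x) = -(M / 2 * wpq n α β) * gsite n α x) := by
  set l := n - 1 with hl
  set z := cdot (av α) x with hz
  set p : ℝ := (1 + Real.cos (β - α)) / 2 with hp
  set q : ℝ := (1 - Real.cos (β - α)) / 2 with hq
  set R : ℂ := Complex.I * ((Real.sin (β - α) * (-Real.sin α * x 0 + Real.cos α * x 1) : ℝ) : ℂ)
    with hR
  obtain ⟨hS1, hS2⟩ := site_sum hM p q z R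
  have hw : ∀ j : ℕ, (cdot (av β) (rotR α (2 * Real.pi * j / M) x)) ^ l =
      ((p : ℂ) * (Complex.exp (Complex.I * ((2 * Real.pi * j / M : ℝ) : ℂ)) * z) +
        (q : ℂ) * (Complex.exp (-(Complex.I * ((2 * Real.pi * j / M : ℝ) : ℂ))) * conj z) +
        R) ^ l := fun j => by rw [cdot_av_rot]
  simp only [← hw] at hS1 hS2
  have hzc : (conj z ^ l).re = (z ^ l).re ∧ (conj z ^ l).im = -(z ^ l).im := by
    rw [← map_pow]
    exact ⟨Complex.conj_re _, Complex.conj_im _⟩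
  have hq1 : ((q : ℂ) * conj z) ^ l = ((q ^ l : ℝ) : ℂ) * conj z ^ l := by
    rw [mul_pow]; push_cast; ring
  have hp1 : ((p : ℂ) * z) ^ l = ((p ^ l : ℝ) : ℂ) * z ^ l := by
    rw [mul_pow]; push_cast; ring
  have hfs : ∀ j : ℕ, fsite n β (rotR α (2 * Real.pi * j / M) x) =
      (cdot (av β) (rotR α (2 * Real.pi * j / M) x) ^ l).re * Real.exp (-(‖x‖ / n)) := by
    intro j
    unfold fsite
    rw [LinearIsometryEquiv.norm_map]
  constructor
  · have h1 : ∑ j ∈ range M, Real.cos ((l : ℝ) * (2 * Real.pi * j / M)) *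
        fsite n β (rotR α (2 * Real.pi * j / M) x) =
        (∑ j ∈ range M, ((Real.cos ((l : ℝ) * (2 * Real.pi * j / M)) : ℝ) : ℂ) *
          cdot (av β) (rotR α (2 * Real.pi * j / M) x) ^ l).re * Real.exp (-(‖x‖ / n)) := by
      rw [Complex.re_sum, Finset.sum_mul]
      refine Finset.sum_congr rfl fun j _ => ?_
      rw [hfs, Complex.re_ofReal_mul]
      ring
    have h2 : ∑ j ∈ range M, ((Real.cos ((l : ℝ) * (2 * Real.pi * j / M)) : ℝ) : ℂ) *
        cdot (av β) (rotR α (2 * Real.pi * j / M) x) ^ l =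
        (M * ((q : ℂ) * conj z) ^ l + M * ((p : ℂ) * z) ^ l) / 2 := by
      rw [← hS1, ← hS2, ← Finset.sum_add_distrib, Finset.sum_div]
      refine Finset.sum_congr rfl fun j _ => ?_
      rw [cos_mul_exp]
      ring
    rw [h1, h2]
    have h3 : ((M : ℂ) * ((q : ℂ) * conj z) ^ l + M * ((p : ℂ) * z) ^ l) / 2 =
        ((M / 2 : ℝ) : ℂ) * (((q ^ l : ℝ) : ℂ) * conj z ^ l + ((p ^ l : ℝ) : ℂ) * z ^ l) := by
      rw [hq1, hp1]; push_cast; ring
    rw [h3, Complex.re_ofReal_mul, Complex.add_re, Complex.re_ofReal_mul, Complex.re_ofReal_mul,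
      hzc.1]
    unfold fsite wpq
    rw [← hz, ← hl, ← hp, ← hq]
    ring
  · have h1 : ∑ j ∈ range M, Real.sin ((l : ℝ) * (2 * Real.pi * j / M)) *
        fsite n β (rotR α (2 * Real.pi * j / M) x) =
        (∑ j ∈ range M, ((Real.sin ((l : ℝ) * (2 * Real.pi * j / M)) : ℝ) : ℂ) *
          cdot (av β) (rotR α (2 * Real.pi * j / M) x) ^ l).re * Real.exp (-(‖x‖ / n)) := by
      rw [Complex.re_sum, Finset.sum_mul]
      refine Finset.sum_congr rfl fun j _ => ?_
      rw [hfs, Complex.re_ofReal_mul]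
      ring
    have h2 : ∑ j ∈ range M, ((Real.sin ((l : ℝ) * (2 * Real.pi * j / M)) : ℝ) : ℂ) *
        cdot (av β) (rotR α (2 * Real.pi * j / M) x) ^ l =
        (M * ((p : ℂ) * z) ^ l - M * ((q : ℂ) * conj z) ^ l) * Complex.I / 2 := by
      rw [← hS1, ← hS2, ← Finset.sum_sub_distrib, Finset.sum_mul, Finset.sum_div]
      refine Finset.sum_congr rfl fun j _ => ?_
      rw [sin_mul_exp]
      ring
    rw [h1, h2]
    have h3 : ((M : ℂ) * ((p : ℂ) * z) ^ l - M * ((q : ℂ) * conj z) ^ l) * Complex.I / 2 =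
        ((M / 2 : ℝ) : ℂ) * ((((p ^ l : ℝ) : ℂ) * z ^ l - ((q ^ l : ℝ) : ℂ) * conj z ^ l) *
          Complex.I) := by
      rw [hq1, hp1]; push_cast; ring
    rw [h3, Complex.re_ofReal_mul, Complex.mul_I_re, Complex.sub_im, Complex.im_ofReal_mul,
      Complex.im_ofReal_mul, hzc.2]
    unfold gsite wpq
    rw [← hz, ← hl, ← hp, ← hq]
    ring

theorem fsite_rot_self (n : ℕ) (α θ : ℝ) (x : R3) :
    fsite n α (rotR α θ x) = Real.cos (((n - 1 : ℕ) : ℝ) * θ) * fsite n α x +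
      -Real.sin (((n - 1 : ℕ) : ℝ) * θ) * gsite n α x := by
  have h1 : cdot (av α) (rotR α θ x) = Complex.exp (Complex.I * θ) * cdot (av α) x := by
    rw [cdot_av_rot]
    simp
  have h2 : Complex.exp (Complex.I * (θ : ℂ)) ^ (n - 1) =
      ((Real.cos (((n - 1 : ℕ) : ℝ) * θ) : ℝ) : ℂ) +
        ((Real.sin (((n - 1 : ℕ) : ℝ) * θ) : ℝ) : ℂ) * Complex.I := by
    rw [← Complex.exp_nat_mul, Complex.ofReal_cos, Complex.ofReal_sin, ← Complex.exp_mul_I]
    congr 1
    push_cast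
    ring
  unfold fsite gsite
  rw [LinearIsometryEquiv.norm_map, h1, mul_pow, h2, add_mul, Complex.add_re,
    Complex.re_ofReal_mul, mul_assoc, Complex.re_ofReal_mul, mul_comm Complex.I,
    Complex.mul_I_re]
  ring

end Vale.Agent.P370.Q
end

section

/-!
Overlaps of the site orbitals (imaginary parts), strength of the top device.
-/

namespace Vale.Agent.P370.Q

open MeasureTheory Finset ComplexConjugate

/-- reflection in the horizontal plane -/
noncomputable def zreflL : R3 →ₗ[ℝ] R3 where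
  toFun x := !₂[x 0, x 1, -x 2]
  map_add' x y := by
    ext i
    fin_cases i <;> simp
    ring
  map_smul' c x := by
    ext i
    fin_cases i <;> simp

theorem norm_zreflL (x : R3) : ‖zreflL x‖ = ‖x‖ := by
  have h : ‖zreflL x‖ ^ 2 = ‖x‖ ^ 2 := by
    rw [EuclideanSpace.norm_sq_eq, EuclideanSpace.norm_sq_eq, Fin.sum_univ_three,
      Fin.sum_univ_three]
    simp only [Real.norm_eq_abs, sq_abs]
    simp [zreflL]
  exact (sq_eq_sq₀ (norm_nonneg _) (norm_nonneg _)).1 h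

noncomputable def zrefl : R3 ≃ₗᵢ[ℝ] R3 :=
  LinearIsometry.toLinearIsometryEquiv ⟨zreflL, norm_zreflL⟩ rfl

theorem zrefl_apply (x : R3) : zrefl x = zreflL x := rfl

theorem cdot_zrefl (α : ℝ) (x : R3) :
    cdot (av α) (zrefl x) = -conj (cdot (av α) x) := by
  rw [cdot_eq_lf, cdot_eq_lf, av_eq, GC.lf_av, GC.lf_av, zrefl_apply]
  have e0 : zreflL x 0 = x 0 := by simp [zreflL]
  have e1 : zreflL x 1 = x 1 := by simp [zreflL]
  have e2 : zreflL x 2 = -x 2 := by simp [zreflL]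
  rw [e0, e1, e2, map_add, map_mul, Complex.conj_ofReal, Complex.conj_ofReal, Complex.conj_I]
  push_cast
  ring

theorem site_ov_fg_aux (n : ℕ) (α β : ℝ) : ov (fsite n α) (gsite n β) = 0 := by
  have h := zrefl.measurePreserving.integral_comp zrefl.toHomeomorph.measurableEmbedding
    (fun x => fsite n α x * gsite n β x)
  have e : ∀ x, fsite n α (zrefl x) * gsite n β (zrefl x) = -(fsite n α x * gsite n β x) := by
    intro x
    unfold fsite gsite
    rw [cdot_zrefl, cdot_zrefl, LinearIsometryEquiv.norm_map, neg_pow, neg_pow (conj _),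
      ← map_pow, ← map_pow]
    have e2 : ((-1 : ℂ)) ^ (n - 1) = (((-1 : ℝ) ^ (n - 1) : ℝ) : ℂ) := by push_cast; rfl
    rw [e2, Complex.re_ofReal_mul, Complex.im_ofReal_mul, Complex.conj_re, Complex.conj_im]
    have h1 : ((-1 : ℝ) ^ (n - 1)) * (-1) ^ (n - 1) = 1 := by
      rw [← mul_pow]
      norm_num
    have e3 : ∀ a b c : ℝ, (-1 : ℝ) ^ (n - 1) * a * c * ((-1) ^ (n - 1) * -b * c) =
      ((-1) ^ (n - 1) * (-1) ^ (n - 1)) * (-(a * c * (b * c))) := by
      intros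
      ring
    rw [e3, h1, one_mul]
  simp only [e] at h
  rw [integral_neg] at h
  unfold ov
  linarith

theorem gsite_sq (n : ℕ) (hn : 1 ≤ n) (α : ℝ) (x : R3) :
    gsite n α x * gsite n α x = GC.wd (n - 1) α x - fsite n α x * fsite n α x := by
  have hn0 : (0 : ℝ) < n := by exact_mod_cast hn
  have hcast : ((n - 1 : ℕ) : ℝ) + 1 = n := by
    rw [Nat.cast_sub hn]
    simp
  unfold gsite fsite GC.wd
  rw [← av_eq, ← cdot_eq_lf, hcast]
  have e1 : Real.exp (-(2 / (n : ℝ)) * ‖x‖) = Real.exp (-(‖x‖ / n)) * Real.exp (-(‖x‖ / n)) := by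
    rw [← Real.exp_add]
    congr 1
    ring
  have e2 : ‖cdot (av α) x‖ ^ (2 * (n - 1)) = (cdot (av α) x ^ (n - 1)).re ^ 2 +
      (cdot (av α) x ^ (n - 1)).im ^ 2 := by
    rw [mul_comm 2, pow_mul, ← norm_pow, ← Complex.normSq_eq_norm_sq, Complex.normSq_apply]
    ring
  rw [e1, e2]
  ring

theorem integrable_fsite_sq (n : ℕ) (hn : 1 ≤ n) (α : ℝ) :
    Integrable (fun x => fsite n α x * fsite n α x) := by
  have hcont : Continuous (fsite n α) := by
    unfold fsite
    simp only [cdot_eq_lf]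
    fun_prop
  refine (GC.integrable_wd (n - 1) α).mono' (hcont.mul hcont).aestronglyMeasurable
    (.of_forall fun x => ?_)
  rw [Real.norm_of_nonneg (mul_self_nonneg _)]
  have := gsite_sq n hn α x
  have h2 := mul_self_nonneg (gsite n α x)
  linarith

theorem site_ov_gg_aux (n : ℕ) (hn : 2 ≤ n) (α : ℝ) : ov (gsite n α) (gsite n α) = nf n := by
  have h1 : ov (gsite n α) (gsite n α) = GC.wm (n - 1) - ov (fsite n α) (fsite n α) := by
    unfold ov
    simp only [gsite_sq n (by omega) α]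
    rw [integral_sub (GC.integrable_wd (n - 1) α) (integrable_fsite_sq n (by omega) α),
      GC.integral_wd]
  rw [h1, ← two_nf n (by omega), site_ov_aux n hn]
  have h2 : n - 1 ≠ 0 := by omega
  simp [h2]
  ring

theorem four_pow_mul_centralBinom_le (l : ℕ) :
    4 ^ l * l.centralBinom ≤ (2 * l + 1).centralBinom := by
  induction l with
  | zero => simp [Nat.centralBinom]
  | succ l ih =>
    have h1 := Nat.succ_mul_centralBinom_succ l
    have h2 := Nat.succ_mul_centralBinom_succ (2 * l + 1)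
    have h3 := Nat.succ_mul_centralBinom_succ (2 * l + 2)
    have e : 2 * (l + 1) + 1 = 2 * l + 2 + 1 := by ring
    rw [e]
    have e4 : 2 * l + 1 + 1 = 2 * l + 2 := rfl
    rw [e4] at h2
    -- multiply everything out
    have key : (l + 1) * (2 * l + 2) * (2 * l + 3) * (4 ^ (l + 1) * (l + 1).centralBinom) ≤
        (l + 1) * (2 * l + 2) * (2 * l + 3) * (2 * l + 2 + 1).centralBinom := by
      have a1 : (l + 1) * (2 * l + 2) * (2 * l + 3) * (4 ^ (l + 1) * (l + 1).centralBinom) =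
          (2 * l + 2) * (2 * l + 3) * (8 * (2 * l + 1)) * (4 ^ l * l.centralBinom) := by
        calc (l + 1) * (2 * l + 2) * (2 * l + 3) * (4 ^ (l + 1) * (l + 1).centralBinom)
            = (2 * l + 2) * (2 * l + 3) * 4 ^ (l + 1) * ((l + 1) * (l + 1).centralBinom) := by ring
          _ = _ := by rw [h1]; ring
      have a2 : (l + 1) * (2 * l + 2) * (2 * l + 3) * (2 * l + 2 + 1).centralBinom =
          (l + 1) * (2 * (4 * l + 5)) * (2 * (4 * l + 3)) * (2 * l + 1).centralBinom := by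
        calc (l + 1) * (2 * l + 2) * (2 * l + 3) * (2 * l + 2 + 1).centralBinom
            = (l + 1) * (2 * l + 2) * ((2 * l + 2 + 1) * (2 * l + 2 + 1).centralBinom) := by ring
          _ = (l + 1) * (2 * (2 * (2 * l + 2) + 1)) * ((2 * l + 2) * (2 * l + 2).centralBinom) := by
              rw [h3]; ring
          _ = _ := by rw [h2]; ring
      rw [a1, a2]
      calc (2 * l + 2) * (2 * l + 3) * (8 * (2 * l + 1)) * (4 ^ l * l.centralBinom)
          ≤ (2 * l + 2) * (2 * l + 3) * (8 * (2 * l + 1)) * (2 * l + 1).centralBinom :=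
            Nat.mul_le_mul_left _ ih
        _ ≤ _ := by
            apply Nat.mul_le_mul_right
            nlinarith
    exact Nat.le_of_mul_le_mul_left key (by positivity)

theorem gam_eq (n : ℕ) (hn : 1 ≤ n) :
    gam n = 4 ^ (n - 1) * ((n - 1).centralBinom : ℝ) / ((2 * (n - 1) + 1).centralBinom : ℝ) := by
  obtain ⟨l, rfl⟩ : ∃ l, n = l + 1 := ⟨n - 1, by omega⟩
  rw [Nat.add_sub_cancel]
  unfold gam Am
  rw [Nat.add_sub_cancel]
  have h1 : (l.centralBinom : ℝ) = ((2 * l).factorial : ℝ) / ((l.factorial : ℝ) ^ 2) := by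
    rw [Nat.centralBinom, Nat.cast_choose ℝ (by omega : l ≤ 2 * l)]
    rw [show 2 * l - l = l by omega]
    ring
  have h2 : ((2 * l + 1).centralBinom : ℝ) = ((2 * (2 * l) + 1).factorial : ℝ) * 2 /
      (((2 * l + 1).factorial : ℝ) * ((2 * l).factorial : ℝ)) := by
    rw [Nat.centralBinom, Nat.cast_choose ℝ (by omega : 2 * l + 1 ≤ 2 * (2 * l + 1))]
    rw [show 2 * (2 * l + 1) - (2 * l + 1) = 2 * l + 1 by omega,
      show 2 * (2 * l + 1) = (2 * (2 * l) + 1) + 1 by ring, Nat.factorial_succ (2 * (2 * l) + 1)]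
    have e : ((2 * l + 1).factorial : ℝ) = (2 * (l : ℝ) + 1) * ((2 * l).factorial : ℝ) := by
      rw [Nat.factorial_succ]
      push_cast
      ring
    have f1 : ((2 * l).factorial : ℝ) ≠ 0 := by positivity
    push_cast
    rw [e]
    field_simp
    ring
  rw [h1, h2]
  have f1 : (l.factorial : ℝ) ≠ 0 := by positivity
  have f2 : ((2 * l).factorial : ℝ) ≠ 0 := by positivity
  have f3 : ((2 * l + 1).factorial : ℝ) ≠ 0 := by positivity
  have f4 : ((2 * (2 * l) + 1).factorial : ℝ) ≠ 0 := by positivity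
  have e4 : (4 : ℝ) ^ l = 2 ^ (2 * l) := by rw [pow_mul]; norm_num
  rw [e4]
  field_simp

theorem gam_bounds_aux (n : ℕ) (hn : 2 ≤ n) : 1 / (8 * (n : ℝ)) ≤ gam n ∧ gam n ≤ 1 := by
  rw [gam_eq n (by omega)]
  obtain ⟨l, rfl⟩ : ∃ l, n = l + 1 := ⟨n - 1, by omega⟩
  rw [Nat.add_sub_cancel]
  have hpos : (0 : ℝ) < ((2 * l + 1).centralBinom : ℝ) := by
    exact_mod_cast Nat.centralBinom_pos _
  constructor
  · rw [div_le_div_iff₀ (by positivity) hpos, one_mul]
    have h1 : (2 * l + 1).centralBinom ≤ 4 ^ (2 * l + 1) := by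
      rw [Nat.centralBinom]
      calc (2 * (2 * l + 1)).choose (2 * l + 1) ≤ 2 ^ (2 * (2 * l + 1)) := Nat.choose_le_two_pow _ _
        _ = 4 ^ (2 * l + 1) := by rw [pow_mul]; norm_num
    have h2 := Nat.four_pow_le_two_mul_self_mul_centralBinom l (by omega)
    have h3 : (2 * l + 1).centralBinom ≤ 4 ^ l * l.centralBinom * (8 * (l + 1)) := by
      calc (2 * l + 1).centralBinom ≤ 4 ^ (2 * l + 1) := h1
        _ = 4 * 4 ^ l * 4 ^ l := by ring
        _ ≤ 4 * 4 ^ l * (2 * l * l.centralBinom) := Nat.mul_le_mul_left _ h2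
        _ = 4 ^ l * l.centralBinom * (8 * l) := by ring
        _ ≤ _ := Nat.mul_le_mul_left _ (by omega)
    exact_mod_cast h3
  · rw [div_le_one hpos]
    exact_mod_cast four_pow_mul_centralBinom_le l

end Vale.Agent.P370.Q
end

section

/-!
Great circle orbitals: norms, overlaps, top device, contraction.
-/

namespace Vale.Agent.P370.Q

open MeasureTheory Finset ComplexConjugate

theorem av_null (α : ℝ) : cc (av α) (av α) = 0 := by
  simp only [cc, av, Fin.sum_univ_three, Matrix.cons_val_zero, Matrix.cons_val_one,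
    Matrix.cons_val]
  have h : (Real.cos α : ℂ) ^ 2 + (Real.sin α : ℂ) ^ 2 = 1 := by
    exact_mod_cast congrArg ((↑) : ℝ → ℂ) (Real.cos_sq_add_sin_sq α)
  linear_combination (-1 : ℂ) * h + ((Real.cos α : ℂ) ^ 2 + (Real.sin α : ℂ) ^ 2) *
    Complex.I_sq

theorem fsite_InV (n : ℕ) (hn : 1 ≤ n) (α : ℝ) : InV n (fsite n α) := fsite_InV' n α

theorem gsite_InV (n : ℕ) (hn : 1 ≤ n) (α : ℝ) : InV n (gsite n α) := gsite_InV' n α

theorem nf_pos (n : ℕ) (hn : 1 ≤ n) : 0 < nf n := by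
  have : (0 : ℝ) < n := by exact_mod_cast hn
  unfold nf
  positivity

theorem site_ov_ff (n : ℕ) (hn : 2 ≤ n) (α β : ℝ) :
    ov (fsite n α) (fsite n β) =
      nf n * (((1 + Real.cos (α - β)) / 2) ^ (n - 1) + ((1 - Real.cos (α - β)) / 2) ^ (n - 1)) :=
  site_ov_aux n hn α β

theorem site_ov_fg (n : ℕ) (hn : 2 ≤ n) (α β : ℝ) : ov (fsite n α) (gsite n β) = 0 :=
  site_ov_fg_aux n α β

theorem site_ov_gg (n : ℕ) (hn : 2 ≤ n) (α : ℝ) : ov (gsite n α) (gsite n α) = nf n :=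
  site_ov_gg_aux n hn α

theorem gam_bounds (n : ℕ) (hn : 2 ≤ n) : 1 / (8 * (n : ℝ)) ≤ gam n ∧ gam n ≤ 1 :=
  gam_bounds_aux n hn

/-- the top multipole is a rank two form on the top subspace -/
theorem top_rank_two (n : ℕ) (hn : 2 ≤ n) (α : ℝ) {P P' : Poly3} (hP : Harm (n - 1) P)
    (hP' : Harm (n - 1) P') :
    4 * Real.pi * I0 n *
        sph (fun u => (cdot (av α) u ^ (2 * (n - 1))).re * (pe P u * pe P' u)) =
      gam n / nf n * (ov (vfun n P) (fsite n α) * ov (vfun n P') (fsite n α) -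
        ov (vfun n P) (gsite n α) * ov (vfun n P') (gsite n α)) :=
  top_rank_two' n hn α hP hP'

/-- devices are contractions on the top subspace -/
theorem dev_contr (n q : ℕ) (hn : 2 ≤ n) (γ : ℝ) {P P' : Poly3} (hP : Harm (n - 1) P)
    (hP' : Harm (n - 1) P') :
    |4 * Real.pi * I0 n * sph (fun u => (cdot (av γ) u ^ (2 * q)).re * (pe P u * pe P' u))| ≤
      Real.sqrt (ov (vfun n P) (vfun n P) * ov (vfun n P') (vfun n P')) :=
  dev_contr' n q hn γ hP hP'

end Vale.Agent.P370.Q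
end

section

/-!
The mean field acts as a scalar between the sites.
-/

namespace Vale.Agent.P370.Q

open MeasureTheory Finset ComplexConjugate

section

variable {n : ℕ} {C O : Type} [Fintype C] [DecidableEq C] [Fintype O]
    [DecidableEq O] (B : ShellBasis n (C ⊕ O))

theorem mfield_m2iso (hC : ∀ c, B.lev (Sum.inl c) < n)
    (hO : ∀ o, B.lev (Sum.inr o) = n) (A : Fin 3 → Fin 3 → ℝ)
    (h : ∀ x : R3, ‖m2lin A x‖ ^ 2 = ‖x‖ ^ 2) {f g : R3 → ℝ}
    (hf : Nice fun x => f (m2iso A h x)) (hg : Nice fun x => g (m2iso A h x)) :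
    mfield B (fun x => f (m2iso A h x)) (fun x => g (m2iso A h x)) = mfield B f g :=
  mfield_iso B (m2iso A h) (fun x y => closed_kernel B hC hO (m2iso A h) x y)
    (fun _ => nice_shell_iso (B.lev_pos _) (B.mem _) A h) hf hg

theorem nice_fsite (hn : 1 ≤ n) (α : ℝ) : Nice (fsite n α) := by
  obtain ⟨P, hP⟩ := fsite_vfun n α
  rw [hP]
  exact nice_vfun hn P

theorem nice_gsite (hn : 1 ≤ n) (α : ℝ) : Nice (gsite n α) := by
  obtain ⟨P, hP⟩ := gsite_vfun n α
  rw [hP]
  exact nice_vfun hn P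

theorem nice_fsite_iso (hn : 1 ≤ n) (α : ℝ) (A : Fin 3 → Fin 3 → ℝ)
    (h : ∀ x : R3, ‖m2lin A x‖ ^ 2 = ‖x‖ ^ 2) : Nice (fun x => fsite n α (m2iso A h x)) := by
  obtain ⟨P, hP⟩ := fsite_vfun n α
  rw [hP]
  exact nice_vfun_iso hn P A h

theorem mfield_fsite (hn : 2 ≤ n) (hC : ∀ c, B.lev (Sum.inl c) < n)
    (hO : ∀ o, B.lev (Sum.inr o) = n) (α β : ℝ) :
    mfield B (fsite n α) (fsite n β) = wpq n α β / 2 *
      (mfield B (fsite n α) (fsite n α) + mfield B (gsite n α) (gsite n α)) := by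
  have hn1 : 1 ≤ n := by omega
  set M : ℕ := 2 * (n - 1) + 1 with hM
  have hMlt : 2 * (n - 1) < M := by omega
  have hM0 : (0 : ℝ) < M := by
    have : 0 < M := by omega
    exact_mod_cast this
  set θ : ℕ → ℝ := fun j => 2 * Real.pi * j / M with hθ
  set l : ℝ := ((n - 1 : ℕ) : ℝ) with hl
  have hf := nice_fsite hn1 α
  have hg := nice_gsite hn1 α
  have hr : ∀ j, Nice (fun x => fsite n β (rotR α (θ j) x)) := fun j =>
    nice_fsite_iso hn1 β _ (rotA_norm α (θ j))
  have hA := fun x => (site_avg hMlt α β x).1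
  have hB := fun x => (site_avg hMlt α β x).2
  -- the invariance for each rotation
  have hj : ∀ j, mfield B (fsite n α) (fsite n β) =
      Real.cos (l * θ j) * mfield B (fsite n α) (fun x => fsite n β (rotR α (θ j) x)) -
        Real.sin (l * θ j) * mfield B (gsite n α) (fun x => fsite n β (rotR α (θ j) x)) := by
    intro j
    have h1 : mfield B (fun x => fsite n α (rotR α (θ j) x))
        (fun x => fsite n β (rotR α (θ j) x)) = mfield B (fsite n α) (fsite n β) :=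
      mfield_m2iso B hC hO _ (rotA_norm α (θ j)) (nice_fsite_iso hn1 α _ (rotA_norm α (θ j)))
        (hr j)
    have h2 : (fun x => fsite n α (rotR α (θ j) x)) =
        fun x => Real.cos (l * θ j) * fsite n α x + -Real.sin (l * θ j) * gsite n α x :=
      funext fun x => fsite_rot_self n α (θ j) x
    rw [← h1, h2, mfield_comb_left B _ _ hf hg (hr j)]
    ring
  have hsum : (M : ℝ) * mfield B (fsite n α) (fsite n β) =
      ∑ j ∈ range M, Real.cos (l * θ j) *
        mfield B (fsite n α) (fun x => fsite n β (rotR α (θ j) x)) -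
      ∑ j ∈ range M, Real.sin (l * θ j) *
        mfield B (gsite n α) (fun x => fsite n β (rotR α (θ j) x)) := by
    rw [← Finset.sum_sub_distrib]
    have h1 : (M : ℝ) * mfield B (fsite n α) (fsite n β) =
        ∑ _j ∈ range M, mfield B (fsite n α) (fsite n β) := by
      rw [Finset.sum_const, card_range, nsmul_eq_mul]
    rw [h1]
    exact Finset.sum_congr rfl fun j _ => hj j
  have hfa : (fun x => ∑ j ∈ range M, Real.cos (l * θ j) * fsite n β (rotR α (θ j) x)) =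
      fun x => (M / 2 * wpq n α β) * fsite n α x := funext hA
  have hfb : (fun x => ∑ j ∈ range M, Real.sin (l * θ j) * fsite n β (rotR α (θ j) x)) =
      fun x => -(M / 2 * wpq n α β) * gsite n α x := funext hB
  have e1 := mfield_sum_right B (range M) (fun j => Real.cos (l * θ j))
    (fun j x => fsite n β (rotR α (θ j) x)) (fun j _ => hr j) hf
    (by rw [hfa]; exact nice_smul hf _)
  have e2 := mfield_sum_right B (range M) (fun j => Real.sin (l * θ j))
    (fun j x => fsite n β (rotR α (θ j) x)) (fun j _ => hr j) hg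
    (by rw [hfb]; exact nice_smul hg _)
  rw [← e1, ← e2, hfa, hfb, mfield_smul_right B _ hf hf, mfield_smul_right B _ hg hg] at hsum
  have h3 : (M : ℝ) * mfield B (fsite n α) (fsite n β) = M * (wpq n α β / 2 *
      (mfield B (fsite n α) (fsite n α) + mfield B (gsite n α) (gsite n α))) := by
    rw [hsum]; ring
  exact mul_left_cancel₀ hM0.ne' h3

theorem mfield_fsite' (hn : 2 ≤ n) (hC : ∀ c, B.lev (Sum.inl c) < n)
    (hO : ∀ o, B.lev (Sum.inr o) = n) (α β : ℝ) :
    mfield B (fsite n α) (fsite n β) = wpq n α β * mfield B (fsite n 0) (fsite n 0) := by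
  have hn1 : 1 ≤ n := by omega
  have h1 := mfield_fsite B hn hC hO α α
  have hw : wpq n α α = 1 := by
    unfold wpq
    have : n - 1 ≠ 0 := by omega
    simp [this]
  rw [hw] at h1
  have h2 : mfield B (gsite n α) (gsite n α) = mfield B (fsite n α) (fsite n α) := by linarith
  have h3 : mfield B (fsite n α) (fsite n α) = mfield B (fsite n 0) (fsite n 0) := by
    have h4 : fsite n α = fun x => fsite n 0 (m2iso (zrotA α) (zrotA_norm α) x) := by
      funext x
      unfold fsite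
      rw [LinearIsometryEquiv.norm_map]
      have := cdot_av_zrot α x
      unfold zrotR at this
      rw [this]
    have h5 := mfield_m2iso B hC hO (zrotA α) (zrotA_norm α) (nice_fsite_iso hn1 0 _ _)
      (nice_fsite_iso hn1 0 _ _)
    rw [← h4] at h5
    exact h5
  rw [mfield_fsite B hn hC hO α β, h2, h3]
  ring

end

/-- the mean field acts as a scalar between the sites -/
theorem mfield_sites {n : ℕ} (hn : 2 ≤ n) {C O : Type} [Fintype C] [DecidableEq C] [Fintype O]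
    [DecidableEq O] (B : ShellBasis n (C ⊕ O)) (hC : ∀ c, B.lev (Sum.inl c) < n)
    (hO : ∀ o, B.lev (Sum.inr o) = n) (α β : ℝ) :
    mfield B (fh n α) (fh n β) = mfield B (fh n 0) (fh n 0) * ov (fh n α) (fh n β) := by
  have hn1 : 1 ≤ n := by omega
  have hnf := nf_pos n hn1
  set s : ℝ := (Real.sqrt (nf n))⁻¹ with hs
  have hfh : ∀ α, fh n α = fun x => s * fsite n α x := fun α => by
    funext x
    unfold fh
    rw [hs, div_eq_inv_mul]
  have hss : s * s = (nf n)⁻¹ := by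
    rw [hs, ← mul_inv, Real.mul_self_sqrt hnf.le]
  have hm : ∀ α β, mfield B (fh n α) (fh n β) = (nf n)⁻¹ * mfield B (fsite n α) (fsite n β) := by
    intro α β
    rw [hfh, hfh]
    have h1 := mfield_comb_left B s 0 (nice_fsite hn1 α) (nice_fsite hn1 α)
      (nice_smul (nice_fsite hn1 β) s)
    simp only [zero_mul, add_zero] at h1
    rw [h1, mfield_smul_right B s (nice_fsite hn1 β) (nice_fsite hn1 α), ← mul_assoc, hss]
  have ho : ov (fh n α) (fh n β) = wpq n α β := by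
    have h1 : ov (fh n α) (fh n β) = (nf n)⁻¹ * ov (fsite n α) (fsite n β) := by
      rw [hfh, hfh]
      unfold ov
      rw [← hss, ← integral_const_mul]
      congr 1
      funext x
      ring
    rw [h1, site_ov_ff n hn]
    unfold wpq
    rw [← Real.cos_neg (β - α), neg_sub, ← mul_assoc, inv_mul_cancel₀ hnf.ne', one_mul]
  rw [hm, hm, ho, mfield_fsite' B hn hC hO α β]
  ring

/-- crude bound of the mean field -/
theorem mfield_bound {n : ℕ} {C O : Type} [Fintype C] [DecidableEq C] [Fintype O]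
    [DecidableEq O] (B : ShellBasis n (C ⊕ O)) (f g : R3 → ℝ) (hf : IsShell n f)
    (hg : IsShell n g) (hn : 1 ≤ n) :
    |mfield B f g| ≤ 12 * Fintype.card C * Real.sqrt (ov f f * ov g g) := by
  have hone : ∀ c : C, ov (B.χ (Sum.inl c)) (B.χ (Sum.inl c)) = 1 := fun c => by
    rw [B.ortho]; simp
  have h1 : ∀ c : C, |2 * coul f g (B.χ (Sum.inl c)) (B.χ (Sum.inl c)) -
      coul f (B.χ (Sum.inl c)) (B.χ (Sum.inl c)) g| ≤ 12 * Real.sqrt (ov f f * ov g g) := by
    intro c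
    have h2 := coul_shell hn hn (B.lev_pos (Sum.inl c)) (B.lev_pos (Sum.inl c)) hf hg
      (B.mem (Sum.inl c)) (B.mem (Sum.inl c))
    have h3 := coul_shell hn (B.lev_pos (Sum.inl c)) (B.lev_pos (Sum.inl c)) hn hf
      (B.mem (Sum.inl c)) (B.mem (Sum.inl c)) hg
    rw [hone, mul_one, mul_one] at h2
    rw [hone, mul_one, mul_one] at h3
    have h4 := abs_le.1 h2
    have h5 := abs_le.1 h3
    rw [abs_le]
    constructor <;> linarith
  unfold mfield
  calc |∑ c : C, (2 * coul f g (B.χ (Sum.inl c)) (B.χ (Sum.inl c)) -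
        coul f (B.χ (Sum.inl c)) (B.χ (Sum.inl c)) g)|
      ≤ ∑ c : C, |2 * coul f g (B.χ (Sum.inl c)) (B.χ (Sum.inl c)) -
        coul f (B.χ (Sum.inl c)) (B.χ (Sum.inl c)) g| := Finset.abs_sum_le_sum_abs _ _
    _ ≤ ∑ _c : C, 12 * Real.sqrt (ov f f * ov g g) := Finset.sum_le_sum fun c _ => h1 c
    _ = 12 * Fintype.card C * Real.sqrt (ov f f * ov g g) := by
        rw [Finset.sum_const, card_univ, nsmul_eq_mul]
        ring

end Vale.Agent.P370.Q
end

section

/-!
Hopping amplitudes: closed form, selectivity.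
-/

namespace Vale.Agent.P370.Q

open MeasureTheory Finset ComplexConjugate

theorem hopA_symm (n q : ℕ) (γ α β : ℝ) : hopA n q γ α β = hopA n q γ β α := by
  simp only [hopA, mul_comm (cdot (av α) _ ^ (n - 1)).re]

theorem c2_sph_ofReal (f : R3 → ℝ) : sph (fun u => (f u : ℂ)) = ((sph f : ℝ) : ℂ) := by
  unfold sph
  rw [Complex.real_smul, smul_eq_mul, Complex.ofReal_mul, ← intervalIntegral.integral_ofReal]
  congr 1
  refine intervalIntegral.integral_congr fun θ _ => ?_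
  rw [← intervalIntegral.integral_ofReal]
  refine intervalIntegral.integral_congr fun φ _ => ?_
  rw [Complex.real_smul, smul_eq_mul, Complex.ofReal_mul]

theorem c2_conj_cdot (α : ℝ) (x : R3) :
    conj (cdot (av α) x) = cdot (av (α + Real.pi)) x := by
  simp only [cdot, av, Fin.sum_univ_three, Matrix.cons_val_zero, Matrix.cons_val_one,
    Matrix.cons_val, map_add, map_mul, Complex.conj_ofReal, Complex.conj_I, map_one,
    Real.cos_add_pi, Real.sin_add_pi, Complex.ofReal_neg]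
  ring

theorem c2_cc_av (α β : ℝ) : cc (av α) (av β) = ((1 - Real.cos (α - β) : ℝ) : ℂ) := by
  simp only [cc, av, Fin.sum_univ_three, Matrix.cons_val_zero, Matrix.cons_val_one,
    Matrix.cons_val]
  rw [Real.cos_sub, Complex.ofReal_sub, Complex.ofReal_add, Complex.ofReal_mul,
    Complex.ofReal_mul, Complex.ofReal_one]
  linear_combination ((Real.cos α : ℂ) * (Real.cos β : ℂ) + (Real.sin α : ℂ) * (Real.sin β : ℂ)) *
    Complex.I_sq

theorem c2_cont (v : C3) : Continuous (fun u : R3 => cdot v u) := by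
  unfold cdot
  fun_prop

theorem c2_re_pow (α : ℝ) (m : ℕ) (u : R3) :
    (((cdot (av α) u ^ m).re : ℝ) : ℂ) =
      (1 / 2) * (cdot (av α) u ^ m + cdot (av (α + Real.pi)) u ^ m) := by
  rw [Complex.re_eq_add_conj, map_pow, c2_conj_cdot]
  ring

theorem c2_sph_sum {ι : Type} (s : Finset ι) (f : ι → R3 → ℂ) (hf : ∀ i, Continuous (f i)) :
    sph (fun u => ∑ i ∈ s, f i u) = ∑ i ∈ s, sph (f i) := by
  classical
  induction s using Finset.induction_on with
  | empty => simp only [Finset.sum_empty]; exact sph_const 0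
  | insert a s ha ih =>
    simp only [Finset.sum_insert ha]
    rw [sph_add (hf a).continuousOn (continuous_finsetSum _ fun i _ => hf i).continuousOn, ih]

/-- the constant of the triple products -/
noncomputable def c2K (l q : ℕ) : ℝ :=
  2 ^ (l + q) * ((l + q).factorial : ℝ) * (l.factorial : ℝ) ^ 2 * ((2 * q).factorial : ℝ) /
    (((2 * l + 2 * q + 1).factorial : ℝ) * ((l - q).factorial : ℝ) * (q.factorial : ℝ) ^ 2)

/-- one of the four terms -/
noncomputable def c2T (l q : ℕ) (γ α β : ℝ) : ℝ :=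
  (1 - Real.cos (α - β)) ^ (l - q) * (1 - Real.cos (α - γ)) ^ q * (1 - Real.cos (β - γ)) ^ q

theorem c2_triple (l q : ℕ) (hq : q ≤ l) (γ α β : ℝ) :
    sph (fun u => cdot (av α) u ^ l * cdot (av β) u ^ l * cdot (av γ) u ^ (2 * q)) =
      ((c2K l q * c2T l q γ α β : ℝ) : ℂ) := by
  rw [sph_triple (av α) (av β) (av γ) (av_null α) (av_null β) (av_null γ) l q hq, c2_cc_av,
    c2_cc_av, c2_cc_av]
  unfold c2K c2T
  push_cast
  ring

/-- shift of an angle by `π` -/
noncomputable def c2shp (b : Bool) : ℝ := if b then Real.pi else 0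

theorem c2_closed (l q : ℕ) (hq : q ≤ l) (γ α β : ℝ) :
    sph (fun u => (cdot (av γ) u ^ (2 * q)).re * ((cdot (av α) u ^ l).re * (cdot (av β) u ^ l).re))
      = c2K l q / 8 * ∑ b : Bool × Bool × Bool, c2T l q (γ + c2shp b.1) (α + c2shp b.2.1) (β + c2shp b.2.2) := by
  apply Complex.ofReal_injective
  rw [← c2_sph_ofReal]
  have e : ∀ u : R3, (((cdot (av γ) u ^ (2 * q)).re * ((cdot (av α) u ^ l).re *
      (cdot (av β) u ^ l).re) : ℝ) : ℂ) =
      (1 / 8 : ℝ) • ∑ b : Bool × Bool × Bool, cdot (av (α + c2shp b.2.1)) u ^ l *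
        cdot (av (β + c2shp b.2.2)) u ^ l * cdot (av (γ + c2shp b.1)) u ^ (2 * q) := by
    intro u
    rw [Complex.ofReal_mul, Complex.ofReal_mul, c2_re_pow, c2_re_pow, c2_re_pow]
    simp only [Fintype.sum_prod_type, Fintype.sum_bool, c2shp, Complex.real_smul]
    push_cast
    simp only [add_zero]
    ring
  simp only [e]
  rw [sph_smul, c2_sph_sum]
  · simp only [c2_triple l q hq]
    rw [Complex.real_smul]
    push_cast
    rw [Finset.mul_sum, Finset.mul_sum]
    refine Finset.sum_congr rfl fun b _ => ?_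
    ring
  · intro b
    have := c2_cont
    fun_prop

theorem hopA_closed (n q : ℕ) (hq : q ≤ n - 1) (γ α β : ℝ) :
    hopA n q γ α β = 4 * Real.pi * I0 n / nf n * (c2K (n - 1) q / 8) *
      ∑ b : Bool × Bool × Bool, c2T (n - 1) q (γ + c2shp b.1) (α + c2shp b.2.1) (β + c2shp b.2.2) := by
  unfold hopA
  rw [c2_closed (n - 1) q hq]
  ring

theorem c2K_pos (l q : ℕ) : 0 < c2K l q := by
  unfold c2K
  positivity

theorem c2T_nonneg (l q : ℕ) (γ α β : ℝ) : 0 ≤ c2T l q γ α β := by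
  unfold c2T
  have h1 := Real.cos_le_one (α - β)
  have h2 := Real.cos_le_one (α - γ)
  have h3 := Real.cos_le_one (β - γ)
  have h1' : 0 ≤ 1 - Real.cos (α - β) := by linarith
  have h2' : 0 ≤ 1 - Real.cos (α - γ) := by linarith only [h2]
  have h3' : 0 ≤ 1 - Real.cos (β - γ) := by linarith
  (clear * - h1 h2 h3; positivity)

/-- `hopA` depends on the angles modulo rotations -/
theorem hopA_shift (n q : ℕ) (hn : 2 ≤ n) (hq : q ≤ n - 1) (γ α β δ : ℝ) :
    hopA n q (γ + δ) (α + δ) (β + δ) = hopA n q γ α β := by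
  rw [hopA_closed n q hq, hopA_closed n q hq]
  congr 1
  refine Finset.sum_congr rfl fun b _ => ?_
  have e1 : α + δ + c2shp b.2.1 - (β + δ + c2shp b.2.2) = α + c2shp b.2.1 - (β + c2shp b.2.2) := by ring
  have e2 : α + δ + c2shp b.2.1 - (γ + δ + c2shp b.1) = α + c2shp b.2.1 - (γ + c2shp b.1) := by ring
  have e3 : β + δ + c2shp b.2.2 - (γ + δ + c2shp b.1) = β + c2shp b.2.2 - (γ + c2shp b.1) := by ring
  unfold c2T
  rw [e1, e2, e3]

theorem c2_I0_pos (n : ℕ) (hn : 1 ≤ n) : 0 < I0 n := by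
  rw [I0_eq n hn]
  have : (0 : ℝ) < n := by exact_mod_cast hn
  positivity

theorem hopA_nonneg (n q : ℕ) (hn : 2 ≤ n) (hq : q ≤ n - 1) (γ α β : ℝ) :
    0 ≤ hopA n q γ α β := by
  rw [hopA_closed n q hq]
  have h1 := c2_I0_pos n (by omega)
  have h2 := nf_pos n (by omega)
  have h3 := c2K_pos (n - 1) q
  have h4 := Real.pi_pos
  refine mul_nonneg (by positivity) (Finset.sum_nonneg fun b _ => c2T_nonneg _ _ _ _ _)

theorem c2_T_sum (l q : ℕ) (γ α β : ℝ) :
    ∑ b : Bool × Bool × Bool, c2T l q (γ + c2shp b.1) (α + c2shp b.2.1) (β + c2shp b.2.2) =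
      2 * ((2 * Real.sin ((α - β) / 2) ^ 2) ^ (l - q) *
        ((Real.cos ((α - β) / 2) - Real.cos ((α + β) / 2 - γ)) ^ (2 * q) +
          (Real.cos ((α - β) / 2) + Real.cos ((α + β) / 2 - γ)) ^ (2 * q)) +
      (2 * Real.cos ((α - β) / 2) ^ 2) ^ (l - q) *
        ((Real.sin ((α + β) / 2 - γ) - Real.sin ((α - β) / 2)) ^ (2 * q) +
          (Real.sin ((α + β) / 2 - γ) + Real.sin ((α - β) / 2)) ^ (2 * q))) := by
  set P := (α - β) / 2 with hP
  set M := (α + β) / 2 - γ with hM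
  have hα : α = M + P + γ := by rw [hP, hM]; ring
  have hβ : β = M - P + γ := by rw [hP, hM]; ring
  have a1 : ∀ s t : ℝ, Real.cos (s + Real.pi - t) = -Real.cos (s - t) := by
    intro s t
    rw [show s + Real.pi - t = (s - t) + Real.pi by ring, Real.cos_add_pi]
  have a2 : ∀ s t : ℝ, Real.cos (s - (t + Real.pi)) = -Real.cos (s - t) := by
    intro s t
    rw [show s - (t + Real.pi) = (s - t) - Real.pi by ring, Real.cos_sub_pi]
  have e1 : Real.cos (α - β) = 1 - 2 * Real.sin P ^ 2 := by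
    rw [hα, hβ, show M + P + γ - (M - P + γ) = 2 * P by ring, Real.cos_two_mul]
    linarith only [Real.sin_sq_add_cos_sq P]
  have e1' : Real.cos (α - β) = 2 * Real.cos P ^ 2 - 1 := by
    rw [hα, hβ, show M + P + γ - (M - P + γ) = 2 * P by ring, Real.cos_two_mul]
  have e2 : Real.cos (α - γ) = Real.cos M * Real.cos P - Real.sin M * Real.sin P := by
    rw [hα, show M + P + γ - γ = M + P by ring, Real.cos_add]
  have e3 : Real.cos (β - γ) = Real.cos M * Real.cos P + Real.sin M * Real.sin P := by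
    rw [hβ, show M - P + γ - γ = M - P by ring, Real.cos_sub]
  have hsM := Real.sin_sq_add_cos_sq M
  have hsP := Real.sin_sq_add_cos_sq P
  have f1 : (1 - Real.cos (α - γ)) * (1 - Real.cos (β - γ)) = (Real.cos P - Real.cos M) ^ 2 := by
    rw [e2, e3]
    have h1 : Real.sin M ^ 2 = 1 - Real.cos M ^ 2 := by linarith only [hsM]
    have h2 : Real.sin P ^ 2 = 1 - Real.cos P ^ 2 := by linarith only [e1, e1']
    linear_combination (-(Real.sin P ^ 2)) * h1 - (1 - Real.cos M ^ 2) * h2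
  have f2 : (1 + Real.cos (α - γ)) * (1 + Real.cos (β - γ)) = (Real.cos P + Real.cos M) ^ 2 := by
    rw [e2, e3]
    have h1 : Real.sin M ^ 2 = 1 - Real.cos M ^ 2 := by linarith only [hsM]
    have h2 : Real.sin P ^ 2 = 1 - Real.cos P ^ 2 := by linarith only [e1, e1']
    linear_combination (-(Real.sin P ^ 2)) * h1 - (1 - Real.cos M ^ 2) * h2
  have f3 : (1 + Real.cos (α - γ)) * (1 - Real.cos (β - γ)) = (Real.sin M - Real.sin P) ^ 2 := by
    rw [e2, e3]
    have h1 : Real.cos M ^ 2 = 1 - Real.sin M ^ 2 := by linarith only [hsM]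
    have h2 : Real.cos P ^ 2 = 1 - Real.sin P ^ 2 := by linarith only [e1, e1']
    linear_combination (-(Real.cos P ^ 2)) * h1 - (1 - Real.sin M ^ 2) * h2
  have f4 : (1 - Real.cos (α - γ)) * (1 + Real.cos (β - γ)) = (Real.sin M + Real.sin P) ^ 2 := by
    rw [e2, e3]
    have h1 : Real.cos M ^ 2 = 1 - Real.sin M ^ 2 := by linarith only [hsM]
    have h2 : Real.cos P ^ 2 = 1 - Real.sin P ^ 2 := by linarith only [e1, e1']
    linear_combination (-(Real.cos P ^ 2)) * h1 - (1 - Real.sin M ^ 2) * h2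
  have g1 : 1 - Real.cos (α - β) = 2 * Real.sin P ^ 2 := by rw [e1]; ring
  have g2 : 1 + Real.cos (α - β) = 2 * Real.cos P ^ 2 := by rw [e1']; ring
  simp only [Fintype.sum_prod_type, Fintype.sum_bool, c2shp, if_true, Bool.false_eq_true, if_false,
    add_zero, c2T, a1, a2, sub_neg_eq_add]
  simp only [pow_mul (_ : ℝ) 2 q, ← f1, ← f2, ← f3, ← f4, mul_pow _ _ q, ← g1, ← g2]
  ring

/-- the prefactor -/
noncomputable def c2Ch (l q : ℕ) : ℝ :=
  1 / 2 * (((2 * l + 1).factorial : ℝ) * ((l + q).factorial : ℝ) * ((2 * q).factorial : ℝ)) /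
    (((2 * l + 2 * q + 1).factorial : ℝ) * ((l - q).factorial : ℝ) * (q.factorial : ℝ) ^ 2)

theorem c2_const (l q : ℕ) (hq : q ≤ l) :
    4 * Real.pi * I0 (l + 1) / nf (l + 1) * (c2K l q / 8) * 2 * 2 ^ (l - q) = c2Ch l q := by
  rw [I0_eq (l + 1) (by omega)]
  unfold nf c2K c2Ch
  obtain ⟨m, rfl⟩ : ∃ m, l = q + m := ⟨l - q, by omega⟩
  have h1 : ((2 * (q + m + 1)).factorial : ℝ) =
      2 * ((q : ℝ) + m + 1) * ((2 * (q + m) + 1).factorial : ℝ) := by
    rw [show 2 * (q + m + 1) = (2 * (q + m) + 1) + 1 by ring, Nat.factorial_succ]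
    push_cast
    ring
  rw [h1, Nat.add_sub_cancel, Nat.add_sub_cancel_left]
  have h2 : ((q + m).factorial : ℝ) ≠ 0 := by positivity
  have h3 : (((q + m + 1 : ℕ) : ℝ) / 2) ^ (2 * (q + m + 1) + 1) =
      ((q : ℝ) + m + 1) ^ (2 * (q + m + 1) + 2) / (((q : ℝ) + m + 1) * 2 * (4 * 4 ^ (q + m))) := by
    rw [div_pow, show (2 : ℝ) ^ (2 * (q + m + 1) + 1) = 2 * (4 * 4 ^ (q + m)) by
      rw [pow_succ, pow_mul]; norm_num; ring]
    push_cast
    have : (q : ℝ) + m + 1 ≠ 0 := by (clear * -; positivity)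
    field_simp
    ring
  rw [h3]
  have h4 : (4 : ℝ) ^ (q + m) = 2 ^ (q + m + q) * 2 ^ m := by
    rw [← pow_add, show (4 : ℝ) = 2 ^ 2 by norm_num, ← pow_mul]
    congr 1
    ring
  rw [h4]
  have h5 : (q : ℝ) + m + 1 ≠ 0 := by (clear * -; positivity)
  push_cast
  field_simp
  ring

/-- Stirling model -/
noncomputable def c2g (n : ℕ) : ℝ := Real.sqrt n * (n : ℝ) ^ n

theorem c2g_pos (n : ℕ) (hn : 1 ≤ n) : 0 < c2g n := by
  unfold c2g
  have : (0 : ℝ) < n := by exact_mod_cast hn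
  positivity

theorem c2_fac_low (n : ℕ) (hn : 1 ≤ n) : 5 / 2 * c2g n ≤ (n.factorial : ℝ) * Real.exp 1 ^ n := by
  have h := Stirling.le_factorial_stirling n
  have hn' : (0 : ℝ) < n := by exact_mod_cast hn
  have h1 : (5 / 2 : ℝ) * Real.sqrt n ≤ Real.sqrt (2 * Real.pi * n) := by
    apply Real.le_sqrt_of_sq_le
    rw [mul_pow, Real.sq_sqrt hn'.le]
    linarith only [mul_nonneg_of_nonpos_of_nonpos (Mathlib.Tactic.Linarith.sub_nonpos_of_le (Mathlib.Tactic.Linarith.natCast_nonneg ℝ n)) (le_of_lt (Mathlib.Tactic.Linarith.sub_neg_of_lt Real.pi_gt_d2)), Mathlib.Tactic.Linarith.natCast_nonneg ℝ n]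
  rw [div_pow] at h
  have h2 : 0 < Real.exp 1 ^ n := by positivity
  have h3 := mul_le_mul_of_nonneg_right h h2.le
  rw [mul_assoc, div_mul_cancel₀ _ h2.ne'] at h3
  refine le_trans ?_ h3
  unfold c2g
  rw [← mul_assoc]
  exact mul_le_mul_of_nonneg_right h1 (by positivity)

theorem c2_fac_up (n : ℕ) (hn : 1 ≤ n) : (n.factorial : ℝ) * Real.exp 1 ^ n ≤ Real.exp 1 * c2g n := by
  have hn' : (0 : ℝ) < n := by exact_mod_cast hn
  have h : Stirling.stirlingSeq n ≤ Real.exp 1 / Real.sqrt 2 := by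
    obtain ⟨m, rfl⟩ : ∃ m, n = m + 1 := ⟨n - 1, by omega⟩
    rw [← Stirling.stirlingSeq_one]
    exact Stirling.stirlingSeq'_antitone (Nat.zero_le m)
  unfold Stirling.stirlingSeq at h
  have h2 : 0 < Real.exp 1 ^ n := by positivity
  have h3 : 0 < Real.sqrt (2 * (n : ℝ)) * ((n : ℝ) / Real.exp 1) ^ n := by positivity
  rw [div_le_iff₀ h3] at h
  have h4 := mul_le_mul_of_nonneg_right h h2.le
  refine h4.trans (le_of_eq ?_)
  unfold c2g
  rw [div_pow, Real.sqrt_mul (by norm_num : (0 : ℝ) ≤ 2)]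
  field_simp

/-- the exponential factor -/
noncomputable def c2X (l q : ℕ) : ℝ :=
  (l : ℝ) ^ (2 * l) / (((l + q : ℕ) : ℝ) ^ (l + q) * ((l - q : ℕ) : ℝ) ^ (l - q))

theorem c2g_ratio (m q : ℕ) (hm : 1 ≤ m) (hq : 1 ≤ q) :
    c2g (2 * (m + q)) * c2g (m + 2 * q) * c2g (2 * q) =
      (Real.sqrt (4 * q * (m + q) * (m + 2 * q)) / (Real.sqrt (2 * m * (m + 2 * q)) * q)) *
        c2X (m + q) q * (c2g (2 * (m + 2 * q)) * c2g m * c2g q ^ 2) := by
  have hm' : (0 : ℝ) < m := by exact_mod_cast hm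
  have hq' : (0 : ℝ) < q := by exact_mod_cast hq
  unfold c2g c2X
  rw [show m + q + q = m + 2 * q by ring, Nat.add_sub_cancel]
  have s1 : Real.sqrt ((2 * (m + q) : ℕ) : ℝ) * Real.sqrt ((m + 2 * q : ℕ) : ℝ) *
      Real.sqrt ((2 * q : ℕ) : ℝ) = Real.sqrt (4 * q * (m + q) * (m + 2 * q)) := by
    rw [← Real.sqrt_mul (by positivity), ← Real.sqrt_mul (by positivity)]
    congr 1
    push_cast
    ring
  have s2 : Real.sqrt ((2 * (m + 2 * q) : ℕ) : ℝ) * Real.sqrt ((m : ℕ) : ℝ) *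
      (Real.sqrt ((q : ℕ) : ℝ)) ^ 2 = Real.sqrt (2 * m * (m + 2 * q)) * q := by
    rw [← Real.sqrt_mul (by positivity), Real.sq_sqrt (by positivity)]
    congr 2
    push_cast
    ring
  have p1 : ((2 * (m + q) : ℕ) : ℝ) ^ (2 * (m + q)) * ((m + 2 * q : ℕ) : ℝ) ^ (m + 2 * q) *
      ((2 * q : ℕ) : ℝ) ^ (2 * q) * (((m + 2 * q : ℕ) : ℝ) ^ (m + 2 * q) * (m : ℝ) ^ m) =
      ((m + q : ℕ) : ℝ) ^ (2 * (m + q)) *
        (((2 * (m + 2 * q) : ℕ) : ℝ) ^ (2 * (m + 2 * q)) * (m : ℝ) ^ m * ((q : ℝ) ^ q) ^ 2) := by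
    push_cast
    rw [mul_pow, mul_pow, mul_pow]
    rw [show 2 * (m + 2 * q) = (m + 2 * q) + (m + 2 * q) by ring, pow_add ((m : ℝ) + 2 * q)]
    rw [show ((q : ℝ) ^ q) ^ 2 = (q : ℝ) ^ (2 * q) by rw [← pow_mul]; congr 1; ring]
    rw [show (2 : ℝ) ^ ((m + 2 * q) + (m + 2 * q)) = 2 ^ (2 * (m + q)) * 2 ^ (2 * q) by
      rw [← pow_add]; congr 1; ring]
    ring
  have hX : ((m + 2 * q : ℕ) : ℝ) ^ (m + 2 * q) * (m : ℝ) ^ m ≠ 0 := by positivity
  have hS : Real.sqrt (2 * m * (m + 2 * q)) * (q : ℝ) ≠ 0 := by positivity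
  calc _ = (Real.sqrt ((2 * (m + q) : ℕ) : ℝ) * Real.sqrt ((m + 2 * q : ℕ) : ℝ) *
      Real.sqrt ((2 * q : ℕ) : ℝ)) * (((2 * (m + q) : ℕ) : ℝ) ^ (2 * (m + q)) *
      ((m + 2 * q : ℕ) : ℝ) ^ (m + 2 * q) * ((2 * q : ℕ) : ℝ) ^ (2 * q)) := by ring
    _ = Real.sqrt (4 * q * (m + q) * (m + 2 * q)) * (((m + q : ℕ) : ℝ) ^ (2 * (m + q)) *
        (((2 * (m + 2 * q) : ℕ) : ℝ) ^ (2 * (m + 2 * q)) * (m : ℝ) ^ m * ((q : ℝ) ^ q) ^ 2) /
        (((m + 2 * q : ℕ) : ℝ) ^ (m + 2 * q) * (m : ℝ) ^ m)) := by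
      rw [s1, ← p1, mul_div_cancel_right₀ _ hX]
    _ = Real.sqrt (4 * q * (m + q) * (m + 2 * q)) / (Real.sqrt (2 * m * (m + 2 * q)) * q) *
        (((m + q : ℕ) : ℝ) ^ (2 * (m + q)) / (((m + 2 * q : ℕ) : ℝ) ^ (m + 2 * q) * (m : ℝ) ^ m)) *
        ((Real.sqrt (2 * m * (m + 2 * q)) * q) * (((2 * (m + 2 * q) : ℕ) : ℝ) ^ (2 * (m + 2 * q)) *
          (m : ℝ) ^ m * ((q : ℝ) ^ q) ^ 2)) := by
      field_simp
    _ = _ := by
      rw [← s2]
      ring

theorem c2X_pos (m q : ℕ) (hm : 1 ≤ m) : 0 < c2X (m + q) q := by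
  have hm' : (0 : ℝ) < m := by exact_mod_cast hm
  unfold c2X
  rw [Nat.add_sub_cancel]
  positivity

theorem c2_sqrt_ratio (m q : ℕ) (hm : 1 ≤ m) (hq : 1 ≤ q) :
    1 / (q : ℝ) ≤ Real.sqrt (4 * q * (m + q) * (m + 2 * q)) / (Real.sqrt (2 * m * (m + 2 * q)) * q)
    ∧ Real.sqrt (4 * q * (m + q) * (m + 2 * q)) / (Real.sqrt (2 * m * (m + 2 * q)) * q) ≤ 2 := by
  have hm' : (1 : ℝ) ≤ m := by exact_mod_cast hm
  have hq' : (1 : ℝ) ≤ q := by exact_mod_cast hq
  have hS : 0 < Real.sqrt (2 * m * (m + 2 * q)) * (q : ℝ) := by positivity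
  constructor
  · rw [div_le_div_iff₀ (by positivity) hS, one_mul]
    refine mul_le_mul_of_nonneg_right (Real.sqrt_le_sqrt ?_) (by positivity)
    have h1 : 2 * (m : ℝ) ≤ 4 * q * (m + q) := by linarith only [mul_nonneg_of_nonpos_of_nonpos (Mathlib.Tactic.Linarith.sub_nonpos_of_le (Mathlib.Tactic.Linarith.natCast_nonneg ℝ m)) (Mathlib.Tactic.Linarith.sub_nonpos_of_le hq'), mul_nonneg_of_nonpos_of_nonpos (Mathlib.Tactic.Linarith.sub_nonpos_of_le (Mathlib.Tactic.Linarith.natCast_nonneg ℝ q)) (Mathlib.Tactic.Linarith.sub_nonpos_of_le hq')]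
    exact mul_le_mul_of_nonneg_right h1 (by positivity)
  · rw [div_le_iff₀ hS]
    rw [show 2 * (Real.sqrt (2 * m * (m + 2 * q)) * (q : ℝ)) =
      Real.sqrt ((2 * q) ^ 2 * (2 * m * (m + 2 * q))) by
      rw [Real.sqrt_mul (x := (2 * (q : ℝ)) ^ 2) (by positivity) (2 * m * (m + 2 * q)),
        Real.sqrt_sq (by positivity)]; ring]
    refine Real.sqrt_le_sqrt ?_
    have h1 : (m : ℝ) + q ≤ 2 * (m * q) := by nlinarith only [hq', hm']
    have h2 : (0 : ℝ) ≤ 4 * q * (m + 2 * q) := by positivity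
    linarith only [mul_le_mul_of_nonneg_left h1 h2]

theorem c2Ch_eq (m q : ℕ) : c2Ch (m + q) q = 1 / 2 * ((2 * (m + q) + 1) / (2 * (m + 2 * q) + 1)) *
    ((((2 * (m + q)).factorial : ℝ) * ((m + 2 * q).factorial : ℝ) * ((2 * q).factorial : ℝ)) /
      (((2 * (m + 2 * q)).factorial : ℝ) * (m.factorial : ℝ) * (q.factorial : ℝ) ^ 2)) := by
  unfold c2Ch
  rw [Nat.add_sub_cancel, show m + q + q = m + 2 * q by ring,
    show 2 * (m + q) + 2 * q + 1 = 2 * (m + 2 * q) + 1 by ring, Nat.factorial_succ,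
    Nat.factorial_succ]
  push_cast
  field_simp

theorem c2_mul3_le {a b c a' b' c' : ℝ} (ha : a ≤ a') (hb : b ≤ b') (hc : c ≤ c') (h0 : 0 ≤ a)
    (h1 : 0 ≤ b) (h2 : 0 ≤ c) : a * b * c ≤ a' * b' * c' :=
  mul_le_mul (mul_le_mul ha hb h1 (h0.trans ha)) hc h2
    (mul_nonneg (h0.trans ha) (h1.trans hb))

theorem c2Ch_bounds (m q : ℕ) (hm : 1 ≤ m) (hq : 1 ≤ q) :
    c2X (m + q) q / (16 * q) ≤ c2Ch (m + q) q ∧ c2Ch (m + q) q ≤ c2X (m + q) q := by
  have hm' : (1 : ℝ) ≤ m := by exact_mod_cast hm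
  have hq' : (1 : ℝ) ≤ q := by exact_mod_cast hq
  have hX := c2X_pos m q hm
  obtain ⟨hs1, hs2⟩ := c2_sqrt_ratio m q hm hq
  have hr := c2g_ratio m q hm hq
  set Y := Real.sqrt (4 * q * (m + q) * (m + 2 * q)) / (Real.sqrt (2 * m * (m + 2 * q)) * q)
  set E := Real.exp 1 with hE
  have hE0 : 0 < E := Real.exp_pos 1
  have hE1 : E ≤ 2.72 := by have := Real.exp_one_lt_d9; rw [hE]; linarith only [this]
  set R := (((2 * (m + q)).factorial : ℝ) * ((m + 2 * q).factorial : ℝ) *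
      ((2 * q).factorial : ℝ)) /
      (((2 * (m + 2 * q)).factorial : ℝ) * (m.factorial : ℝ) * (q.factorial : ℝ) ^ 2) with hR
  set N := ((2 * (m + q)).factorial * E ^ (2 * (m + q))) * ((m + 2 * q).factorial * E ^ (m + 2 * q))
    * ((2 * q).factorial * E ^ (2 * q)) with hN
  set D := ((2 * (m + 2 * q)).factorial * E ^ (2 * (m + 2 * q))) * (m.factorial * E ^ m) *
    (q.factorial * E ^ q) ^ 2 with hD
  have hRN : R = N / D := by
    rw [hR, hN, hD]
    have e1 : E ^ (2 * (m + q)) * E ^ (m + 2 * q) * E ^ (2 * q) =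
        E ^ (2 * (m + 2 * q)) * E ^ m * (E ^ q) ^ 2 := by
      rw [← pow_mul, ← pow_add, ← pow_add, ← pow_add, ← pow_add]
      congr 1
      ring
    rw [div_eq_div_iff (by positivity) (by positivity)]
    linear_combination (-(((2 * (m + q)).factorial : ℝ) * ((m + 2 * q).factorial : ℝ) *
      ((2 * q).factorial : ℝ) * ((2 * (m + 2 * q)).factorial : ℝ) * (m.factorial : ℝ) *
      (q.factorial : ℝ) ^ 2)) * e1
  set G := c2g (2 * (m + q)) * c2g (m + 2 * q) * c2g (2 * q) with hG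
  set H := c2g (2 * (m + 2 * q)) * c2g m * c2g q ^ 2 with hH
  have hG0 : 0 < G := by
    have := c2g_pos (2 * (m + q)) (by omega)
    have := c2g_pos (m + 2 * q) (by omega)
    have := c2g_pos (2 * q) (by omega)
    positivity
  have hH0 : 0 < H := by
    have := c2g_pos (2 * (m + 2 * q)) (by omega)
    have := c2g_pos m (by omega)
    have := c2g_pos q (by omega)
    positivity
  have hD0 : 0 < D := by positivity
  have n1 : N ≤ E ^ 3 * G := by
    calc N ≤ (E * c2g (2 * (m + q))) * (E * c2g (m + 2 * q)) * (E * c2g (2 * q)) := by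
          exact c2_mul3_le (c2_fac_up _ (by omega)) (c2_fac_up _ (by omega)) (c2_fac_up _ (by omega))
            (by positivity) (by positivity) (by positivity)
      _ = E ^ 3 * G := by rw [hG]; ring
  have n2 : (5 / 2) ^ 3 * G ≤ N := by
    calc (5 / 2) ^ 3 * G = (5 / 2 * c2g (2 * (m + q))) * (5 / 2 * c2g (m + 2 * q)) *
          (5 / 2 * c2g (2 * q)) := by rw [hG]; ring
      _ ≤ N := by
          have := c2g_pos (2 * (m + q)) (by omega)
          have := c2g_pos (m + 2 * q) (by omega)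
          have := c2g_pos (2 * q) (by omega)
          exact c2_mul3_le (c2_fac_low _ (by omega)) (c2_fac_low _ (by omega)) (c2_fac_low _ (by omega))
            (by positivity) (by positivity) (by positivity)
  have d1 : D ≤ E ^ 4 * H := by
    calc D ≤ (E * c2g (2 * (m + 2 * q))) * (E * c2g m) * (E * c2g q) ^ 2 := by
          exact c2_mul3_le (c2_fac_up _ (by omega)) (c2_fac_up _ (by omega))
            (pow_le_pow_left₀ (by positivity) (c2_fac_up _ (by omega)) 2)
            (by positivity) (by positivity) (by positivity)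
      _ = E ^ 4 * H := by rw [hH]; ring
  have d2 : (5 / 2) ^ 4 * H ≤ D := by
    calc (5 / 2) ^ 4 * H = (5 / 2 * c2g (2 * (m + 2 * q))) * (5 / 2 * c2g m) *
          (5 / 2 * c2g q) ^ 2 := by rw [hH]; ring
      _ ≤ D := by
          have := c2g_pos (2 * (m + 2 * q)) (by omega)
          have := c2g_pos m (by omega)
          have := c2g_pos q (by omega)
          exact c2_mul3_le (c2_fac_low _ (by omega)) (c2_fac_low _ (by omega))
            (pow_le_pow_left₀ (by (clear * - this; positivity)) (c2_fac_low _ (by omega)) 2)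
            (by positivity) (by positivity) (by positivity)
  have hGH : G = Y * c2X (m + q) q * H := hr
  have hY0 : 0 < Y := lt_of_lt_of_le (by positivity) hs1
  have r1 : R ≤ 2 * c2X (m + q) q := by
    rw [hRN, div_le_iff₀ hD0]
    have h1 : E ^ 3 ≤ (5 / 2) ^ 4 := by
      calc E ^ 3 ≤ 2.72 ^ 3 := by gcongr
        _ ≤ (5 / 2) ^ 4 := by norm_num
    calc N ≤ E ^ 3 * G := n1
      _ ≤ (5 / 2) ^ 4 * G := by gcongr
      _ = Y * c2X (m + q) q * ((5 / 2) ^ 4 * H) := by rw [hGH]; ring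
      _ ≤ Y * c2X (m + q) q * D := by gcongr
      _ ≤ 2 * c2X (m + q) q * D := by gcongr
  have r2 : c2X (m + q) q / (4 * q) ≤ R := by
    rw [hRN, le_div_iff₀ hD0]
    have h1 : E ^ 4 ≤ 4 * (5 / 2) ^ 3 := by
      calc E ^ 4 ≤ 2.72 ^ 4 := by gcongr
        _ ≤ 4 * (5 / 2) ^ 3 := by norm_num
    calc c2X (m + q) q / (4 * q) * D ≤ c2X (m + q) q / (4 * q) * (E ^ 4 * H) := by gcongr
      _ ≤ c2X (m + q) q / (4 * q) * ((4 * (5 / 2) ^ 3) * H) := by gcongr
      _ = (5 / 2) ^ 3 * ((1 / q) * c2X (m + q) q * H) := by field_simp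
      _ ≤ (5 / 2) ^ 3 * (Y * c2X (m + q) q * H) := by gcongr
      _ = (5 / 2) ^ 3 * G := by rw [hGH]
      _ ≤ N := n2
  rw [c2Ch_eq]
  have hR0 : 0 < R := lt_of_lt_of_le (by positivity) r2
  have hf1 : (1 / 2 : ℝ) ≤ (2 * (m + q) + 1) / (2 * (m + 2 * q) + 1) := by
    rw [div_le_div_iff₀ (by norm_num) (by positivity)]
    linarith only []
  have hf2 : (2 * ((m : ℝ) + q) + 1) / (2 * (m + 2 * q) + 1) ≤ 1 := by
    rw [div_le_one (by positivity)]
    linarith only []
  constructor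
  · calc c2X (m + q) q / (16 * q) = 1 / 2 * (1 / 2) * (c2X (m + q) q / (4 * q)) := by
          field_simp
          norm_num
      _ ≤ 1 / 2 * ((2 * (m + q) + 1) / (2 * (m + 2 * q) + 1)) * R := by gcongr
  · calc 1 / 2 * ((2 * ((m : ℝ) + q) + 1) / (2 * (m + 2 * q) + 1)) * R ≤ 1 / 2 * 1 *
          (2 * c2X (m + q) q) := by gcongr
      _ = c2X (m + q) q := by ring

/-- the product of the exponential factor and the geometric factor -/
noncomputable def c2E (l q : ℕ) (c : ℝ) : ℝ := c2X l q * ((1 - c) ^ (l - q) * (1 + c) ^ (l + q))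

theorem c2E_eq (m q : ℕ) (hm : 1 ≤ m) (c : ℝ) : c2E (m + q) q c =
    (((m : ℝ) + q) * (1 + c) / (m + 2 * q)) ^ (m + 2 * q) * (((m : ℝ) + q) * (1 - c) / m) ^ m := by
  have hm' : (0 : ℝ) < m := by exact_mod_cast hm
  unfold c2E c2X
  rw [Nat.add_sub_cancel, show m + q + q = m + 2 * q by ring, div_pow, div_pow, mul_pow, mul_pow]
  have h1 : ((m : ℝ) + q) ^ (2 * (m + q)) = ((m : ℝ) + q) ^ (m + 2 * q) * ((m : ℝ) + q) ^ m := by
    rw [← pow_add]; congr 1; ring
  push_cast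
  rw [h1]
  field_simp

theorem c2E_low (m q : ℕ) (hm : 1 ≤ m) (c : ℝ) (hc0 : 0 ≤ c) (hc1 : c < 1)
    (h : |(q : ℝ) - (m + q) * c| ≤ 1) (hl : 64 ≤ ((m : ℝ) + q) * (1 - c ^ 2)) :
    1 / 2 ≤ c2E (m + q) q c := by
  have hm' : (0 : ℝ) < m := by exact_mod_cast hm
  have hq' : (0 : ℝ) ≤ q := by positivity
  have key : ∀ (t : ℝ) (N : ℕ), 0 < t → Real.exp (N * (1 - 1 / t)) ≤ t ^ N := by
    intro t N ht
    rw [Real.exp_nat_mul]
    refine pow_le_pow_left₀ (Real.exp_pos _).le ?_ N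
    rw [← Real.le_log_iff_exp_le ht]
    have := Real.one_sub_inv_le_log_of_pos ht
    rwa [one_div]
  have hl0 : (0 : ℝ) < m + q := by positivity
  have hc' : 0 < 1 - c := by linarith only [hc1]
  have hc'' : 0 < 1 + c := by linarith only [hc0]
  rw [c2E_eq m q hm]
  have h1 := key (((m : ℝ) + q) * (1 + c) / (m + 2 * q)) (m + 2 * q) (by (clear * - hm hc0; positivity))
  have h2 := key (((m : ℝ) + q) * (1 - c) / m) m (by positivity)
  refine le_trans ?_ (mul_le_mul h1 h2 (Real.exp_pos _).le (by positivity))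
  rw [← Real.exp_add]
  have h3 : (((m + 2 * q : ℕ) : ℝ) * (1 - 1 / (((m : ℝ) + q) * (1 + c) / (m + 2 * q))) +
      (m : ℝ) * (1 - 1 / (((m : ℝ) + q) * (1 - c) / m))) =
      -(2 * ((q : ℝ) - (m + q) * c) ^ 2 / ((m + q) * (1 - c ^ 2))) := by
    have : 1 - c ^ 2 = (1 - c) * (1 + c) := by ring
    rw [this]
    push_cast
    field_simp
    ring
  rw [h3]
  have h4 : 2 * ((q : ℝ) - (m + q) * c) ^ 2 / ((m + q) * (1 - c ^ 2)) ≤ 1 / 2 := by
    rw [div_le_iff₀ (by linarith only [hl])]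
    have := sq_abs ((q : ℝ) - (m + q) * c)
    have h5 := abs_nonneg ((q : ℝ) - (m + q) * c)
    linarith only [mul_nonneg_of_nonpos_of_nonpos (Mathlib.Tactic.Linarith.sub_nonpos_of_le h) (Mathlib.Tactic.Linarith.sub_nonpos_of_le h5), this, hl, h]
  have h5 := Real.add_one_le_exp (-(2 * ((q : ℝ) - (m + q) * c) ^ 2 / ((m + q) * (1 - c ^ 2))))
  linarith only [h4, h5]

theorem c2_gm {a b : ℝ} (ha : 0 ≤ a) (ha1 : a ≤ 1) (hb : 0 ≤ b) (hb1 : b ≤ 1) :
    Real.sqrt (a * b) ≤ (a + b) / 2 - (a - b) ^ 2 / 8 := by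
  rw [Real.sqrt_mul ha]
  have hA0 := Real.sqrt_nonneg a
  have hB0 := Real.sqrt_nonneg b
  have hA1 : Real.sqrt a ≤ 1 := by rw [Real.sqrt_le_one]; exact ha1
  have hB1 : Real.sqrt b ≤ 1 := by rw [Real.sqrt_le_one]; exact hb1
  have hA := Real.sq_sqrt ha
  have hB := Real.sq_sqrt hb
  generalize Real.sqrt a = A at *
  generalize Real.sqrt b = B at *
  subst hA hB
  have h1 : (A + B) ^ 2 ≤ 4 := by nlinarith only [ha1, hb1]
  have h2 : (A ^ 2 - B ^ 2) ^ 2 ≤ 4 * (A - B) ^ 2 := by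
    have : (A ^ 2 - B ^ 2) ^ 2 = (A - B) ^ 2 * (A + B) ^ 2 := by ring
    rw [this, mul_comm 4]
    exact mul_le_mul_of_nonneg_left h1 (sq_nonneg _)
  linarith only [h2]

theorem c2E_up (m q : ℕ) (hm : 1 ≤ m) (c : ℝ) (hc0 : 0 ≤ c) (hc1 : c ≤ 1) :
    c2E (m + q) q c ≤ Real.exp (-(((m : ℝ) + q) * (((q : ℝ) / (m + q) - c) ^ 2 / 4))) := by
  have hm' : (0 : ℝ) < m := by exact_mod_cast hm
  have hq' : (0 : ℝ) ≤ q := by positivity
  have hl0 : (0 : ℝ) < m + q := by positivity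
  have key : ∀ (t : ℝ) (N : ℕ), 0 ≤ t → t ^ N ≤ Real.exp (N * (2 * (Real.sqrt t - 1))) := by
    intro t N ht
    rw [Real.exp_nat_mul]
    refine pow_le_pow_left₀ ht ?_ N
    have h1 := Real.add_one_le_exp (Real.sqrt t - 1)
    rw [sub_add_cancel] at h1
    calc t = Real.sqrt t ^ 2 := (Real.sq_sqrt ht).symm
      _ ≤ Real.exp (Real.sqrt t - 1) ^ 2 := pow_le_pow_left₀ (Real.sqrt_nonneg _) h1 2
      _ = Real.exp (2 * (Real.sqrt t - 1)) := by rw [← Real.exp_nat_mul]; norm_num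
  have hc' : 0 ≤ 1 - c := by linarith only [hc1]
  have hc'' : 0 < 1 + c := by linarith only [hc0]
  rw [c2E_eq m q hm]
  have h1 := key (((m : ℝ) + q) * (1 + c) / (m + 2 * q)) (m + 2 * q) (by (clear * - hm hc0; positivity))
  have h2 := key (((m : ℝ) + q) * (1 - c) / m) m (by positivity)
  refine (mul_le_mul h1 h2 (by positivity) (Real.exp_pos _).le).trans ?_
  rw [← Real.exp_add, Real.exp_le_exp]
  set x : ℝ := (q : ℝ) / (m + q) with hx
  have hx0 : 0 ≤ x := by positivity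
  have hx1 : x < 1 := by rw [hx, div_lt_one hl0]; linarith only [hm']
  have hxq : (q : ℝ) = (m + q) * x := by rw [hx]; field_simp
  have hxm : (m : ℝ) = (m + q) * (1 - x) := by rw [hx]; field_simp; ring
  have e1 : ((m : ℝ) + q) * (1 + c) / (m + 2 * q) = (1 + c) / (1 + x) := by
    rw [hx]; field_simp; ring
  have e2 : ((m : ℝ) + q) * (1 - c) / m = (1 - c) / (1 - x) := by
    have : 1 - x = m / (m + q) := by rw [hx]; field_simp; ring
    rw [this]
    field_simp
  have e3 : ((m + 2 * q : ℕ) : ℝ) = (m + q) * (1 + x) := by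
    push_cast
    rw [hx]; field_simp; ring
  rw [e1, e2, e3]
  have f1 : (1 + x) * Real.sqrt ((1 + c) / (1 + x)) = Real.sqrt ((1 + c) * (1 + x)) := by
    rw [show (1 + c) * (1 + x) = (1 + x) ^ 2 * ((1 + c) / (1 + x)) by field_simp,
      Real.sqrt_mul (by (clear * - hm; positivity)), Real.sqrt_sq (by (clear * - hm; positivity))]
  have hx1' : 0 < 1 - x := by linarith only [hx1]
  have f2 : (1 - x) * Real.sqrt ((1 - c) / (1 - x)) = Real.sqrt ((1 - c) * (1 - x)) := by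
    rw [show (1 - c) * (1 - x) = (1 - x) ^ 2 * ((1 - c) / (1 - x)) by field_simp,
      Real.sqrt_mul (by positivity), Real.sqrt_sq (by positivity)]
  have g1 : Real.sqrt ((1 + c) * (1 + x)) ≤ ((1 + c) + (1 + x)) / 2 := by
    rw [Real.sqrt_le_left (by (clear * - hc0 hm; positivity))]
    linarith only [sq_nonneg (c - x)]
  have g2 : Real.sqrt ((1 - c) * (1 - x)) ≤ ((1 - c) + (1 - x)) / 2 - (x - c) ^ 2 / 8 := by
    have := c2_gm hc' (by linarith only [hc0] : 1 - c ≤ 1) hx1'.le (by linarith only [hx0] : 1 - x ≤ 1)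
    rw [show (1 - c) - (1 - x) = x - c by ring] at this
    exact this
  have hm2 : (m : ℝ) * (2 * (Real.sqrt ((1 - c) / (1 - x)) - 1)) =
      (m + q) * (2 * (Real.sqrt ((1 - c) * (1 - x)) - (1 - x))) := by
    rw [← f2]
    nth_rewrite 1 [hxm]
    ring
  have hm3 : (m + q) * (1 + x) * (2 * (Real.sqrt ((1 + c) / (1 + x)) - 1)) =
      (m + q) * (2 * (Real.sqrt ((1 + c) * (1 + x)) - (1 + x))) := by
    rw [← f1]
    ring
  rw [hm2, hm3, ← mul_add, ← mul_neg]
  refine mul_le_mul_of_nonneg_left ?_ hl0.le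
  linarith only [g1, g2]

/-- upper bound for one term -/
theorem c2_term_up (m q : ℕ) (hm : 1 ≤ m) (c k η : ℝ) (hc : |c| ≤ 1) (hk : |k| ≤ 1)
    (h : η ≤ ((q : ℝ) / (m + q) - |c|) ^ 2 / 4 ∨ η ≤ (q : ℝ) / (m + q) * (1 - |k|)) :
    c2X (m + q) q * ((1 - c ^ 2) ^ m * (|c| + |k|) ^ (2 * q)) ≤
      Real.exp (-(((m : ℝ) + q) * η)) := by
  have hm' : (0 : ℝ) < m := by exact_mod_cast hm
  have hq' : (0 : ℝ) ≤ q := by (clear * -; positivity)
  have hl0 : (0 : ℝ) < m + q := by positivity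
  have hX := c2X_pos m q hm
  have hc0 := abs_nonneg c
  have hk0 := abs_nonneg k
  have h1 : |c| + |k| ≤ (1 + |c|) * Real.exp (-((1 - |k|) / 2)) := by
    have h2 := Real.add_one_le_exp (-((1 - |k|) / 2))
    have h3 : (1 + |c|) * (-((1 - |k|) / 2) + 1) ≤ (1 + |c|) * Real.exp (-((1 - |k|) / 2)) :=
      mul_le_mul_of_nonneg_left h2 (by positivity)
    linarith only [mul_nonneg_of_nonpos_of_nonpos (Mathlib.Tactic.Linarith.sub_nonpos_of_le hc) (Mathlib.Tactic.Linarith.sub_nonpos_of_le hk), h3]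
  have h2 : (|c| + |k|) ^ (2 * q) ≤ (1 + |c|) ^ (2 * q) * Real.exp (-(q * (1 - |k|))) := by
    refine (pow_le_pow_left₀ (by (clear * -; positivity)) h1 (2 * q)).trans (le_of_eq ?_)
    rw [mul_pow, ← Real.exp_nat_mul]
    congr 2
    push_cast
    ring
  have hsq : 1 - c ^ 2 = (1 - |c|) * (1 + |c|) := by rw [← sq_abs c]; ring
  have h1c : 0 ≤ 1 - |c| := by linarith only [hc]
  have h3 : c2X (m + q) q * ((1 - c ^ 2) ^ m * (|c| + |k|) ^ (2 * q)) ≤
      c2E (m + q) q |c| * Real.exp (-(q * (1 - |k|))) := by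
    unfold c2E
    rw [hsq, mul_pow, Nat.add_sub_cancel, show m + q + q = m + 2 * q by ring, pow_add (1 + |c|)]
    calc c2X (m + q) q * ((1 - |c|) ^ m * (1 + |c|) ^ m * (|c| + |k|) ^ (2 * q))
        ≤ c2X (m + q) q * ((1 - |c|) ^ m * (1 + |c|) ^ m *
          ((1 + |c|) ^ (2 * q) * Real.exp (-(q * (1 - |k|))))) := by gcongr
      _ = _ := by ring
  have h4 := c2E_up m q hm |c| hc0 hc
  refine h3.trans ((mul_le_mul_of_nonneg_right h4 (Real.exp_pos _).le).trans ?_)
  rw [← Real.exp_add, Real.exp_le_exp]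
  have h5 : 0 ≤ ((m : ℝ) + q) * (((q : ℝ) / (m + q) - |c|) ^ 2 / 4) := by (clear * - hm; positivity)
  have h6 : 0 ≤ (q : ℝ) * (1 - |k|) := mul_nonneg hq' (by linarith only [hk])
  rcases h with h | h
  · have := mul_le_mul_of_nonneg_left h hl0.le
    linarith only [h6, this]
  · have := mul_le_mul_of_nonneg_left h hl0.le
    have e : ((m : ℝ) + q) * ((q : ℝ) / (m + q) * (1 - |k|)) = q * (1 - |k|) := by field_simp
    rw [e] at this
    linarith only [h5, this]

theorem hopA_form (m q : ℕ) (γ α β : ℝ) :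
    hopA (m + q + 1) q γ α β = c2Ch (m + q) q *
      ((Real.sin ((α - β) / 2) ^ 2) ^ m *
        ((Real.cos ((α - β) / 2) - Real.cos ((α + β) / 2 - γ)) ^ (2 * q) +
          (Real.cos ((α - β) / 2) + Real.cos ((α + β) / 2 - γ)) ^ (2 * q)) +
      (Real.cos ((α - β) / 2) ^ 2) ^ m *
        ((Real.sin ((α + β) / 2 - γ) - Real.sin ((α - β) / 2)) ^ (2 * q) +
          (Real.sin ((α + β) / 2 - γ) + Real.sin ((α - β) / 2)) ^ (2 * q))) := by
  rw [hopA_closed (m + q + 1) q (by omega), Nat.add_sub_cancel, c2_T_sum,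
    ← c2_const (m + q) q (by omega), Nat.add_sub_cancel, mul_pow, mul_pow]
  ring

theorem c2_even_pow_le {a b : ℝ} (q : ℕ) :
    (a - b) ^ (2 * q) + (a + b) ^ (2 * q) ≤ 2 * (|a| + |b|) ^ (2 * q) := by
  have h : ∀ t : ℝ, |t| ≤ |a| + |b| → t ^ (2 * q) ≤ (|a| + |b|) ^ (2 * q) := by
    intro t ht
    rw [pow_mul, ← sq_abs t, ← pow_mul]
    exact pow_le_pow_left₀ (abs_nonneg _) ht _
  have h1 := h (a - b) (abs_sub _ _)
  have h2 := h (a + b) (abs_add_le _ _)
  linarith

/-- lower bound for the hopping amplitude of a matched device -/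
theorem hopA_lower (n q : ℕ) (hn : 2 ≤ n) (δ : ℝ) (hδ0 : 0 < δ) (hδ1 : δ < Real.pi / 2)
    (hq1 : 1 ≤ q) (hq2 : q ≤ n - 2)
    (hq : |(q : ℝ) - ((n : ℝ) - 1) * Real.cos δ| ≤ 1)
    (hlarge : 64 ≤ ((n : ℝ) - 1) * Real.cos δ ^ 2 * Real.sin δ ^ 2) (γ : ℝ) :
    1 / (64 * (n : ℝ) ^ 4) ≤ hopA n q γ (γ + δ) (γ - δ) := by
  obtain ⟨m, rfl⟩ : ∃ m, n = m + q + 1 := ⟨n - 1 - q, by omega⟩
  have hm : 1 ≤ m := by omega
  have hm' : (1 : ℝ) ≤ m := by exact_mod_cast hm
  have hq' : (1 : ℝ) ≤ q := by exact_mod_cast hq1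
  rw [hopA_form, show (γ + δ - (γ - δ)) / 2 = δ by ring,
    show (γ + δ + (γ - δ)) / 2 - γ = 0 by ring, Real.cos_zero, Real.sin_zero]
  have hc0 : 0 < Real.cos δ := Real.cos_pos_of_mem_Ioo ⟨by linarith only [hδ0, Real.pi_pos], hδ1⟩
  have hs0 : 0 < Real.sin δ := Real.sin_pos_of_pos_of_lt_pi hδ0 (by linarith only [hδ1, Real.pi_pos])
  have hsc := Real.sin_sq_add_cos_sq δ
  have hc1 : Real.cos δ < 1 := by nlinarith only [hsc, hs0]
  have hsq : 1 - Real.cos δ ^ 2 = Real.sin δ ^ 2 := by linarith only [hsc]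
  push_cast at hq hlarge ⊢
  rw [show (m : ℝ) + q + 1 - 1 = m + q by ring] at hq hlarge
  have hl : 64 ≤ ((m : ℝ) + q) * (1 - Real.cos δ ^ 2) := by
    rw [hsq]
    refine hlarge.trans ?_
    have h1 : Real.cos δ ^ 2 ≤ 1 := by linarith only [hsc, sq_nonneg (Real.sin δ)]
    have h2 : 0 ≤ ((m : ℝ) + q) * Real.sin δ ^ 2 := by positivity
    exact le_of_not_gt fun hng => by linarith only [Mathlib.Tactic.Linarith.mul_zero_eq (Mathlib.Tactic.Linarith.sub_nonpos_of_le hlarge) (sub_eq_zero_of_eq hsc), mul_pos_of_neg_of_neg (Mathlib.Tactic.Linarith.sub_neg_of_lt hc1) (Mathlib.Tactic.Linarith.sub_neg_of_lt hc0), mul_pos_of_neg_of_neg (Mathlib.Tactic.Linarith.sub_neg_of_lt hc1) (Mathlib.Tactic.Linarith.sub_neg_of_lt hc1), mul_nonneg_of_nonpos_of_nonpos (Mathlib.Tactic.Linarith.sub_nonpos_of_le (sq_nonneg (Real.cos δ))) (le_of_lt (Mathlib.Tactic.Linarith.sub_neg_of_lt hng)), mul_nonneg_of_nonpos_of_nonpos (Mathlib.Tactic.Linarith.sub_nonpos_of_le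 (sq_nonneg (Real.sin δ))) (Mathlib.Tactic.Linarith.sub_nonpos_of_le hlarge)]
  have hE := c2E_low m q hm (Real.cos δ) hc0.le hc1 hq hl
  obtain ⟨hCh, -⟩ := c2Ch_bounds m q hm hq1
  have hX := c2X_pos m q hm
  have hCh0 : 0 < c2Ch (m + q) q := lt_of_lt_of_le (by positivity) hCh
  have hEf : c2E (m + q) q (Real.cos δ) =
      c2X (m + q) q * ((Real.sin δ ^ 2) ^ m * (1 + Real.cos δ) ^ (2 * q)) := by
    unfold c2E
    rw [← hsq, show 1 - Real.cos δ ^ 2 = (1 - Real.cos δ) * (1 + Real.cos δ) by ring, mul_pow,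
      Nat.add_sub_cancel, show m + q + q = m + 2 * q by ring, pow_add (1 + Real.cos δ)]
    ring
  rw [hEf] at hE
  have h1 : 0 ≤ (Real.cos δ - 1) ^ (2 * q) := by rw [pow_mul]; (clear * -; positivity)
  have h2 : 0 ≤ (0 - Real.sin δ) ^ (2 * q) := by rw [pow_mul]; (clear * -; positivity)
  have h3 : 0 ≤ (0 + Real.sin δ) ^ (2 * q) := by positivity
  have h4 : (Real.sin δ ^ 2) ^ m * (1 + Real.cos δ) ^ (2 * q) ≤
      (Real.sin δ ^ 2) ^ m * ((Real.cos δ - 1) ^ (2 * q) + (Real.cos δ + 1) ^ (2 * q)) +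
      (Real.cos δ ^ 2) ^ m * ((0 - Real.sin δ) ^ (2 * q) + (0 + Real.sin δ) ^ (2 * q)) := by
    rw [add_comm 1 (Real.cos δ)]
    have h5 : 0 ≤ (Real.sin δ ^ 2) ^ m := by positivity
    have h6 : 0 ≤ (Real.cos δ ^ 2) ^ m := by positivity
    have h7 := mul_nonneg h5 h1
    have h8 := mul_nonneg h6 (add_nonneg h2 h3)
    linarith only [h7, h8]
  refine le_trans ?_ (mul_le_mul_of_nonneg_left h4 hCh0.le)
  calc 1 / (64 * ((m : ℝ) + q + 1) ^ 4) ≤ 1 / (16 * q) * (1 / 2) := by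
        rw [one_div_mul_one_div, div_le_div_iff₀ (by positivity) (by positivity)]
        have h9 : (q : ℝ) ≤ (m + q + 1) ^ 4 := by
          have h10 : (1 : ℝ) ≤ m + q + 1 := by linarith only []
          calc (q : ℝ) ≤ m + q + 1 := by linarith only []
            _ = (m + q + 1) ^ 1 := (pow_one _).symm
            _ ≤ (m + q + 1) ^ 4 := pow_le_pow_right₀ h10 (by norm_num)
        linarith only [h9]
    _ ≤ 1 / (16 * q) * (c2X (m + q) q * ((Real.sin δ ^ 2) ^ m *
        (1 + Real.cos δ) ^ (2 * q))) := by gcongr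
    _ = c2X (m + q) q / (16 * q) * ((Real.sin δ ^ 2) ^ m * (1 + Real.cos δ) ^ (2 * q)) := by ring
    _ ≤ c2Ch (m + q) q * ((Real.sin δ ^ 2) ^ m * (1 + Real.cos δ) ^ (2 * q)) := by gcongr

/-- selectivity -/
theorem hopA_upper (n q : ℕ) (hn : 2 ≤ n) (hq1 : 1 ≤ q) (hq2 : q ≤ n - 2) (γ α β η : ℝ)
    (hη : 0 ≤ η)
    (h1 : η ≤ ((q : ℝ) / ((n : ℝ) - 1) - |Real.cos ((α - β) / 2)|) ^ 2 / 4 ∨
      η ≤ (q : ℝ) / ((n : ℝ) - 1) * (1 - |Real.cos ((α + β) / 2 - γ)|))
    (h2 : η ≤ ((q : ℝ) / ((n : ℝ) - 1) - |Real.sin ((α - β) / 2)|) ^ 2 / 4 ∨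
      η ≤ (q : ℝ) / ((n : ℝ) - 1) * (1 - |Real.sin ((α + β) / 2 - γ)|)) :
    hopA n q γ α β ≤ 8 * Real.exp (-(((n : ℝ) - 1) * η)) := by
  obtain ⟨m, rfl⟩ : ∃ m, n = m + q + 1 := ⟨n - 1 - q, by omega⟩
  have hm : 1 ≤ m := by omega
  rw [hopA_form]
  have e0 : ((m + q + 1 : ℕ) : ℝ) - 1 = m + q := by push_cast; ring
  rw [e0] at h1 h2 ⊢
  set P := (α - β) / 2
  set M := (α + β) / 2 - γ
  obtain ⟨-, hCh⟩ := c2Ch_bounds m q hm hq1
  have hX := c2X_pos m q hm
  have t1 := c2_term_up m q hm (Real.cos P) (Real.cos M) η (Real.abs_cos_le_one _)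
    (Real.abs_cos_le_one _) h1
  have t2 := c2_term_up m q hm (Real.sin P) (Real.sin M) η (Real.abs_sin_le_one _)
    (Real.abs_sin_le_one _) h2
  have hsc := Real.sin_sq_add_cos_sq P
  rw [show 1 - Real.cos P ^ 2 = Real.sin P ^ 2 by linarith only [hsc]] at t1
  rw [show 1 - Real.sin P ^ 2 = Real.cos P ^ 2 by linarith only [hsc]] at t2
  have u1 := c2_even_pow_le (a := Real.cos P) (b := Real.cos M) q
  have u2 := c2_even_pow_le (a := Real.sin M) (b := Real.sin P) q
  rw [add_comm |Real.sin M|] at u2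
  have v1 : 0 ≤ (Real.sin P ^ 2) ^ m := by (clear * -; positivity)
  have v2 : 0 ≤ (Real.cos P ^ 2) ^ m := by (clear * -; positivity)
  have w1 := mul_le_mul_of_nonneg_left u1 v1
  have w2 := mul_le_mul_of_nonneg_left u2 v2
  have w0 : 0 ≤ (Real.sin P ^ 2) ^ m * ((Real.cos P - Real.cos M) ^ (2 * q) +
      (Real.cos P + Real.cos M) ^ (2 * q)) + (Real.cos P ^ 2) ^ m *
      ((Real.sin M - Real.sin P) ^ (2 * q) + (Real.sin M + Real.sin P) ^ (2 * q)) := by
    simp only [pow_mul _ 2 q]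
    (clear * -; positivity)
  calc _ ≤ c2X (m + q) q * ((Real.sin P ^ 2) ^ m * ((Real.cos P - Real.cos M) ^ (2 * q) +
      (Real.cos P + Real.cos M) ^ (2 * q)) + (Real.cos P ^ 2) ^ m *
      ((Real.sin M - Real.sin P) ^ (2 * q) + (Real.sin M + Real.sin P) ^ (2 * q))) :=
        mul_le_mul_of_nonneg_right hCh w0
    _ ≤ c2X (m + q) q * ((Real.sin P ^ 2) ^ m * (2 * (|Real.cos P| + |Real.cos M|) ^ (2 * q)) +
        (Real.cos P ^ 2) ^ m * (2 * (|Real.sin P| + |Real.sin M|) ^ (2 * q))) :=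
        mul_le_mul_of_nonneg_left (add_le_add w1 w2) hX.le
    _ = 2 * (c2X (m + q) q * ((Real.sin P ^ 2) ^ m * (|Real.cos P| + |Real.cos M|) ^ (2 * q))) +
        2 * (c2X (m + q) q * ((Real.cos P ^ 2) ^ m * (|Real.sin P| + |Real.sin M|) ^ (2 * q))) := by
        ring
    _ ≤ 8 * Real.exp (-(((m : ℝ) + q) * η)) := by
        have := Real.exp_pos (-(((m : ℝ) + q) * η))
        linarith only [t1, t2, this]

end Vale.Agent.P370.Q
end

section

/-!
Numerical facts about the parameters.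
-/

namespace Vale.Agent.P370.Q

open MeasureTheory Finset

theorem pK_ge (k : ℕ) (hk : 10 ≤ k) : 1024 ≤ pK k := by
  unfold pK
  calc 1024 = 2 ^ 10 := by norm_num
    _ ≤ 2 ^ k := Nat.pow_le_pow_right (by norm_num) hk

theorem pn_eq (k : ℕ) : pn k = pK k ^ 2048 := by
  unfold pn pK
  rw [← pow_mul, mul_comm]

theorem pn_even (k : ℕ) (hk : 10 ≤ k) : Even (pn k) ∧ 2 ≤ pn k := by
  unfold pn
  refine ⟨?_, ?_⟩
  · exact (even_two).pow_of_ne_zero (by omega)
  · calc 2 = 2 ^ 1 := by norm_num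
      _ ≤ 2 ^ (2048 * k) := Nat.pow_le_pow_right (by norm_num) (by omega)

theorem St1_pn_split (k : ℕ) (hk : 10 ≤ k) :
    pn k = 4 * pK k ^ 2 * 2 ^ (2046 * k - 2) := by
  unfold pn pK
  have h4 : (4 : ℕ) = 2 ^ 2 := by norm_num
  rw [h4, ← pow_mul, ← pow_add, ← pow_add]
  congr 1
  omega

theorem St1_pe0 (k : ℕ) (hk : 10 ≤ k) : pe0 k = 2 ^ (2046 * k - 2) := by
  unfold pe0
  have h := St1_pn_split k hk
  rw [h]
  have hpos : 0 < 4 * pK k ^ 2 := by
    have := pK_ge k hk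
    positivity
  exact Nat.mul_div_cancel_left _ hpos

theorem pe0_eq (k : ℕ) (hk : 10 ≤ k) : 4 * pK k ^ 2 * pe0 k = pn k ∧ pL k = 2 ^ pe0 k := by
  refine ⟨?_, rfl⟩
  rw [St1_pe0 k hk, ← St1_pn_split k hk]

/-- `pe0` is much larger than any fixed power of `n` in the exponent -/
theorem pn_pow_le (k : ℕ) (hk : 10 ≤ k) (c : ℕ) (hc : c ≤ 64) :
    (pn k : ℝ) ^ c ≤ 2 ^ (pe0 k / 64) := by
  have h1 : pe0 k / 64 = 2 ^ (2046 * k - 8) := by
    rw [St1_pe0 k hk]
    have : (2 : ℕ) ^ (2046 * k - 2) = 64 * 2 ^ (2046 * k - 8) := by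
      have h64 : (64 : ℕ) = 2 ^ 6 := by norm_num
      rw [h64, ← pow_add]
      congr 1
      omega
    rw [this]
    exact Nat.mul_div_cancel_left _ (by norm_num)
  have h2 : 2048 * k * c ≤ pe0 k / 64 := by
    rw [h1]
    have hk2 : k < 2 ^ k := Nat.lt_two_pow_self
    calc 2048 * k * c ≤ 2048 * k * 64 := Nat.mul_le_mul_left _ hc
      _ = 2 ^ 17 * k := by ring
      _ ≤ 2 ^ 17 * 2 ^ k := Nat.mul_le_mul_left _ hk2.le
      _ = 2 ^ (17 + k) := by rw [pow_add]
      _ ≤ 2 ^ (2046 * k - 8) := Nat.pow_le_pow_right (by norm_num) (by omega)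
  have h3 : (pn k : ℝ) ^ c = 2 ^ (2048 * k * c) := by
    unfold pn
    rw [Nat.cast_pow, ← pow_mul]
    norm_cast
  rw [h3]
  exact pow_le_pow_right₀ (by norm_num) h2

theorem St1_four_pow (k : ℕ) (hk : 10 ≤ k) : 12288 * k + 42 ≤ 4 ^ k := by
  induction k, hk using Nat.le_induction with
  | base => norm_num
  | succ m hm ih =>
    rw [pow_succ]
    omega

theorem St1_log (k : ℕ) : Real.log (pn k) ≤ 2048 * k := by
  unfold pn
  rw [Nat.cast_pow, Real.log_pow]
  have h2 : Real.log ((2 : ℕ) : ℝ) ≤ 1 := by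
    have := Real.log_two_lt_d9
    push_cast
    linarith
  push_cast at h2 ⊢
  have hk0 : (0 : ℝ) ≤ 2048 * k := by positivity
  nlinarith only [h2]

theorem log_pn_le (k : ℕ) (hk : 10 ≤ k) :
    1 + Real.log (pn k) ≤ (pK k : ℝ) ^ 2 ∧ 42 + 6 * Real.log (pn k) ≤ (pK k : ℝ) ^ 2 := by
  have h1 := St1_log k
  have h2 : (12288 * k + 42 : ℝ) ≤ 4 ^ k := by exact_mod_cast St1_four_pow k hk
  have h3 : (pK k : ℝ) ^ 2 = 4 ^ k := by
    unfold pK
    rw [Nat.cast_pow, ← pow_mul, mul_comm, pow_mul]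
    norm_num
  rw [h3]
  have hk0 : (0 : ℝ) ≤ k := Nat.cast_nonneg k
  constructor <;> linarith only [h1, h2]

theorem pJ_pos (k : ℕ) : 0 < pJ k := by
  unfold pJ pn pK; positivity

theorem St1_pK_pos (k : ℕ) : 0 < pK k := by
  unfold pK; positivity

theorem St1_quarter (x : ℝ) (hx : 0 < x) :
    (x ^ 2048) ^ (-(9 / 4) : ℝ) = 1 / ((x ^ 2048) ^ 2 * x ^ 512) := by
  have h1 : (x ^ 2048) ^ (-(9 / 4) : ℝ) = x ^ (-(4608 : ℝ)) := by
    rw [← Real.rpow_natCast, ← Real.rpow_mul hx.le]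
    congr 1
    push_cast
    ring
  rw [h1, Real.rpow_neg hx.le, ← pow_mul, ← pow_add, one_div]
  congr 1
  rw [← Real.rpow_natCast]
  congr 1

/-- quarter power -/
theorem pn_quarter (k : ℕ) : (pn k : ℝ) ^ (-(9 / 4) : ℝ) = 1 / ((pn k : ℝ) ^ 2 * (pK k : ℝ) ^ 512) := by
  have hx : (0 : ℝ) < pK k := by exact_mod_cast St1_pK_pos k
  have := St1_quarter (pK k : ℝ) hx
  rw [pn_eq, Nat.cast_pow]
  exact this

theorem St1_rho_pos (k : ℕ) : 0 < pρ k := by
  unfold pρ; positivity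

theorem zt_bounds (k N : ℕ) (hk : 10 ≤ k) (hN1 : 1 ≤ N) (hN : N ≤ 2 * pn k - 2) :
    1 / 2 ≤ zt k N ∧ zt k N ≤ 2 := by
  unfold zt
  refine Xu_RN (pn k) N (pn_even k hk).2 hN1 hN (pρ k) (St1_rho_pos k) ?_
  unfold pρ
  apply one_div_le_one_div_of_le (by positivity)
  exact pow_le_pow_right₀ (by norm_num) (by omega)

theorem St1_pn_ge (k : ℕ) (hk : 10 ≤ k) : pK k ^ 3 ≤ pn k := by
  rw [pn_eq]
  exact Nat.pow_le_pow_right (St1_pK_pos k) (by norm_num)

theorem goodQ_range (k : ℕ) (hk : 10 ≤ k) (q : ℕ → ℕ) (hq : GoodQ k q) (d : ℕ) (h1 : 1 ≤ d)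
    (hd : d < pK k) : 1 ≤ q d ∧ q d ≤ pn k - 2 := by
  have hQ := hq d h1 hd
  have hK := pK_ge k hk
  have hn := St1_pn_ge k hk
  have hn2 := (pn_even k hk).2
  have hKr : (1024 : ℝ) ≤ pK k := by exact_mod_cast hK
  have hnr : (pK k : ℝ) ^ 3 ≤ pn k := by exact_mod_cast hn
  have hdr : (d : ℝ) + 1 ≤ pK k := by exact_mod_cast hd
  have h1r : (1 : ℝ) ≤ d := by exact_mod_cast h1
  generalize hKK : (pK k : ℝ) = K at *
  generalize hnn : (pn k : ℝ) = n at *
  have hK0 : 0 < K := by linarith only [hKr]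
  have hpi := Real.pi_pos
  -- lower bound of the cosine
  have hlow : 1 / K ≤ Real.cos (Real.pi * d / (2 * K)) := by
    have e : Real.cos (Real.pi * d / (2 * K)) = Real.sin (Real.pi / 2 * ((K - d) / K)) := by
      rw [← Real.cos_pi_div_two_sub]
      congr 1
      field_simp
      ring
    have hx0 : 0 ≤ (K - d) / K := by
      apply div_nonneg <;> linarith
    have hx1 : (K - d) / K ≤ 1 := by
      rw [div_le_one hK0]; linarith only []
    rw [e]
    have h := Real.mul_le_sin (x := Real.pi / 2 * ((K - d) / K)) (by positivity) (by nlinarith only [hpi, hx1])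
    have h' : 2 / Real.pi * (Real.pi / 2 * ((K - d) / K)) = (K - d) / K := by
      field_simp
    rw [h'] at h
    refine le_trans ?_ h
    apply div_le_div_of_nonneg_right _ hK0.le
    linarith only [hdr]
  have hup : Real.cos (Real.pi * d / (2 * K)) ≤ 1 - 1 / (2 * K ^ 2) := by
    have e : Real.cos (Real.pi * d / (2 * K)) = 1 - 2 * Real.sin (Real.pi * d / (4 * K)) ^ 2 := by
      have := Real.cos_sq' (Real.pi * d / (4 * K))
      have h2 := Real.cos_two_mul (Real.pi * d / (4 * K))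
      have h3 : 2 * (Real.pi * d / (4 * K)) = Real.pi * d / (2 * K) := by
        field_simp
        ring
      rw [h3] at h2
      rw [h2, this]
      ring
    have hle : Real.pi * d / (4 * K) ≤ Real.pi / 2 := by
      rw [div_le_div_iff₀ (by positivity) (by norm_num)]
      nlinarith only [hpi, hdr]
    have h := Real.mul_le_sin (x := Real.pi * d / (4 * K)) (by positivity) hle
    have h' : 2 / Real.pi * (Real.pi * d / (4 * K)) = d / (2 * K) := by
      field_simp
      ring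
    rw [h'] at h
    have h4 : 1 / (2 * K) ≤ Real.sin (Real.pi * d / (4 * K)) := by
      refine le_trans ?_ h
      apply div_le_div_of_nonneg_right h1r (by positivity)
    have h5 : (1 / (2 * K)) ^ 2 ≤ Real.sin (Real.pi * d / (4 * K)) ^ 2 :=
      pow_le_pow_left₀ (by positivity) h4 2
    rw [e]
    have h6 : 1 / (2 * K ^ 2) = 2 * (1 / (2 * K)) ^ 2 := by
      field_simp
    rw [h6]
    linarith only [h5]
  have hK3 : 1024 ^ 2 * K ≤ K ^ 3 := by
    have : 1024 ^ 2 ≤ K ^ 2 := pow_le_pow_left₀ (by norm_num) hKr 2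
    linarith only [mul_nonneg_of_nonpos_of_nonpos (Mathlib.Tactic.Linarith.sub_nonpos_of_le (Mathlib.Tactic.Linarith.natCast_nonneg ℝ (Vale.Agent.P370.Q.pK k))) (Mathlib.Tactic.Linarith.sub_nonpos_of_le this), Mathlib.Tactic.Linarith.mul_zero_eq (Mathlib.Tactic.Linarith.sub_nonpos_of_le (sq_nonneg K)) (sub_eq_zero_of_eq hKK), hKK]
  have hK3' : 1024 * K ^ 2 ≤ K ^ 3 := by
    have : 0 ≤ K ^ 2 := by positivity
    linarith only [mul_nonneg_of_nonpos_of_nonpos (Mathlib.Tactic.Linarith.sub_nonpos_of_le (sq_nonneg K)) (Mathlib.Tactic.Linarith.sub_nonpos_of_le hKr)]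
  have hn1 : 0 ≤ n - 1 := by linarith only [hKr, hnr, hK3]
  obtain ⟨q1, q2⟩ := abs_le.1 hQ
  constructor
  · have : (1 : ℝ) ≤ q d := by
      have h7 : (n - 1) * (1 / K) ≤ (n - 1) * Real.cos (Real.pi * d / (2 * K)) :=
        mul_le_mul_of_nonneg_left hlow hn1
      have h8 : 2 ≤ (n - 1) * (1 / K) := by
        rw [mul_one_div, le_div_iff₀ hK0]
        linarith only [hKr, hnr, hK3]
      linarith only [q1, h7, h8]
    exact_mod_cast this
  · have h9 : (q d : ℝ) + 2 ≤ n := by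
      have h7 : (n - 1) * Real.cos (Real.pi * d / (2 * K)) ≤ (n - 1) * (1 - 1 / (2 * K ^ 2)) :=
        mul_le_mul_of_nonneg_left hup hn1
      have h8 : 2 ≤ (n - 1) * (1 / (2 * K ^ 2)) := by
        rw [mul_one_div, le_div_iff₀ (by positivity)]
        linarith only [hKr, hnr, hK3, hK3']
      linarith only [q2, h7, h8]
    rw [← hnn] at h9
    have : q d + 2 ≤ pn k := by exact_mod_cast h9
    omega

theorem pN_pos (k : ℕ) : 1 ≤ pN k := by
  unfold pN
  have := St1_pK_pos k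
  omega

theorem St1_sum (n : ℕ) : ∑ j ∈ range n, j ^ 2 ≤ n ^ 3 := by
  calc ∑ j ∈ range n, j ^ 2 ≤ ∑ _j ∈ range n, n ^ 2 := by
        refine Finset.sum_le_sum fun j hj => ?_
        exact Nat.pow_le_pow_left (Finset.mem_range.1 hj).le 2
    _ = n ^ 3 := by
        rw [Finset.sum_const, Finset.card_range, smul_eq_mul]
        ring

theorem pN_le (k : ℕ) (hk : 10 ≤ k) : (pN k : ℝ) ≤ (pn k : ℝ) ^ 4 := by
  have hK := pK_ge k hk
  have hn := St1_pn_ge k hk
  have hs := St1_sum (pn k)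
  have h : pN k ≤ pn k ^ 4 := by
    unfold pN
    have h1 : pK k ≤ pK k ^ 3 := by
      calc pK k = pK k ^ 1 := (pow_one _).symm
        _ ≤ pK k ^ 3 := Nat.pow_le_pow_right (St1_pK_pos k) (by norm_num)
    have h2 : pK k ≤ pn k := h1.trans hn
    have h3 : 3 ≤ pn k := by omega
    generalize pn k = n at *
    have h4 : n ≤ n ^ 3 := by
      calc n = n ^ 1 := (pow_one _).symm
        _ ≤ n ^ 3 := Nat.pow_le_pow_right (by omega) (by norm_num)
    calc 2 * (∑ j ∈ range n, j ^ 2) + pK k ≤ 2 * n ^ 3 + n ^ 3 := by omega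
      _ = 3 * n ^ 3 := by ring
      _ ≤ n * n ^ 3 := Nat.mul_le_mul_right _ h3
      _ = n ^ 4 := by ring
  exact_mod_cast h

theorem St1_Xu (n N : ℕ) (hn : 2 ≤ n) (hN : N ≤ 2 * n - 2) :
    0 < Xu n N (1 / 2 ^ (16 * n ^ 2)) ∧ Xu n N (1 / 2 ^ (16 * n ^ 2)) ≤ 2 ^ (34 * n ^ 3) := by
  have hn0 : (0 : ℝ) < n := by positivity
  constructor
  · unfold Xu
    positivity
  have h1 : (1 / (1 / 2 ^ (16 * n ^ 2) : ℝ)) ^ N ≤ 2 ^ (16 * n ^ 2 * (2 * n - 2)) := by
    rw [one_div_one_div, ← pow_mul]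
    exact pow_le_pow_right₀ (by norm_num) (Nat.mul_le_mul_left _ hN)
  have hnp : n < 2 ^ n := Nat.lt_two_pow_self
  have hnp' : (n : ℝ) ≤ 2 ^ n := by exact_mod_cast hnp.le
  have h2 : (2 * (N : ℝ) + 1) ≤ 2 ^ (n + 2) := by
    have : (2 * N + 1 : ℕ) ≤ 2 ^ (n + 2) := by
      rw [pow_add]
      omega
    exact_mod_cast this
  have h3 : (((2 * n).factorial : ℝ) / ((2 * n - 1 - N).factorial : ℝ)) ≤ 2 ^ ((n + 1) * (2 * n)) := by
    have e : (2 * n).factorial = (2 * n - 1 - N).factorial * (2 * n).descFactorial (N + 1) := by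
      have := Nat.factorial_mul_descFactorial (n := 2 * n) (k := N + 1) (by omega)
      rw [← this]
      congr 2
      omega
    rw [e, Nat.cast_mul, mul_div_cancel_left₀ _ (by positivity)]
    have hd : (2 * n).descFactorial (N + 1) ≤ 2 ^ ((n + 1) * (2 * n)) := by
      calc (2 * n).descFactorial (N + 1) ≤ (2 * n) ^ (N + 1) := Nat.descFactorial_le_pow _ _
        _ ≤ (2 * n) ^ (2 * n) := Nat.pow_le_pow_right (by omega) (by omega)
        _ ≤ (2 ^ (n + 1)) ^ (2 * n) := Nat.pow_le_pow_left (by rw [pow_succ]; omega) _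
        _ = 2 ^ ((n + 1) * (2 * n)) := by rw [← pow_mul]
    exact_mod_cast hd
  have h4 : ((n : ℝ) / 2) ^ (N + 1) ≤ 2 ^ (n * (2 * n)) := by
    have hn1 : (1 : ℝ) ≤ (n : ℝ) / 2 := by
      rw [le_div_iff₀ (by norm_num)]
      have : (2 : ℝ) ≤ n := by exact_mod_cast hn
      linarith only [this]
    calc ((n : ℝ) / 2) ^ (N + 1) ≤ ((n : ℝ) / 2) ^ (2 * n) := pow_le_pow_right₀ hn1 (by omega)
      _ ≤ (2 ^ n) ^ (2 * n) := by
          apply pow_le_pow_left₀ (by positivity)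
          linarith only [hnp']
      _ = 2 ^ (n * (2 * n)) := by rw [← pow_mul]
  unfold Xu
  calc (1 / (1 / 2 ^ (16 * n ^ 2) : ℝ)) ^ N * (2 * (N : ℝ) + 1) *
        (((2 * n).factorial : ℝ) / ((2 * n - 1 - N).factorial : ℝ)) * ((n : ℝ) / 2) ^ (N + 1)
      ≤ 2 ^ (16 * n ^ 2 * (2 * n - 2)) * 2 ^ (n + 2) * 2 ^ ((n + 1) * (2 * n)) * 2 ^ (n * (2 * n)) := by
        gcongr
    _ = 2 ^ (16 * n ^ 2 * (2 * n - 2) + (n + 2) + (n + 1) * (2 * n) + n * (2 * n)) := by
        rw [← pow_add, ← pow_add, ← pow_add]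
    _ ≤ 2 ^ (34 * n ^ 3) := by
        apply pow_le_pow_right₀ (by norm_num)
        obtain ⟨m, rfl⟩ : ∃ m, n = m + 2 := ⟨n - 2, by omega⟩
        have : 2 * (m + 2) - 2 = 2 * m + 2 := by omega
        rw [this]
        linarith only [Nat.zero_le (m ^ 2), Nat.zero_le (m ^ 3)]

/-- bound of the device units -/
theorem Xu_le (k N : ℕ) (hk : 10 ≤ k) (hN : N ≤ 2 * pn k - 2) :
    0 < Xu (pn k) N (pρ k) ∧ Xu (pn k) N (pρ k) ≤ 2 ^ (34 * pn k ^ 3) := by
  unfold pρ
  exact St1_Xu (pn k) N (pn_even k hk).2 hN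

end Vale.Agent.P370.Q
end

section

/-!
Selectivity of the hopping devices at the lattice angles.
-/

namespace Vale.Agent.P370.Q

open MeasureTheory Finset

theorem st5_sin_pos_case (K : ℝ) (hK : 0 < K) (x : ℝ) (h1 : 1 ≤ x) (h2 : x ≤ 2 * K - 1) :
    1 / K ≤ Real.sin (Real.pi * x / (2 * K)) := by
  have hpi := Real.pi_pos
  rcases le_total x K with hxK | hxK
  · have h := Real.mul_le_sin (x := Real.pi * x / (2 * K)) (by positivity)
      (by rw [div_le_div_iff₀ (by positivity) (by norm_num)]; linarith only [mul_nonneg_of_nonpos_of_nonpos (le_of_lt (Mathlib.Tactic.Linarith.sub_neg_of_lt hpi)) (Mathlib.Tactic.Linarith.sub_nonpos_of_le hxK)])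
    have e : 2 / Real.pi * (Real.pi * x / (2 * K)) = x / K := by field_simp
    rw [e] at h
    exact le_trans (by gcongr) h
  · have e0 : Real.sin (Real.pi * x / (2 * K)) = Real.sin (Real.pi * (2 * K - x) / (2 * K)) := by
      rw [← Real.sin_pi_sub]
      congr 1
      field_simp
    rw [e0]
    have hx1 : 1 ≤ 2 * K - x := by linarith
    have h := Real.mul_le_sin (x := Real.pi * (2 * K - x) / (2 * K)) (by positivity)
      (by rw [div_le_div_iff₀ (by positivity) (by norm_num)]; nlinarith only [hpi, hxK])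
    have e : 2 / Real.pi * (Real.pi * (2 * K - x) / (2 * K)) = (2 * K - x) / K := by field_simp
    rw [e] at h
    exact le_trans (by gcongr) h

theorem st5_abs_sin (K : ℝ) (hK : 0 < K) (x : ℝ) (h1 : 1 ≤ |x|) (h2 : |x| ≤ 2 * K - 1) :
    1 / K ≤ |Real.sin (Real.pi * x / (2 * K))| := by
  rcases le_total 0 x with hx | hx
  · rw [abs_of_nonneg hx] at h1 h2
    exact le_trans (st5_sin_pos_case K hK x h1 h2) (le_abs_self _)
  · rw [abs_of_nonpos hx] at h1 h2
    have h := st5_sin_pos_case K hK (-x) h1 h2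
    have e : Real.pi * -x / (2 * K) = -(Real.pi * x / (2 * K)) := by ring
    rw [e, Real.sin_neg] at h
    exact le_trans h (neg_le_abs _)

theorem st5_one_sub_cos (K : ℝ) (hK : 0 < K) (x : ℝ) (h1 : 1 ≤ |x|) (h2 : |x| ≤ 2 * K - 1) :
    1 / (2 * K ^ 2) ≤ 1 - |Real.cos (Real.pi * x / (2 * K))| := by
  have h := st5_abs_sin K hK x h1 h2
  have hs : (1 / K) ^ 2 ≤ Real.sin (Real.pi * x / (2 * K)) ^ 2 := by
    rw [← sq_abs (Real.sin _)]
    gcongr
  have hc := Real.abs_cos_le_one (Real.pi * x / (2 * K))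
  have hc0 := abs_nonneg (Real.cos (Real.pi * x / (2 * K)))
  have hsc := Real.sin_sq_add_cos_sq (Real.pi * x / (2 * K))
  rw [← sq_abs (Real.cos _)] at hsc
  have e : 1 / (2 * K ^ 2) = (1 / K) ^ 2 / 2 := by field_simp
  rw [e]
  nlinarith only [hs, hsc]

theorem st5_one_sub_sin (K : ℝ) (hK : 0 < K) (x : ℝ) (h1 : 1 ≤ abs (K - |x|))
    (h2 : |x| ≤ 2 * K - 1) :
    1 / (2 * K ^ 2) ≤ 1 - |Real.sin (Real.pi * x / (2 * K))| := by
  have e : |Real.sin (Real.pi * x / (2 * K))| =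
      |Real.cos (Real.pi * (K - |x|) / (2 * K))| := by
    have e1 : Real.pi * (K - |x|) / (2 * K) = Real.pi / 2 - Real.pi * |x| / (2 * K) := by
      field_simp
    rw [e1, Real.cos_pi_div_two_sub]
    rcases le_total 0 x with hx | hx
    · rw [abs_of_nonneg hx]
    · rw [abs_of_nonpos hx]
      have e2 : Real.pi * -x / (2 * K) = -(Real.pi * x / (2 * K)) := by ring
      rw [e2, Real.sin_neg, abs_neg]
  rw [e]
  apply st5_one_sub_cos K hK _ h1
  have := abs_nonneg x
  rw [abs_le]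
  constructor
  · linarith
  · by_contra hcon
    push Not at hcon
    have h3 : K < 1 := by linarith
    rcases abs_cases (K - |x|) with ⟨h4, h5⟩ | ⟨h4, h5⟩ <;> rw [h4] at h1 <;> linarith

theorem st5_cos_gap (K u v : ℝ) (hK : 0 < K) (hu : 0 ≤ u) (huv : u + 1 ≤ v) (hv : v ≤ K) :
    1 / (2 * K ^ 2) ≤ Real.cos (Real.pi * u / (2 * K)) - Real.cos (Real.pi * v / (2 * K)) := by
  have hpi := Real.pi_pos
  rw [Real.cos_sub_cos]
  have e1 : (Real.pi * u / (2 * K) + Real.pi * v / (2 * K)) / 2 = Real.pi * (u + v) / (4 * K) := by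
    field_simp; ring
  have e2 : (Real.pi * u / (2 * K) - Real.pi * v / (2 * K)) / 2 =
      -(Real.pi * (v - u) / (4 * K)) := by
    field_simp; ring
  rw [e1, e2, Real.sin_neg]
  have hv0 : 0 ≤ v := by linarith only [hu, huv]
  have hvu : 0 ≤ v - u := by linarith only [huv]
  have h1 := Real.mul_le_sin (x := Real.pi * (u + v) / (4 * K)) (by positivity)
    (by rw [div_le_div_iff₀ (by positivity) (by norm_num)]; nlinarith only [hpi, huv, hv])
  have h2 := Real.mul_le_sin (x := Real.pi * (v - u) / (4 * K)) (by positivity)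
    (by rw [div_le_div_iff₀ (by positivity) (by norm_num)]; nlinarith only [hK, hpi, hu, hv])
  have e3 : 2 / Real.pi * (Real.pi * (u + v) / (4 * K)) = (u + v) / (2 * K) := by
    field_simp; ring
  have e4 : 2 / Real.pi * (Real.pi * (v - u) / (4 * K)) = (v - u) / (2 * K) := by
    field_simp; ring
  rw [e3] at h1
  rw [e4] at h2
  have h3 : 1 / (2 * K) ≤ (u + v) / (2 * K) := by gcongr; linarith only [hu, huv]
  have h4 : 1 / (2 * K) ≤ (v - u) / (2 * K) := by gcongr; linarith only [huv]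
  have h5 := le_trans h3 h1
  have h6 := le_trans h4 h2
  have h7 : 1 / (2 * K) * (1 / (2 * K)) ≤
      Real.sin (Real.pi * (u + v) / (4 * K)) * Real.sin (Real.pi * (v - u) / (4 * K)) :=
    mul_le_mul h5 h6 (by positivity) (le_trans (by positivity) h5)
  have e5 : 1 / (2 * K ^ 2) = 2 * (1 / (2 * K) * (1 / (2 * K))) := by field_simp
  rw [e5]
  linarith only [h7]

theorem st5_cos_gap_nat (K : ℝ) (u v : ℕ) (hK : 0 < K) (huv : u ≠ v) (hu : (u : ℝ) ≤ K)
    (hv : (v : ℝ) ≤ K) :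
    1 / (2 * K ^ 2) ≤ |Real.cos (Real.pi * u / (2 * K)) - Real.cos (Real.pi * v / (2 * K))| := by
  rcases lt_or_gt_of_ne huv with h | h
  · have h' : (u : ℝ) + 1 ≤ v := by exact_mod_cast h
    exact le_trans (st5_cos_gap K u v hK (by positivity) h' hv) (le_abs_self _)
  · have h' : (v : ℝ) + 1 ≤ u := by exact_mod_cast h
    rw [abs_sub_comm]
    exact le_trans (st5_cos_gap K v u hK (by positivity) h' hu) (le_abs_self _)

theorem st5_pK_real (k : ℕ) (hk : 10 ≤ k) : (1024 : ℝ) ≤ (pK k : ℝ) := by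
  exact_mod_cast pK_ge k hk

theorem st5_pn_ge (k : ℕ) (hk : 10 ≤ k) : 4 * (pK k : ℝ) ^ 2 ≤ (pn k : ℝ) - 1 := by
  have h1 := st5_pK_real k hk
  have h2 : (pn k : ℝ) = (pK k : ℝ) ^ 2048 := by exact_mod_cast pn_eq k
  rw [h2]
  have h3 : (pK k : ℝ) ^ 3 ≤ (pK k : ℝ) ^ 2048 := pow_le_pow_right₀ (by linarith only [h1]) (by norm_num)
  have h4 : (1 : ℝ) ≤ (pK k : ℝ) ^ 2 := one_le_pow₀ (by linarith only [h1])
  have h5 : (pK k : ℝ) ^ 3 = pK k * (pK k : ℝ) ^ 2 := by ring
  nlinarith only [h3, h1]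

/-- distance between the relative order of a device and the cosine of its angle -/
theorem st5_x_near (k : ℕ) (hk : 10 ≤ k) (q : ℕ → ℕ) (hq : GoodQ k q) (d : ℕ) (hd1 : 1 ≤ d)
    (hd : d < pK k) :
    |(q d : ℝ) / ((pn k : ℝ) - 1) - Real.cos (Real.pi * d / (2 * pK k))| ≤
      1 / (4 * (pK k : ℝ) ^ 2) := by
  have h := hq d hd1 hd
  have hK := st5_pK_real k hk
  have hn := st5_pn_ge k hk
  have hn0 : 0 < (pn k : ℝ) - 1 := by linarith only [mul_nonneg_of_nonpos_of_nonpos (Mathlib.Tactic.Linarith.sub_nonpos_of_le (Mathlib.Tactic.Linarith.natCast_nonneg ℝ (Vale.Agent.P370.Q.pK k))) (Mathlib.Tactic.Linarith.sub_nonpos_of_le hK), hn, hK]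
  have e : (q d : ℝ) / ((pn k : ℝ) - 1) - Real.cos (Real.pi * d / (2 * pK k)) =
      ((q d : ℝ) - ((pn k : ℝ) - 1) * Real.cos (Real.pi * d / (2 * pK k))) /
        ((pn k : ℝ) - 1) := by
    field_simp
  rw [e, abs_div, abs_of_pos hn0]
  have hK0 : (0 : ℝ) < pK k := by linarith only [hK]
  rw [div_le_div_iff₀ hn0 (by positivity)]
  linarith only [mul_nonneg_of_nonpos_of_nonpos (Mathlib.Tactic.Linarith.sub_nonpos_of_le (sq_nonneg ↑(Vale.Agent.P370.Q.pK k))) (Mathlib.Tactic.Linarith.sub_nonpos_of_le h), hn]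

theorem st5_x_low (k : ℕ) (hk : 10 ≤ k) (q : ℕ → ℕ) (hq : GoodQ k q) (d : ℕ) (hd1 : 1 ≤ d)
    (hd : d < pK k) :
    1 / (2 * (pK k : ℝ)) ≤ (q d : ℝ) / ((pn k : ℝ) - 1) := by
  have h := st5_x_near k hk q hq d hd1 hd
  have hK := st5_pK_real k hk
  have hK0 : (0 : ℝ) < pK k := by linarith only [hK]
  have hc : 1 / (pK k : ℝ) ≤ Real.cos (Real.pi * d / (2 * pK k)) := by
    rw [← Real.sin_pi_div_two_sub]
    have e : Real.pi / 2 - Real.pi * d / (2 * pK k) = Real.pi * (pK k - d) / (2 * pK k) := by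
      field_simp
    rw [e]
    have hd' : (d : ℝ) + 1 ≤ pK k := by exact_mod_cast hd
    have hd0 : (0 : ℝ) ≤ d := by positivity
    exact st5_sin_pos_case _ hK0 _ (by linarith only [hd']) (by linarith only [hK])
  have h1 := (abs_le.1 h).1
  have h2 : 1 / (4 * (pK k : ℝ) ^ 2) ≤ 1 / (2 * (pK k : ℝ)) := by
    apply one_div_le_one_div_of_le (by positivity)
    nlinarith only [hK]
  have h3 : 1 / (pK k : ℝ) = 1 / (2 * (pK k : ℝ)) + 1 / (2 * (pK k : ℝ)) := by field_simp; norm_num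
  linarith only [hc, h1, h2, h3]

/-- quadratic alternative -/
theorem st5_quad (K x c : ℝ) (u v : ℕ) (hK : 0 < K) (huv : u ≠ v) (hu : (u : ℝ) ≤ K)
    (hv : (v : ℝ) ≤ K) (hx : |x - Real.cos (Real.pi * v / (2 * K))| ≤ 1 / (4 * K ^ 2))
    (hc : c = Real.cos (Real.pi * u / (2 * K))) :
    1 / (64 * K ^ 4) ≤ (x - c) ^ 2 / 4 := by
  have h := st5_cos_gap_nat K u v hK huv hu hv
  rw [← hc] at h
  have h1 : 1 / (2 * K ^ 2) - 1 / (4 * K ^ 2) ≤ |x - c| := by
    have h2 : |c - Real.cos (Real.pi * v / (2 * K))| ≤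
        |x - c| + |x - Real.cos (Real.pi * v / (2 * K))| := by
      have := abs_sub_le c x (Real.cos (Real.pi * v / (2 * K)))
      rwa [abs_sub_comm c x] at this
    linarith
  have e : 1 / (2 * K ^ 2) - 1 / (4 * K ^ 2) = 1 / (4 * K ^ 2) := by field_simp; norm_num
  rw [e] at h1
  have h3 : (1 / (4 * K ^ 2)) ^ 2 ≤ |x - c| ^ 2 := by gcongr
  rw [sq_abs] at h3
  have e2 : 1 / (64 * K ^ 4) = (1 / (4 * K ^ 2)) ^ 2 / 4 := by field_simp; norm_num
  rw [e2]
  linarith only [h3]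

/-- linear alternative -/
theorem st5_lin (K x c : ℝ) (hK : 1 ≤ K) (hx : 1 / (2 * K) ≤ x) (hc : 1 / (2 * K ^ 2) ≤ 1 - c) :
    1 / (64 * K ^ 4) ≤ x * (1 - c) := by
  have hK0 : 0 < K := by linarith
  have h1 : 1 / (2 * K) * (1 / (2 * K ^ 2)) ≤ x * (1 - c) := by
    have : 0 ≤ x := le_trans (by positivity) hx
    gcongr
  refine le_trans ?_ h1
  have e : 1 / (2 * K) * (1 / (2 * K ^ 2)) = 1 / (4 * K ^ 3) := by field_simp; norm_num
  rw [e]
  apply one_div_le_one_div_of_le (by positivity)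
  have h3 : 0 < K ^ 3 := by positivity
  have e4 : K ^ 4 = K * K ^ 3 := by ring
  rw [e4]
  nlinarith only [h3, hK]

/-- the device of the pair `a < b` couples no other pair of sites -/
theorem hop_leak (k : ℕ) (hk : 10 ≤ k) (q : ℕ → ℕ) (hq : GoodQ k q) (a b : ℕ) (hab : a < b)
    (hb : b < pK k) (i j : Fin (pK k))
    (h : ¬((i : ℕ) = a ∧ (j : ℕ) = b) ∧ ¬((i : ℕ) = b ∧ (j : ℕ) = a)) :
    |hopA (pn k) (q (b - a)) ((pα k a + pα k b) / 2) (pα k i) (pα k j)| ≤
      8 * Real.exp (-(((pn k : ℝ) - 1) / (64 * (pK k : ℝ) ^ 4))) := by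
  have hd1 : 1 ≤ b - a := by omega
  have hd : b - a < pK k := by omega
  have hK := st5_pK_real k hk
  have hK0 : (0 : ℝ) < pK k := by linarith only [hK]
  have hn2 := (pn_even k hk).2
  obtain ⟨hq1, hq2⟩ := goodQ_range k hk q hq (b - a) hd1 hd
  rw [abs_of_nonneg (hopA_nonneg _ _ hn2 (by omega) _ _ _)]
  have hx := st5_x_near k hk q hq (b - a) hd1 hd
  have hxl := st5_x_low k hk q hq (b - a) hd1 hd
  have e0 : ((pn k : ℝ) - 1) / (64 * (pK k : ℝ) ^ 4) =
      ((pn k : ℝ) - 1) * (1 / (64 * (pK k : ℝ) ^ 4)) := by ring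
  rw [e0]
  have hi := i.isLt
  have hj := j.isLt
  -- the natural number `|i - j|`
  obtain ⟨w, hw⟩ : ∃ w : ℕ, w = ((i : ℤ) - (j : ℤ)).natAbs := ⟨_, rfl⟩
  have hwK : w < pK k := by omega
  have hwR : |((i : ℕ) : ℝ) - ((j : ℕ) : ℝ)| = (w : ℝ) := by
    have : ((((i : ℕ) : ℤ) - ((j : ℕ) : ℤ)).natAbs : ℝ) = |((((i : ℕ) : ℤ) - ((j : ℕ) : ℤ) : ℤ) : ℝ)| := by
      rw [Nat.cast_natAbs]
      push_cast
      rfl
    rw [hw, this]
    push_cast
    rfl
  have hwle : (w : ℝ) ≤ pK k := by exact_mod_cast hwK.le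
  have hdle : ((b - a : ℕ) : ℝ) ≤ pK k := by exact_mod_cast hd.le
  have ed : (pα k i - pα k j) / 2 =
      Real.pi * (((i : ℕ) : ℝ) - ((j : ℕ) : ℝ)) / (2 * pK k) := by
    unfold pα; field_simp
  have es : (pα k i + pα k j) / 2 - (pα k a + pα k b) / 2 =
      Real.pi * (((i : ℕ) : ℝ) + ((j : ℕ) : ℝ) - a - b) / (2 * pK k) := by
    unfold pα; field_simp; ring
  have hangle : |Real.pi * (((i : ℕ) : ℝ) - ((j : ℕ) : ℝ)) / (2 * pK k)| =
      Real.pi * w / (2 * pK k) := by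
    rw [abs_div, abs_mul, abs_of_pos Real.pi_pos, hwR, abs_of_pos (by positivity)]
  have hangle_le : Real.pi * w / (2 * pK k) ≤ Real.pi / 2 := by
    rw [div_le_div_iff₀ (by positivity) (by norm_num)]
    linarith only [mul_nonneg_of_nonpos_of_nonpos (Mathlib.Tactic.Linarith.sub_nonpos_of_le hwle) (le_of_lt (Mathlib.Tactic.Linarith.sub_neg_of_lt Real.pi_pos))]
  -- the integer `i + j - a - b`
  obtain ⟨m, hm⟩ : ∃ m : ℤ, m = (i : ℤ) + (j : ℤ) - a - b := ⟨_, rfl⟩
  have hmR : (m : ℝ) = ((i : ℕ) : ℝ) + ((j : ℕ) : ℝ) - a - b := by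
    rw [hm]; push_cast; rfl
  have hmabs : |m| ≤ 2 * (pK k : ℤ) - 1 := by
    rw [abs_le]
    constructor <;> omega
  have hmabsR : |(m : ℝ)| ≤ 2 * (pK k : ℝ) - 1 := by
    have : ((|m| : ℤ) : ℝ) ≤ ((2 * (pK k : ℤ) - 1 : ℤ) : ℝ) := by exact_mod_cast hmabs
    push_cast at this
    exact this
  apply hopA_upper _ _ hn2 hq1 hq2
  · positivity
  · rw [ed, es, ← hmR]
    by_cases hm0 : m = 0
    · left
      have hne : w ≠ b - a := by
        intro hcon
        rcases Nat.lt_or_ge (j : ℕ) (i : ℕ) with h5 | h5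
        · exact h.2 ⟨by omega, by omega⟩
        · exact h.1 ⟨by omega, by omega⟩
      refine st5_quad (pK k) _ _ w (b - a) hK0 hne hwle hdle hx ?_
      rw [← Real.cos_abs (Real.pi * (((i : ℕ) : ℝ) - ((j : ℕ) : ℝ)) / (2 * pK k)), hangle,
        abs_of_nonneg]
      apply Real.cos_nonneg_of_neg_pi_div_two_le_of_le _ hangle_le
      have : 0 ≤ Real.pi * w / (2 * pK k) := by positivity
      linarith only [this, Real.pi_pos]
    · right
      refine st5_lin (pK k) _ _ (by linarith only [hK]) hxl ?_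
      apply st5_one_sub_cos _ hK0 _ _ hmabsR
      have : (1 : ℤ) ≤ |m| := Int.one_le_abs hm0
      have h5 : ((1 : ℤ) : ℝ) ≤ ((|m| : ℤ) : ℝ) := by exact_mod_cast this
      push_cast at h5
      exact h5
  · rw [ed, es, ← hmR]
    by_cases hmK : |m| = (pK k : ℤ)
    · left
      have hne : pK k - w ≠ b - a := by
        intro hcon
        rcases abs_cases m with ⟨h6, h7⟩ | ⟨h6, h7⟩ <;>
        rcases Nat.lt_or_ge (j : ℕ) (i : ℕ) with h5 | h5 <;> omega
      have hle2 : ((pK k - w : ℕ) : ℝ) ≤ pK k := by exact_mod_cast Nat.sub_le _ _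
      refine st5_quad (pK k) _ _ (pK k - w) (b - a) hK0 hne hle2 hdle hx ?_
      rw [Nat.cast_sub hwK.le]
      have e1 : Real.pi * ((pK k : ℝ) - w) / (2 * pK k) =
          Real.pi / 2 - Real.pi * w / (2 * pK k) := by
        field_simp
      rw [e1, Real.cos_pi_div_two_sub, ← hangle]
      have hns : 0 ≤ Real.sin |Real.pi * (((i : ℕ) : ℝ) - ((j : ℕ) : ℝ)) / (2 * pK k)| := by
        apply Real.sin_nonneg_of_nonneg_of_le_pi (abs_nonneg _)
        rw [hangle]
        linarith only [hangle_le, Real.pi_pos]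
      rcases abs_cases (Real.pi * (((i : ℕ) : ℝ) - ((j : ℕ) : ℝ)) / (2 * pK k)) with
        ⟨h6, h7⟩ | ⟨h6, h7⟩
      · rw [h6] at hns ⊢
        rw [abs_of_nonneg hns]
      · rw [h6] at hns ⊢
        rw [Real.sin_neg] at hns ⊢
        rw [abs_of_nonpos (by linarith only [hns])]
    · right
      refine st5_lin (pK k) _ _ (by linarith only [hK]) hxl ?_
      apply st5_one_sub_sin _ hK0 _ _ hmabsR
      have h5 : (pK k : ℤ) - |m| ≠ 0 := by omega
      have : (1 : ℤ) ≤ abs ((pK k : ℤ) - |m|) := Int.one_le_abs h5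
      have h6 : ((1 : ℤ) : ℝ) ≤ ((abs ((pK k : ℤ) - |m|) : ℤ) : ℝ) := by exact_mod_cast this
      push_cast at h6
      exact h6

/-- the device of the pair `a < b` on its own pair -/
theorem hop_own (k : ℕ) (hk : 10 ≤ k) (q : ℕ → ℕ) (hq : GoodQ k q) (a b : ℕ) (hab : a < b)
    (hb : b < pK k) :
    hopA (pn k) (q (b - a)) ((pα k a + pα k b) / 2) (pα k a) (pα k b) = amp k q (b - a) ∧
    hopA (pn k) (q (b - a)) ((pα k a + pα k b) / 2) (pα k b) (pα k a) = amp k q (b - a) := by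
  have hd1 : 1 ≤ b - a := by omega
  have hd : b - a < pK k := by omega
  have hK := st5_pK_real k hk
  have hK0 : (0 : ℝ) < pK k := by linarith only [hK]
  have hn2 := (pn_even k hk).2
  obtain ⟨hq1, hq2⟩ := goodQ_range k hk q hq (b - a) hd1 hd
  have main : hopA (pn k) (q (b - a)) ((pα k a + pα k b) / 2) (pα k b) (pα k a) =
      amp k q (b - a) := by
    unfold amp
    rw [← hopA_shift (pn k) (q (b - a)) hn2 (by omega) 0
      (0 + Real.pi * ((b - a : ℕ) : ℝ) / (2 * pK k)) (0 - Real.pi * ((b - a : ℕ) : ℝ) / (2 * pK k))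
      ((pα k a + pα k b) / 2)]
    have hc : ((b - a : ℕ) : ℝ) = (b : ℝ) - a := by
      rw [Nat.cast_sub hab.le]
    congr 1
    · ring
    · rw [hc]; unfold pα; field_simp; ring
    · rw [hc]; unfold pα; field_simp; ring
  exact ⟨by rw [hopA_symm]; exact main, main⟩

theorem leak_small (k : ℕ) (hk : 10 ≤ k) :
    (pn k : ℝ) ^ 20 * Real.exp (-(((pn k : ℝ) - 1) / (64 * (pK k : ℝ) ^ 4))) ≤
      1 / (pn k : ℝ) ^ 4 := by
  have hK := st5_pK_real k hk
  have hK0 : (0 : ℝ) < pK k := by linarith only [hK]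
  have hn : (pn k : ℝ) = (pK k : ℝ) ^ 2048 := by exact_mod_cast pn_eq k
  have hn0 : (0 : ℝ) < pn k := by rw [hn]; positivity
  set y := ((pn k : ℝ) - 1) / (64 * (pK k : ℝ) ^ 4) with hy
  have hyl : (pK k : ℝ) ^ 2040 ≤ y := by
    rw [hy, le_div_iff₀ (by positivity), hn]
    have h1 : (pK k : ℝ) ^ 2040 * (64 * (pK k : ℝ) ^ 4) = 64 * (pK k : ℝ) ^ 2044 := by ring
    rw [h1]
    have h2 : (pK k : ℝ) ^ 2048 = (pK k : ℝ) ^ 4 * (pK k : ℝ) ^ 2044 := by ring
    rw [h2]
    have h3 : (1 : ℝ) ≤ (pK k : ℝ) ^ 2044 := one_le_pow₀ (by linarith only [hK])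
    have h4 : (65 : ℝ) ≤ (pK k : ℝ) ^ 4 := by
      calc (65 : ℝ) ≤ (1024 : ℝ) ^ 4 := by norm_num
        _ ≤ (pK k : ℝ) ^ 4 := by gcongr
    nlinarith only [h3, h4]
  have hy0 : 0 ≤ y := le_trans (by positivity) hyl
  have hexp := Real.pow_div_factorial_le_exp y hy0 26
  have h1 : ((pK k : ℝ) ^ 2040) ^ 26 / (Nat.factorial 26 : ℝ) ≤ Real.exp y := by
    refine le_trans ?_ hexp
    gcongr
  have h2 : (pn k : ℝ) ^ 24 ≤ ((pK k : ℝ) ^ 2040) ^ 26 / (Nat.factorial 26 : ℝ) := by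
    rw [le_div_iff₀ (by positivity), hn, ← pow_mul, ← pow_mul]
    have h3 : (Nat.factorial 26 : ℝ) ≤ (pK k : ℝ) ^ 9 := by
      calc (Nat.factorial 26 : ℝ) ≤ (1024 : ℝ) ^ 9 := by
            norm_num [Nat.factorial]
        _ ≤ (pK k : ℝ) ^ 9 := by gcongr
    calc (pK k : ℝ) ^ (2048 * 24) * (Nat.factorial 26 : ℝ) ≤
        (pK k : ℝ) ^ (2048 * 24) * (pK k : ℝ) ^ 9 := by gcongr
      _ = (pK k : ℝ) ^ (2048 * 24 + 9) := by rw [pow_add]
      _ ≤ (pK k : ℝ) ^ (2040 * 26) := pow_le_pow_right₀ (by linarith only [hK]) (by norm_num)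
  have h3 := le_trans h2 h1
  rw [Real.exp_neg, le_div_iff₀ (by positivity)]
  have h4 : (pn k : ℝ) ^ 20 * (Real.exp y)⁻¹ * (pn k : ℝ) ^ 4 =
      (pn k : ℝ) ^ 24 / Real.exp y := by
    rw [div_eq_mul_inv]; ring
  rw [h4, div_le_one (Real.exp_pos y)]
  exact h3

end Vale.Agent.P370.Q
end

section

/-!
Final numerical estimates for the structure theorem.
-/

namespace Vale.Agent.P370.Q

open Finset

theorem pn_pos (k : ℕ) : 0 < pn k := by unfold pn; positivity

theorem pn_ge (k : ℕ) (hk : 10 ≤ k) : 1024 ≤ pn k := by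
  rw [pn_eq]
  calc 1024 ≤ pK k := pK_ge k hk
    _ = pK k ^ 1 := (pow_one _).symm
    _ ≤ pK k ^ 2048 := Nat.pow_le_pow_right (by have := pK_ge k hk; omega) (by norm_num)

/-- powers of two beat `n^3` multiples -/
theorem two_pow_mono {a b : ℕ} (h : a ≤ b) : (2 : ℝ) ^ a ≤ 2 ^ b :=
  pow_le_pow_right₀ (by norm_num) h

theorem pn_le_two_pow (k : ℕ) : (pn k : ℝ) ≤ 2 ^ pn k := by
  have : pn k < 2 ^ pn k := Nat.lt_two_pow_self
  exact_mod_cast this.le

theorem pn_cube_ge (k : ℕ) (hk : 10 ≤ k) : 1024 * pn k ≤ pn k ^ 3 := by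
  have h := pn_ge k hk
  calc 1024 * pn k ≤ pn k ^ 2 * pn k := by
        apply Nat.mul_le_mul_right
        nlinarith
    _ = pn k ^ 3 := by ring

/-- the accuracy `pJ / K^8` is not smaller than `2 ^ (-n^3)` -/
theorem acc_ge (k : ℕ) (hk : 10 ≤ k) : 1024 / 2 ^ (pn k ^ 3) ≤ pJ k / (pK k : ℝ) ^ 8 := by
  have hK : (1024 : ℝ) ≤ pK k := by exact_mod_cast pK_ge k hk
  have hK1 : (1 : ℝ) ≤ pK k := by linarith
  have hn : (1024 : ℝ) ≤ pn k := by exact_mod_cast pn_ge k hk
  have hKn : (pK k : ℝ) ^ 264 ≤ pn k := by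
    have : pK k ^ 264 ≤ pn k := by
      rw [pn_eq]
      exact Nat.pow_le_pow_right (by have := pK_ge k hk; omega) (by norm_num)
    exact_mod_cast this
  have h1 : pJ k / (pK k : ℝ) ^ 8 = 1 / ((pn k : ℝ) ^ 2 * (pK k : ℝ) ^ 264) := by
    unfold pJ
    rw [div_div]
    congr 1
    ring
  rw [h1, div_le_div_iff₀ (by positivity) (by positivity), one_mul]
  calc 1024 * ((pn k : ℝ) ^ 2 * (pK k : ℝ) ^ 264) ≤ (pn k : ℝ) * ((pn k : ℝ) ^ 2 * pn k) := by
        gcongr
    _ = (pn k : ℝ) ^ 4 := by ring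
    _ ≤ (2 ^ pn k) ^ 4 := by
        gcongr
        exact pn_le_two_pow k
    _ = 2 ^ (4 * pn k) := by rw [← pow_mul]; ring_nf
    _ ≤ 2 ^ (pn k ^ 3) := by
        apply two_pow_mono
        have := pn_cube_ge k hk
        omega

end Vale.Agent.P370.Q
end

section

/-!
KC11: real numbers which are rational with numerator and denominator computable in polynomial time.
-/

namespace Vale.Agent.P370.KC

open Vale.Agent.Lib.PolyTime Finset

variable {A : Set Word} {α β : Type*} [Enc α] [Enc β]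

/-- the values are rational, numerator and positive denominator are computable in polynomial
time -/
def PTQ (A : Set Word) {α : Type*} [Enc α] (f : α → ℝ) : Prop :=
  ∃ (p : α → ℤ) (q : α → ℕ), PT A p ∧ PT A q ∧ (∀ a, 0 < q a) ∧ ∀ a, f a = p a / q a

theorem PTQ.congr {f g : α → ℝ} (hf : PTQ A f) (h : ∀ a, f a = g a) : PTQ A g := by
  obtain ⟨p, q, h1, h2, h3, h4⟩ := hf
  exact ⟨p, q, h1, h2, h3, fun a => by rw [← h, h4]⟩

theorem PTQ.comp {f : β → ℝ} (hf : PTQ A f) {g : α → β} (hg : PT A g) :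
    PTQ A (fun a => f (g a)) := by
  obtain ⟨p, q, h1, h2, h3, h4⟩ := hf
  exact ⟨fun a => p (g a), fun a => q (g a), h1.comp hg, h2.comp hg, fun a => h3 _, fun a => h4 _⟩

theorem PTQ.ofInt {f : α → ℤ} (hf : PT A f) : PTQ A (fun a => (f a : ℝ)) :=
  ⟨f, fun _ => 1, hf, PT.const 1, fun _ => one_pos, fun a => by simp⟩

theorem PTQ.ofNat {f : α → ℕ} (hf : PT A f) : PTQ A (fun a => (f a : ℝ)) :=
  (PTQ.ofInt (PT.natCast hf)).congr fun a => by simp

theorem PTQ.constZ (z : ℤ) : PTQ A (fun _ : α => (z : ℝ)) := PTQ.ofInt (PT.const z)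

theorem PTQ.zero : PTQ A (fun _ : α => (0 : ℝ)) := (PTQ.constZ 0).congr fun _ => by simp

theorem PTQ.one : PTQ A (fun _ : α => (1 : ℝ)) := (PTQ.constZ 1).congr fun _ => by simp

theorem PTQ.add {f g : α → ℝ} (hf : PTQ A f) (hg : PTQ A g) : PTQ A (fun a => f a + g a) := by
  obtain ⟨p, q, h1, h2, h3, h4⟩ := hf
  obtain ⟨p', q', h1', h2', h3', h4'⟩ := hg
  refine ⟨fun a => p a * (q' a : ℤ) + p' a * (q a : ℤ), fun a => q a * q' a,
    (h1.intMul (PT.natCast h2')).intAdd (h1'.intMul (PT.natCast h2)), h2.mul h2',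
    fun a => Nat.mul_pos (h3 a) (h3' a), fun a => ?_⟩
  have e1 : (q a : ℝ) ≠ 0 := by exact_mod_cast (h3 a).ne'
  have e2 : (q' a : ℝ) ≠ 0 := by exact_mod_cast (h3' a).ne'
  simp only [h4, h4']
  push_cast
  field_simp

theorem PTQ.neg {f : α → ℝ} (hf : PTQ A f) : PTQ A (fun a => -f a) := by
  obtain ⟨p, q, h1, h2, h3, h4⟩ := hf
  refine ⟨fun a => -p a, q, h1.intNeg, h2, h3, fun a => ?_⟩
  simp only [h4]
  push_cast
  ring

theorem PTQ.sub {f g : α → ℝ} (hf : PTQ A f) (hg : PTQ A g) : PTQ A (fun a => f a - g a) :=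
  (hf.add hg.neg).congr fun a => by ring

theorem PTQ.mul {f g : α → ℝ} (hf : PTQ A f) (hg : PTQ A g) : PTQ A (fun a => f a * g a) := by
  obtain ⟨p, q, h1, h2, h3, h4⟩ := hf
  obtain ⟨p', q', h1', h2', h3', h4'⟩ := hg
  refine ⟨fun a => p a * p' a, fun a => q a * q' a, h1.intMul h1', h2.mul h2',
    fun a => Nat.mul_pos (h3 a) (h3' a), fun a => ?_⟩
  simp only [h4, h4']
  push_cast
  rw [div_mul_div_comm]

theorem PTQ.inv {f : α → ℝ} (hf : PTQ A f) : PTQ A (fun a => (f a)⁻¹) := by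
  obtain ⟨p, q, h1, h2, h3, h4⟩ := hf
  refine ⟨fun a => if p a = 0 then 0 else if p a < 0 then -(q a : ℤ) else (q a : ℤ),
    fun a => if p a = 0 then 1 else (p a).natAbs, ?_, ?_, fun a => ?_, fun a => ?_⟩
  · exact PT.ite (PT.intEq h1 (PT.const 0)) (PT.const 0)
      (PT.ite (PT.intLt h1 (PT.const 0)) (PT.natCast h2).intNeg (PT.natCast h2))
  · exact PT.ite (PT.intEq h1 (PT.const 0)) (PT.const 1) h1.natAbs
  · by_cases h : p a = 0
    · simp [h]
    · simp only [if_neg h]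
      omega
  · simp only [h4, inv_div]
    by_cases h : p a = 0
    · simp [h]
    · simp only [if_neg h]
      have e : ((p a).natAbs : ℝ) = |(p a : ℝ)| := by
        rw [Nat.cast_natAbs]
        push_cast
        rfl
      rw [e]
      by_cases h' : p a < 0
      · have h'' : (p a : ℝ) < 0 := by exact_mod_cast h'
        rw [if_pos h', abs_of_neg h'']
        push_cast
        rw [neg_div_neg_eq]
      · have h'' : (0 : ℝ) ≤ (p a : ℝ) := by exact_mod_cast not_lt.1 h'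
        rw [if_neg h', abs_of_nonneg h'']
        push_cast
        rfl

theorem PTQ.div {f g : α → ℝ} (hf : PTQ A f) (hg : PTQ A g) : PTQ A (fun a => f a / g a) :=
  (hf.mul hg.inv).congr fun _ => (div_eq_mul_inv _ _).symm

theorem ptIntPow {f : α → ℤ} {e : α → ℕ} (hf : PT A f) (he : PT A e) (heb : PBd e) :
    PT A (fun a => f a ^ e a) :=
  (PT.intProd (PT.replicate he heb hf)).congr fun _ => List.prod_replicate _ _

theorem PTQ.pow {f : α → ℝ} {e : α → ℕ} (hf : PTQ A f) (he : PT A e) (heb : PBd e) :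
    PTQ A (fun a => f a ^ e a) := by
  obtain ⟨p, q, h1, h2, h3, h4⟩ := hf
  refine ⟨fun a => p a ^ e a, fun a => q a ^ e a, ptIntPow h1 he heb, h2.pow he heb,
    fun a => Nat.pow_pos (h3 a), fun a => ?_⟩
  simp only [h4, div_pow]
  push_cast
  rfl

theorem PTQ.ite {p : α → Prop} [DecidablePred p] {f g : α → ℝ} (hp : PT A (fun a => decide (p a)))
    (hf : PTQ A f) (hg : PTQ A g) : PTQ A (fun a => if p a then f a else g a) := by
  obtain ⟨u, q, h1, h2, h3, h4⟩ := hf
  obtain ⟨u', q', h1', h2', h3', h4'⟩ := hg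
  refine ⟨fun a => if p a then u a else u' a, fun a => if p a then q a else q' a,
    PT.ite hp h1 h1', PT.ite hp h2 h2', fun a => ?_, fun a => ?_⟩
  · by_cases h : p a
    · simp only [if_pos h]
      exact h3 a
    · simp only [if_neg h]
      exact h3' a
  · by_cases h : p a
    · simp only [if_pos h]
      exact h4 a
    · simp only [if_neg h]
      exact h4' a

theorem ptq_list_prod {M : Type*} [CommMonoid M] (f : ℕ → M) (n : ℕ) :
    ((List.range n).map f).prod = ∏ i ∈ range n, f i := by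
  induction n with
  | zero => simp
  | succ n ih => rw [List.range_succ, List.map_append, List.prod_append, ih, prod_range_succ]; simp

theorem ptq_list_sum {M : Type*} [AddCommMonoid M] (f : ℕ → M) (n : ℕ) :
    ((List.range n).map f).sum = ∑ i ∈ range n, f i := by
  induction n with
  | zero => simp
  | succ n ih => rw [List.range_succ, List.map_append, List.sum_append, ih, sum_range_succ]; simp

theorem ptIntRangeProd {m : α → ℕ} {f : α → ℕ → ℤ} (hm : PT A m) (hmb : PBd m)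
    (hf : PT A (fun p : α × Un => f p.1 p.2.v)) : PT A (fun a => ∏ i ∈ range (m a), f a i) :=
  (PT.intProd (PT.rangeMap hm hmb hf)).congr fun _ => ptq_list_prod _ _

theorem ptNatRangeProd {m : α → ℕ} {f : α → ℕ → ℕ} (hm : PT A m) (hmb : PBd m)
    (hf : PT A (fun p : α × Un => f p.1 p.2.v)) : PT A (fun a => ∏ i ∈ range (m a), f a i) :=
  (PT.prod (PT.rangeMap hm hmb hf)).congr fun _ => ptq_list_prod _ _

theorem ptIntRangeSum {m : α → ℕ} {f : α → ℕ → ℤ} (hm : PT A m) (hmb : PBd m)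
    (hf : PT A (fun p : α × Un => f p.1 p.2.v)) : PT A (fun a => ∑ i ∈ range (m a), f a i) :=
  (PT.rangeSumInt hm hmb hf).congr fun _ => ptq_list_sum _ _

theorem PTQ.prod {m : α → ℕ} {f : α → ℕ → ℝ} (hm : PT A m) (hmb : PBd m)
    (hf : PTQ A (fun p : α × Un => f p.1 p.2.v)) :
    PTQ A (fun a => ∏ i ∈ range (m a), f a i) := by
  obtain ⟨p, q, h1, h2, h3, h4⟩ := hf
  refine ⟨fun a => ∏ i ∈ range (m a), p (a, ⟨i⟩), fun a => ∏ i ∈ range (m a), q (a, ⟨i⟩),
    ptIntRangeProd (f := fun a i => p (a, ⟨i⟩)) hm hmb h1,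
    ptNatRangeProd (f := fun a i => q (a, ⟨i⟩)) hm hmb h2,
    fun a => Finset.prod_pos fun i _ => h3 _, fun a => ?_⟩
  have e : ∀ i, f a i = p (a, ⟨i⟩) / q (a, ⟨i⟩) := fun i => h4 (a, ⟨i⟩)
  push_cast
  rw [← Finset.prod_div_distrib]
  exact Finset.prod_congr rfl fun i _ => e i

theorem PTQ.sum {m : α → ℕ} {f : α → ℕ → ℝ} (hm : PT A m) (hmb : PBd m)
    (hf : PTQ A (fun p : α × Un => f p.1 p.2.v)) :
    PTQ A (fun a => ∑ i ∈ range (m a), f a i) := by
  obtain ⟨p, q, h1, h2, h3, h4⟩ := hf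
  have hD : PT A (fun a => ∏ i ∈ range (m a), q (a, ⟨i⟩)) :=
    ptNatRangeProd (f := fun a i => q (a, ⟨i⟩)) hm hmb h2
  have hD0 : ∀ a, 0 < ∏ i ∈ range (m a), q (a, ⟨i⟩) := fun a => Finset.prod_pos fun i _ => h3 _
  have hDf : PT A (fun x : α × Un => ∏ i ∈ range (m x.1), q (x.1, ⟨i⟩)) := hD.comp PT.fst'
  refine ⟨fun a => ∑ i ∈ range (m a), p (a, ⟨i⟩) *
      (((∏ j ∈ range (m a), q (a, ⟨j⟩)) / q (a, ⟨i⟩) : ℕ) : ℤ),
    fun a => ∏ i ∈ range (m a), q (a, ⟨i⟩), ?_, hD, hD0, fun a => ?_⟩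
  · refine ptIntRangeSum (f := fun a i => p (a, ⟨i⟩) *
      (((∏ j ∈ range (m a), q (a, ⟨j⟩)) / q (a, ⟨i⟩) : ℕ) : ℤ)) hm hmb ?_
    exact PT.intMul h1 (PT.natCast (PT.div hDf h2))
  · have e : ∀ i, f a i = p (a, ⟨i⟩) / q (a, ⟨i⟩) := fun i => h4 (a, ⟨i⟩)
    have hDR : ((∏ i ∈ range (m a), q (a, ⟨i⟩) : ℕ) : ℝ) ≠ 0 := by
      exact_mod_cast (hD0 a).ne'
    rw [eq_div_iff hDR, Finset.sum_mul, Int.cast_sum]
    refine Finset.sum_congr rfl fun i hi => ?_
    have hdvd : q (a, ⟨i⟩) ∣ ∏ j ∈ range (m a), q (a, ⟨j⟩) :=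
      Finset.dvd_prod_of_mem (fun j => q (a, ⟨j⟩)) hi
    have hq : ((q (a, ⟨i⟩) : ℕ) : ℝ) ≠ 0 := by exact_mod_cast (h3 _).ne'
    rw [e, Int.cast_mul, Int.cast_natCast, Nat.cast_div hdvd hq]
    field_simp

theorem PTQ.factorial {f : α → ℕ} (hf : PT A f) (hfb : PBd f) :
    PTQ A (fun a => ((f a).factorial : ℝ)) :=
  PTQ.ofNat (PT.factorial hf hfb)

theorem PTQ.choose {f g : α → ℕ} (hf : PT A f) (hfb : PBd f) (hg : PT A g) (hgb : PBd g) :
    PTQ A (fun a => ((f a).choose (g a) : ℝ)) := by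
  refine PTQ.ofNat ?_
  have h1 : PT A (fun a => (f a).factorial / ((g a).factorial * (f a - g a).factorial)) :=
    PT.div (PT.factorial hf hfb) (PT.mul (PT.factorial hg hgb)
      (PT.factorial (hf.sub hg) (hfb.mono fun a => Nat.sub_le _ _)))
  refine (PT.ite (p := fun a => g a ≤ f a) (PT.le hg hf) h1 (PT.const 0)).congr fun a => ?_
  by_cases h : g a ≤ f a
  · rw [if_pos h, Nat.choose_eq_factorial_div_factorial h]
  · rw [if_neg h, Nat.choose_eq_zero_of_lt (not_le.1 h)]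

theorem PTQ.floor {f : α → ℝ} (hf : PTQ A f) : PT A (fun a => ⌊f a⌋) := by
  obtain ⟨p, q, h1, h2, h3, h4⟩ := hf
  refine (PT.intDiv h1 (PT.natCast h2)).congr fun a => ?_
  rw [h4, Int.floor_div_natCast, Int.floor_intCast]

end Vale.Agent.P370.KC
end
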