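import Vale.Agent.P370.MathlibUsed
import Vale.Agent.P370.Bdl.B4
import Vale.Agent.P370.Bdl.B9
import Vale.Agent.P370.Bdl.B8
import Vale.Agent.P370.Bdl.B10
import Vale.Agent.P370.Bdl.B12
import Vale.Agent.P370.Bdl.B2
import Vale.Agent.P370.Bdl.B5

set_option linter.all false

section

/-!
Rounding errors and amplitude bounds.
-/

namespace Vale.Agent.P370.Q

open MeasureTheory Finset

namespace S4

theorem K_ge (k : ℕ) (hk : 10 ≤ k) : (1024 : ℝ) ≤ (pK k : ℝ) := by
  exact_mod_cast pK_ge k hk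

theorem n_eq (k : ℕ) : (pn k : ℝ) = (pK k : ℝ) ^ 2048 := by
  exact_mod_cast pn_eq k

/-- small powers of `K` are below `n` -/
theorem Kpow_le_n (k : ℕ) (hk : 10 ≤ k) (c : ℕ) (hc : c ≤ 2048) :
    (pK k : ℝ) ^ c ≤ (pn k : ℝ) := by
  rw [n_eq]
  exact pow_le_pow_right₀ (by linarith only [K_ge k hk]) hc

theorem n_ge (k : ℕ) (hk : 10 ≤ k) : (2 : ℝ) ^ 100 ≤ (pn k : ℝ) := by
  have h1 := Kpow_le_n k hk 10 (by norm_num)
  have h2 : (1024 : ℝ) ^ 10 ≤ (pK k : ℝ) ^ 10 := pow_le_pow_left₀ (by norm_num) (K_ge k hk) 10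
  have h3 : (2 : ℝ) ^ 100 = 1024 ^ 10 := by norm_num
  linarith only [h1, h2]

theorem n_one_le (k : ℕ) (hk : 10 ≤ k) : (1 : ℝ) ≤ (pn k : ℝ) :=
  le_trans (by norm_num) (n_ge k hk)

theorem pe0_le (k : ℕ) : pe0 k ≤ pn k := Nat.div_le_self _ _

theorem npow_le (k : ℕ) (hk : 10 ≤ k) (c : ℕ) (hc : c ≤ 64) :
    (pn k : ℝ) ^ c ≤ 2 ^ pn k := by
  refine (pn_pow_le k hk c hc).trans (pow_le_pow_right₀ (by norm_num) ?_)
  exact (Nat.div_le_self _ _).trans (pe0_le k)

theorem two_le_pn (k : ℕ) (hk : 10 ≤ k) : 2 ≤ pn k := (pn_even k hk).2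

theorem pn_sub_one (k : ℕ) (hk : 10 ≤ k) : ((pn k - 1 : ℕ) : ℝ) = (pn k : ℝ) - 1 := by
  have := two_le_pn k hk
  push_cast [Nat.cast_sub (by omega : 1 ≤ pn k)]
  ring

theorem norm_cdot_av_le (α : ℝ) (x : R3) : ‖cdot (av α) x‖ ≤ ‖x‖ := by
  rw [cdot_eq_lf, av_eq]
  exact GC.norm_lf_av_le α x

theorem abs_re_pow_le (α : ℝ) (x : R3) (hx : ‖x‖ = 1) (N : ℕ) :
    |(cdot (av α) x ^ N).re| ≤ 1 := by
  refine (Complex.abs_re_le_norm _).trans ?_
  rw [norm_pow]
  refine pow_le_one₀ (norm_nonneg _) ?_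
  rw [← hx]
  exact norm_cdot_av_le α x

end S4

/-- angular amplitudes -/
theorem amp_bounds (k : ℕ) (hk : 10 ≤ k) (q : ℕ → ℕ) (hq : GoodQ k q) (d : ℕ) (h1 : 1 ≤ d)
    (hd : d < pK k) : 1 / (64 * (pn k : ℝ) ^ 4) ≤ amp k q d ∧ amp k q d ≤ 1 := by
  have hn2 := S4.two_le_pn k hk
  have hqr := goodQ_range k hk q hq d h1 hd
  have hK := S4.K_ge k hk
  have hK0 : (0 : ℝ) < pK k := by linarith only [hK]
  have hpi := Real.pi_pos
  have hd1 : (1 : ℝ) ≤ d := by exact_mod_cast h1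
  have hd2 : (d : ℝ) + 1 ≤ pK k := by exact_mod_cast hd
  constructor
  · unfold amp
    have hδ0 : 0 < Real.pi * d / (2 * pK k) := by positivity
    have hδ1 : Real.pi * d / (2 * pK k) < Real.pi / 2 := by
      rw [div_lt_div_iff₀ (by (clear * - hK; (clear * - hK; positivity))) (by norm_num)]
      linarith only [hpi, mul_nonneg_of_nonpos_of_nonpos (le_of_lt (Mathlib.Tactic.Linarith.sub_neg_of_lt hpi)) (Mathlib.Tactic.Linarith.sub_nonpos_of_le hd2)]
    refine hopA_lower (pn k) (q d) hn2 (Real.pi * d / (2 * pK k)) hδ0 hδ1 hqr.1 hqr.2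
      (hq d h1 hd) ?_ 0
    -- lower bounds of sine and cosine
    have hsin : 1 / (pK k : ℝ) ≤ Real.sin (Real.pi * d / (2 * pK k)) := by
      have h := Real.mul_le_sin hδ0.le hδ1.le
      refine le_trans ?_ h
      have : 2 / Real.pi * (Real.pi * d / (2 * pK k)) = d / pK k := by
        field_simp
      rw [this]
      (clear * - hd1 hK; gcongr)
    have hcos : 1 / (pK k : ℝ) ≤ Real.cos (Real.pi * d / (2 * pK k)) := by
      have h := Real.mul_le_sin (x := Real.pi / 2 - Real.pi * d / (2 * pK k)) (by linarith only [hδ1])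
        (by linarith only [hδ0])
      rw [Real.sin_pi_div_two_sub] at h
      refine le_trans ?_ h
      have : 2 / Real.pi * (Real.pi / 2 - Real.pi * d / (2 * pK k)) = (pK k - d) / pK k := by
        (clear * - hK; field_simp)
      rw [this]
      gcongr
      linarith only [hd2]
    have h0 : 0 < 1 / (pK k : ℝ) := by positivity
    have hs2 : (1 / (pK k : ℝ)) ^ 2 ≤ Real.sin (Real.pi * d / (2 * pK k)) ^ 2 :=
      pow_le_pow_left₀ h0.le hsin 2
    have hc2 : (1 / (pK k : ℝ)) ^ 2 ≤ Real.cos (Real.pi * d / (2 * pK k)) ^ 2 :=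
      pow_le_pow_left₀ h0.le hcos 2
    have hn5 := S4.Kpow_le_n k hk 5 (by norm_num)
    have hnn : (0 : ℝ) ≤ (pn k : ℝ) - 1 := by linarith only [S4.n_one_le k hk]
    calc (64 : ℝ) ≤ ((pn k : ℝ) - 1) * ((1 / (pK k : ℝ)) ^ 2 * (1 / (pK k : ℝ)) ^ 2) := by
          have : ((pn k : ℝ) - 1) * ((1 / (pK k : ℝ)) ^ 2 * (1 / (pK k : ℝ)) ^ 2) =
              ((pn k : ℝ) - 1) / (pK k : ℝ) ^ 4 := by (clear * - hK; field_simp)
          rw [this, le_div_iff₀ (by (clear * - hK; positivity))]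
          have h5 : (1024 : ℝ) * (pK k : ℝ) ^ 4 ≤ (pK k : ℝ) ^ 5 := by
            rw [pow_succ (pK k : ℝ) 4, mul_comm]
            (clear * - hK; gcongr)
          have h6 : (1 : ℝ) ≤ (pK k : ℝ) ^ 4 := one_le_pow₀ (by linarith only [hK])
          linarith only [hn5, h5, h6]
      _ ≤ ((pn k : ℝ) - 1) * (Real.cos (Real.pi * d / (2 * pK k)) ^ 2 *
            Real.sin (Real.pi * d / (2 * pK k)) ^ 2) := by
          (clear * - hc2 hs2 hK hnn; gcongr)
      _ = _ := by ring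
  · unfold amp
    set α : ℝ := 0 + Real.pi * d / (2 * pK k) with hα
    set β : ℝ := 0 - Real.pi * d / (2 * pK k) with hβ
    obtain ⟨P, hP, hPe⟩ := fsite_InV (pn k) (by (clear * - hn2; omega)) α
    obtain ⟨P', hP', hPe'⟩ := fsite_InV (pn k) (by omega) β
    have h := dev_contr (pn k) (q d) hn2 0 hP hP'
    rw [← hPe, ← hPe', site_ov_ff (pn k) hn2, site_ov_ff (pn k) hn2] at h
    have hnf := nf_pos (pn k) (by omega)
    have hone : nf (pn k) * (((1 + Real.cos (α - α)) / 2) ^ (pn k - 1) +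
        ((1 - Real.cos (α - α)) / 2) ^ (pn k - 1)) = nf (pn k) := by
      rw [sub_self, Real.cos_zero]
      norm_num
      rw [zero_pow (by omega), add_zero, mul_one]
    have hone' : nf (pn k) * (((1 + Real.cos (β - β)) / 2) ^ (pn k - 1) +
        ((1 - Real.cos (β - β)) / 2) ^ (pn k - 1)) = nf (pn k) := by
      rw [sub_self, Real.cos_zero]
      norm_num
      rw [zero_pow (by omega), add_zero, mul_one]
    rw [hone, hone', Real.sqrt_mul_self hnf.le] at h
    have hpe : ∀ {Q : Poly3} {γ : ℝ}, fsite (pn k) γ = vfun (pn k) Q → ∀ x : R3,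
        (cdot (av γ) x ^ (pn k - 1)).re = pe Q x := by
      intro Q γ hQ x
      have h1 := congrFun hQ x
      unfold fsite vfun at h1
      exact mul_right_cancel₀ (Real.exp_ne_zero _) h1
    unfold hopA
    simp only [hpe hPe, hpe hPe']
    have h2 := (le_abs_self _).trans h
    rw [div_mul_eq_mul_div, div_le_one hnf]
    exact h2

/-- gaps of the direct Coulomb matrix -/
theorem gap_bounds (k : ℕ) (hk : 10 ≤ k) (d : ℕ) (h1 : 1 ≤ d) (hd : d < pK k) :
    1 / (2 ^ 31 * (pK k : ℝ) ^ 2 * (pn k : ℝ) ^ 2) ≤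
        wdir (pn k) 0 - wdir (pn k) (Real.pi * d / pK k) ∧
      wdir (pn k) 0 - wdir (pn k) (Real.pi * d / pK k) ≤ (pK k : ℝ) ^ 2 / (pn k : ℝ) ^ 2 := by
  have hn2 := S4.two_le_pn k hk
  have hK := S4.K_ge k hk
  have hKn := pK_ge k hk
  have hnpos : (0 : ℝ) < pn k := lt_of_lt_of_le one_pos (S4.n_one_le k hk)
  constructor
  · have hcond : 2 ^ 30 * pK k ^ 4 ≤ pn k := by
      have h7 : pK k ^ 7 ≤ pn k := by
        rw [pn_eq]
        exact pow_le_pow_right₀ (le_trans (by norm_num) hKn) (by norm_num)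
      refine le_trans ?_ h7
      rw [show (7 : ℕ) = 3 + 4 from rfl, pow_add]
      refine Nat.mul_le_mul_right _ ?_
      calc 2 ^ 30 = 1024 ^ 3 := by norm_num
        _ ≤ pK k ^ 3 := Nat.pow_le_pow_left hKn 3
    let i0 : Fin (pK k) := ⟨0, by omega⟩
    let i1 : Fin (pK k) := ⟨d, hd⟩
    have hne : i0 ≠ i1 := by
      intro h
      have := congrArg Fin.val h
      simp only [i0, i1] at this
      omega
    have h := wdir_pd (pn k) (pK k) (by omega) hcond
      (fun i => if i = i0 then 1 else if i = i1 then -1 else 0)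
      (by
        intro i
        by_cases ha : i = i0
        · simp [ha]
        · by_cases hb : i = i1
          · simp [hb, hne.symm]
          · simp only [ha, ↓reduceIte, hb, abs_zero, zero_le_one])
      (by
        intro h0
        have := congrFun h0 i0
        simp only [↓reduceIte, Pi.zero_apply, one_ne_zero] at this)
    have hsum : ∀ F : Fin (pK k) → Fin (pK k) → ℝ,
        ∑ i, ∑ j, (((if i = i0 then (1 : ℤ) else if i = i1 then -1 else 0 : ℤ) : ℝ) *
          ((if j = i0 then (1 : ℤ) else if j = i1 then -1 else 0 : ℤ) : ℝ)) * F i j =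
        F i0 i0 - F i0 i1 - F i1 i0 + F i1 i1 := by
      intro F
      have hx : ∀ G : Fin (pK k) → ℝ,
          ∑ i, ((if i = i0 then (1 : ℤ) else if i = i1 then -1 else 0 : ℤ) : ℝ) * G i =
            G i0 - G i1 := by
        intro G
        rw [← Finset.sum_subset (s₁ := {i0, i1}) (subset_univ _)]
        · rw [Finset.sum_pair hne]
          simp only [↓reduceIte, Int.cast_one, one_mul, hne.symm, Int.reduceNeg, Int.cast_neg, neg_mul]
          ring
        · intro i _ hi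
          simp only [mem_insert, mem_singleton, not_or] at hi
          simp [hi.1, hi.2]
      have : ∀ i, ∑ j, (((if i = i0 then (1 : ℤ) else if i = i1 then -1 else 0 : ℤ) : ℝ) *
          ((if j = i0 then (1 : ℤ) else if j = i1 then -1 else 0 : ℤ) : ℝ)) * F i j =
          ((if i = i0 then (1 : ℤ) else if i = i1 then -1 else 0 : ℤ) : ℝ) *
            (F i i0 - F i i1) := by
        intro i
        rw [← hx (F i), Finset.mul_sum]
        refine Finset.sum_congr rfl fun j _ => ?_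
        ring
      rw [Finset.sum_congr rfl fun i _ => this i, hx (fun i => F i i0 - F i i1)]
      ring
    rw [hsum (fun i j => wdir (pn k) (Real.pi * (i : ℕ) / pK k - Real.pi * (j : ℕ) / pK k))] at h
    simp only [i0, i1, Nat.cast_zero, mul_zero, zero_div, sub_self, sub_zero, zero_sub,
      wdir_even (pn k) hn2] at h
    have he : (1 : ℝ) / (2 ^ 31 * (pK k : ℝ) ^ 2 * (pn k : ℝ) ^ 2) =
        (1 / (2 ^ 30 * (pK k : ℝ) ^ 2 * (pn k : ℝ) ^ 2)) / 2 := by
      have hK0 : (0 : ℝ) < pK k := by linarith only [hK]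
      (clear * - hn2 hKn; field_simp)
    rw [he]
    linarith only [h]
  · have ha := (wdir_bounds (pn k) hn2 0).2
    have hb := (wdir_bounds (pn k) hn2 (Real.pi * d / pK k)).1
    have hc : (42 + 6 * Real.log (pn k)) / (pn k : ℝ) ^ 2 ≤ (pK k : ℝ) ^ 2 / (pn k : ℝ) ^ 2 := by
      gcongr
      exact (log_pn_le k hk).2
    linarith only [ha, hb, hc]

theorem kap_bounds (k : ℕ) (hk : 10 ≤ k) (q : ℕ → ℕ) (hq : GoodQ k q) (d : ℕ) (h1 : 1 ≤ d)
    (hd : d < pK k) : 1 / 2 ^ (4 * pn k) ≤ kap k q d ∧ kap k q d ≤ 1 / 2 ^ pn k := by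
  have hqr := goodQ_range k hk q hq d h1 hd
  have hn1 := S4.n_one_le k hk
  have hK := S4.K_ge k hk
  obtain ⟨ha1, ha2⟩ := amp_bounds k hk q hq d h1 hd
  obtain ⟨hz1, hz2⟩ := zt_bounds k (2 * q d) hk (by omega) (by omega)
  obtain ⟨hg1, hg2⟩ := gap_bounds k hk d h1 hd
  have hN2 := S4.Kpow_le_n k hk 2 (by norm_num)
  have hN4 := S4.Kpow_le_n k hk 4 (by norm_num)
  have hbig := S4.n_ge k hk
  have hp := S4.npow_le k hk 10 (by norm_num)
  have hE : (2 : ℝ) ^ (4 * pn k) = ((2 : ℝ) ^ pn k) ^ 4 := by rw [mul_comm, pow_mul]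
  rw [hE]
  unfold kap pη
  set n : ℝ := (pn k : ℝ) with hn
  set K : ℝ := (pK k : ℝ) with hKdef
  set E : ℝ := (2 : ℝ) ^ pn k with hEdef
  set z := zt k (2 * q d)
  set a := amp k q d
  set G := wdir (pn k) 0 - wdir (pn k) (Real.pi * d / pK k)
  have hE0 : 0 < E := by (clear * -; positivity)
  have hn0 : 0 < n := by linarith only [hbig]
  have hK0 : 0 < K := by linarith only [hK]
  have hG0 : 0 < G := lt_of_lt_of_le (by (clear * - hK hn1; (clear * - hK hn1; positivity))) hg1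
  have hz0 : 0 < z := by linarith only [hz1]
  have ha0 : 0 < a := lt_of_lt_of_le (by (clear * - hn1; positivity)) ha1
  constructor
  · rw [le_div_iff₀ hG0]
    have h2 : 1 / E * (1 / 2) * (1 / (64 * n ^ 4)) ≤ 1 / E * z * a := by (clear * - hz1 ha1 hn1; gcongr)
    have h3 : (1 / E * (1 / 2) * (1 / (64 * n ^ 4))) ^ 2 ≤ (1 / E * z * a) ^ 2 :=
      pow_le_pow_left₀ (by (clear * - hn1; positivity)) h2 2
    refine le_trans ?_ (mul_le_mul_of_nonneg_left h3 (by norm_num : (0 : ℝ) ≤ 2))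
    refine (mul_le_mul_of_nonneg_left hg2 (by positivity)).trans ?_
    rw [div_mul_div_comm, one_mul, div_le_iff₀ (by positivity)]
    have e : 2 * (1 / E * (1 / 2) * (1 / (64 * n ^ 4))) ^ 2 * (E ^ 4 * n ^ 2) =
        E ^ 2 / (8192 * n ^ 6) := by
      field_simp
      norm_num
    rw [e, le_div_iff₀ (by (clear * - hn1; positivity))]
    have h4 : E ^ 2 ≥ n ^ 10 * 1 := by
      have : (1 : ℝ) ≤ E := one_le_pow₀ (by norm_num)
      nlinarith only [hp, this]
    have h5 : K ^ 2 * (8192 * n ^ 6) ≤ n ^ 10 := by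
      have h6 : (8192 : ℝ) ≤ n := le_trans (by norm_num) hbig
      calc K ^ 2 * (8192 * n ^ 6) ≤ n * (n * n ^ 6) := by (clear * - hN2 h6 hn1; gcongr)
        _ = n ^ 8 := by ring
        _ ≤ n ^ 10 := pow_le_pow_right₀ hn1 (by norm_num)
    linarith only [h4, h5]
  · rw [div_le_iff₀ hG0]
    have h2 : 1 / E * z * a ≤ 1 / E * 2 * 1 := by gcongr
    have h3 : (1 / E * z * a) ^ 2 ≤ (1 / E * 2 * 1) ^ 2 :=
      pow_le_pow_left₀ (by (clear * - hz1 ha0; (clear * - hz1 ha0; positivity))) h2 2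
    refine le_trans (mul_le_mul_of_nonneg_left h3 (by norm_num : (0 : ℝ) ≤ 2)) ?_
    refine le_trans ?_ (mul_le_mul_of_nonneg_left hg1 (by positivity))
    rw [one_div_mul_one_div_rev, le_div_iff₀ (by (clear * - hK hn1; positivity))]
    have e : 2 * (1 / E * 2 * 1) ^ 2 * (2 ^ 31 * K ^ 2 * n ^ 2 * E) =
        (2 ^ 34 * K ^ 2 * n ^ 2) / E := by
      (clear * - hn1 hK hE0; field_simp)
    rw [e, div_le_one hE0]
    refine le_trans ?_ hp
    have h6 : (2 : ℝ) ^ 34 ≤ n := le_trans (by norm_num) hbig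
    calc (2 : ℝ) ^ 34 * K ^ 2 * n ^ 2 ≤ n * n * n ^ 2 := by (clear * - h6 hN2 hK hn1; gcongr)
      _ = n ^ 4 := by ring
      _ ≤ n ^ 10 := pow_le_pow_right₀ hn1 (by norm_num)

/-- amplitudes are moderate -/
theorem goodS_bound (k : ℕ) (hk : 10 ≤ k) (q : ℕ → ℕ) (hq : GoodQ k q) (s : ℕ → ℕ → ℕ)
    (hs : GoodS k q s) (i j : ℕ) (hij : i < j) (hj : j < pK k) :
    (s i j : ℝ) * pη k ≤ (pn k : ℝ) ^ 5 ∧
      |thop k q (j - i) (s i j)| ≤ 1 / ((pn k : ℝ) ^ 2 * (pK k : ℝ) ^ 126) := by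
  have hd1 : 1 ≤ j - i := by omega
  have hd2 : j - i < pK k := by omega
  have hqr := goodQ_range k hk q hq (j - i) hd1 hd2
  have hn1 := S4.n_one_le k hk
  have hK := S4.K_ge k hk
  obtain ⟨ha1, ha2⟩ := amp_bounds k hk q hq (j - i) hd1 hd2
  obtain ⟨hz1, hz2⟩ := zt_bounds k (2 * q (j - i)) hk (by omega) (by omega)
  obtain ⟨hg1, hg2⟩ := gap_bounds k hk (j - i) hd1 hd2
  have hbig := S4.n_ge k hk
  have h := hs i j hij hj
  unfold kap pJ at h
  unfold thop
  set n : ℝ := (pn k : ℝ) with hn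
  set K : ℝ := (pK k : ℝ) with hKdef
  set z := zt k (2 * q (j - i))
  set a := amp k q (j - i)
  set G := wdir (pn k) 0 - wdir (pn k) (Real.pi * ((j - i : ℕ) : ℝ) / pK k)
  set e := pη k with he
  set x : ℝ := (s i j : ℝ)
  have hn0 : 0 < n := by linarith only [hbig]
  have hK0 : 0 < K := by linarith only [hK]
  have hG0 : 0 < G := lt_of_lt_of_le (by (clear * - hK hn1; (clear * - hK hn1; positivity))) hg1
  have hz0 : 0 < z := by linarith only [hz1]
  have ha0 : 0 < a := lt_of_lt_of_le (by (clear * - hn1; positivity)) ha1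
  have he0 : 0 < e := by rw [he]; unfold pη; positivity
  have hx0 : 0 ≤ x := Nat.cast_nonneg _
  have hT : 0 ≤ x * e * z * a := by (clear * - he0 hz1 ha0; positivity)
  -- the main inequality
  have hsq : (x * e * z * a) ^ 2 ≤ (1 / (n ^ 2 * K ^ 126)) ^ 2 := by
    have h2 : 2 * (x * e * z * a) ^ 2 ≤ 16 * (1 / (n ^ 2 * K ^ 256)) * G := by
      rw [div_mul_eq_mul_div, div_le_iff₀ hG0] at h
      calc 2 * (x * e * z * a) ^ 2 = 2 * (e * z * a) ^ 2 * x ^ 2 := by ring
        _ ≤ _ := h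
    have h3 : 16 * (1 / (n ^ 2 * K ^ 256)) * G ≤ 16 * (1 / (n ^ 2 * K ^ 256)) * (K ^ 2 / n ^ 2) := by
      (clear * - hg2 hn1 hK; gcongr)
    have h4 : 16 * (1 / (n ^ 2 * K ^ 256)) * (K ^ 2 / n ^ 2) =
        (16 / K ^ 2) * (1 / (n ^ 2 * K ^ 126)) ^ 2 := by
      (clear * - hK hn1; field_simp)
    have h5 : 16 / K ^ 2 ≤ 2 := by
      rw [div_le_iff₀ (by (clear * - hK; (clear * - hK; positivity)))]
      nlinarith only [hK]
    have h6 : (0 : ℝ) ≤ (1 / (n ^ 2 * K ^ 126)) ^ 2 := by (clear * - hn1 hK; (clear * - hn1 hK; positivity))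
    linarith only [mul_nonneg_of_nonpos_of_nonpos (Mathlib.Tactic.Linarith.sub_nonpos_of_le (sq_nonneg (1 / (n ^ 2 * K ^ 126)))) (Mathlib.Tactic.Linarith.sub_nonpos_of_le h5), h4, h3, h2]
  have hle : x * e * z * a ≤ 1 / (n ^ 2 * K ^ 126) :=
    (pow_le_pow_iff_left₀ hT (by (clear * - hn1 hK; positivity)) (by norm_num)).1 hsq
  constructor
  · -- divide by `z a`
    have h7 : x * e * (1 / 2) * (1 / (64 * n ^ 4)) ≤ 1 := by
      calc x * e * (1 / 2) * (1 / (64 * n ^ 4)) ≤ x * e * z * a := by (clear * - hz1 he0 ha1 hn1; gcongr)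
        _ ≤ 1 / (n ^ 2 * K ^ 126) := hle
        _ ≤ 1 := by
          rw [div_le_one (by (clear * - hn1 hK; positivity))]
          have : (1 : ℝ) ≤ n ^ 2 := one_le_pow₀ hn1
          have : (1 : ℝ) ≤ K ^ 126 := one_le_pow₀ (by linarith only [hK])
          (clear hk q hq s hs i j hij hj hd1 hd2 hqr hbig hn hKdef z hz1 hz2 a ha2 ha1 G hg1 hg2 e he x h hn0 hK0 hG0 hz0 ha0 he0 hx0 hT hsq hle; nlinarith)
    have h8 : x * e * (1 / 2) * (1 / (64 * n ^ 4)) = x * e / (128 * n ^ 4) := by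
      field_simp
      ring
    rw [h8, div_le_one (by (clear * - hn1; positivity))] at h7
    refine h7.trans ?_
    have h9 : (128 : ℝ) ≤ n := le_trans (by norm_num) hbig
    calc 128 * n ^ 4 ≤ n * n ^ 4 := by (clear * - h9 hn1; gcongr)
      _ = n ^ 5 := by ring
  · rw [abs_neg, abs_of_nonneg hT]
    exact hle

namespace S4

theorem qw_nonneg (k : ℕ) (hk : 10 ≤ k) (a : ℕ) (ha : a < pD k) : 0 ≤ qw (pD k) a := by
  have h2 := two_le_pn k hk
  have hD : 2 ≤ pD k := by unfold pD; (clear * - h2; omega)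
  have hE : Even (pD k) := by unfold pD; exact ⟨8 * pn k, by ring⟩
  unfold qw
  exact div_nonneg (le_trans (by (clear * - hD; positivity)) (fej_pos (pD k) hD hE a ha)) (Nat.cast_nonneg _)

theorem qw_sum (k : ℕ) (hk : 10 ≤ k) :
    ∑ a ∈ range (pD k), ∑ _b ∈ range (pD k), qw (pD k) a = 1 := by
  have h2 := two_le_pn k hk
  have hD : 2 ≤ pD k := by unfold pD; omega
  have hE : Even (pD k) := by unfold pD; exact ⟨8 * pn k, by ring⟩
  rw [← fej_sum (pD k) hD hE]
  refine sum_congr rfl fun a _ => ?_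
  rw [sum_const, card_range, nsmul_eq_mul]
  unfold qw
  have : (pD k : ℝ) ≠ 0 := by (clear * - hD; positivity)
  field_simp

/-- total strength of the devices -/
noncomputable def tot (k : ℕ) : ℝ :=
  pW k + (pK k * (pL k * 2 ^ (34 * pn k ^ 3)) +
    pK k * (pK k * ((pn k : ℝ) ^ 5 * 2 ^ (34 * pn k ^ 3))))

theorem wex_le (k : ℕ) (hk : 10 ≤ k) (q : ℕ → ℕ) (hq : GoodQ k q) (s : ℕ → ℕ → ℕ)
    (hs : GoodS k q s) (a b : ℕ) (ha : a < pD k) :
    |wex k q s a b| ≤ qw (pD k) a * tot k := by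
  have hn2 := two_le_pn k hk
  have hn1 := n_one_le k hk
  have hx : ‖node (pD k) a b‖ = 1 := norm_sp _ _
  have hW : 0 < pW k := by unfold pW; positivity
  have hL : 0 < pL k := by unfold pL; positivity
  have hη : 0 < pη k := by unfold pη; positivity
  unfold wex tot
  rw [abs_mul, abs_of_nonneg (qw_nonneg k hk a ha)]
  refine mul_le_mul_of_nonneg_left ?_ (qw_nonneg k hk a ha)
  rw [add_assoc]
  refine (abs_add_le _ _).trans ?_
  rw [abs_of_pos hW]
  refine add_le_add le_rfl ?_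
  refine (abs_add_le _ _).trans (add_le_add ?_ ?_)
  · refine (abs_sum_le_sum_abs _ _).trans ?_
    refine (sum_le_card_nsmul _ _ (pL k * 2 ^ (34 * pn k ^ 3)) fun i _ => ?_).trans ?_
    · obtain ⟨hx1, hx2⟩ := Xu_le k (2 * (pn k - 1)) hk (by (clear * - hn2; omega))
      rw [abs_mul, abs_of_pos (mul_pos hL hx1)]
      calc pL k * Xu (pn k) (2 * (pn k - 1)) (pρ k) *
            |(cdot (av (pα k i)) (node (pD k) a b) ^ (2 * (pn k - 1))).re|
          ≤ pL k * Xu (pn k) (2 * (pn k - 1)) (pρ k) * 1 :=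
            mul_le_mul_of_nonneg_left (abs_re_pow_le _ _ hx _) (mul_pos hL hx1).le
        _ ≤ pL k * 2 ^ (34 * pn k ^ 3) := by
            rw [mul_one]
            exact mul_le_mul_of_nonneg_left hx2 hL.le
    · rw [card_range, nsmul_eq_mul]
  · refine (abs_sum_le_sum_abs _ _).trans ?_
    refine (sum_le_card_nsmul _ _ (pK k * ((pn k : ℝ) ^ 5 * 2 ^ (34 * pn k ^ 3)))
      fun j hj => ?_).trans ?_
    · rw [mem_range] at hj
      refine (abs_sum_le_sum_abs _ _).trans ?_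
      refine (sum_le_card_nsmul _ _ ((pn k : ℝ) ^ 5 * 2 ^ (34 * pn k ^ 3))
        fun i hi => ?_).trans ?_
      · rw [mem_range] at hi
        have hqr := goodQ_range k hk q hq (j - i) (by omega) (by omega)
        obtain ⟨hx1, hx2⟩ := Xu_le k (2 * q (j - i)) hk (by (clear * - hn2 hqr; omega))
        have hb := (goodS_bound k hk q hq s hs i j hi hj).1
        have hb0 : 0 ≤ (s i j : ℝ) * pη k := by (clear * - hη; positivity)
        rw [abs_mul, abs_of_nonneg (mul_nonneg hb0 hx1.le)]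
        calc (s i j : ℝ) * pη k * Xu (pn k) (2 * q (j - i)) (pρ k) *
            |(cdot (av ((pα k i + pα k j) / 2)) (node (pD k) a b) ^ (2 * q (j - i))).re|
            ≤ (s i j : ℝ) * pη k * Xu (pn k) (2 * q (j - i)) (pρ k) * 1 :=
              mul_le_mul_of_nonneg_left (abs_re_pow_le _ _ hx _) (mul_nonneg hb0 hx1.le)
          _ ≤ (pn k : ℝ) ^ 5 * 2 ^ (34 * pn k ^ 3) := by
              rw [mul_one]
              exact mul_le_mul hb hx2 hx1.le (by positivity)
      · rw [card_range, nsmul_eq_mul]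
        refine mul_le_mul_of_nonneg_right ?_ (by positivity)
        exact_mod_cast hj.le
    · rw [card_range, nsmul_eq_mul]

theorem tot_le (k : ℕ) (hk : 10 ≤ k) : tot k ≤ 2 * pW k := by
  have hn1 := n_one_le k hk
  have hn1' := two_le_pn k hk
  have hKn := Kpow_le_n k hk 1 (by norm_num)
  rw [pow_one] at hKn
  have hL : pL k ≤ 2 ^ pn k := by
    unfold pL
    exact pow_le_pow_right₀ (by norm_num) (Nat.div_le_self _ _)
  have hL0 : 0 < pL k := by unfold pL; positivity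
  have h7 := npow_le k hk 7 (by norm_num)
  have h1 := npow_le k hk 1 (by norm_num)
  rw [pow_one] at h1
  have hK0 : (0 : ℝ) ≤ pK k := Nat.cast_nonneg _
  have hA : (pK k : ℝ) * (pL k * 2 ^ (34 * pn k ^ 3)) ≤
      2 ^ pn k * (2 ^ pn k * 2 ^ (34 * pn k ^ 3)) := by
    gcongr
    exact hKn.trans h1
  have hB : (pK k : ℝ) * (pK k * ((pn k : ℝ) ^ 5 * 2 ^ (34 * pn k ^ 3))) ≤
      2 ^ pn k * (2 ^ pn k * 2 ^ (34 * pn k ^ 3)) := by
    calc (pK k : ℝ) * (pK k * ((pn k : ℝ) ^ 5 * 2 ^ (34 * pn k ^ 3)))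
        ≤ (pn k : ℝ) * (pn k * ((pn k : ℝ) ^ 5 * 2 ^ (34 * pn k ^ 3))) := by gcongr
      _ = (pn k : ℝ) ^ 7 * 2 ^ (34 * pn k ^ 3) := by ring
      _ ≤ 2 ^ pn k * 2 ^ (34 * pn k ^ 3) := by (clear * - h7; gcongr)
      _ ≤ 2 ^ pn k * (2 ^ pn k * 2 ^ (34 * pn k ^ 3)) := by
          gcongr
          have h9 : (1 : ℝ) ≤ 2 ^ pn k := one_le_pow₀ (by norm_num)
          have h10 : (0 : ℝ) ≤ 2 ^ (34 * pn k ^ 3) := by positivity
          nlinarith only [hn1, h10, h1]
  have hC : (2 : ℝ) ^ pn k * (2 ^ pn k * 2 ^ (34 * pn k ^ 3)) +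
      2 ^ pn k * (2 ^ pn k * 2 ^ (34 * pn k ^ 3)) ≤ 2 ^ (128 * pn k ^ 3) := by
    have e : (2 : ℝ) ^ pn k * (2 ^ pn k * 2 ^ (34 * pn k ^ 3)) +
      2 ^ pn k * (2 ^ pn k * 2 ^ (34 * pn k ^ 3)) =
        2 ^ (1 + (pn k + (pn k + 34 * pn k ^ 3))) := by
      rw [pow_add, pow_add, pow_add]
      ring
    rw [e]
    refine pow_le_pow_right₀ (by norm_num) ?_
    have h11 : pn k ≤ pn k ^ 3 := Nat.le_self_pow (by norm_num) _
    (clear * - hn1' h11; omega)
  unfold tot
  have : pW k = 2 ^ (128 * pn k ^ 3) := rfl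
  linarith only [hA, hB, hC, this]

/-- sum over the flattened index set -/
theorem sum_flat (D : ℕ) (f : ℕ → ℕ → ℝ) :
    ∑ β : Fin (D * D), f ((β : ℕ) / D) ((β : ℕ) % D) = ∑ a ∈ range D, ∑ b ∈ range D, f a b := by
  rw [← Fin.sum_univ_eq_sum_range (fun a => ∑ b ∈ range D, f a b) D]
  simp_rw [← Fin.sum_univ_eq_sum_range (fun b => f _ b) D]
  rw [← Fintype.sum_prod_type' (f := fun a b : Fin D => f (a : ℕ) (b : ℕ))]
  refine (Fintype.sum_equiv finProdFinEquiv _ _ fun p => ?_).symm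
  have hD : 0 < D := lt_of_le_of_lt (Nat.zero_le _) p.1.isLt
  have h1 : ((finProdFinEquiv p : Fin (D * D)) : ℕ) = (p.2 : ℕ) + D * (p.1 : ℕ) := rfl
  rw [h1, Nat.add_mul_div_left _ _ hD, Nat.div_eq_of_lt p.2.isLt, zero_add,
    Nat.add_mul_mod_self_left, Nat.mod_eq_of_lt p.2.isLt]

end S4

theorem wex_abs_sum (k : ℕ) (hk : 10 ≤ k) (q : ℕ → ℕ) (hq : GoodQ k q) (s : ℕ → ℕ → ℕ)
    (hs : GoodS k q s) :
    ∑ a ∈ range (pD k), ∑ b ∈ range (pD k), |wex k q s a b| ≤ 2 * pW k := by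
  calc ∑ a ∈ range (pD k), ∑ b ∈ range (pD k), |wex k q s a b|
      ≤ ∑ a ∈ range (pD k), ∑ _b ∈ range (pD k), qw (pD k) a * S4.tot k := by
        refine sum_le_sum fun a ha => sum_le_sum fun b _ => ?_
        exact S4.wex_le k hk q hq s hs a b (mem_range.1 ha)
    _ = (∑ a ∈ range (pD k), ∑ _b ∈ range (pD k), qw (pD k) a) * S4.tot k := by
        rw [sum_mul]
        refine sum_congr rfl fun a _ => ?_
        rw [sum_mul]
    _ = S4.tot k := by rw [S4.qw_sum k hk, one_mul]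
    _ ≤ 2 * pW k := S4.tot_le k hk

/-- total light charge of an approximate instance -/
theorem approx_charge (k : ℕ) (hk : 10 ≤ k) (q : ℕ → ℕ) (hq : GoodQ k q) (s : ℕ → ℕ → ℕ)
    (hs : GoodS k q s) (w : Fin (pD k * pD k) → ℕ) (y : Fin (pD k * pD k) → R3)
    (H : Approx k q s w y) : ∑ β, (w β : ℝ) ≤ 4 * pW k ∧ ∑ β, w β < pT k := by
  have hn2 := S4.two_le_pn k hk
  have h1 : ∑ β, (w β : ℝ) ≤ 4 * pW k := by
    calc ∑ β, (w β : ℝ) ≤ ∑ β : Fin (pD k * pD k),
          (|wex k q s ((β : ℕ) / pD k) ((β : ℕ) % pD k)| + 2) := by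
          refine sum_le_sum fun β _ => ?_
          have h := (abs_le.1 (H.charge β)).2
          have h' := le_abs_self (wex k q s ((β : ℕ) / pD k) ((β : ℕ) % pD k))
          linarith only [h, h']
      _ = ∑ a ∈ range (pD k), ∑ b ∈ range (pD k), |wex k q s a b| + (pD k * pD k : ℕ) * 2 := by
          rw [sum_add_distrib, S4.sum_flat (pD k) (fun a b => |wex k q s a b|)]
          simp only [sum_const, card_univ, Fintype.card_fin, nsmul_eq_mul, Nat.cast_mul]
      _ ≤ 2 * pW k + 2 * pW k := by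
          refine add_le_add (wex_abs_sum k hk q hq s hs) ?_
          have h3 : ((pD k * pD k : ℕ) : ℝ) ≤ pW k := by
            have e : ((pD k * pD k : ℕ) : ℝ) = 256 * (pn k : ℝ) ^ 2 := by
              unfold pD
              push_cast
              ring
            rw [e]
            have h5 := S4.npow_le k hk 3 (by norm_num)
            have h6 : (256 : ℝ) ≤ pn k := le_trans (by norm_num) (S4.n_ge k hk)
            calc 256 * (pn k : ℝ) ^ 2 ≤ (pn k : ℝ) * (pn k : ℝ) ^ 2 := by gcongr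
              _ = (pn k : ℝ) ^ 3 := by ring
              _ ≤ 2 ^ pn k := h5
              _ ≤ pW k := by
                unfold pW
                refine pow_le_pow_right₀ (by norm_num) ?_
                have h11 : pn k ≤ pn k ^ 3 := Nat.le_self_pow (by norm_num) _
                omega
          linarith only [h3]
      _ = 4 * pW k := by ring
  refine ⟨h1, ?_⟩
  have h2 : ((∑ β, w β : ℕ) : ℝ) < (pT k : ℝ) := by
    push_cast
    refine lt_of_le_of_lt h1 ?_
    have e : 4 * pW k = 2 ^ (128 * pn k ^ 3 + 2) := by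
      unfold pW
      rw [pow_add]
      ring
    rw [e]
    unfold pT
    push_cast
    refine pow_lt_pow_right₀ (by norm_num) ?_
    have h11 : pn k ≤ pn k ^ 3 := Nat.le_self_pow (by norm_num) _
    omega
  exact_mod_cast h2

/-- rounding errors of the first order form -/
theorem rounding (k : ℕ) (hk : 10 ≤ k) (q : ℕ → ℕ) (hq : GoodQ k q) (s : ℕ → ℕ → ℕ)
    (hs : GoodS k q s) (w : Fin (pD k * pD k) → ℕ) (y : Fin (pD k * pD k) → R3)
    (H : Approx k q s w y) {a b : ℕ} (ha : 1 ≤ a) (hb : 1 ≤ b) {φ ψ : R3 → ℝ}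
    (hφ : IsShell a φ) (hψ : IsShell b ψ) :
    |∑ β, (w β : ℝ) * gm (y β) φ ψ - hex k q s φ ψ| ≤
      1 / 2 ^ (15 * pn k ^ 2) * Real.sqrt (ov φ φ * ov ψ ψ) := by
  have hn2 := S4.two_le_pn k hk
  have hρ : 0 < pρ k := by unfold pρ; positivity
  set R : ℝ := Real.sqrt (ov φ φ * ov ψ ψ) with hR
  have hR0 : 0 ≤ R := Real.sqrt_nonneg _
  set ε : ℝ := 1 / 2 ^ (200 * pn k ^ 3) with hε
  have hε0 : 0 < ε := by positivity
  have hερ : ε ≤ pρ k := by
    rw [hε]
    unfold pρ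
    refine one_div_le_one_div_of_le (by positivity) (pow_le_pow_right₀ (by norm_num) ?_)
    have : pn k ^ 2 ≤ pn k ^ 3 := Nat.pow_le_pow_right (by omega) (by norm_num)
    omega
  have hx : ∀ β : Fin (pD k * pD k), ‖pρ k • node (pD k) ((β : ℕ) / pD k) ((β : ℕ) % pD k)‖ =
      pρ k := by
    intro β
    rw [norm_smul, Real.norm_eq_abs, abs_of_pos hρ]
    have : ‖node (pD k) ((β : ℕ) / pD k) ((β : ℕ) % pD k)‖ = 1 := norm_sp _ _
    rw [this, mul_one]
  have hterm : ∀ β : Fin (pD k * pD k),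
      |(w β : ℝ) * gm (y β) φ ψ - wex k q s ((β : ℕ) / pD k) ((β : ℕ) % pD k) *
        gm (pρ k • node (pD k) ((β : ℕ) / pD k) ((β : ℕ) % pD k)) φ ψ| ≤
      2 * (16 * (2 * pρ k) * R) +
        |wex k q s ((β : ℕ) / pD k) ((β : ℕ) % pD k)| * (16 * ε * R) := by
    intro β
    have hy : ‖y β‖ ≤ 2 * pρ k := by
      have h1 := norm_le_norm_add_norm_sub'
        (y β) (pρ k • node (pD k) ((β : ℕ) / pD k) ((β : ℕ) % pD k))
      have h2 := H.pos β
      rw [hx β] at h1
      linarith only [hερ, h1, h2]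
    have hg1 : |gm (y β) φ ψ| ≤ 16 * (2 * pρ k) * R := by
      refine (gm_bound ha hb hφ hψ (y β)).trans ?_
      (clear * - hy; gcongr)
    have hg2 : |gm (y β) φ ψ -
        gm (pρ k • node (pD k) ((β : ℕ) / pD k) ((β : ℕ) % pD k)) φ ψ| ≤ 16 * ε * R := by
      refine (gm_lip ha hb hφ hψ _ _).trans ?_
      have h2 := H.pos β
      gcongr
    have e : (w β : ℝ) * gm (y β) φ ψ - wex k q s ((β : ℕ) / pD k) ((β : ℕ) % pD k) *
        gm (pρ k • node (pD k) ((β : ℕ) / pD k) ((β : ℕ) % pD k)) φ ψ =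
        ((w β : ℝ) - wex k q s ((β : ℕ) / pD k) ((β : ℕ) % pD k)) * gm (y β) φ ψ +
        wex k q s ((β : ℕ) / pD k) ((β : ℕ) % pD k) * (gm (y β) φ ψ -
          gm (pρ k • node (pD k) ((β : ℕ) / pD k) ((β : ℕ) % pD k)) φ ψ) := by ring
    rw [e]
    refine (abs_add_le _ _).trans (add_le_add ?_ ?_)
    · rw [abs_mul]
      exact mul_le_mul (H.charge β) hg1 (abs_nonneg _) (by norm_num)
    · rw [abs_mul]
      exact mul_le_mul_of_nonneg_left hg2 (abs_nonneg _)
  have hhex : hex k q s φ ψ = ∑ β : Fin (pD k * pD k),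
      wex k q s ((β : ℕ) / pD k) ((β : ℕ) % pD k) *
        gm (pρ k • node (pD k) ((β : ℕ) / pD k) ((β : ℕ) % pD k)) φ ψ := by
    rw [S4.sum_flat (pD k) (fun a b => wex k q s a b * gm (pρ k • node (pD k) a b) φ ψ)]
    rfl
  rw [hhex, ← sum_sub_distrib]
  refine (abs_sum_le_sum_abs _ _).trans ((sum_le_sum fun β _ => hterm β).trans ?_)
  rw [sum_add_distrib, sum_const, card_univ, Fintype.card_fin, nsmul_eq_mul, ← sum_mul,
    S4.sum_flat (pD k) (fun a b => |wex k q s a b|)]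
  have hw := wex_abs_sum k hk q hq s hs
  have hD : ((pD k * pD k : ℕ) : ℝ) = 256 * (pn k : ℝ) ^ 2 := by
    unfold pD
    push_cast
    ring
  rw [hD]
  have hfin : 256 * (pn k : ℝ) ^ 2 * (2 * (16 * (2 * pρ k))) + 2 * pW k * (16 * ε) ≤
      1 / 2 ^ (15 * pn k ^ 2) := by
    have h1 : 256 * (pn k : ℝ) ^ 2 * (2 * (16 * (2 * pρ k))) ≤ 1 / 2 * (1 / 2 ^ (15 * pn k ^ 2)) := by
      have e : pρ k = 1 / 2 ^ (15 * pn k ^ 2) * (1 / 2 ^ (pn k ^ 2)) := by
        unfold pρ
        rw [one_div_mul_one_div, ← pow_add]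
        congr 2
        ring
      rw [e]
      have h3 := S4.npow_le k hk 3 (by norm_num)
      have h4 : (2 : ℝ) ^ pn k ≤ 2 ^ (pn k ^ 2) :=
        pow_le_pow_right₀ (by norm_num) (Nat.le_self_pow (by norm_num) _)
      have h6 : (32768 : ℝ) ≤ pn k := le_trans (by norm_num) (S4.n_ge k hk)
      have h7 : 256 * (pn k : ℝ) ^ 2 * 64 * (1 / 2 ^ (pn k ^ 2)) ≤ 1 / 2 := by
        rw [mul_one_div, div_le_iff₀ (by positivity)]
        have : (32768 : ℝ) * (pn k : ℝ) ^ 2 ≤ (pn k : ℝ) ^ 3 := by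
          rw [pow_succ (pn k : ℝ) 2, mul_comm]
          (clear * - h6 hn2; gcongr)
        linarith only [h3, h4, this]
      have h8 : (0 : ℝ) ≤ 1 / 2 ^ (15 * pn k ^ 2) := by positivity
      linarith only [mul_nonneg_of_nonpos_of_nonpos (Mathlib.Tactic.Linarith.sub_nonpos_of_le h7) (Mathlib.Tactic.Linarith.sub_nonpos_of_le h8)]
    have h2 : 2 * pW k * (16 * ε) ≤ 1 / 2 * (1 / 2 ^ (15 * pn k ^ 2)) := by
      have e : (2 : ℝ) ^ (200 * pn k ^ 3) = 2 ^ (128 * pn k ^ 3) * 2 ^ (72 * pn k ^ 3) := by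
        rw [← pow_add]
        congr 1
        ring
      rw [hε, e]
      unfold pW
      have e2 : 2 * 2 ^ (128 * pn k ^ 3) *
          (16 * (1 / ((2 : ℝ) ^ (128 * pn k ^ 3) * 2 ^ (72 * pn k ^ 3)))) =
          32 / 2 ^ (72 * pn k ^ 3) := by
        field_simp
        norm_num
      rw [e2, one_div_mul_one_div, div_le_div_iff₀ (by positivity) (by positivity), one_mul]
      have e3 : (32 : ℝ) * (2 * 2 ^ (15 * pn k ^ 2)) = 2 ^ (15 * pn k ^ 2 + 6) := by
        rw [pow_add]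
        ring
      rw [e3]
      refine pow_le_pow_right₀ (by norm_num) ?_
      have h9 : pn k ^ 2 ≤ pn k ^ 3 := Nat.pow_le_pow_right (by omega) (by norm_num)
      have h10 : 2 ^ 2 ≤ pn k ^ 2 := Nat.pow_le_pow_left hn2 2
      (clear * - h9 h10; omega)
    linarith only [h1, h2]
  have : 256 * (pn k : ℝ) ^ 2 * (2 * (16 * (2 * pρ k) * R)) +
      (∑ a ∈ range (pD k), ∑ b ∈ range (pD k), |wex k q s a b|) * (16 * ε * R) ≤
      (256 * (pn k : ℝ) ^ 2 * (2 * (16 * (2 * pρ k))) + 2 * pW k * (16 * ε)) * R := by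
    have h5 : 0 ≤ 16 * ε * R := by (clear * -; positivity)
    have := mul_le_mul_of_nonneg_right hw h5
    linarith only [this]
  exact this.trans (mul_le_mul_of_nonneg_right hfin hR0)

end Vale.Agent.P370.Q
end

section

/-!
The orthonormal site orbitals and the adapted shell basis.
-/

namespace Vale.Agent.P370.Q

open MeasureTheory Finset

theorem St2_ov_fh (n : ℕ) (hn : 2 ≤ n) (α β : ℝ) :
    ov (fh n α) (fh n β) =
      ((1 + Real.cos (α - β)) / 2) ^ (n - 1) + ((1 - Real.cos (α - β)) / 2) ^ (n - 1) := by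
  have hp : 0 < nf n := nf_pos n (by omega)
  have hs : Real.sqrt (nf n) * Real.sqrt (nf n) = nf n := Real.mul_self_sqrt hp.le
  have hs0 : Real.sqrt (nf n) ≠ 0 := (Real.sqrt_pos.2 hp).ne'
  have e : ov (fh n α) (fh n β) = (nf n)⁻¹ * ov (fsite n α) (fsite n β) := by
    unfold ov
    rw [← integral_const_mul]
    congr 1
    funext x
    unfold fh
    rw [div_mul_div_comm, hs]
    ring
  rw [e, site_ov_ff n hn, ← mul_assoc, inv_mul_cancel₀ hp.ne', one_mul]

theorem St2_cos_bounds {K : ℕ} (hK : 2 ≤ K) {a : ℝ} (h1 : 1 / (K : ℝ) ≤ a) (h2 : a ≤ 1 - 1 / K) :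
    (1 + Real.cos (Real.pi * a)) / 2 ≤ 1 - 1 / (K : ℝ) ^ 2 ∧
      (1 - Real.cos (Real.pi * a)) / 2 ≤ 1 - 1 / (K : ℝ) ^ 2 := by
  have hK0 : (0 : ℝ) < K := by (clear * - hK; positivity)
  have hpi := Real.pi_pos
  have ha0 : 0 < a := lt_of_lt_of_le (by (clear * - hK; positivity)) h1
  have hK1 : 0 < 1 / (K : ℝ) := by positivity
  have hcos : Real.cos (Real.pi * a) = 1 - 2 * Real.sin (Real.pi * a / 2) ^ 2 := by
    have := Real.cos_sq_add_sin_sq (Real.pi * a / 2)
    rw [show Real.pi * a = 2 * (Real.pi * a / 2) by ring, Real.cos_two_mul]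
    rw [show 2 * (Real.pi * a / 2) / 2 = Real.pi * a / 2 by ring]
    linarith only [this]
  have hcos2 : Real.cos (Real.pi * a) = 2 * Real.cos (Real.pi * a / 2) ^ 2 - 1 := by
    rw [show Real.pi * a = 2 * (Real.pi * a / 2) by ring, Real.cos_two_mul]
    rw [show 2 * (Real.pi * a / 2) / 2 = Real.pi * a / 2 by ring]
  have hs : a ≤ Real.sin (Real.pi * a / 2) := by
    have := Real.mul_le_sin (x := Real.pi * a / 2) (by (clear * - ha0; positivity)) (by nlinarith only [h2, hpi, hK1])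
    have e : 2 / Real.pi * (Real.pi * a / 2) = a := by (clear * - ha0; field_simp)
    linarith only [this, e]
  have hc : 1 - a ≤ Real.cos (Real.pi * a / 2) := by
    have := Real.mul_le_sin (x := Real.pi / 2 - Real.pi * a / 2) (by nlinarith only [h2, hpi, hK1]) (by linarith only [mul_pos_of_neg_of_neg (Mathlib.Tactic.Linarith.sub_neg_of_lt hpi) (Mathlib.Tactic.Linarith.sub_neg_of_lt ha0)])
    rw [Real.sin_pi_div_two_sub] at this
    have e : 2 / Real.pi * (Real.pi / 2 - Real.pi * a / 2) = 1 - a := by (clear * -; field_simp)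
    linarith only [this, e]
  have e1 : 1 / (K : ℝ) ^ 2 = (1 / (K : ℝ)) ^ 2 := by ring
  constructor
  · rw [hcos, e1]
    have h3 : (1 / (K : ℝ)) ^ 2 ≤ Real.sin (Real.pi * a / 2) ^ 2 :=
      pow_le_pow_left₀ hK1.le (h1.trans hs) 2
    linarith only [h3]
  · rw [hcos2, e1]
    have h3 : (1 / (K : ℝ)) ^ 2 ≤ Real.cos (Real.pi * a / 2) ^ 2 :=
      pow_le_pow_left₀ hK1.le (by linarith only [h2, hc]) 2
    linarith only [h3]

/-- the numerical inequality behind the overlaps -/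
theorem St2_small {K n e0 : ℕ} (hK : 1024 ≤ K) (hn : n = K ^ 2048) (he : 4 * K ^ 2 * e0 = n)
    {c : ℝ} (hc0 : 0 ≤ c) (hc : c ≤ 1 - 1 / (K : ℝ) ^ 2) :
    c ^ (n - 1) ≤ 1 / (32 * K * 2 ^ (4 * e0)) := by
  have hK0 : (0 : ℝ) < K := by
    have : 0 < K := by omega
    exact_mod_cast this
  have hK1 : (1024 : ℝ) ≤ K := by exact_mod_cast hK
  have h4 : 4 * e0 = K ^ 2046 := by
    have h : K ^ 2 * (4 * e0) = K ^ 2 * K ^ 2046 := by
      rw [← pow_add, show 2 + 2046 = 2048 from rfl, ← hn, ← he]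
      ring
    exact Nat.eq_of_mul_eq_mul_left (by positivity) h
  have hn1 : 1 ≤ n := by
    rw [hn]
    exact Nat.one_le_pow _ _ (by omega)
  have h5 : c ≤ Real.exp (-(1 / (K : ℝ) ^ 2)) := by
    have := Real.add_one_le_exp (-(1 / (K : ℝ) ^ 2))
    linarith only [hc, this]
  have h6 : c ^ (n - 1) ≤ Real.exp 1 * Real.exp (-1) ^ (4 * e0) := by
    calc c ^ (n - 1) ≤ Real.exp (-(1 / (K : ℝ) ^ 2)) ^ (n - 1) := pow_le_pow_left₀ hc0 h5 _
      _ = Real.exp (1 / (K : ℝ) ^ 2) * Real.exp (-1) ^ (4 * e0) := by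
          rw [← Real.exp_nat_mul, ← Real.exp_nat_mul, ← Real.exp_add]
          congr 1
          have e1 : (n : ℝ) = 4 * (K : ℝ) ^ 2 * e0 := by
            rw [← he]; push_cast; ring
          rw [Nat.cast_sub hn1, e1]
          push_cast
          field_simp
          ring
      _ ≤ Real.exp 1 * Real.exp (-1) ^ (4 * e0) := by
          refine mul_le_mul_of_nonneg_right (Real.exp_le_exp.2 ?_) (by positivity)
          rw [div_le_one (by positivity)]
          linarith only [mul_nonneg_of_nonpos_of_nonpos (Mathlib.Tactic.Linarith.sub_nonpos_of_le (Mathlib.Tactic.Linarith.natCast_nonneg ℝ K)) (Mathlib.Tactic.Linarith.sub_nonpos_of_le hK1), hK1]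
  refine h6.trans ?_
  have hexp : (2.7 : ℝ) ≤ Real.exp 1 := by
    have := Real.exp_one_gt_d9
    linarith only [this]
  have hexp2 : Real.exp 1 ≤ 3 := by
    have := Real.exp_one_lt_d9
    linarith only [this]
  have h7 : (96 : ℝ) * K ≤ (Real.exp 1 / 2) ^ (4 * e0) := by
    calc (96 : ℝ) * K ≤ 1 + (4 * e0 : ℕ) * 0.35 := by
          rw [h4]
          have : (K : ℝ) ^ 2 ≤ ((K ^ 2046 : ℕ) : ℝ) := by
            rw [Nat.cast_pow]
            exact pow_le_pow_right₀ (by linarith only [hK1]) (by norm_num)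
          nlinarith only [hK1, this]
      _ ≤ (1 + 0.35) ^ (4 * e0) := one_add_mul_le_pow (by norm_num) _
      _ ≤ (Real.exp 1 / 2) ^ (4 * e0) := by
          refine pow_le_pow_left₀ (by norm_num) ?_ _
          linarith only [hexp]
  rw [Real.exp_neg, inv_pow, le_div_iff₀ (by positivity)]
  have hE : 0 < Real.exp 1 ^ (4 * e0) := by positivity
  have h8 : Real.exp 1 ^ (4 * e0) = (Real.exp 1 / 2) ^ (4 * e0) * 2 ^ (4 * e0) := by
    rw [← mul_pow]
    congr 1
    ring
  have h9 : (96 : ℝ) * K * 2 ^ (4 * e0) ≤ Real.exp 1 ^ (4 * e0) := by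
    rw [h8]
    exact mul_le_mul_of_nonneg_right h7 (by positivity)
  have h10 : 3 * (Real.exp 1 ^ (4 * e0))⁻¹ * (32 * K * 2 ^ (4 * e0)) ≤ 1 := by
    rw [show 3 * (Real.exp 1 ^ (4 * e0))⁻¹ * (32 * K * 2 ^ (4 * e0)) =
      (96 * K * 2 ^ (4 * e0)) / Real.exp 1 ^ (4 * e0) by ring]
    rw [div_le_one hE]
    exact h9
  refine le_trans ?_ h10
  refine mul_le_mul_of_nonneg_right ?_ (by positivity)
  exact mul_le_mul_of_nonneg_right hexp2 (by positivity)

/-- overlaps of different sites -/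
theorem site_overlap (k : ℕ) (hk : 10 ≤ k) (i j : Fin (pK k)) :
    |ov (fh (pn k) (pα k i)) (fh (pn k) (pα k j)) - if i = j then 1 else 0| ≤
      1 / (16 * pK k * 2 ^ (4 * pe0 k)) := by
  have hn := (pn_even k hk).2
  have hK := pK_ge k hk
  have hK0 : (0 : ℝ) < pK k := by
    have : 0 < pK k := by omega
    exact_mod_cast this
  rw [St2_ov_fh _ hn]
  by_cases hij : i = j
  · subst hij
    rw [if_pos rfl, sub_self, Real.cos_zero, sub_self, zero_div, zero_pow (by omega)]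
    (clear * -; norm_num)
  · rw [if_neg hij, sub_zero]
    have main : ∀ a : ℝ, 1 / (pK k : ℝ) ≤ a → a ≤ 1 - 1 / pK k →
        |((1 + Real.cos (Real.pi * a)) / 2) ^ (pn k - 1) +
          ((1 - Real.cos (Real.pi * a)) / 2) ^ (pn k - 1)| ≤
            1 / (16 * pK k * 2 ^ (4 * pe0 k)) := by
      intro a h1 h2
      have hb := St2_cos_bounds (by omega) h1 h2
      have p1 : 0 ≤ (1 + Real.cos (Real.pi * a)) / 2 := by
        have := Real.neg_one_le_cos (Real.pi * a)
        linarith only [this]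
      have p2 : 0 ≤ (1 - Real.cos (Real.pi * a)) / 2 := by
        have := Real.cos_le_one (Real.pi * a)
        linarith only [this]
      have q1 := St2_small hK (pn_eq k) (pe0_eq k hk).1 p1 hb.1
      have q2 := St2_small hK (pn_eq k) (pe0_eq k hk).1 p2 hb.2
      rw [abs_of_nonneg (by (clear * - p1 p2; positivity))]
      have e : 1 / (16 * (pK k : ℝ) * 2 ^ (4 * pe0 k)) = 1 / (32 * pK k * 2 ^ (4 * pe0 k)) +
          1 / (32 * pK k * 2 ^ (4 * pe0 k)) := by
        field_simp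
        norm_num
      rw [e]
      exact add_le_add q1 q2
    have hlt : ∀ u v : Fin (pK k), u < v → 1 / (pK k : ℝ) ≤ ((v : ℕ) - (u : ℕ) : ℝ) / pK k ∧
        ((v : ℕ) - (u : ℕ) : ℝ) / pK k ≤ 1 - 1 / pK k := by
      intro u v huv
      have h1 : (u : ℕ) + 1 ≤ (v : ℕ) := huv
      have h2 : (v : ℕ) + 1 ≤ pK k := v.2
      have h3 : ((u : ℕ) : ℝ) + 1 ≤ ((v : ℕ) : ℝ) := by exact_mod_cast h1
      have h4 : ((v : ℕ) : ℝ) + 1 ≤ (pK k : ℝ) := by exact_mod_cast h2
      have h5 : (0 : ℝ) ≤ ((u : ℕ) : ℝ) := by positivity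
      constructor
      · rw [div_le_div_iff_of_pos_right hK0]
        linarith only [h3]
      · rw [div_le_iff₀ hK0, sub_mul, div_mul_cancel₀ _ hK0.ne']
        linarith only [h4]
    rcases lt_or_gt_of_ne hij with h | h
    · obtain ⟨h1, h2⟩ := hlt i j h
      have h3 := main _ h1 h2
      have e : Real.cos (pα k i - pα k j) = Real.cos (Real.pi * (((j : ℕ) - (i : ℕ) : ℝ) / pK k)) := by
        rw [← Real.cos_neg]
        congr 1
        unfold pα
        ring
      rw [e]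
      exact h3
    · obtain ⟨h1, h2⟩ := hlt j i h
      have h3 := main _ h1 h2
      have e : Real.cos (pα k i - pα k j) = Real.cos (Real.pi * (((i : ℕ) - (j : ℕ) : ℝ) / pK k)) := by
        congr 1
        unfold pα
        ring
      rw [e]
      exact h3

theorem St2_sqrt_bound {l e : ℝ} (he : 16 * e ≤ 1) (h : |l - 1| ≤ e) :
    |(Real.sqrt l)⁻¹ - 1| ≤ e := by
  have h1 := (abs_le.1 h).1
  have h2 := (abs_le.1 h).2
  have hl : 0 < l := by linarith
  have hs : 0 < Real.sqrt l := Real.sqrt_pos.2 hl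
  have hss : Real.sqrt l * Real.sqrt l = l := Real.mul_self_sqrt hl.le
  have e1 : (Real.sqrt l)⁻¹ - 1 = (1 - l) / (Real.sqrt l * (1 + Real.sqrt l)) := by
    field_simp
    linarith only [hss]
  have hge : 1 ≤ Real.sqrt l * (1 + Real.sqrt l) := by
    have h3 : 15 / 16 ≤ l := by linarith only [he, h1]
    have h4 : 15 / 16 ≤ Real.sqrt l := by
      apply Real.le_sqrt_of_sq_le
      linarith only [he, h1]
    linarith only [he, h1, hss, h4]
  rw [e1, abs_div, abs_of_pos (a := Real.sqrt l * (1 + Real.sqrt l)) (by positivity), abs_sub_comm]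
  rw [div_le_iff₀ (by positivity)]
  have : 0 ≤ e := le_trans (abs_nonneg _) h
  linarith only [mul_nonneg_of_nonpos_of_nonpos (Mathlib.Tactic.Linarith.sub_nonpos_of_le hge) (Mathlib.Tactic.Linarith.sub_nonpos_of_le h2), mul_nonneg_of_nonpos_of_nonpos (Mathlib.Tactic.Linarith.sub_nonpos_of_le h1) (Mathlib.Tactic.Linarith.sub_nonpos_of_le hge), h]

/-- near-orthonormal families can be orthonormalised -/
theorem near_ortho {K : ℕ} (hK : 1 ≤ K) (G : Fin K → Fin K → ℝ) (hsym : ∀ i j, G i j = G j i)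
    (ε : ℝ) (hε : 16 * K * ε ≤ 1) (h : ∀ i j, |G i j - if i = j then 1 else 0| ≤ ε) :
    ∃ Cm : Fin K → Fin K → ℝ, (∀ i j, |Cm i j - if i = j then 1 else 0| ≤ 16 * K * ε) ∧
      ∀ i j, ∑ a, ∑ b, Cm i a * Cm j b * G a b = if i = j then 1 else 0 := by
  classical
  have hK0 : (0 : ℝ) < K := by exact_mod_cast hK
  have hε0 : 0 ≤ ε := le_trans (abs_nonneg _) (h ⟨0, hK⟩ ⟨0, hK⟩)
  set A : Matrix (Fin K) (Fin K) ℝ := Matrix.of G with hA
  have hH : A.IsHermitian := by
    ext i j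
    simp [hA, Matrix.conjTranspose_apply, hsym i j]
  set U : Matrix (Fin K) (Fin K) ℝ := (hH.eigenvectorUnitary : Matrix (Fin K) (Fin K) ℝ) with hU
  set lam := hH.eigenvalues with hlam
  have hUU : U * star U = 1 := Unitary.mul_star_self_of_mem hH.eigenvectorUnitary.2
  have hUU' : star U * U = 1 := Unitary.star_mul_self_of_mem hH.eigenvectorUnitary.2
  have hspec : A = U * Matrix.diagonal lam * star U := by
    have := hH.spectral_theorem
    rw [Unitary.conjStarAlgAut_apply] at this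
    simpa only [RCLike.ofReal_real_eq_id, CompTriple.comp_eq] using this
  have hd : star U * A * U = Matrix.diagonal lam := by
    rw [hspec]
    calc star U * (U * Matrix.diagonal lam * star U) * U
        = (star U * U) * Matrix.diagonal lam * (star U * U) := by simp only [Matrix.mul_assoc]
      _ = _ := by rw [hUU', Matrix.one_mul, Matrix.mul_one]
  -- column orthonormality
  have hcol : ∀ i, ∑ a, U a i ^ 2 = 1 := by
    intro i
    have := congrFun (congrFun hUU' i) i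
    rw [Matrix.mul_apply, Matrix.one_apply_eq] at this
    rw [← this]
    exact Finset.sum_congr rfl fun a _ => by
      rw [Matrix.star_apply, star_trivial]; ring
  have hrow : ∀ i, ∑ a, U i a ^ 2 = 1 := by
    intro i
    have := congrFun (congrFun hUU i) i
    rw [Matrix.mul_apply, Matrix.one_apply_eq] at this
    rw [← this]
    exact Finset.sum_congr rfl fun a _ => by
      rw [Matrix.star_apply, star_trivial]; ring
  -- eigenvalues
  have hev : ∀ i, |lam i - 1| ≤ K * ε := by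
    intro i
    have e1 : lam i = ∑ a, ∑ b, U a i * U b i * G a b := by
      have := congrFun (congrFun hd i) i
      rw [Matrix.diagonal_apply_eq, Matrix.mul_assoc, Matrix.mul_apply] at this
      rw [← this]
      refine Finset.sum_congr rfl fun a _ => ?_
      rw [Matrix.mul_apply, Finset.mul_sum]
      refine Finset.sum_congr rfl fun b _ => ?_
      rw [Matrix.star_apply, star_trivial, hA, Matrix.of_apply]
      ring
    have e2 : (1 : ℝ) = ∑ a, ∑ b, U a i * U b i * (if a = b then 1 else 0) := by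
      refine (hcol i).symm.trans (Finset.sum_congr rfl fun a _ => ?_)
      rw [Finset.sum_eq_single a]
      · rw [if_pos rfl]; ring
      · intro b _ hb
        rw [if_neg hb.symm, mul_zero]
      · intro hh
        exact absurd (Finset.mem_univ a) hh
    have e3 : lam i - 1 = ∑ a, ∑ b, U a i * U b i * (G a b - if a = b then 1 else 0) := by
      conv_lhs => rw [e1, e2]
      rw [← Finset.sum_sub_distrib]
      refine Finset.sum_congr rfl fun a _ => ?_
      rw [← Finset.sum_sub_distrib]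
      exact Finset.sum_congr rfl fun b _ => by ring
    rw [e3]
    calc |∑ a, ∑ b, U a i * U b i * (G a b - if a = b then 1 else 0)|
        ≤ ∑ a, ∑ b, |U a i| * |U b i| * ε := by
          refine (Finset.abs_sum_le_sum_abs _ _).trans (Finset.sum_le_sum fun a _ => ?_)
          refine (Finset.abs_sum_le_sum_abs _ _).trans (Finset.sum_le_sum fun b _ => ?_)
          rw [abs_mul, abs_mul]
          exact mul_le_mul_of_nonneg_left (h a b) (by (clear * -; positivity))
      _ = (∑ a, |U a i|) ^ 2 * ε := by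
          rw [sq, Finset.sum_mul_sum, Finset.sum_mul]
          refine Finset.sum_congr rfl fun a _ => ?_
          rw [Finset.sum_mul]
      _ ≤ (K * ∑ a, |U a i| ^ 2) * ε := by
          refine mul_le_mul_of_nonneg_right ?_ hε0
          have := sq_sum_le_card_mul_sum_sq (s := Finset.univ) (f := fun a => |U a i|)
          simpa only [sq_abs, ge_iff_le, card_univ, Fintype.card_fin] using this
      _ = K * ε := by
          simp only [sq_abs]
          rw [hcol i, mul_one]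
  have h16 : 16 * ((K : ℝ) * ε) ≤ 1 := by linarith only [hε]
  have hpos : ∀ i, 0 < lam i := by
    intro i
    have := (abs_le.1 (hev i)).1
    linarith only [hε, this]
  set D : Matrix (Fin K) (Fin K) ℝ := Matrix.diagonal fun i => (Real.sqrt (lam i))⁻¹ with hD
  set Cm : Matrix (Fin K) (Fin K) ℝ := U * D * star U with hCm
  have hDt : star D = D := by
    rw [hD, Matrix.star_eq_conjTranspose, Matrix.diagonal_conjTranspose]
    congr 1
  have hCt : star Cm = Cm := by
    rw [hCm, star_mul, star_mul, star_star, hDt, Matrix.mul_assoc]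
  have hDDD : D * Matrix.diagonal lam * D = 1 := by
    rw [hD, Matrix.diagonal_mul_diagonal, Matrix.diagonal_mul_diagonal, ← Matrix.diagonal_one]
    congr 1
    funext i
    have hs : 0 < Real.sqrt (lam i) := Real.sqrt_pos.2 (hpos i)
    have hss : Real.sqrt (lam i) * Real.sqrt (lam i) = lam i := Real.mul_self_sqrt (hpos i).le
    field_simp
    linarith only [hss]
  have hfin : Cm * A * star Cm = 1 := by
    rw [hCt, hspec, hCm]
    calc U * D * star U * (U * Matrix.diagonal lam * star U) * (U * D * star U)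
        = U * (D * ((star U * U) * Matrix.diagonal lam * (star U * U)) * D) * star U := by
          simp only [Matrix.mul_assoc]
      _ = 1 := by
          rw [hUU', Matrix.one_mul, Matrix.mul_one, hDDD, Matrix.mul_one, hUU]
  refine ⟨fun i j => Cm i j, ?_, ?_⟩
  · intro i j
    have e1 : Cm i j = ∑ a, U i a * U j a * (Real.sqrt (lam a))⁻¹ := by
      rw [hCm, Matrix.mul_apply]
      refine Finset.sum_congr rfl fun a _ => ?_
      rw [hD, Matrix.mul_diagonal, Matrix.star_apply, star_trivial]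
      ring
    have e2 : (if i = j then (1 : ℝ) else 0) = ∑ a, U i a * U j a := by
      have := congrFun (congrFun hUU i) j
      rw [Matrix.mul_apply, Matrix.one_apply] at this
      rw [← this]
      exact Finset.sum_congr rfl fun a _ => by rw [Matrix.star_apply, star_trivial]
    show |Cm i j - (if i = j then (1 : ℝ) else 0)| ≤ 16 * K * ε
    rw [e1, e2, ← Finset.sum_sub_distrib]
    calc |∑ a, (U i a * U j a * (Real.sqrt (lam a))⁻¹ - U i a * U j a)|
        ≤ ∑ a, |U i a| * |U j a| * (K * ε) := by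
          refine (Finset.abs_sum_le_sum_abs _ _).trans (Finset.sum_le_sum fun a _ => ?_)
          rw [show U i a * U j a * (Real.sqrt (lam a))⁻¹ - U i a * U j a =
            U i a * U j a * ((Real.sqrt (lam a))⁻¹ - 1) by ring, abs_mul, abs_mul]
          exact mul_le_mul_of_nonneg_left (St2_sqrt_bound h16 (hev a)) (by (clear * -; positivity))
      _ = (∑ a, |U i a| * |U j a|) * (K * ε) := by rw [Finset.sum_mul]
      _ ≤ 1 * (K * ε) := by
          refine mul_le_mul_of_nonneg_right ?_ (by (clear * - hK hε0; positivity))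
          calc ∑ a, |U i a| * |U j a| ≤ ∑ a, (U i a ^ 2 + U j a ^ 2) / 2 := by
                refine Finset.sum_le_sum fun a _ => ?_
                have := sq_nonneg (|U i a| - |U j a|)
                rw [sub_sq, sq_abs, sq_abs] at this
                linarith only [this]
            _ = 1 := by
                rw [← Finset.sum_div, Finset.sum_add_distrib, hrow, hrow]
                norm_num
      _ ≤ 16 * K * ε := by linarith only [mul_nonneg hK0.le hε0]
  · intro i j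
    have := congrFun (congrFun hfin i) j
    rw [Matrix.mul_apply, Matrix.one_apply] at this
    rw [← this, Finset.sum_comm]
    refine Finset.sum_congr rfl fun b _ => ?_
    rw [Matrix.mul_apply, Finset.sum_mul]
    refine Finset.sum_congr rfl fun a _ => ?_
    rw [Matrix.star_apply, star_trivial, hA, Matrix.of_apply]
    ring

/-- linear combinations of functions in the top subspace -/
theorem St2_InV_sum {n K : ℕ} (a : Fin K → ℝ) (f : Fin K → R3 → ℝ) (hf : ∀ j, InV n (f j)) :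
    InV n (fun x => ∑ j, a j * f j x) := by
  choose P hP using hf
  refine ⟨∑ j, a j • P j, ?_, ?_⟩
  · have h : (∑ j, a j • P j) ∈ Hyd.Harm (n - 1) :=
      Submodule.sum_mem _ fun j _ => Submodule.smul_mem _ _ (Hyd.mem_Harm.2 (hP j).1)
    exact Hyd.mem_Harm.1 h
  · funext x
    unfold vfun pe
    rw [map_sum, Finset.sum_mul]
    refine Finset.sum_congr rfl fun j _ => ?_
    rw [(hP j).2]
    unfold vfun pe
    rw [MvPolynomial.smul_eval]
    ring

theorem St2_InV_fh (n : ℕ) (hn : 1 ≤ n) (α : ℝ) : InV n (fh n α) := by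
  have := St2_InV_sum (K := 1) (fun _ => 1 / Real.sqrt (nf n)) (fun _ => fsite n α)
    (fun _ => fsite_InV n hn α)
  have e : fh n α = fun x => ∑ _j : Fin 1, (1 / Real.sqrt (nf n)) * fsite n α x := by
    funext x
    unfold fh
    rw [Fin.sum_univ_one]
    ring
  rw [e]
  exact this

theorem St2_ov_sum {K : ℕ} (a b : Fin K → ℝ) (f : Fin K → R3 → ℝ) (hf : ∀ j, Nice (f j)) :
    ov (fun x => ∑ i, a i * f i x) (fun x => ∑ j, b j * f j x) =
      ∑ i, ∑ j, a i * b j * ov (f i) (f j) := by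
  unfold ov
  have hint : ∀ i j, Integrable (fun x => a i * b j * (f i x * f j x)) := fun i j =>
    (nice_integrable_rinv (hf i) (hf j)).2.const_mul _
  have e : (fun x : R3 => (∑ i, a i * f i x) * ∑ j, b j * f j x) =
      fun x => ∑ i, ∑ j, a i * b j * (f i x * f j x) := by
    funext x
    rw [Finset.sum_mul_sum]
    refine Finset.sum_congr rfl fun i _ => Finset.sum_congr rfl fun j _ => ?_
    ring
  rw [e, integral_finsetSum _ fun i _ => integrable_finsetSum _ fun j _ => hint i j]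
  refine Finset.sum_congr rfl fun i _ => ?_
  rw [integral_finsetSum _ fun j _ => hint i j]
  refine Finset.sum_congr rfl fun j _ => ?_
  rw [integral_const_mul]

theorem St2_nice_fh (n : ℕ) (hn : 1 ≤ n) (α : ℝ) : Nice (fh n α) :=
  ((St2_InV_fh n hn α).isShell hn).nice hn

theorem St2_ov_gS (k : ℕ) (hk : 10 ≤ k) (Cm : Fin (pK k) → Fin (pK k) → ℝ) (i j : Fin (pK k)) :
    ov (gS k Cm i) (gS k Cm j) =
      ∑ a, ∑ b, Cm i a * Cm j b * ov (fh (pn k) (pα k a)) (fh (pn k) (pα k b)) := by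
  have hn := (pn_even k hk).2
  exact St2_ov_sum (Cm i) (Cm j) (fun a => fh (pn k) (pα k a))
    (fun a => St2_nice_fh _ (by omega) _)

theorem St2_gS_InV (k : ℕ) (hk : 10 ≤ k) (Cm : Fin (pK k) → Fin (pK k) → ℝ) (i : Fin (pK k)) :
    InV (pn k) (gS k Cm i) := by
  have hn := (pn_even k hk).2
  exact St2_InV_sum (Cm i) (fun a => fh (pn k) (pα k a)) (fun a => St2_InV_fh _ (by omega) _)

theorem exists_siteB (k : ℕ) (hk : 10 ≤ k) :
    ∃ (C R : Type) (_ : Fintype C) (_ : DecidableEq C) (_ : Fintype R) (_ : DecidableEq R),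
      Nonempty (SiteB k C R) := by
  have hn := (pn_even k hk).2
  have hK := pK_ge k hk
  have hK0 : (0 : ℝ) < pK k := by
    have : 0 < pK k := by omega
    exact_mod_cast this
  set ε : ℝ := 1 / (16 * pK k * 2 ^ (4 * pe0 k)) with hε
  have hε1 : 16 * pK k * ε = 1 / 2 ^ (4 * pe0 k) := by
    rw [hε]
    field_simp
  have hε2 : 16 * pK k * ε ≤ 1 := by
    rw [hε1, div_le_one (by positivity)]
    exact one_le_pow₀ (by norm_num)
  obtain ⟨Cm, h1, h2⟩ := near_ortho (K := pK k) (by omega)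
    (fun i j => ov (fh (pn k) (pα k i)) (fh (pn k) (pα k j)))
    (fun i j => by unfold ov; simp only [mul_comm]) ε hε2 (fun i j => site_overlap k hk i j)
  obtain ⟨C, R, i1, i2, i3, i4, B, hb1, hb2, hb3⟩ := exists_shellBasis (pn k) (pK k) (by omega)
    (gS k Cm) (fun i => (St2_gS_InV k hk Cm i).isShell (by omega))
    (fun i j => by rw [St2_ov_gS k hk]; exact h2 i j)
  refine ⟨C, R, i1, i3, i2, i4, ⟨{ B := B, Cm := Cm, near := ?_, chi := hb1, hC := hb2, hO := hb3 }⟩⟩
  intro i j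
  rw [← hε1]
  exact h1 i j

variable {k : ℕ} {C R : Type} [Fintype C] [DecidableEq C] [Fintype R] [DecidableEq R]

theorem SiteB.card (S : SiteB k C R) (hk : 10 ≤ k) : pN k = 2 * Fintype.card C + pK k ∧
    Fintype.card C ≤ pn k ^ 3 ∧ Fintype.card R ≤ pn k ^ 2 := by
  have hn := (pn_even k hk).2
  have hlt : ∀ m, m < pn k → (univ.filter fun c : C => S.B.lev (Sum.inl c) = m).card = m ^ 2 := by
    intro m hm
    rcases Nat.eq_zero_or_pos m with h0 | h0
    · subst h0
      rw [Finset.card_eq_zero.2, zero_pow (by norm_num)]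
      refine Finset.filter_eq_empty_iff.2 fun c _ h => ?_
      have := S.B.lev_pos (Sum.inl c)
      omega
    · have h := S.B.card m h0 hm.le
      rw [← h, Finset.card_filter, Finset.card_filter, Fintype.sum_sum_type]
      rw [Finset.sum_eq_zero (s := (Finset.univ : Finset (Fin (pK k) ⊕ R)))]
      · rw [add_zero]
      · intro o _
        rw [if_neg]
        rw [S.hO]
        omega
  have hcard : Fintype.card C = ∑ j ∈ range (pn k), j ^ 2 := by
    rw [← Finset.card_univ, Finset.card_eq_sum_card_fiberwise (f := fun c : C => S.B.lev (Sum.inl c))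
      (t := range (pn k)) (fun c _ => by
        simp only [Finset.coe_range, Set.mem_Iio]
        exact S.hC c)]
    exact Finset.sum_congr rfl fun j hj => hlt j (Finset.mem_range.1 hj)
  refine ⟨?_, ?_, ?_⟩
  · rw [hcard]
    rfl
  · rw [hcard]
    calc ∑ j ∈ range (pn k), j ^ 2 ≤ ∑ j ∈ range (pn k), pn k ^ 2 :=
          Finset.sum_le_sum fun j hj => Nat.pow_le_pow_left (Finset.mem_range.1 hj).le 2
      _ = pn k ^ 3 := by
          rw [Finset.sum_const, Finset.card_range, smul_eq_mul]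
          ring
  · have h := S.B.card (pn k) (by omega) le_rfl
    rw [← h, Finset.card_filter, Fintype.sum_sum_type]
    have h1 : Fintype.card R ≤ ∑ o : Fin (pK k) ⊕ R, if S.B.lev (Sum.inr o) = pn k then 1 else 0 := by
      rw [Finset.sum_congr rfl fun o _ => if_pos (S.hO o)]
      rw [Finset.sum_const, Finset.card_univ, Fintype.card_sum, smul_eq_mul, mul_one]
      omega
    omega

/-- site orbitals lie in the top subspace -/
theorem SiteB.inV (S : SiteB k C R) (hk : 10 ≤ k) (i : Fin (pK k)) :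
    InV (pn k) (S.B.χ (Sum.inr (Sum.inl i))) := by
  rw [S.chi]
  exact St2_gS_InV k hk S.Cm i

/-- the site orbitals span the `fh` -/
theorem SiteB.fh_span (S : SiteB k C R) (hk : 10 ≤ k) (j : Fin (pK k)) :
    ∃ a : Fin (pK k) → ℝ, fh (pn k) (pα k j) =
      fun x => ∑ i, a i * S.B.χ (Sum.inr (Sum.inl i)) x := by
  have hort : ∀ i j : Fin (pK k), ov (gS k S.Cm i) (gS k S.Cm j) = if i = j then 1 else 0 := by
    intro i j
    rw [← S.chi, ← S.chi, S.B.ortho]
    simp
  set G : Matrix (Fin (pK k)) (Fin (pK k)) ℝ :=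
    Matrix.of fun a b => ov (fh (pn k) (pα k a)) (fh (pn k) (pα k b)) with hG
  set M : Matrix (Fin (pK k)) (Fin (pK k)) ℝ := Matrix.of S.Cm with hM
  have h1 : M * (G * M.transpose) = 1 := by
    ext i j
    have h := hort i j
    rw [St2_ov_gS k hk] at h
    rw [Matrix.mul_apply, Matrix.one_apply, ← h]
    refine Finset.sum_congr rfl fun a _ => ?_
    rw [Matrix.mul_apply, Finset.mul_sum]
    refine Finset.sum_congr rfl fun b _ => ?_
    simp only [hG, hM, Matrix.of_apply, Matrix.transpose_apply]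
    ring
  have h2 : (G * M.transpose) * M = 1 := mul_eq_one_comm.1 h1
  refine ⟨fun i => (G * M.transpose) j i, ?_⟩
  funext x
  have h3 : ∀ l, ∑ i, (G * M.transpose) j i * S.Cm i l = if j = l then 1 else 0 := by
    intro l
    have := congrFun (congrFun h2 j) l
    rw [Matrix.mul_apply, Matrix.one_apply] at this
    exact this
  calc fh (pn k) (pα k j) x = ∑ l, (if j = l then 1 else 0) * fh (pn k) (pα k l) x := by
        rw [Finset.sum_eq_single j]
        · rw [if_pos rfl, one_mul]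
        · intro b _ hb
          rw [if_neg hb.symm, zero_mul]
        · intro hh
          exact absurd (Finset.mem_univ j) hh
    _ = ∑ l, ∑ i, (G * M.transpose) j i * S.Cm i l * fh (pn k) (pα k l) x := by
        refine Finset.sum_congr rfl fun l _ => ?_
        rw [← h3 l, Finset.sum_mul]
    _ = ∑ i, ∑ l, (G * M.transpose) j i * S.Cm i l * fh (pn k) (pα k l) x := Finset.sum_comm
    _ = ∑ i, (G * M.transpose) j i * S.B.χ (Sum.inr (Sum.inl i)) x := by
        refine Finset.sum_congr rfl fun i _ => ?_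
        rw [S.chi]
        unfold gS
        rw [Finset.mul_sum]
        exact Finset.sum_congr rfl fun l _ => by ring

end Vale.Agent.P370.Q
end

section

/-!
Helper for `DevExact`: the sphere average as an integral over a product of intervals, Fubini.
-/

namespace Vale.Agent.P370.Q.DevEx

open MeasureTheory Finset ComplexConjugate Vale.Agent.P370 Vale.Agent.P370.Q

/-- the parameter domain of the sphere -/
noncomputable def dom : Measure (ℝ × ℝ) :=
  (volume.restrict (Set.Ioc 0 Real.pi)).prod (volume.restrict (Set.Ioc 0 (2 * Real.pi)))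

instance : IsFiniteMeasure dom := by
  unfold dom; infer_instance

theorem continuous_sp : Continuous (fun p : ℝ × ℝ => sp p.1 p.2) := by
  unfold sp
  refine (PiLp.continuous_toLp 2 _).comp ?_
  refine continuous_pi fun i => ?_
  fin_cases i <;> simp <;> fun_prop

theorem sph_eq {E : Type} [NormedAddCommGroup E] [NormedSpace ℝ E] (f : R3 → E)
    (hf : Integrable (fun p : ℝ × ℝ => Real.sin p.1 • f (sp p.1 p.2)) dom) :
    sph f = (1 / (4 * Real.pi)) • ∫ p, Real.sin p.1 • f (sp p.1 p.2) ∂dom := by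
  unfold sph
  congr 1
  unfold dom at hf ⊢
  rw [integral_prod _ hf, intervalIntegral.integral_of_le Real.pi_pos.le]
  refine integral_congr_ae (Filter.Eventually.of_forall fun θ => ?_)
  simp only
  rw [intervalIntegral.integral_of_le (by positivity)]

/-- the sphere integrand of a function continuous on the sphere is integrable -/
theorem integrable_of_cont {E : Type} [NormedAddCommGroup E] [NormedSpace ℝ E]
    (f : R3 → E) (hf : ContinuousOn f (Metric.sphere 0 1)) :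
    Integrable (fun p : ℝ × ℝ => Real.sin p.1 • f (sp p.1 p.2)) dom := by
  have hc : Continuous (fun p : ℝ × ℝ => Real.sin p.1 • f (sp p.1 p.2)) := by
    refine (Real.continuous_sin.comp continuous_fst).smul ?_
    refine hf.comp_continuous continuous_sp fun p => ?_
    simp only [mem_sphere_iff_norm, sub_zero, norm_sp]
  have hK : IsCompact (Set.Icc (0 : ℝ) Real.pi ×ˢ Set.Icc (0 : ℝ) (2 * Real.pi)) :=
    isCompact_Icc.prod isCompact_Icc
  have h1 : IntegrableOn (fun p : ℝ × ℝ => Real.sin p.1 • f (sp p.1 p.2))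
      (Set.Icc (0 : ℝ) Real.pi ×ˢ Set.Icc (0 : ℝ) (2 * Real.pi)) volume :=
    hc.continuousOn.integrableOn_compact hK
  have h2 : dom = (volume : Measure (ℝ × ℝ)).restrict
      (Set.Ioc (0 : ℝ) Real.pi ×ˢ Set.Ioc (0 : ℝ) (2 * Real.pi)) := by
    unfold dom
    rw [Measure.prod_restrict]; rfl
  rw [h2]
  exact h1.mono_set (Set.prod_mono Set.Ioc_subset_Icc_self Set.Ioc_subset_Icc_self)

/-- Fubini for the sphere average -/
theorem sph_fubini (H : R3 → R3 → ℝ)
    (hH : Integrable (fun q : (ℝ × ℝ) × R3 => Real.sin q.1.1 * H (sp q.1.1 q.1.2) q.2)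
      (dom.prod volume)) :
    sph (fun u => ∫ x, H u x) = ∫ x, sph (fun u => H u x) := by
  have h1 : Integrable (fun p : ℝ × ℝ => Real.sin p.1 • ∫ x, H (sp p.1 p.2) x) dom := by
    have := hH.integral_prod_left
    refine this.congr (Filter.Eventually.of_forall fun p => ?_)
    simp only [smul_eq_mul]
    rw [integral_const_mul]
  rw [sph_eq _ h1]
  have h2 : (∫ p, (Real.sin p.1 • ∫ x, H (sp p.1 p.2) x) ∂dom) =
      ∫ p, (∫ x, Real.sin p.1 * H (sp p.1 p.2) x) ∂dom := by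
    refine integral_congr_ae (Filter.Eventually.of_forall fun p => ?_)
    simp only [smul_eq_mul]
    rw [integral_const_mul]
  rw [h2, integral_integral_swap (f := fun (p : ℝ × ℝ) (x : R3) =>
    Real.sin p.1 * H (sp p.1 p.2) x) hH, ← integral_smul]
  refine integral_congr_ae ?_
  filter_upwards [hH.prod_left_ae] with x hx
  rw [sph_eq (fun u => H u x) (by simpa only [smul_eq_mul] using hx)]
  simp only [smul_eq_mul]

end Vale.Agent.P370.Q.DevEx
end

section

/-!
Helper for `DevExact`: Fubini for the potential on the sphere, polynomiality of the nuclear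
matrix elements on the sphere.
-/

namespace Vale.Agent.P370.Q.DevEx

open MeasureTheory Finset ComplexConjugate Vale.Agent.P370 Vale.Agent.P370.Q

theorem pe_hom {l : ℕ} {P : Poly3} (hP : P.IsHomogeneous l) (r : ℝ) (x : R3) :
    pe P (r • x) = r ^ l * pe P x := by
  unfold pe
  rw [MvPolynomial.eval_eq', MvPolynomial.eval_eq', Finset.mul_sum]
  refine Finset.sum_congr rfl fun d hd => ?_
  have h := hP (MvPolynomial.mem_support_iff.1 hd)
  have h2 : ∑ i, d i = l := by
    rw [← h, Finsupp.weight_apply, Finsupp.sum_fintype _ _ (by simp)]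
    simp
  simp only [PiLp.smul_apply, smul_eq_mul, mul_pow]
  rw [Finset.prod_mul_distrib, Finset.prod_pow_eq_pow_sum, h2]
  ring

theorem cdot_smul (c : C3) (r : ℝ) (x : R3) : cdot c (r • x) = (r : ℂ) * cdot c x := by
  unfold cdot
  rw [Finset.mul_sum]
  refine Finset.sum_congr rfl fun k _ => ?_
  simp only [PiLp.smul_apply, smul_eq_mul]
  push_cast
  ring

theorem continuous_cdot (c : C3) : Continuous (cdot c) := by
  unfold cdot
  (clear * -; fun_prop)

/-- real and imaginary part of a power of a complex linear form -/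
theorem cdot_pow_poly (c : C3) (N : ℕ) : ∃ A B : Poly3, A.totalDegree ≤ N ∧ B.totalDegree ≤ N ∧
    ∀ x : R3, cdot c x ^ N = (pe A x : ℂ) + (pe B x : ℂ) * Complex.I := by
  induction N with
  | zero =>
    refine ⟨1, 0, by simp, by simp, fun x => ?_⟩
    have : pe 1 x = 1 := by unfold pe; simp only [map_one]
    rw [this, pe_zero]
    simp
  | succ N ih =>
    obtain ⟨A, B, hA, hB, h⟩ := ih
    have hx : ∀ x : R3, cdot c x = (pe (lf fun k => (c k).re) x : ℂ) +
        (pe (lf fun k => (c k).im) x : ℂ) * Complex.I := by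
      intro x
      unfold lf cdot
      rw [pe_sum, pe_sum]
      push_cast
      rw [Finset.sum_mul, ← Finset.sum_add_distrib]
      refine Finset.sum_congr rfl fun k _ => ?_
      rw [pe_mul, pe_mul, pe_C, pe_C, pe_X]
      push_cast
      nth_rewrite 1 [← Complex.re_add_im (c k)]
      ring
    have hd : ∀ (Q : Poly3) (a : Fin 3 → ℝ), Q.totalDegree ≤ N →
        (Q * lf a).totalDegree ≤ N + 1 := fun Q a hQ =>
      (MvPolynomial.totalDegree_mul _ _).trans (Nat.add_le_add hQ (totalDegree_lf a))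
    refine ⟨A * lf (fun k => (c k).re) - B * lf (fun k => (c k).im),
      A * lf (fun k => (c k).im) + B * lf (fun k => (c k).re), ?_, ?_, fun x => ?_⟩
    · exact (MvPolynomial.totalDegree_sub _ _).trans (max_le (hd _ _ hA) (hd _ _ hB))
    · exact (MvPolynomial.totalDegree_add _ _).trans (max_le (hd _ _ hA) (hd _ _ hB))
    · rw [pow_succ, h x, hx x, pe_sub, pe_add, pe_mul, pe_mul, pe_mul, pe_mul]
      push_cast
      linear_combination ((pe B x : ℂ) * (pe (lf fun k => (c k).im) x : ℂ)) * Complex.I_sq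

theorem cdot_re_poly (c : C3) (N : ℕ) : ∃ A : Poly3, A.totalDegree ≤ N ∧
    ∀ x : R3, (cdot c x ^ N).re = pe A x := by
  obtain ⟨A, B, hA, _, h⟩ := cdot_pow_poly c N
  refine ⟨A, hA, fun x => ?_⟩
  rw [h x]
  simp

/-- integrability on the product -/
theorem prod_integrable {f h : R3 → ℝ} (hf : Nice f) (hh : Nice h) (g : R3 → ℝ)
    (hg : Continuous g) (ρ : ℝ) :
    Integrable (fun q : (ℝ × ℝ) × R3 => Real.sin q.1.1 *
      (g (sp q.1.1 q.1.2) * (f q.2 * h q.2 / dist q.2 (ρ • sp q.1.1 q.1.2))))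
      (dom.prod volume) := by
  obtain ⟨M, hM⟩ : ∃ M : ℝ, ∀ u : R3, ‖u‖ = 1 → |g u| ≤ M := by
    obtain ⟨M, hM⟩ := (isCompact_sphere (0 : R3) 1).exists_bound_of_continuousOn
      (f := g) hg.continuousOn
    exact ⟨M, fun u hu => by simpa only [Real.norm_eq_abs] using hM u (by simpa using hu)⟩
  have hM0 : 0 ≤ M := (abs_nonneg _).trans (hM (sp 0 0) (norm_sp 0 0))
  have hspc : Continuous (fun q : (ℝ × ℝ) × R3 => sp q.1.1 q.1.2) :=
    continuous_sp.comp continuous_fst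
  have hmeas : AEStronglyMeasurable (fun q : (ℝ × ℝ) × R3 => Real.sin q.1.1 *
      (g (sp q.1.1 q.1.2) * (f q.2 * h q.2 / dist q.2 (ρ • sp q.1.1 q.1.2))))
      (dom.prod volume) := by
    have m1 : Measurable (fun q : (ℝ × ℝ) × R3 => Real.sin q.1.1) := by fun_prop
    have m2 : Measurable (fun q : (ℝ × ℝ) × R3 => g (sp q.1.1 q.1.2)) :=
      (hg.comp hspc).measurable
    have m3 : Measurable (fun q : (ℝ × ℝ) × R3 => f q.2 * h q.2) :=
      ((hf.cont.comp continuous_snd).mul (hh.cont.comp continuous_snd)).measurable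
    have m4 : Measurable (fun q : (ℝ × ℝ) × R3 => dist q.2 (ρ • sp q.1.1 q.1.2)) :=
      (continuous_snd.dist (hspc.const_smul ρ)).measurable
    exact (m1.mul (m2.mul (m3.div m4))).aestronglyMeasurable
  set K : ℝ := 2 * dir f f + 1 / 2 * ∫ x, h x * h x with hK
  have hbound : ∀ y : R3, ∫ x, |f x * h x / dist x y| ≤ K := by
    intro y
    obtain ⟨i1, i2⟩ := hardy_nice hf y
    have i3 : Integrable (fun x => h x * h x) := (nice_integrable_rinv hh hh).2
    have i4 : Integrable (fun x => (1 / 2) * (f x ^ 2 / dist x y ^ 2) + (1 / 2) * (h x * h x)) :=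
      (i1.const_mul _).add (i3.const_mul _)
    calc ∫ x, |f x * h x / dist x y|
        ≤ ∫ x, ((1 / 2) * (f x ^ 2 / dist x y ^ 2) + (1 / 2) * (h x * h x)) := by
          refine integral_mono (nice_integrable_nuc hf hh y).abs i4 fun x => ?_
          simp only
          have e1 : f x ^ 2 / dist x y ^ 2 = (f x / dist x y) ^ 2 := by rw [div_pow]
          have e2 : f x * h x / dist x y = (f x / dist x y) * h x := by ring
          rw [e1, e2, abs_le]
          constructor <;> nlinarith [sq_nonneg (f x / dist x y + h x),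
            sq_nonneg (f x / dist x y - h x)]
      _ = (1 / 2) * (∫ x, f x ^ 2 / dist x y ^ 2) + (1 / 2) * ∫ x, h x * h x := by
          rw [integral_add (i1.const_mul _) (i3.const_mul _), integral_const_mul,
            integral_const_mul]
      _ ≤ K := by rw [hK]; (clear * - i2; linarith)
  rw [integrable_prod_iff hmeas]
  refine ⟨Filter.Eventually.of_forall fun p => ?_, ?_⟩
  · exact ((nice_integrable_nuc hf hh (ρ • sp p.1 p.2)).const_mul
      (g (sp p.1 p.2))).const_mul (Real.sin p.1)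
  · refine Integrable.of_bound (hmeas.norm.integral_prod_right') (M * K)
      (Filter.Eventually.of_forall fun p => ?_)
    simp only
    rw [Real.norm_eq_abs, abs_of_nonneg (integral_nonneg fun x => norm_nonneg _)]
    have e1 : ∀ x : R3, ‖Real.sin p.1 * (g (sp p.1 p.2) *
        (f x * h x / dist x (ρ • sp p.1 p.2)))‖ ≤
        M * |f x * h x / dist x (ρ • sp p.1 p.2)| := by
      intro x
      rw [Real.norm_eq_abs, abs_mul, abs_mul]
      have s1 : |Real.sin p.1| ≤ 1 := Real.abs_sin_le_one _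
      have s2 := hM _ (norm_sp p.1 p.2)
      have s3 := abs_nonneg (f x * h x / dist x (ρ • sp p.1 p.2))
      calc |Real.sin p.1| * (|g (sp p.1 p.2)| * |f x * h x / dist x (ρ • sp p.1 p.2)|)
          ≤ 1 * (|g (sp p.1 p.2)| * |f x * h x / dist x (ρ • sp p.1 p.2)|) :=
            mul_le_mul_of_nonneg_right s1 (mul_nonneg (abs_nonneg _) s3)
        _ ≤ 1 * (M * |f x * h x / dist x (ρ • sp p.1 p.2)|) := by
            rw [one_mul, one_mul]
            exact mul_le_mul_of_nonneg_right s2 s3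
        _ = _ := one_mul _
    calc ∫ x, ‖Real.sin p.1 * (g (sp p.1 p.2) * (f x * h x / dist x (ρ • sp p.1 p.2)))‖
        ≤ ∫ x, M * |f x * h x / dist x (ρ • sp p.1 p.2)| := by
          refine integral_mono ?_ ?_ e1
          · exact (((nice_integrable_nuc hf hh _).const_mul _).const_mul _).norm
          · exact (nice_integrable_nuc hf hh _).abs.const_mul _
      _ = M * ∫ x, |f x * h x / dist x (ρ • sp p.1 p.2)| := integral_const_mul _ _
      _ ≤ M * K := mul_le_mul_of_nonneg_left (hbound _) hM0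

/-- Fubini for the nuclear potential -/
theorem nuc_fubini {f h : R3 → ℝ} (hf : Nice f) (hh : Nice h) (g : R3 → ℝ)
    (hg : Continuous g) (ρ : ℝ) :
    sph (fun u => g u * nuc (ρ • u) f h) =
      ∫ x, f x * h x * sph (fun u => (1 / dist x (ρ • u)) * g u) := by
  have h1 := sph_fubini (fun u x => g u * (f x * h x / dist x (ρ • u)))
    (prod_integrable hf hh g hg ρ)
  have e1 : (fun u => g u * nuc (ρ • u) f h) =
      fun u => ∫ x, g u * (f x * h x / dist x (ρ • u)) := by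
    funext u
    unfold nuc
    rw [integral_const_mul]
  rw [e1, h1]
  refine integral_congr_ae (Filter.Eventually.of_forall fun x => ?_)
  simp only
  rw [← smul_eq_mul (f x * h x), ← sph_smul]
  refine sph_congr fun u _ => ?_
  simp only [smul_eq_mul]
  ring

/-- Fubini for the nuclear potential: integrability -/
theorem nuc_fubini_int {f h : R3 → ℝ} (hf : Nice f) (hh : Nice h) (g : R3 → ℝ)
    (hg : Continuous g) (ρ : ℝ) :
    Integrable (fun x => f x * h x * sph (fun u => (1 / dist x (ρ • u)) * g u)) := by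
  have hH := prod_integrable hf hh g hg ρ
  have h2 : Integrable (fun x : R3 => (1 / (4 * Real.pi)) * ∫ p : ℝ × ℝ,
      Real.sin p.1 * (g (sp p.1 p.2) * (f x * h x / dist x (ρ • sp p.1 p.2))) ∂dom) :=
    hH.integral_prod_right.const_mul _
  refine h2.congr ?_
  filter_upwards [hH.prod_left_ae] with x hx
  rw [← smul_eq_mul (f x * h x), ← sph_smul]
  have e : sph (fun u => (f x * h x) • ((1 / dist x (ρ • u)) * g u)) =
      sph (fun u => g u * (f x * h x / dist x (ρ • u))) := by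
    refine sph_congr fun u _ => ?_
    simp only [smul_eq_mul]
    ring
  rw [e, sph_eq (fun u => g u * (f x * h x / dist x (ρ • u)))
    (by simpa only [smul_eq_mul] using hx)]
  simp only [smul_eq_mul]

/-! ### polynomiality of `nuc` on the sphere -/

noncomputable def G0 (κ r : ℝ) : ℝ := Real.exp (-(κ * r)) * Real.exp (-(κ * r))

noncomputable def G1 (κ r : ℝ) : ℝ := r * (Real.exp (-(κ * r)) * Real.exp (-(κ * r)))

theorem pe_one (x : R3) : pe 1 x = 1 := by unfold pe; simp only [map_one]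

theorem G0_int {κ : ℝ} (hκ : 0 < κ) : GInt (G0 κ) := by
  intro P y
  have := nice_integrable_nuc (nice_expPoly hκ P 0) (nice_expPoly hκ 1 0) y
  refine this.congr (Filter.Eventually.of_forall fun x => ?_)
  simp only [expPoly, pe_zero, pe_one, G0]
  ring

theorem G1_int {κ : ℝ} (hκ : 0 < κ) : GInt (G1 κ) := by
  intro P y
  have := nice_integrable_nuc (nice_expPoly hκ P 0) (nice_expPoly hκ 0 1) y
  refine this.congr (Filter.Eventually.of_forall fun x => ?_)
  simp only [expPoly, pe_zero, pe_one, G1]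
  ring

theorem pe_rsq (x : R3) : pe rsq x = ‖x‖ ^ 2 := by
  unfold rsq
  rw [pe_sum, EuclideanSpace.real_norm_sq_eq]
  refine Finset.sum_congr rfl fun k _ => ?_
  rw [pe_pow, pe_X]

theorem totalDegree_rsq : rsq.totalDegree ≤ 2 := by
  unfold rsq
  refine (MvPolynomial.totalDegree_finsetSum _ _).trans ?_
  refine Finset.sup_le fun k _ => ?_
  refine (MvPolynomial.totalDegree_pow _ _).trans ?_
  simp

theorem nuc_poly {n : ℕ} (hn : 1 ≤ n) {P Q P' Q' : Poly3} (h1 : DegLe n P Q)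
    (h2 : DegLe n P' Q') {κ : ℝ} (hκ : 0 < κ) (ρ : ℝ) :
    (fun u => nuc (ρ • u) (expPoly κ P Q) (expPoly κ P' Q')) ∈ Wm (2 * n - 2) := by
  have e : (fun u => nuc (ρ • u) (expPoly κ P Q) (expPoly κ P' Q')) =
      Jf (G0 κ) ρ (P * P' + rsq * (Q * Q')) + Jf (G1 κ) ρ (P * Q' + Q * P') := by
    funext u
    rw [Pi.add_apply]
    unfold Jf nuc
    rw [← integral_add (G0_int hκ _ _) (G1_int hκ _ _)]
    refine integral_congr_ae (Filter.Eventually.of_forall fun x => ?_)
    simp only [pe_add, pe_mul, pe_rsq, expPoly, G0, G1]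
    ring
  rw [e]
  have d1 : (P * P').totalDegree ≤ 2 * n - 2 := by
    refine (MvPolynomial.totalDegree_mul _ _).trans ?_
    have := h1.1
    have := h2.1
    omega
  have d2 : (rsq * (Q * Q')).totalDegree ≤ 2 * n - 2 := by
    rcases h1.2 with h | h
    · rw [h]; simp only [zero_mul, mul_zero, MvPolynomial.totalDegree_zero, zero_le]
    rcases h2.2 with h' | h'
    · rw [h']; simp only [mul_zero, MvPolynomial.totalDegree_zero, zero_le]
    refine (MvPolynomial.totalDegree_mul _ _).trans ?_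
    have h3 := MvPolynomial.totalDegree_mul Q Q'
    have h4 := totalDegree_rsq
    omega
  have d3 : (P * Q').totalDegree ≤ 2 * n - 2 := by
    rcases h2.2 with h' | h'
    · rw [h']; simp only [mul_zero, MvPolynomial.totalDegree_zero, zero_le]
    refine (MvPolynomial.totalDegree_mul _ _).trans ?_
    have := h1.1
    omega
  have d4 : (Q * P').totalDegree ≤ 2 * n - 2 := by
    rcases h1.2 with h' | h'
    · rw [h']; simp only [zero_mul, MvPolynomial.totalDegree_zero, zero_le]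
    refine (MvPolynomial.totalDegree_mul _ _).trans ?_
    have := h2.1
    omega
  refine Submodule.add_mem _ (Jf_mem (G0_int hκ) ρ _ _ ?_) (Jf_mem (G1_int hκ) ρ _ _ ?_)
  · exact (MvPolynomial.totalDegree_add _ _).trans (max_le d1 d2)
  · exact (MvPolynomial.totalDegree_add _ _).trans (max_le d3 d4)

theorem norm_node (D k j : ℕ) : ‖node D k j‖ = 1 := norm_sp _ _

theorem gm_eq {f h : R3 → ℝ} (hf : Nice f) (hh : Nice h) (y : R3) :
    gm y f h = rinv f h - nuc y f h := by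
  unfold gm rinv nuc
  rw [← integral_sub (nice_integrable_rinv hf hh).1 (nice_integrable_nuc hf hh y)]
  refine integral_congr_ae (Filter.Eventually.of_forall fun x => ?_)
  simp only
  ring

end Vale.Agent.P370.Q.DevEx
end

section

/-!
Exact first order matrix elements of the sphere of light nuclei.
-/

namespace Vale.Agent.P370.Q

open MeasureTheory Finset ComplexConjugate DevEx

/-- the device sum of a polynomial weight -/
theorem DevEx.dev_core {n D N : ℕ} (hn : 1 ≤ n) (hD : 2 * n + N ≤ D) (he : Even D)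
    {P Q P' Q' : Poly3} (h1 : DegLe n P Q) (h2 : DegLe n P' Q') {κ : ℝ} (hκ : 0 < κ)
    (A : Poly3) (hA : A.totalDegree ≤ N) (ρ : ℝ) :
    ∑ k ∈ range D, ∑ j ∈ range D, qw D k * (pe A (node D k j) *
        gm (ρ • node D k j) (expPoly κ P Q) (expPoly κ P' Q')) =
      rinv (expPoly κ P Q) (expPoly κ P' Q') * sph (fun u => pe A u) -
        sph (fun u => pe A u * nuc (ρ • u) (expPoly κ P Q) (expPoly κ P' Q')) := by
  have hD2 : 2 ≤ D := by omega
  set f := expPoly κ P Q with hf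
  set h := expPoly κ P' Q' with hh
  have nf : Nice f := nice_expPoly hκ P Q
  have nh : Nice h := nice_expPoly hκ P' Q'
  obtain ⟨R, hR, hRe⟩ := nuc_poly hn h1 h2 hκ ρ
  have e1 : sph (fun u => pe A u * nuc (ρ • u) f h) = sph (fun u => pe (A * R) u) := by
    refine sph_congr fun u hu => ?_
    rw [pe_mul, ← hRe u hu]
  have hAR : (A * R).totalDegree < D := by
    refine lt_of_le_of_lt (MvPolynomial.totalDegree_mul _ _) ?_
    omega
  have hAD : A.totalDegree < D := by omega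
  rw [e1, ← quad_exact D hD2 he A hAD, ← quad_exact D hD2 he (A * R) hAR, Finset.mul_sum,
    ← Finset.sum_sub_distrib]
  refine Finset.sum_congr rfl fun k _ => ?_
  rw [Finset.mul_sum, ← Finset.sum_sub_distrib]
  refine Finset.sum_congr rfl fun j _ => ?_
  rw [gm_eq nf nh, pe_mul, ← hRe _ (norm_node D k j)]
  ring

theorem DevEx.sphere_ae (ρ : ℝ) : ∀ᵐ x : R3, x ≠ 0 ∧ ‖x‖ ≠ ρ := by
  have h1 : (volume : Measure R3) (Metric.sphere 0 ρ) = 0 := Measure.addHaar_sphere _ _ _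
  have h2 : (volume : Measure R3) {0} = 0 := measure_singleton 0
  have h3 : ∀ᵐ x : R3, x ∉ Metric.sphere (0 : R3) ρ := measure_eq_zero_iff_ae_notMem.1 h1
  have h4 : ∀ᵐ x : R3, x ∉ ({0} : Set R3) := measure_eq_zero_iff_ae_notMem.1 h2
  filter_upwards [h3, h4] with x hx hx'
  exact ⟨by simpa using hx', by simpa only [ne_eq, mem_sphere_iff_norm, sub_zero] using hx⟩

/-- isotropic shell -/
theorem dev_iso {n D : ℕ} (hn : 1 ≤ n) (hD : 2 * n ≤ D) (he : Even D) {φ ψ : R3 → ℝ}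
    (hφ : IsShell n φ) (hψ : IsShell n ψ) (ρ : ℝ) (hρ : 0 < ρ) :
    ∑ k ∈ range D, ∑ j ∈ range D, qw D k * gm (ρ • node D k j) φ ψ = bform ρ φ ψ := by
  obtain ⟨P, Q, hd, -, -, rfl⟩ := hφ
  obtain ⟨P', Q', hd', -, -, rfl⟩ := hψ
  have hκ : (0 : ℝ) < 1 / n := by positivity
  have nf : Nice (expPoly (1 / n) P Q) := nice_expPoly hκ P Q
  have nh : Nice (expPoly (1 / n) P' Q') := nice_expPoly hκ P' Q'
  have h1 := dev_core (N := 0) hn (by omega) he hd hd' hκ (1 : Poly3) (by simp) ρ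
  simp only [pe_one, one_mul] at h1
  rw [h1, sph_const, mul_one]
  have h2 := nuc_fubini nf nh (fun _ => 1) continuous_const ρ
  have h3 := nuc_fubini_int nf nh (fun _ => 1) continuous_const ρ
  simp only [mul_one, one_mul] at h2 h3
  rw [h2]
  unfold rinv bform
  rw [← integral_sub (nice_integrable_rinv nf nh).1 h3]
  refine integral_congr_ae ?_
  filter_upwards [sphere_ae ρ] with x hx
  have hx0 : 0 < ‖x‖ := norm_pos_iff.2 hx.1
  rw [sph_newton_zero ρ hρ x hx.2]
  rcases le_or_gt ‖x‖ ρ with h | h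
  · have : 1 / ρ ≤ 1 / ‖x‖ := one_div_le_one_div_of_le hx0 h
    rw [max_eq_right h, max_eq_left (by linarith only [this])]
    ring
  · have : 1 / ‖x‖ ≤ 1 / ρ := one_div_le_one_div_of_le hρ h.le
    rw [max_eq_left h.le, max_eq_right (by linarith only [this])]
    ring

theorem DevEx.vfun_eq (n : ℕ) (P : Poly3) : vfun n P = expPoly (1 / n) P 0 := by
  funext x
  unfold vfun expPoly
  rw [pe_zero]
  congr 1
  · ring
  · congr 1
    ring

theorem DevEx.vfun_deg {n : ℕ} (hn : 1 ≤ n) {P : Poly3} (hP : Harm (n - 1) P) : DegLe n P 0 := by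
  refine ⟨?_, Or.inl rfl⟩
  have := hP.1.totalDegree_le
  omega

/-- real parts of sphere averages -/
theorem DevEx.sph_re (f : R3 → ℂ) (hf : ContinuousOn f (Metric.sphere 0 1)) :
    sph (fun u => (f u).re) = (sph f).re := by
  have hc := integrable_of_cont f hf
  have hr : ContinuousOn (fun u => (f u).re) (Metric.sphere (0 : R3) 1) :=
    Complex.continuous_re.comp_continuousOn hf
  rw [sph_eq f hc, sph_eq _ (integrable_of_cont _ hr), Complex.smul_re]
  congr 1
  have := Complex.reCLM.integral_comp_comm hc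
  rw [← Complex.reCLM_apply, ← this]
  refine integral_congr_ae (Filter.Eventually.of_forall fun p => ?_)
  simp only [Complex.reCLM_apply, Complex.smul_re]

/-- multipole device on the top subspace -/
theorem dev_top {n D N : ℕ} (hn : 1 ≤ n) (hN : 1 ≤ N) (hD : 2 * n + N ≤ D) (he : Even D)
    (c : C3) (hc : cc c c = 0) {P P' : Poly3} (hP : Harm (n - 1) P) (hP' : Harm (n - 1) P')
    (ρ : ℝ) (hρ : 0 < ρ) :
    ∑ k ∈ range D, ∑ j ∈ range D, qw D k * (cdot c (node D k j) ^ N).re *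
        gm (ρ • node D k j) (vfun n P) (vfun n P') =
      -(4 * Real.pi * RN n N ρ * sph (fun u => (cdot c u ^ N).re * (pe P u * pe P' u))) := by
  have hκ : (0 : ℝ) < 1 / n := by (clear * - hn; positivity)
  obtain ⟨A, hA, hAe⟩ := cdot_re_poly c N
  have h1 := dev_core hn hD he (vfun_deg hn hP) (vfun_deg hn hP') hκ A hA ρ
  rw [← vfun_eq, ← vfun_eq] at h1
  simp only [← mul_assoc] at h1
  simp only [← hAe] at h1
  have nf : Nice (vfun n P) := by rw [vfun_eq]; exact nice_expPoly hκ P 0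
  have nh : Nice (vfun n P') := by rw [vfun_eq]; exact nice_expPoly hκ P' 0
  have hcp : Continuous (fun u : R3 => cdot c u ^ N) := (continuous_cdot c).pow N
  have h0 : sph (fun u => (cdot c u ^ N).re) = 0 := by
    rw [DevEx.sph_re _ hcp.continuousOn, sph_pow]
    split_ifs with h
    · obtain ⟨j, hj⟩ := h
      have : N / 2 ≠ 0 := by omega
      rw [hc, zero_pow this]
      simp
    · simp
  rw [h1, h0, mul_zero, zero_sub]
  congr 1
  have hcr : Continuous (fun u : R3 => (cdot c u ^ N).re) := Complex.continuous_re.comp hcp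
  rw [nuc_fubini nf nh (fun u => (cdot c u ^ N).re) hcr ρ]
  set K : ℝ → ℝ := fun r => 1 / (2 * (N : ℝ) + 1) * (min r ρ ^ N / max r ρ ^ (N + 1)) with hK
  have hae : (fun x => vfun n P x * vfun n P' x *
      sph (fun u => (1 / dist x (ρ • u)) * (cdot c u ^ N).re)) =ᵐ[volume]
      fun x => vfun n P x * vfun n P' x * (K ‖x‖ / ‖x‖ ^ N * (cdot c x ^ N).re) := by
    filter_upwards [sphere_ae ρ] with x hx
    congr 1
    have hne : ∀ u ∈ Metric.sphere (0 : R3) 1, dist x (ρ • u) ≠ 0 := by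
      intro u hu h
      rw [dist_eq_zero] at h
      apply hx.2
      rw [h, norm_smul, Real.norm_eq_abs, abs_of_pos hρ]
      simp only [mem_sphere_iff_norm, sub_zero] at hu
      rw [hu, mul_one]
    have hcont : ContinuousOn (fun u : R3 => (1 / dist x (ρ • u) : ℝ) • cdot c u ^ N)
        (Metric.sphere 0 1) := by
      refine ContinuousOn.smul (ContinuousOn.div continuousOn_const ?_ hne) hcp.continuousOn
      (clear * -; fun_prop)
    have e1 : sph (fun u => (1 / dist x (ρ • u)) * (cdot c u ^ N).re) =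
        sph (fun u => ((1 / dist x (ρ • u) : ℝ) • cdot c u ^ N).re) := by
      refine sph_congr fun u _ => ?_
      rw [Complex.smul_re]
      rfl
    rw [e1, DevEx.sph_re _ hcont, sph_newton c hc N ρ hρ x hx.1 hx.2, Complex.smul_re, smul_eq_mul]
  have hint := (nuc_fubini_int nf nh (fun u => (cdot c u ^ N).re) hcr ρ).congr hae
  rw [integral_congr_ae hae, polar_sph _ hint]
  have hr : ∀ r ∈ Set.Ioi (0 : ℝ), (4 * Real.pi * r ^ 2) •
      sph (fun u => vfun n P (r • u) * vfun n P' (r • u) *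
        (K ‖r • u‖ / ‖r • u‖ ^ N * (cdot c (r • u) ^ N).re)) =
      (r ^ (2 * n) * Real.exp (-(2 * r / n)) * K r) *
        (4 * Real.pi * sph (fun u => (cdot c u ^ N).re * (pe P u * pe P' u))) := by
    intro r hr
    have hr0 : 0 < r := hr
    have e1 : sph (fun u => vfun n P (r • u) * vfun n P' (r • u) *
        (K ‖r • u‖ / ‖r • u‖ ^ N * (cdot c (r • u) ^ N).re)) =
        sph (fun u => (r ^ (n - 1) * r ^ (n - 1) * Real.exp (-(2 * r / n)) * K r) •
          ((cdot c u ^ N).re * (pe P u * pe P' u))) := by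
      refine sph_congr fun u hu => ?_
      have n1 : ‖r • u‖ = r := by rw [norm_smul, hu, mul_one, Real.norm_eq_abs, abs_of_pos hr0]
      have n2 : (cdot c (r • u) ^ N).re = r ^ N * (cdot c u ^ N).re := by
        rw [cdot_smul, mul_pow, ← Complex.ofReal_pow, Complex.re_ofReal_mul]
      have n3 : Real.exp (-(2 * r / n)) = Real.exp (-(r / n)) * Real.exp (-(r / n)) := by
        rw [← Real.exp_add]
        congr 1
        ring
      unfold vfun
      rw [n1, n2, n3, pe_hom hP.1, pe_hom hP'.1, smul_eq_mul]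
      (clear * - hr0; field_simp)
    rw [e1, sph_smul, smul_eq_mul, smul_eq_mul]
    have e2 : r ^ (2 * n) = r ^ 2 * (r ^ (n - 1) * r ^ (n - 1)) := by
      rw [← pow_add, ← pow_add]
      congr 1
      omega
    rw [e2]
    ring
  rw [setIntegral_congr_fun measurableSet_Ioi hr, integral_mul_const]
  unfold RN
  ring

end Vale.Agent.P370.Q
end

section

/-!
Forms of the devices.
-/

namespace Vale.Agent.P370.Q

open MeasureTheory Finset DevEx

theorem st3_pρ_pos (k : ℕ) : 0 < pρ k := by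
  unfold pρ
  (clear * -; positivity)

theorem st3_pn_two (k : ℕ) (hk : 10 ≤ k) : 2 ≤ pn k := (pn_even k hk).2

theorem st3_D_even (k : ℕ) : Even (pD k) := by
  unfold pD
  exact ⟨8 * pn k, by ring⟩

theorem st3_dsum1 (D : ℕ) (c : ℝ) (F : ℕ → ℕ → ℝ) :
    ∑ a ∈ range D, ∑ b ∈ range D, c * F a b = c * ∑ a ∈ range D, ∑ b ∈ range D, F a b := by
  rw [Finset.mul_sum]
  exact Finset.sum_congr rfl fun a _ => (Finset.mul_sum _ _ _).symm

theorem st3_dsum {ι : Type} (t : Finset ι) (D : ℕ) (c : ι → ℝ) (F : ι → ℕ → ℕ → ℝ) :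
    ∑ a ∈ range D, ∑ b ∈ range D, ∑ i ∈ t, c i * F i a b
      = ∑ i ∈ t, c i * ∑ a ∈ range D, ∑ b ∈ range D, F i a b := by
  have h1 : ∀ a ∈ range D, ∑ b ∈ range D, ∑ i ∈ t, c i * F i a b
      = ∑ i ∈ t, ∑ b ∈ range D, c i * F i a b := fun a _ => Finset.sum_comm
  rw [Finset.sum_congr rfl h1, Finset.sum_comm]
  exact Finset.sum_congr rfl fun i _ => st3_dsum1 D (c i) (F i)

theorem st3_dsum2 (K D : ℕ) (c : ℕ → ℕ → ℝ) (F : ℕ → ℕ → ℕ → ℕ → ℝ) :
    ∑ a ∈ range D, ∑ b ∈ range D, ∑ j ∈ range K, ∑ i ∈ range j, c i j * F i j a b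
      = ∑ j ∈ range K, ∑ i ∈ range j, c i j * ∑ a ∈ range D, ∑ b ∈ range D, F i j a b := by
  have h := st3_dsum ((range K).sigma fun j => range j) D (fun p => c p.2 p.1)
    (fun p => F p.2 p.1)
  simp only [Finset.sum_sigma] at h
  exact h

/-- expansion of the exact form into isotropic part and devices, on shell `n` -/
theorem hex_eq (k : ℕ) (hk : 10 ≤ k) (q : ℕ → ℕ) (s : ℕ → ℕ → ℕ) {φ ψ : R3 → ℝ}
    (hφ : IsShell (pn k) φ) (hψ : IsShell (pn k) ψ) :
    hex k q s φ ψ = pW k * bform (pρ k) φ ψ +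
      (∑ i ∈ range (pK k), pL k * Xu (pn k) (2 * (pn k - 1)) (pρ k) *
        devf k (pα k i) (2 * (pn k - 1)) φ ψ) +
      ∑ j ∈ range (pK k), ∑ i ∈ range j, (s i j : ℝ) * pη k * Xu (pn k) (2 * q (j - i)) (pρ k) *
        devf k ((pα k i + pα k j) / 2) (2 * q (j - i)) φ ψ := by
  have hn := st3_pn_two k hk
  have hD : 2 * pn k ≤ pD k := by
    unfold pD
    omega
  have h1 := dev_iso (by omega) hD (st3_D_even k) hφ hψ (pρ k) (st3_pρ_pos k)
  unfold hex devf
  rw [← h1]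
  have e1 : ∀ a b, wex k q s a b * gm (pρ k • node (pD k) a b) φ ψ
      = pW k * (qw (pD k) a * gm (pρ k • node (pD k) a b) φ ψ)
        + (∑ i ∈ range (pK k), pL k * Xu (pn k) (2 * (pn k - 1)) (pρ k) *
          (qw (pD k) a * (cdot (av (pα k i)) (node (pD k) a b) ^ (2 * (pn k - 1))).re *
            gm (pρ k • node (pD k) a b) φ ψ))
        + ∑ j ∈ range (pK k), ∑ i ∈ range j,
          (s i j : ℝ) * pη k * Xu (pn k) (2 * q (j - i)) (pρ k) *
          (qw (pD k) a * (cdot (av ((pα k i + pα k j) / 2)) (node (pD k) a b) ^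
            (2 * q (j - i))).re * gm (pρ k • node (pD k) a b) φ ψ) := by
    intro a b
    unfold wex
    rw [mul_add, mul_add, add_mul, add_mul, Finset.mul_sum, Finset.sum_mul, Finset.mul_sum,
      Finset.sum_mul]
    congr 1
    · congr 1
      · ring
      · exact Finset.sum_congr rfl fun i _ => by ring
    · refine Finset.sum_congr rfl fun j _ => ?_
      rw [Finset.mul_sum, Finset.sum_mul]
      exact Finset.sum_congr rfl fun i _ => by ring
  rw [Finset.sum_congr rfl fun a _ => Finset.sum_congr rfl fun b _ => e1 a b]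
  simp only [sum_add_distrib]
  rw [st3_dsum, st3_dsum2, ← st3_dsum1]

theorem normSq_cdot_av (γ : ℝ) (u : R3) :
    ‖cdot (av γ) u‖ ^ 2 = u 2 ^ 2 + (u 0 * Real.cos γ + u 1 * Real.sin γ) ^ 2 := by
  have h1 : cdot (av γ) u = (u 2 : ℂ) + ((u 0 * Real.cos γ + u 1 * Real.sin γ : ℝ) : ℂ)
      * Complex.I := by
    unfold cdot av
    rw [Fin.sum_univ_three]
    simp only [Matrix.cons_val_zero, Matrix.cons_val_one, Matrix.cons_val]
    push_cast
    ring
  rw [h1, Complex.sq_norm, Complex.normSq_add_mul_I]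

theorem norm_cdot_av_le (γ : ℝ) (u : R3) (hu : ‖u‖ = 1) : ‖cdot (av γ) u‖ ≤ 1 := by
  have h1 := normSq_cdot_av γ u
  have h2 : u 0 ^ 2 + u 1 ^ 2 + u 2 ^ 2 = 1 := by
    have h3 : ‖u‖ ^ 2 = u 0 ^ 2 + u 1 ^ 2 + u 2 ^ 2 := by
      rw [EuclideanSpace.norm_sq_eq, Fin.sum_univ_three]
      simp
    rw [← h3, hu]
    norm_num
  have h4 := Real.cos_sq_add_sin_sq γ
  have h5 : (u 0 * Real.cos γ + u 1 * Real.sin γ) ^ 2 ≤ u 0 ^ 2 + u 1 ^ 2 := by
    nlinarith only [h4, sq_nonneg (u 0 * Real.sin γ - u 1 * Real.cos γ)]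
  have h6 : ‖cdot (av γ) u‖ ^ 2 ≤ 1 ^ 2 := by
    rw [h1]
    linarith only [h2, h5]
  exact le_of_sq_le_sq h6 (by norm_num)

theorem abs_re_pow_le (γ : ℝ) (N : ℕ) (u : R3) (hu : ‖u‖ = 1) :
    |(cdot (av γ) u ^ N).re| ≤ 1 := by
  refine (Complex.abs_re_le_norm _).trans ?_
  rw [norm_pow]
  exact pow_le_one₀ (norm_nonneg _) (norm_cdot_av_le γ u hu)

theorem st3_qw_nonneg (k : ℕ) (hk : 10 ≤ k) (a : ℕ) (ha : a ∈ range (pD k)) :
    0 ≤ qw (pD k) a := by
  have h1 := st3_pn_two k hk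
  have hD : 2 ≤ pD k := by
    unfold pD
    omega
  have h2 := fej_pos (pD k) hD (st3_D_even k) a (Finset.mem_range.1 ha)
  unfold qw
  have h3 : 0 ≤ 1 / (pD k : ℝ) ^ 3 := by (clear * - hD; positivity)
  exact div_nonneg (h3.trans h2) (Nat.cast_nonneg _)

theorem st3_qw_sum (k : ℕ) (hk : 10 ≤ k) :
    ∑ a ∈ range (pD k), ∑ _b ∈ range (pD k), qw (pD k) a = 1 := by
  have h1 := st3_pn_two k hk
  have hD : 2 ≤ pD k := by
    unfold pD
    omega
  exact qw_sum (pD k) hD (st3_D_even k)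

theorem norm_smul_node (k a b : ℕ) : ‖pρ k • node (pD k) a b‖ = pρ k := by
  rw [norm_smul, norm_node, mul_one, Real.norm_eq_abs, abs_of_pos (st3_pρ_pos k)]

/-- crude bound of a device -/
theorem devf_crude (k : ℕ) (hk : 10 ≤ k) (γ : ℝ) (N : ℕ) {a b : ℕ} (ha : 1 ≤ a) (hb : 1 ≤ b)
    {φ ψ : R3 → ℝ} (hφ : IsShell a φ) (hψ : IsShell b ψ) :
    |devf k γ N φ ψ| ≤ 16 * pρ k * Real.sqrt (ov φ φ * ov ψ ψ) := by
  unfold devf
  have h1 : ∀ c ∈ range (pD k), ∀ d ∈ range (pD k),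
      |qw (pD k) c * (cdot (av γ) (node (pD k) c d) ^ N).re * gm (pρ k • node (pD k) c d) φ ψ|
        ≤ qw (pD k) c * (16 * pρ k * Real.sqrt (ov φ φ * ov ψ ψ)) := by
    intro c hc d _
    rw [abs_mul, abs_mul, abs_of_nonneg (st3_qw_nonneg k hk c hc)]
    have h2 := gm_bound ha hb hφ hψ (pρ k • node (pD k) c d)
    rw [norm_smul_node] at h2
    have h3 := abs_re_pow_le γ N (node (pD k) c d) (norm_node _ _ _)
    have h4 : qw (pD k) c * |(cdot (av γ) (node (pD k) c d) ^ N).re| ≤ qw (pD k) c :=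
      mul_le_of_le_one_right (st3_qw_nonneg k hk c hc) h3
    exact mul_le_mul h4 h2 (abs_nonneg _) (st3_qw_nonneg k hk c hc)
  calc _ ≤ ∑ c ∈ range (pD k), ∑ d ∈ range (pD k),
        qw (pD k) c * (16 * pρ k * Real.sqrt (ov φ φ * ov ψ ψ)) := by
        refine (Finset.abs_sum_le_sum_abs _ _).trans (Finset.sum_le_sum fun c hc => ?_)
        exact (Finset.abs_sum_le_sum_abs _ _).trans (Finset.sum_le_sum fun d hd => h1 c hc d hd)
    _ = _ := by
        simp only [← Finset.sum_mul]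
        rw [st3_qw_sum k hk, one_mul]

theorem st3_I0_ne (k : ℕ) (hk : 10 ≤ k) : I0 (pn k) ≠ 0 := by
  have := I0_ge (pn k) (by have := st3_pn_two k hk; omega)
  linarith only [this]

/-- device on the top subspace -/
theorem devf_top (k : ℕ) (hk : 10 ≤ k) (γ : ℝ) (q : ℕ) (hq1 : 1 ≤ q) (hq : q ≤ pn k - 1)
    {P P' : Poly3} (hP : Harm (pn k - 1) P) (hP' : Harm (pn k - 1) P') :
    Xu (pn k) (2 * q) (pρ k) * devf k γ (2 * q) (vfun (pn k) P) (vfun (pn k) P') =
      -(zt k (2 * q) * (4 * Real.pi * I0 (pn k) *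
        sph (fun u => (cdot (av γ) u ^ (2 * q)).re * (pe P u * pe P' u)))) := by
  have hn := st3_pn_two k hk
  have h1 := dev_top (n := pn k) (D := pD k) (N := 2 * q) (by omega) (by omega)
    (by unfold pD; omega) (st3_D_even k) (av γ) (av_null γ) hP hP' (pρ k) (st3_pρ_pos k)
  unfold devf
  rw [h1]
  unfold zt
  have h2 := st3_I0_ne k hk
  (clear * - h2; field_simp)

theorem st3_vfun_ov_nonneg (φ : R3 → ℝ) : 0 ≤ ov φ φ := bd_ov_nonneg φ

/-- bound on the top subspace -/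
theorem devf_top_le (k : ℕ) (hk : 10 ≤ k) (γ : ℝ) (q : ℕ) (hq1 : 1 ≤ q) (hq : q ≤ pn k - 1)
    {φ ψ : R3 → ℝ} (hφ : InV (pn k) φ) (hψ : InV (pn k) ψ) :
    |Xu (pn k) (2 * q) (pρ k) * devf k γ (2 * q) φ ψ| ≤
      2 * Real.sqrt (ov φ φ * ov ψ ψ) := by
  obtain ⟨P, hP, rfl⟩ := hφ
  obtain ⟨P', hP', rfl⟩ := hψ
  have hn := st3_pn_two k hk
  rw [devf_top k hk γ q hq1 hq hP hP', abs_neg, abs_mul]
  have h1 := zt_bounds k (2 * q) hk (by omega) (by omega)
  have h2 := dev_contr (pn k) q hn γ hP hP'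
  rw [abs_of_nonneg (by linarith only [h1] : (0 : ℝ) ≤ zt k (2 * q))]
  exact mul_le_mul h1.2 h2 (abs_nonneg _) (by norm_num)

theorem st3_ov_fh (n : ℕ) (φ : R3 → ℝ) (γ : ℝ) :
    ov φ (fh n γ) = ov φ (fsite n γ) / Real.sqrt (nf n) := by
  unfold ov fh
  rw [← integral_div]
  refine integral_congr_ae (Filter.Eventually.of_forall fun x => ?_)
  simp only
  ring

/-- top devices are rank two -/
theorem devf_rank_two (k : ℕ) (hk : 10 ≤ k) (γ : ℝ) {φ ψ : R3 → ℝ} (hφ : InV (pn k) φ)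
    (hψ : InV (pn k) ψ) :
    Xu (pn k) (2 * (pn k - 1)) (pρ k) * devf k γ (2 * (pn k - 1)) φ ψ =
      -(zt k (2 * (pn k - 1)) * gam (pn k) * (ov φ (fh (pn k) γ) * ov ψ (fh (pn k) γ) -
        ov φ (gsite (pn k) γ) * ov ψ (gsite (pn k) γ) / nf (pn k))) := by
  obtain ⟨P, hP, rfl⟩ := hφ
  obtain ⟨P', hP', rfl⟩ := hψ
  have hn := st3_pn_two k hk
  rw [devf_top k hk γ (pn k - 1) (by omega) le_rfl hP hP',
    top_rank_two (pn k) hn γ hP hP', st3_ov_fh, st3_ov_fh]
  have h1 := nf_pos (pn k) (by omega)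
  have h2 := Real.mul_self_sqrt h1.le
  have h3 : Real.sqrt (nf (pn k)) ≠ 0 := (Real.sqrt_pos.2 h1).ne'
  have h4 : ov (vfun (pn k) P) (fsite (pn k) γ) / Real.sqrt (nf (pn k)) *
      (ov (vfun (pn k) P') (fsite (pn k) γ) / Real.sqrt (nf (pn k)))
      = ov (vfun (pn k) P) (fsite (pn k) γ) * ov (vfun (pn k) P') (fsite (pn k) γ) / nf (pn k) := by
    rw [div_mul_div_comm, h2]
  rw [h4]
  (clear * - h1; field_simp)

theorem gm_div_div (y : R3) (f g : R3 → ℝ) (a b : ℝ) :
    gm y (fun x => f x / a) (fun x => g x / b) = gm y f g / (a * b) := by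
  unfold gm
  rw [← integral_div]
  refine integral_congr_ae (Filter.Eventually.of_forall fun x => ?_)
  simp only
  rw [div_mul_div_comm, div_mul_eq_mul_div]

theorem devf_div_div (k : ℕ) (γ : ℝ) (N : ℕ) (f g : R3 → ℝ) (a b : ℝ) :
    devf k γ N (fun x => f x / a) (fun x => g x / b) = devf k γ N f g / (a * b) := by
  unfold devf
  simp only [gm_div_div, Finset.sum_div]
  exact Finset.sum_congr rfl fun c _ => Finset.sum_congr rfl fun d _ => by ring

/-- hopping devices between the sites -/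
theorem devf_hop (k : ℕ) (hk : 10 ≤ k) (γ α β : ℝ) (q : ℕ) (hq1 : 1 ≤ q) (hq : q ≤ pn k - 1) :
    Xu (pn k) (2 * q) (pρ k) * devf k γ (2 * q) (fh (pn k) α) (fh (pn k) β) =
      -(zt k (2 * q) * hopA (pn k) q γ α β) := by
  have hn := st3_pn_two k hk
  obtain ⟨P, hP, hPe⟩ := fsite_InV (pn k) (by omega) α
  obtain ⟨P', hP', hPe'⟩ := fsite_InV (pn k) (by omega) β
  have h1 := devf_top k hk γ q hq1 hq hP hP'
  rw [← hPe, ← hPe'] at h1
  have hpe : ∀ u, pe P u = (cdot (av α) u ^ (pn k - 1)).re := by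
    intro u
    have h2 := congrFun hPe u
    unfold fsite vfun at h2
    exact (mul_right_cancel₀ (Real.exp_ne_zero _) h2).symm
  have hpe' : ∀ u, pe P' u = (cdot (av β) u ^ (pn k - 1)).re := by
    intro u
    have h2 := congrFun hPe' u
    unfold fsite vfun at h2
    exact (mul_right_cancel₀ (Real.exp_ne_zero _) h2).symm
  simp only [hpe, hpe'] at h1
  have h3 : devf k γ (2 * q) (fh (pn k) α) (fh (pn k) β)
      = devf k γ (2 * q) (fsite (pn k) α) (fsite (pn k) β) / nf (pn k) := by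
    have h4 := devf_div_div k γ (2 * q) (fsite (pn k) α) (fsite (pn k) β)
      (Real.sqrt (nf (pn k))) (Real.sqrt (nf (pn k)))
    rw [Real.mul_self_sqrt (nf_pos (pn k) (by omega)).le] at h4
    exact h4
  rw [h3, ← mul_div_assoc, h1]
  unfold hopA
  have h5 := (nf_pos (pn k) (by omega)).ne'
  (clear * - h5; field_simp)

/-- total exact charge -/
theorem wex_sum (k : ℕ) (hk : 10 ≤ k) (q : ℕ → ℕ) (hq : GoodQ k q) (s : ℕ → ℕ → ℕ) :
    ∑ a ∈ range (pD k), ∑ b ∈ range (pD k), wex k q s a b = pW k := by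
  have hn := st3_pn_two k hk
  have hD : 2 ≤ pD k := by
    unfold pD
    omega
  have h0 : ∀ (γ : ℝ) (N : ℕ), 1 ≤ N → N < pD k →
      ∑ a ∈ range (pD k), ∑ b ∈ range (pD k),
        qw (pD k) a * (cdot (av γ) (node (pD k) a b) ^ N).re = 0 := by
    intro γ N hN1 hN
    obtain ⟨A, hA, hAe⟩ := cdot_re_poly (av γ) N
    have h1 := quad_exact (pD k) hD (st3_D_even k) A (by omega)
    simp only [← hAe] at h1
    rw [h1]
    have hcp : Continuous (fun u : R3 => cdot (av γ) u ^ N) := (continuous_cdot _).pow N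
    rw [DevEx.sph_re _ hcp.continuousOn, sph_pow, av_null]
    split_ifs with h
    · have h2 : N / 2 ≠ 0 := by
        obtain ⟨m, rfl⟩ := h
        omega
      rw [zero_pow h2]
      simp
    · simp
  have e1 : ∀ a b, wex k q s a b = pW k * qw (pD k) a
        + (∑ i ∈ range (pK k), pL k * Xu (pn k) (2 * (pn k - 1)) (pρ k) *
          (qw (pD k) a * (cdot (av (pα k i)) (node (pD k) a b) ^ (2 * (pn k - 1))).re))
        + ∑ j ∈ range (pK k), ∑ i ∈ range j,
          (s i j : ℝ) * pη k * Xu (pn k) (2 * q (j - i)) (pρ k) *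
          (qw (pD k) a * (cdot (av ((pα k i + pα k j) / 2)) (node (pD k) a b) ^
            (2 * q (j - i))).re) := by
    intro a b
    unfold wex
    rw [mul_add, mul_add, Finset.mul_sum, Finset.mul_sum]
    congr 1
    · congr 1
      · ring
      · exact Finset.sum_congr rfl fun i _ => by ring
    · refine Finset.sum_congr rfl fun j _ => ?_
      rw [Finset.mul_sum]
      exact Finset.sum_congr rfl fun i _ => by ring
  rw [Finset.sum_congr rfl fun a _ => Finset.sum_congr rfl fun b _ => e1 a b]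
  simp only [Finset.sum_add_distrib]
  rw [st3_dsum, st3_dsum2, st3_dsum1, st3_qw_sum k hk, mul_one]
  have h2 : ∑ i ∈ range (pK k), pL k * Xu (pn k) (2 * (pn k - 1)) (pρ k) *
      ∑ a ∈ range (pD k), ∑ b ∈ range (pD k),
        (qw (pD k) a * (cdot (av (pα k i)) (node (pD k) a b) ^ (2 * (pn k - 1))).re) = 0 := by
    refine Finset.sum_eq_zero fun i _ => ?_
    rw [h0 _ _ (by omega) (by unfold pD; omega), mul_zero]
  have h3 : ∑ j ∈ range (pK k), ∑ i ∈ range j, (s i j : ℝ) * pη k *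
      Xu (pn k) (2 * q (j - i)) (pρ k) * ∑ a ∈ range (pD k), ∑ b ∈ range (pD k),
        (qw (pD k) a * (cdot (av ((pα k i + pα k j) / 2)) (node (pD k) a b) ^
            (2 * q (j - i))).re) = 0 := by
    refine Finset.sum_eq_zero fun j hj => Finset.sum_eq_zero fun i hi => ?_
    have h4 := Finset.mem_range.1 hj
    have h5 := Finset.mem_range.1 hi
    have h6 := goodQ_range k hk q hq (j - i) (by omega) (by omega)
    rw [h0 _ _ (by omega) (by unfold pD; omega), mul_zero]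
  rw [h2, h3, add_zero, add_zero]

/-- bilinearity of the forms on nice functions -/
theorem gm_sum_left {ι : Type} (t : Finset ι) (a : ι → ℝ) (f : ι → R3 → ℝ)
    (hf : ∀ i ∈ t, Nice (f i)) {g : R3 → ℝ} (hg : Nice g) (y : R3) :
    gm y (fun x => ∑ i ∈ t, a i * f i x) g = ∑ i ∈ t, a i * gm y (f i) g := by
  unfold gm
  have e : (fun x => (∑ i ∈ t, a i * f i x) * g x * (1 / ‖x‖ - 1 / dist x y))
      = fun x => ∑ i ∈ t, a i * (f i x * g x * (1 / ‖x‖ - 1 / dist x y)) := by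
    funext x
    rw [Finset.sum_mul, Finset.sum_mul]
    exact Finset.sum_congr rfl fun i _ => by ring
  rw [e, integral_finsetSum]
  · exact Finset.sum_congr rfl fun i _ => integral_const_mul _ _
  · intro i hi
    refine Integrable.const_mul ?_ _
    have h1 := (nice_integrable_rinv (hf i hi) hg).1
    have h2 := nice_integrable_nuc (hf i hi) hg y
    refine (h1.sub h2).congr (Filter.Eventually.of_forall fun x => ?_)
    simp only [Pi.sub_apply]
    ring

theorem gm_symm (y : R3) (f g : R3 → ℝ) : gm y f g = gm y g f := by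
  unfold gm
  simp only [mul_comm (f _)]

theorem ov_sum_left {ι : Type} (t : Finset ι) (a : ι → ℝ) (f : ι → R3 → ℝ)
    (hf : ∀ i ∈ t, Nice (f i)) {g : R3 → ℝ} (hg : Nice g) :
    ov (fun x => ∑ i ∈ t, a i * f i x) g = ∑ i ∈ t, a i * ov (f i) g :=
  m1_ov_sum_left t a hf hg

theorem bform_sum_left {ι : Type} (t : Finset ι) (a : ι → ℝ) (f : ι → R3 → ℝ)
    (hf : ∀ i ∈ t, Nice (f i)) {g : R3 → ℝ} (hg : Nice g) (ρ : ℝ) (hρ : 0 < ρ) :
    bform ρ (fun x => ∑ i ∈ t, a i * f i x) g = ∑ i ∈ t, a i * bform ρ (f i) g := by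
  unfold bform
  have e : (fun x => (∑ i ∈ t, a i * f i x) * g x * max (1 / ‖x‖ - 1 / ρ) 0)
      = fun x => ∑ i ∈ t, a i * (f i x * g x * max (1 / ‖x‖ - 1 / ρ) 0) := by
    funext x
    rw [Finset.sum_mul, Finset.sum_mul]
    exact Finset.sum_congr rfl fun i _ => by ring
  rw [e, integral_finsetSum]
  · exact Finset.sum_congr rfl fun i _ => integral_const_mul _ _
  · intro i hi
    exact (Hyd.integrable_Vr hρ (hf i hi).toS hg.toS).const_mul _

end Vale.Agent.P370.Q
end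

section

/-!
The matrix elements between the sites.
-/

namespace Vale.Agent.P370.Q

open MeasureTheory Finset

variable {k : ℕ} {C R : Type} [Fintype C] [DecidableEq C] [Fintype R] [DecidableEq R]

/-! ### the sites -/

theorem st6_lap_C_mul (c : ℝ) (P : Poly3) :
    lap (MvPolynomial.C c * P) = MvPolynomial.C c * lap P := by
  unfold lap
  rw [Finset.mul_sum]
  refine Finset.sum_congr rfl fun i _ => ?_
  rw [MvPolynomial.pderiv_C_mul, MvPolynomial.pderiv_C_mul]

theorem st6_fh_InV (n : ℕ) (hn : 1 ≤ n) (α : ℝ) : InV n (fh n α) := by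
  obtain ⟨P, ⟨hP1, hP2⟩, hPe⟩ := fsite_InV n hn α
  refine ⟨MvPolynomial.C (Real.sqrt (nf n))⁻¹ * P, ⟨?_, ?_⟩, ?_⟩
  · have := (MvPolynomial.isHomogeneous_C (Fin 3) (Real.sqrt (nf n))⁻¹).mul hP1
    rwa [zero_add] at this
  · rw [st6_lap_C_mul, hP2, mul_zero]
  · funext x
    have h1 := congrFun hPe x
    unfold vfun pe at h1 ⊢
    unfold fh
    rw [h1, map_mul, MvPolynomial.eval_C, div_eq_inv_mul, mul_assoc]

theorem st6_n_pos (hk : 10 ≤ k) : 1 ≤ pn k := by
  have := st3_pn_two k hk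
  omega

theorem st6_fh_shell (hk : 10 ≤ k) (α : ℝ) : IsShell (pn k) (fh (pn k) α) :=
  (st6_fh_InV (pn k) (st6_n_pos hk) α).isShell (st6_n_pos hk)

theorem st6_fh_nice (hk : 10 ≤ k) (α : ℝ) : Nice (fh (pn k) α) :=
  (st6_fh_shell hk α).nice (st6_n_pos hk)

theorem st6_fh_ov (hk : 10 ≤ k) (α : ℝ) : ov (fh (pn k) α) (fh (pn k) α) = 1 :=
  ov_fh_self (pn k) (st3_pn_two k hk) α

/-- the site orbital -/
noncomputable def stg (S : SiteB k C R) (i : Fin (pK k)) : R3 → ℝ :=
  S.B.χ (Sum.inr (Sum.inl i))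

theorem stg_eq (S : SiteB k C R) (i : Fin (pK k)) :
    stg S i = fun x => ∑ j, S.Cm i j * fh (pn k) (pα k j) x := S.chi i

theorem stg_shell (S : SiteB k C R) (i : Fin (pK k)) : IsShell (pn k) (stg S i) := by
  have h := S.B.mem (Sum.inr (Sum.inl i))
  rw [S.hO] at h
  exact h

theorem stg_nice (hk : 10 ≤ k) (S : SiteB k C R) (i : Fin (pK k)) : Nice (stg S i) :=
  (stg_shell S i).nice (st6_n_pos hk)

theorem stg_ov (S : SiteB k C R) (i j : Fin (pK k)) :
    ov (stg S i) (stg S j) = if i = j then 1 else 0 := by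
  unfold stg
  rw [S.B.ortho]
  simp only [Sum.inr.injEq, Sum.inl.injEq]

theorem stg_ov_self (S : SiteB k C R) (i : Fin (pK k)) : ov (stg S i) (stg S i) = 1 := by
  rw [stg_ov, if_pos rfl]

/-- replacing a site orbital by a normalised great circle orbital, in a linear form -/
theorem st6_stage {K : ℕ} (c : Fin K → Fin K → ℝ) (ε : ℝ)
    (hc : ∀ i j, |c i j - if i = j then 1 else 0| ≤ ε) (L : Fin K → ℝ) (M : ℝ)
    (hM : ∀ a, |L a| ≤ M) (i : Fin K) : |(∑ a, c i a * L a) - L i| ≤ K * ε * M := by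
  have h0 : L i = ∑ a, (if i = a then 1 else 0) * L a := by
    simp only [ite_mul, one_mul, zero_mul, sum_ite_eq, mem_univ, ↓reduceIte]
  have hM0 : 0 ≤ M := (abs_nonneg _).trans (hM i)
  have hε0 : 0 ≤ ε := (abs_nonneg _).trans (hc i i)
  calc |(∑ a, c i a * L a) - L i| = |∑ a, (c i a - if i = a then 1 else 0) * L a| := by
        conv_lhs => rw [h0]
        rw [← Finset.sum_sub_distrib]
        congr 1
        exact Finset.sum_congr rfl fun a _ => by ring
    _ ≤ ∑ a, |(c i a - if i = a then 1 else 0) * L a| := Finset.abs_sum_le_sum_abs _ _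
    _ ≤ ∑ _a : Fin K, ε * M := by
        refine Finset.sum_le_sum fun a _ => ?_
        rw [abs_mul]
        exact mul_le_mul (hc i a) (hM a) (abs_nonneg _) hε0
    _ = K * ε * M := by
        rw [Finset.sum_const, Finset.card_univ, Fintype.card_fin, nsmul_eq_mul]
        ring

theorem st6_coul_bd {a b c d : ℕ} (ha : 1 ≤ a) (hb : 1 ≤ b) (hc : 1 ≤ c) (hd : 1 ≤ d)
    {t u v w : R3 → ℝ} (ht : IsShell a t) (hu : IsShell b u) (hv : IsShell c v)
    (hw : IsShell d w) (ot : ov t t = 1) (ou : ov u u = 1) (ow : ov v v = 1)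
    (ov4 : ov w w = 1) : |coul t u v w| ≤ 4 := by
  have h := coul_shell ha hb hc hd ht hu hv hw
  rw [ot, ou, ow, ov4] at h
  simpa only [ge_iff_le, mul_one, Real.sqrt_one] using h

theorem st6_coul_stage (hk : 10 ≤ k) (S : SiteB k C R) (i : Fin (pK k)) {u v w : R3 → ℝ}
    (hu : IsShell (pn k) u) (hv : IsShell (pn k) v) (hw : IsShell (pn k) w)
    (ou : ov u u = 1) (ov3 : ov v v = 1) (ov4 : ov w w = 1) :
    |coul (stg S i) u v w - coul (fh (pn k) (pα k i)) u v w| ≤
      pK k * (1 / 2 ^ (4 * pe0 k)) * 4 := by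
  have hn := st6_n_pos hk
  have h1 : coul (stg S i) u v w = ∑ a, S.Cm i a * coul (fh (pn k) (pα k a)) u v w := by
    rw [stg_eq]
    exact coul_sum_left Finset.univ (S.Cm i) (fun a => fh (pn k) (pα k a))
      (fun a _ => st6_fh_nice hk _) (hu.nice hn) (hv.nice hn) (hw.nice hn)
  rw [h1]
  exact st6_stage S.Cm _ S.near (fun a => coul (fh (pn k) (pα k a)) u v w) 4
    (fun a => st6_coul_bd hn hn hn hn (st6_fh_shell hk _) hu hv hw (st6_fh_ov hk _) ou ov3 ov4) i

theorem st6_coul4 (hk : 10 ≤ k) (S : SiteB k C R) (i j i' j' : Fin (pK k)) :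
    |coul (stg S i) (stg S j) (stg S i') (stg S j') -
      coul (fh (pn k) (pα k i)) (fh (pn k) (pα k j)) (fh (pn k) (pα k i')) (fh (pn k) (pα k j'))|
      ≤ 16 * (pK k * (1 / 2 ^ (4 * pe0 k))) := by
  have hgs := stg_shell S
  have hgo := stg_ov_self S
  have hfs := st6_fh_shell (k := k) hk
  have hfo := st6_fh_ov (k := k) hk
  have hgn := stg_nice hk S
  have hfn := st6_fh_nice (k := k) hk
  have e1 := st6_coul_stage hk S i (hgs j) (hgs i') (hgs j') (hgo j) (hgo i') (hgo j')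
  have e2 := st6_coul_stage hk S j (hfs (pα k i)) (hgs i') (hgs j') (hfo (pα k i)) (hgo i')
    (hgo j')
  have e3 := st6_coul_stage hk S i' (hgs j') (hfs (pα k i)) (hfs (pα k j)) (hgo j')
    (hfo (pα k i)) (hfo (pα k j))
  have e4 := st6_coul_stage hk S j' (hfs (pα k i')) (hfs (pα k i)) (hfs (pα k j)) (hfo (pα k i'))
    (hfo (pα k i)) (hfo (pα k j))
  have s2 : coul (stg S j) (fh (pn k) (pα k i)) (stg S i') (stg S j') =
      coul (fh (pn k) (pα k i)) (stg S j) (stg S i') (stg S j') := coul_symm1 _ _ _ _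
  have s2' : coul (fh (pn k) (pα k j)) (fh (pn k) (pα k i)) (stg S i') (stg S j') =
      coul (stg S i') (stg S j') (fh (pn k) (pα k i)) (fh (pn k) (pα k j)) := by
    rw [coul_symm1, coul_symm2 (hfn _) (hfn _) (hgn _) (hgn _)]
  have s3 : coul (stg S j') (fh (pn k) (pα k i')) (fh (pn k) (pα k i)) (fh (pn k) (pα k j)) =
      coul (fh (pn k) (pα k i')) (stg S j') (fh (pn k) (pα k i)) (fh (pn k) (pα k j)) :=
    coul_symm1 _ _ _ _
  have s4 : coul (fh (pn k) (pα k j')) (fh (pn k) (pα k i')) (fh (pn k) (pα k i))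
      (fh (pn k) (pα k j)) = coul (fh (pn k) (pα k i)) (fh (pn k) (pα k j))
      (fh (pn k) (pα k i')) (fh (pn k) (pα k j')) := by
    rw [coul_symm1, coul_symm2 (hfn _) (hfn _) (hfn _) (hfn _)]
  rw [s2, s2'] at e2
  rw [s3, s4] at e4
  rw [abs_le] at e1 e2 e3 e4 ⊢
  constructor <;> linarith only [e1, e2, e3, e4]

/-! ### numerical bounds -/

theorem st6_K_ge (hk : 10 ≤ k) : (1024 : ℝ) ≤ pK k := by exact_mod_cast pK_ge k hk

theorem st6_K_le (hk : 10 ≤ k) (c : ℕ) (hc : c ≤ 2048) : (pK k : ℝ) ^ c ≤ pn k := by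
  have h1 : (pn k : ℝ) = (pK k : ℝ) ^ 2048 := by
    rw [pn_eq]
    push_cast
    rfl
  rw [h1]
  exact pow_le_pow_right₀ (by linarith only [st6_K_ge hk]) hc

/-- the rounding of the site orbitals is negligible -/
theorem st6_eps (hk : 10 ≤ k) : (1 : ℝ) / 2 ^ (4 * pe0 k) ≤ 1 / (2 ^ pe0 k * (pn k : ℝ) ^ 64) := by
  have h1 := pn_pow_le k hk 64 le_rfl
  refine one_div_le_one_div_of_le (by
    have : (0 : ℝ) < pn k := by exact_mod_cast st6_n_pos hk
    (clear * - this; positivity)) ?_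
  calc (2 : ℝ) ^ pe0 k * (pn k : ℝ) ^ 64 ≤ 2 ^ pe0 k * 2 ^ (pe0 k / 64) := by (clear * - h1; gcongr)
    _ = 2 ^ (pe0 k + pe0 k / 64) := by rw [pow_add]
    _ ≤ 2 ^ (4 * pe0 k) := pow_le_pow_right₀ (by norm_num) (by (clear * -; omega))

/-! ### the one-body matrix -/

theorem st6_split (S : SiteB k C R) {m : ℕ} (w : Fin m → ℝ) (y : Fin m → R3)
    (i j : Fin (pK k)) :
    hS S w y (Sum.inl i) (Sum.inl j) =
      (∑ β, w β * gm (y β) (stg S i) (stg S j)) + mfield S.B (stg S i) (stg S j) := rfl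

theorem st6_mfield (hk : 10 ≤ k) (S : SiteB k C R) (i j : Fin (pK k)) :
    mfield S.B (stg S i) (stg S j) =
      if i = j then mfield S.B (fh (pn k) 0) (fh (pn k) 0) else 0 := by
  have hn := st3_pn_two k hk
  have hf := fun α => st6_fh_nice (k := k) hk α
  have hg := stg_nice hk S
  have hs := mfield_sites hn S.B S.hC S.hO
  have h1 : ∀ a : Fin (pK k), mfield S.B (fh (pn k) (pα k a)) (stg S j) =
      mfield S.B (fh (pn k) 0) (fh (pn k) 0) * ov (fh (pn k) (pα k a)) (stg S j) := by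
    intro a
    rw [mfield_symm S.B (hf _) (hg j), stg_eq,
      mfield_sum_left S.B Finset.univ (S.Cm j) (fun b => fh (pn k) (pα k b))
        (fun b _ => hf _) (hf _), m1_ov_comm (fh (pn k) (pα k a)),
      m1_ov_sum_left Finset.univ (S.Cm j) (f := fun b : Fin (pK k) => fh (pn k) (pα k b))
        (fun b _ => hf _) (hf _), Finset.mul_sum]
    refine Finset.sum_congr rfl fun b _ => ?_
    rw [hs]
    ring
  have h2 : mfield S.B (stg S i) (stg S j) = ∑ a, S.Cm i a *
      mfield S.B (fh (pn k) (pα k a)) (stg S j) := by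
    conv_lhs => rw [stg_eq S i]
    exact mfield_sum_left S.B Finset.univ (S.Cm i) (fun b => fh (pn k) (pα k b))
        (fun b _ => hf _) (hg j)
  have h3 : ov (stg S i) (stg S j) = ∑ a, S.Cm i a * ov (fh (pn k) (pα k a)) (stg S j) := by
    conv_lhs => rw [stg_eq S i]
    exact m1_ov_sum_left Finset.univ (S.Cm i) (f := fun b : Fin (pK k) => fh (pn k) (pα k b))
        (fun b _ => hf _) (hg j)
  have h4 : mfield S.B (stg S i) (stg S j) =
      mfield S.B (fh (pn k) 0) (fh (pn k) 0) * ov (stg S i) (stg S j) := by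
    rw [h2, h3, Finset.mul_sum]
    refine Finset.sum_congr rfl fun a _ => ?_
    rw [h1]
    ring
  rw [h4, stg_ov]
  split_ifs <;> simp

theorem stg_InV (hk : 10 ≤ k) (S : SiteB k C R) (i : Fin (pK k)) : InV (pn k) (stg S i) :=
  S.inV hk i

theorem st6_bform (hk : 10 ≤ k) (S : SiteB k C R) (i j : Fin (pK k)) :
    bform (pρ k) (stg S i) (stg S j) = if i = j then xr (pn k) (pρ k) else 0 := by
  rw [bform_top (pn k) (st6_n_pos hk) (stg_InV hk S i) (stg_InV hk S j) (pρ k) (st3_pρ_pos k),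
    stg_ov]
  split_ifs <;> simp

theorem st6_ov_le {f g : R3 → ℝ} (hf : Nice f) (hg : Nice g) (of : ov f f = 1)
    (og : ov g g = 1) : |ov f g| ≤ 1 := by
  have h1 := bd_prod_abs hf hg
  rw [of, og, Real.sqrt_one, mul_one] at h1
  unfold ov
  exact abs_integral_le_integral_abs.trans h1

/-- overlaps with the great circle orbitals -/
theorem st6_ov_near (hk : 10 ≤ k) (S : SiteB k C R) (i l : Fin (pK k)) :
    |ov (stg S i) (fh (pn k) (pα k l)) - if i = l then 1 else 0| ≤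
      pK k * (1 / 2 ^ (4 * pe0 k)) := by
  have hf := fun α => st6_fh_nice (k := k) hk α
  have hg := stg_nice hk S
  have h1 : ov (stg S l) (stg S i) = ∑ a, S.Cm l a * ov (fh (pn k) (pα k a)) (stg S i) := by
    conv_lhs => rw [stg_eq S l]
    exact m1_ov_sum_left Finset.univ (S.Cm l) (f := fun b : Fin (pK k) => fh (pn k) (pα k b))
        (fun b _ => hf _) (hg i)
  have h2 := st6_stage S.Cm _ S.near (fun a => ov (fh (pn k) (pα k a)) (stg S i)) 1
    (fun a => st6_ov_le (hf _) (hg i) (st6_fh_ov hk _) (stg_ov_self S i)) l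
  rw [← h1, mul_one, m1_ov_comm (fh (pn k) (pα k l)), stg_ov, abs_sub_comm] at h2
  have h3 : (if l = i then (1 : ℝ) else 0) = if i = l then 1 else 0 := by
    simp only [eq_comm]
  rw [h3] at h2
  exact h2

theorem st6_ov_gsite (hk : 10 ≤ k) (S : SiteB k C R) (i : Fin (pK k)) (γ : ℝ) :
    ov (stg S i) (gsite (pn k) γ) = 0 := by
  have hn := st3_pn_two k hk
  have hf := fun α => st6_fh_nice (k := k) hk α
  have hg : Nice (gsite (pn k) γ) := nice_gsite (st6_n_pos hk) γ
  have h1 : ov (stg S i) (gsite (pn k) γ) =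
      ∑ a, S.Cm i a * ov (fh (pn k) (pα k a)) (gsite (pn k) γ) := by
    conv_lhs => rw [stg_eq S i]
    exact m1_ov_sum_left Finset.univ (S.Cm i) (f := fun b : Fin (pK k) => fh (pn k) (pα k b))
        (fun b _ => hf _) hg
  rw [h1]
  refine Finset.sum_eq_zero fun a _ => ?_
  rw [m1_ov_comm, st3_ov_fh, m1_ov_comm, site_ov_fg (pn k) hn, zero_div, mul_zero]

theorem st6_gram {K : ℕ} (x y : Fin K → ℝ) (i j : Fin K) (η : ℝ)
    (hx : ∀ l, |x l - if i = l then 1 else 0| ≤ η)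
    (hy : ∀ l, |y l - if j = l then 1 else 0| ≤ η) (hη : K * η ≤ 1) :
    |(∑ l, x l * y l) - if i = j then 1 else 0| ≤ 3 * η := by
  have hη0 : 0 ≤ η := (abs_nonneg _).trans (hx i)
  have h1 : (∑ l, x l * y l) - (if i = j then 1 else 0) =
      (y i - if j = i then 1 else 0) + (x j - if i = j then 1 else 0) +
        ∑ l, (x l - if i = l then 1 else 0) * (y l - if j = l then 1 else 0) := by
    have e : ∀ l, (x l - if i = l then 1 else 0) * (y l - if j = l then 1 else 0) =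
        x l * y l - (if i = l then 1 else 0) * y l - (if j = l then 1 else 0) * x l +
          (if i = l then 1 else 0) * (if j = l then 1 else 0) := fun l => by ring
    simp only [e, Finset.sum_add_distrib, Finset.sum_sub_distrib]
    simp only [ite_mul, one_mul, zero_mul, Finset.sum_ite_eq, Finset.mem_univ, if_true]
    ring
  have h2 : |∑ l, (x l - if i = l then 1 else 0) * (y l - if j = l then 1 else 0)| ≤ η := by
    calc _ ≤ ∑ l, |(x l - if i = l then 1 else 0) * (y l - if j = l then 1 else 0)| :=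
          Finset.abs_sum_le_sum_abs _ _
      _ ≤ ∑ _l : Fin K, η * η := by
          refine Finset.sum_le_sum fun l _ => ?_
          rw [abs_mul]
          exact mul_le_mul (hx l) (hy l) (abs_nonneg _) hη0
      _ = (K * η) * η := by
          rw [Finset.sum_const, Finset.card_univ, Fintype.card_fin, nsmul_eq_mul]
          ring
      _ ≤ 1 * η := by gcongr
      _ = η := one_mul η
  rw [h1]
  have h3 := hx j
  have h4 := hy i
  rw [abs_le] at *
  constructor <;> linarith only [h2, h3, h4]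

/-- the top devices -/
theorem st6_top (hk : 10 ≤ k) (S : SiteB k C R) (i j : Fin (pK k)) :
    ∑ l ∈ range (pK k), pL k * Xu (pn k) (2 * (pn k - 1)) (pρ k) *
        devf k (pα k l) (2 * (pn k - 1)) (stg S i) (stg S j) =
      -(Lam k * ∑ l : Fin (pK k), ov (stg S i) (fh (pn k) (pα k l)) *
        ov (stg S j) (fh (pn k) (pα k l))) := by
  rw [Finset.sum_range, Finset.mul_sum, ← Finset.sum_neg_distrib]
  refine Finset.sum_congr rfl fun l _ => ?_
  rw [mul_assoc, devf_rank_two k hk (pα k l) (stg_InV hk S i) (stg_InV hk S j),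
    st6_ov_gsite hk, st6_ov_gsite hk]
  unfold Lam
  ring

theorem st6_devf_sum_left (γ : ℝ) (N : ℕ) {ι : Type} (t : Finset ι) (a : ι → ℝ)
    (f : ι → R3 → ℝ) (hf : ∀ i ∈ t, Nice (f i)) {g : R3 → ℝ} (hg : Nice g) :
    devf k γ N (fun x => ∑ i ∈ t, a i * f i x) g = ∑ i ∈ t, a i * devf k γ N (f i) g := by
  unfold devf
  rw [← st3_dsum t (pD k) a (fun i c d => qw (pD k) c *
    (cdot (av γ) (node (pD k) c d) ^ N).re * gm (pρ k • node (pD k) c d) (f i) g)]
  refine Finset.sum_congr rfl fun c _ => Finset.sum_congr rfl fun d _ => ?_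
  rw [gm_sum_left t a f hf hg, Finset.mul_sum]
  exact Finset.sum_congr rfl fun i _ => by ring

theorem st6_devf_symm (γ : ℝ) (N : ℕ) (f g : R3 → ℝ) : devf k γ N f g = devf k γ N g f := by
  unfold devf
  simp only [gm_symm _ f g]

/-- a unit device between the sites -/
theorem st6_dev_near (hk : 10 ≤ k) (S : SiteB k C R) (γ : ℝ) (q : ℕ) (hq1 : 1 ≤ q)
    (hq : q ≤ pn k - 1) (i j : Fin (pK k)) :
    |Xu (pn k) (2 * q) (pρ k) * devf k γ (2 * q) (stg S i) (stg S j) +
      zt k (2 * q) * hopA (pn k) q γ (pα k i) (pα k j)| ≤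
      4 * (pK k * (1 / 2 ^ (4 * pe0 k))) := by
  have hf := fun α => st6_fh_nice (k := k) hk α
  have hg := stg_nice hk S
  have hfV := fun α => st6_fh_InV (pn k) (st6_n_pos hk) α
  have hgV := stg_InV hk S
  have hb : ∀ {f g : R3 → ℝ}, InV (pn k) f → InV (pn k) g → ov f f = 1 → ov g g = 1 →
      |Xu (pn k) (2 * q) (pρ k) * devf k γ (2 * q) f g| ≤ 2 := by
    intro f g h1 h2 h3 h4
    have h5 := devf_top_le k hk γ q hq1 hq h1 h2
    rw [h3, h4, mul_one, Real.sqrt_one, mul_one] at h5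
    exact h5
  -- first argument
  have e1 : Xu (pn k) (2 * q) (pρ k) * devf k γ (2 * q) (stg S i) (stg S j) =
      ∑ a, S.Cm i a * (Xu (pn k) (2 * q) (pρ k) *
        devf k γ (2 * q) (fh (pn k) (pα k a)) (stg S j)) := by
    conv_lhs => rw [stg_eq S i]
    rw [st6_devf_sum_left γ (2 * q) Finset.univ (S.Cm i)
      (fun b : Fin (pK k) => fh (pn k) (pα k b)) (fun b _ => hf _) (hg j), Finset.mul_sum]
    exact Finset.sum_congr rfl fun a _ => by ring
  have s1 := st6_stage S.Cm _ S.near (fun a => Xu (pn k) (2 * q) (pρ k) *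
        devf k γ (2 * q) (fh (pn k) (pα k a)) (stg S j)) 2
    (fun a => hb (hfV _) (hgV j) (st6_fh_ov hk _) (stg_ov_self S j)) i
  have e2 : Xu (pn k) (2 * q) (pρ k) * devf k γ (2 * q) (fh (pn k) (pα k i)) (stg S j) =
      ∑ a, S.Cm j a * (Xu (pn k) (2 * q) (pρ k) *
        devf k γ (2 * q) (fh (pn k) (pα k a)) (fh (pn k) (pα k i))) := by
    rw [st6_devf_symm]
    conv_lhs => rw [stg_eq S j]
    rw [st6_devf_sum_left γ (2 * q) Finset.univ (S.Cm j)
      (fun b : Fin (pK k) => fh (pn k) (pα k b)) (fun b _ => hf _) (hf _), Finset.mul_sum]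
    exact Finset.sum_congr rfl fun a _ => by ring
  have s2 := st6_stage S.Cm _ S.near (fun a => Xu (pn k) (2 * q) (pρ k) *
        devf k γ (2 * q) (fh (pn k) (pα k a)) (fh (pn k) (pα k i))) 2
    (fun a => hb (hfV _) (hfV _) (st6_fh_ov hk _) (st6_fh_ov hk _)) j
  rw [← e1] at s1
  rw [← e2, st6_devf_symm γ (2 * q) (fh (pn k) (pα k j)) (fh (pn k) (pα k i)),
    devf_hop k hk γ _ _ q hq1 hq] at s2
  rw [abs_le] at s1 s2 ⊢
  constructor <;> linarith only [s1, s2]

theorem st6_pair_sum (K : ℕ) (X : ℕ → ℕ → ℝ) (i j : ℕ) (hj : j < K) :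
    ∑ b ∈ range K, ∑ a ∈ range b, (if i = a ∧ j = b then X a b else 0) =
      if i < j then X i j else 0 := by
  have h1 : ∀ b ∈ range K, ∑ a ∈ range b, (if i = a ∧ j = b then X a b else 0) =
      if j = b then (if i < b then X i b else 0) else 0 := by
    intro b _
    by_cases h : j = b
    · subst h
      simp [Finset.sum_ite_eq]
    · simp [h]
  rw [Finset.sum_congr rfl h1, Finset.sum_ite_eq, if_pos (Finset.mem_range.2 hj)]

/-- target of the pair `(a, b)` -/
noncomputable def st6tgt (k : ℕ) (q : ℕ → ℕ) (s : ℕ → ℕ → ℕ) (i j a b : ℕ) : ℝ :=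
  (if i = a ∧ j = b then thop k q (b - a) (s a b) else 0) +
    if j = a ∧ i = b then thop k q (b - a) (s a b) else 0

theorem st6_tgt_sum (q : ℕ → ℕ) (s : ℕ → ℕ → ℕ) (i j : Fin (pK k)) :
    ∑ b ∈ range (pK k), ∑ a ∈ range b, st6tgt k q s i j a b = tS k q s i j := by
  unfold st6tgt
  simp only [Finset.sum_add_distrib]
  rw [st6_pair_sum (pK k) (fun a b => thop k q (b - a) (s a b)) i j j.2,
    st6_pair_sum (pK k) (fun a b => thop k q (b - a) (s a b)) j i i.2]
  unfold tS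
  have e1 : (i : ℕ) < (j : ℕ) ↔ i < j := Iff.rfl
  have e2 : (j : ℕ) < (i : ℕ) ↔ j < i := Iff.rfl
  simp only [e1, e2]
  by_cases h : i < j
  · rw [if_pos h, if_pos h, if_neg (not_lt.2 h.le), add_zero]
  · rw [if_neg h, if_neg h, zero_add]

/-- one hopping device -/
theorem st6_hop_one (hk : 10 ≤ k) (S : SiteB k C R) (q : ℕ → ℕ) (hq : GoodQ k q)
    (s : ℕ → ℕ → ℕ) (hs : GoodS k q s) (i j : Fin (pK k)) (a b : ℕ) (hab : a < b)
    (hb : b < pK k) :
    |(s a b : ℝ) * pη k * Xu (pn k) (2 * q (b - a)) (pρ k) *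
      devf k ((pα k a + pα k b) / 2) (2 * q (b - a)) (stg S i) (stg S j) -
        st6tgt k q s i j a b| ≤
      (pn k : ℝ) ^ 5 * (4 * (pK k * (1 / 2 ^ (4 * pe0 k))) +
        16 * Real.exp (-(((pn k : ℝ) - 1) / (64 * (pK k : ℝ) ^ 4)))) := by
  have hr := goodQ_range k hk q hq (b - a) (by omega) (by omega)
  have hn := st3_pn_two k hk
  have h1 := st6_dev_near hk S ((pα k a + pα k b) / 2) (q (b - a)) hr.1 (by omega) i j
  have hsb := (goodS_bound k hk q hq s hs a b hab hb).1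
  have hs0 : 0 ≤ (s a b : ℝ) * pη k := by
    unfold pη
    (clear * -; (clear * -; positivity))
  have hz := zt_bounds k (2 * q (b - a)) hk (by omega) (by omega)
  set A := (s a b : ℝ) * pη k with hA
  set D := Xu (pn k) (2 * q (b - a)) (pρ k) *
    devf k ((pα k a + pα k b) / 2) (2 * q (b - a)) (stg S i) (stg S j) with hD
  set Z := zt k (2 * q (b - a)) with hZ
  set Ex := Real.exp (-(((pn k : ℝ) - 1) / (64 * (pK k : ℝ) ^ 4))) with hEx
  set H := hopA (pn k) (q (b - a)) ((pα k a + pα k b) / 2) (pα k i) (pα k j) with hH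
  have hEx0 : 0 ≤ Ex := (Real.exp_pos _).le
  have hAD : A * Xu (pn k) (2 * q (b - a)) (pρ k) *
      devf k ((pα k a + pα k b) / 2) (2 * q (b - a)) (stg S i) (stg S j) = A * D := by
    rw [hD]
    ring
  rw [hAD]
  -- the target
  have h2 : |A * (Z * H) + st6tgt k q s i j a b| ≤ (pn k : ℝ) ^ 5 * (16 * Ex) := by
    by_cases c1 : (i : ℕ) = a ∧ (j : ℕ) = b
    · have c2 : ¬((j : ℕ) = a ∧ (i : ℕ) = b) := by omega
      have ho := (hop_own k hk q hq a b hab hb).1
      have e1 : H = amp k q (b - a) := by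
        rw [hH, c1.1, c1.2]
        exact ho
      have e2 : A * (Z * H) + st6tgt k q s i j a b = 0 := by
        unfold st6tgt
        rw [if_pos c1, if_neg c2, e1]
        unfold thop
        ring
      rw [e2, abs_zero]
      (clear * - hn; positivity)
    · by_cases c2 : (j : ℕ) = a ∧ (i : ℕ) = b
      · have ho := (hop_own k hk q hq a b hab hb).2
        have e1 : H = amp k q (b - a) := by
          rw [hH, c2.1, c2.2]
          exact ho
        have e2 : A * (Z * H) + st6tgt k q s i j a b = 0 := by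
          unfold st6tgt
          rw [if_neg c1, if_pos c2, e1]
          unfold thop
          ring
        rw [e2, abs_zero]
        (clear * - hn; positivity)
      · have hl := hop_leak k hk q hq a b hab hb i j ⟨c1, fun h => c2 ⟨h.2, h.1⟩⟩
        have e2 : st6tgt k q s i j a b = 0 := by
          unfold st6tgt
          rw [if_neg c1, if_neg c2, add_zero]
        rw [e2, add_zero, abs_mul A, abs_mul Z, abs_of_nonneg hs0,
          abs_of_nonneg (by linarith only [hz.1] : (0 : ℝ) ≤ Z)]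
        calc A * (Z * |H|) ≤ (pn k : ℝ) ^ 5 * (2 * (8 * Ex)) := by
              have hZ0 : 0 ≤ Z := by linarith only [hz.1]
              have hH0 := abs_nonneg H
              exact mul_le_mul hsb (mul_le_mul hz.2 hl hH0 (by norm_num))
                (mul_nonneg hZ0 hH0) (by positivity)
          _ = _ := by ring
  have h3 : |A * (D + Z * H)| ≤ (pn k : ℝ) ^ 5 * (4 * (pK k * (1 / 2 ^ (4 * pe0 k)))) := by
    rw [abs_mul, abs_of_nonneg hs0]
    exact mul_le_mul hsb h1 (abs_nonneg _) (by (clear * - hn; positivity))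
  have e : A * D - st6tgt k q s i j a b =
      A * (D + Z * H) - (A * (Z * H) + st6tgt k q s i j a b) := by ring
  rw [e]
  calc |A * (D + Z * H) - (A * (Z * H) + st6tgt k q s i j a b)| ≤
        |A * (D + Z * H)| + |A * (Z * H) + st6tgt k q s i j a b| := abs_sub _ _
    _ ≤ _ := by
        have := add_le_add h3 h2
        linarith only [h2, h3]

/-- all hopping devices -/
theorem st6_hop_all (hk : 10 ≤ k) (S : SiteB k C R) (q : ℕ → ℕ) (hq : GoodQ k q)
    (s : ℕ → ℕ → ℕ) (hs : GoodS k q s) (i j : Fin (pK k)) :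
    |(∑ b ∈ range (pK k), ∑ a ∈ range b,
      (s a b : ℝ) * pη k * Xu (pn k) (2 * q (b - a)) (pρ k) *
        devf k ((pα k a + pα k b) / 2) (2 * q (b - a)) (stg S i) (stg S j)) - tS k q s i j| ≤
      (pK k : ℝ) ^ 2 * ((pn k : ℝ) ^ 5 * (4 * (pK k * (1 / 2 ^ (4 * pe0 k))) +
        16 * Real.exp (-(((pn k : ℝ) - 1) / (64 * (pK k : ℝ) ^ 4))))) := by
  set E := (pn k : ℝ) ^ 5 * (4 * (pK k * (1 / 2 ^ (4 * pe0 k))) +
        16 * Real.exp (-(((pn k : ℝ) - 1) / (64 * (pK k : ℝ) ^ 4)))) with hE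
  have hE0 : 0 ≤ E := by (clear * -; (clear * -; positivity))
  rw [← st6_tgt_sum q s i j, ← Finset.sum_sub_distrib]
  refine (Finset.abs_sum_le_sum_abs _ _).trans ?_
  calc _ ≤ ∑ _b ∈ range (pK k), (pK k : ℝ) * E := by
        refine Finset.sum_le_sum fun b hb => ?_
        rw [← Finset.sum_sub_distrib]
        refine (Finset.abs_sum_le_sum_abs _ _).trans ?_
        calc _ ≤ ∑ _a ∈ range b, E := by
              refine Finset.sum_le_sum fun a ha => ?_
              exact st6_hop_one hk S q hq s hs i j a b (Finset.mem_range.1 ha)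
                (Finset.mem_range.1 hb)
          _ = b * E := by
              rw [Finset.sum_const, Finset.card_range, nsmul_eq_mul]
          _ ≤ (pK k : ℝ) * E := by
              have : (b : ℝ) ≤ pK k := by exact_mod_cast (Finset.mem_range.1 hb).le
              (clear * - this; gcongr)
    _ = _ := by
        rw [Finset.sum_const, Finset.card_range, nsmul_eq_mul]
        ring

theorem st6_Lam (hk : 10 ≤ k) : 0 ≤ Lam k ∧ Lam k ≤ 2 * 2 ^ pe0 k := by
  have hn := st3_pn_two k hk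
  have h1 := zt_bounds k (2 * (pn k - 1)) hk (by omega) (by omega)
  have h2 := gam_bounds (pn k) hn
  have h3 : 0 ≤ gam (pn k) := le_trans (by (clear * - hn; positivity)) h2.1
  have h4 := (pe0_eq k hk).2
  unfold Lam
  rw [h4]
  have h5 : (0 : ℝ) ≤ zt k (2 * (pn k - 1)) := by linarith only [h1.1]
  refine ⟨by (clear * - h5 h3; (clear * - h5 h3; positivity)), ?_⟩
  calc (2 : ℝ) ^ pe0 k * zt k (2 * (pn k - 1)) * gam (pn k) ≤ 2 ^ pe0 k * 2 * 1 :=
        mul_le_mul (mul_le_mul_of_nonneg_left h1.2 (by positivity)) h2.2 h3 (by positivity)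
    _ = _ := by ring

/-- one-body matrix between the sites -/
theorem hS_near (hk : 10 ≤ k) (S : SiteB k C R) (q : ℕ → ℕ) (hq : GoodQ k q)
    (s : ℕ → ℕ → ℕ) (hs : GoodS k q s) (w : Fin (pD k * pD k) → ℕ)
    (y : Fin (pD k * pD k) → R3) (H : Approx k q s w y) (i j : Fin (pK k)) :
    |hS S (fun β => (w β : ℝ)) y (Sum.inl i) (Sum.inl j) - (if i = j then eps0 S else 0) -
      tS k q s i j| ≤ 1 / (pn k : ℝ) ^ 3 := by
  have hK := st6_K_ge hk
  have hK0 : (0 : ℝ) < pK k := by linarith only [hK]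
  have hn0 : (0 : ℝ) < pn k := by exact_mod_cast st6_n_pos hk
  have hn1 : (1 : ℝ) ≤ pn k := by exact_mod_cast st6_n_pos hk
  have hKn2 := st6_K_le hk 2 (by norm_num)
  have hKn4 := st6_K_le hk 4 (by norm_num)
  have hnK : (1024 : ℝ) * 1024 ≤ pn k := by linarith only [hK, hKn2, mul_nonneg_of_nonpos_of_nonpos (Mathlib.Tactic.Linarith.sub_nonpos_of_le (Mathlib.Tactic.Linarith.natCast_nonneg ℝ (Vale.Agent.P370.Q.pK k))) (Mathlib.Tactic.Linarith.sub_nonpos_of_le hK)]
  set ε : ℝ := 1 / 2 ^ (4 * pe0 k) with hε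
  have hε0 : 0 < ε := by positivity
  have hε1 := st6_eps hk
  have hp1 : (1 : ℝ) ≤ 2 ^ pe0 k := one_le_pow₀ (by norm_num)
  have hε2 : ε ≤ 1 / (pn k : ℝ) ^ 64 := by
    refine hε1.trans ?_
    refine one_div_le_one_div_of_le (by (clear * - hn0; positivity)) ?_
    linarith only [mul_nonneg_of_nonpos_of_nonpos (Mathlib.Tactic.Linarith.sub_nonpos_of_le hp1) (le_of_lt (Mathlib.Tactic.Linarith.sub_neg_of_lt (pow_pos hn0 64)))]
  -- rounding
  have r1 := rounding k hk q hq s hs w y H (st6_n_pos hk) (st6_n_pos hk) (stg_shell S i)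
    (stg_shell S j)
  rw [stg_ov_self, stg_ov_self, mul_one, Real.sqrt_one, mul_one] at r1
  have r2 := hex_eq k hk q s (stg_shell S i) (stg_shell S j)
  rw [st6_bform hk, st6_top hk] at r2
  -- Gram matrix
  have g1 := st6_gram (fun l => ov (stg S i) (fh (pn k) (pα k l)))
    (fun l => ov (stg S j) (fh (pn k) (pα k l))) i j (pK k * ε) (st6_ov_near hk S i)
    (st6_ov_near hk S j) (by
      calc (pK k : ℝ) * (pK k * ε) ≤ pK k * (pK k * (1 / (pn k : ℝ) ^ 64)) := by (clear * - hε2 hK; gcongr)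
        _ = (pK k : ℝ) ^ 2 / (pn k : ℝ) ^ 64 := by ring
        _ ≤ (pn k : ℝ) / (pn k : ℝ) ^ 64 := by (clear * - hKn2 hn0; gcongr)
        _ ≤ 1 := by
            rw [div_le_one (by positivity)]
            calc (pn k : ℝ) = (pn k : ℝ) ^ 1 := (pow_one _).symm
              _ ≤ (pn k : ℝ) ^ 64 := pow_le_pow_right₀ hn1 (by norm_num))
  have hL := st6_Lam hk
  have g2 : |Lam k * ((∑ l : Fin (pK k), ov (stg S i) (fh (pn k) (pα k l)) *
      ov (stg S j) (fh (pn k) (pα k l))) - if i = j then 1 else 0)| ≤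
      6 * pK k / (pn k : ℝ) ^ 64 := by
    rw [abs_mul, abs_of_nonneg hL.1]
    calc _ ≤ (2 * 2 ^ pe0 k) * (3 * (pK k * ε)) :=
          mul_le_mul hL.2 g1 (abs_nonneg _) (by positivity)
      _ ≤ (2 * 2 ^ pe0 k) * (3 * (pK k * (1 / (2 ^ pe0 k * (pn k : ℝ) ^ 64)))) := by gcongr
      _ = _ := by
          field_simp
          norm_num
  -- hopping
  have t1 := st6_hop_all hk S q hq s hs i j
  rw [← hε] at t1
  have t2 := leak_small k hk
  set Ex := Real.exp (-(((pn k : ℝ) - 1) / (64 * (pK k : ℝ) ^ 4))) with hEx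
  have t3 : Ex ≤ 1 / (pn k : ℝ) ^ 24 := by
    rw [le_div_iff₀ (by (clear * - hn0; positivity))] at t2 ⊢
    calc Ex * (pn k : ℝ) ^ 24 = (pn k : ℝ) ^ 20 * Ex * (pn k : ℝ) ^ 4 := by ring
      _ ≤ 1 := t2
  have t4 : (pK k : ℝ) ^ 2 * ((pn k : ℝ) ^ 5 * (4 * (pK k * ε) + 16 * Ex)) ≤
      20 / (pn k : ℝ) ^ 17 := by
    have hKn : (pK k : ℝ) ≤ pn k := by
      have := st6_K_le hk 1 (by norm_num)
      rwa [pow_one] at this
    have h1 : 1 / (pn k : ℝ) ^ 64 ≤ 1 / (pn k : ℝ) ^ 24 :=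
      one_div_le_one_div_of_le (by (clear * - hn0; positivity)) (pow_le_pow_right₀ hn1 (by norm_num))
    calc (pK k : ℝ) ^ 2 * ((pn k : ℝ) ^ 5 * (4 * (pK k * ε) + 16 * Ex))
        ≤ (pn k : ℝ) * ((pn k : ℝ) ^ 5 * (4 * (pn k * (1 / (pn k : ℝ) ^ 24)) +
          16 * (1 / (pn k : ℝ) ^ 24))) := by
          have := hε2.trans h1
          (clear * - hKn2 hKn this hn0 t3 hK; gcongr)
      _ ≤ (pn k : ℝ) * ((pn k : ℝ) ^ 5 * (4 * (pn k * (1 / (pn k : ℝ) ^ 24)) +
          16 * (pn k * (1 / (pn k : ℝ) ^ 24)))) := by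
          have : 1 / (pn k : ℝ) ^ 24 ≤ pn k * (1 / (pn k : ℝ) ^ 24) :=
            le_mul_of_one_le_left (by (clear * - hn0; (clear * - hn0; positivity))) hn1
          (clear * - this hn0; gcongr)
      _ = 20 / (pn k : ℝ) ^ 17 := by
          field_simp
          ring
  -- rounding error
  have r3 : (1 : ℝ) / 2 ^ (15 * pn k ^ 2) ≤ 1 / (pn k : ℝ) ^ 15 := by
    refine one_div_le_one_div_of_le (by (clear * - hn0; positivity)) ?_
    have : (pn k : ℝ) ≤ 2 ^ (pn k) := by exact_mod_cast (Nat.lt_two_pow_self (n := pn k)).le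
    calc (pn k : ℝ) ^ 15 ≤ (2 ^ pn k) ^ 15 := by (clear * - hn0 this; gcongr)
      _ = 2 ^ (15 * pn k) := by rw [← pow_mul, mul_comm]
      _ ≤ 2 ^ (15 * pn k ^ 2) := pow_le_pow_right₀ (by norm_num) (by
          have := st6_n_pos hk
          nlinarith only [this])
  -- collect
  have c1 : 1 / (pn k : ℝ) ^ 15 + 6 * pK k / (pn k : ℝ) ^ 64 + 20 / (pn k : ℝ) ^ 17 ≤
      1 / (pn k : ℝ) ^ 3 := by
    have a1 : 6 * pK k / (pn k : ℝ) ^ 64 ≤ 6 / (pn k : ℝ) ^ 15 := by
      have hKn : (pK k : ℝ) ≤ pn k := by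
        have := st6_K_le hk 1 (by norm_num)
        rwa [pow_one] at this
      calc 6 * (pK k : ℝ) / (pn k : ℝ) ^ 64 ≤ 6 * (pn k : ℝ) / (pn k : ℝ) ^ 64 := by (clear * - hKn hn0; gcongr)
        _ = 6 / (pn k : ℝ) ^ 63 := by field_simp
        _ ≤ 6 / (pn k : ℝ) ^ 15 := by
            have : (pn k : ℝ) ^ 15 ≤ (pn k : ℝ) ^ 63 := pow_le_pow_right₀ hn1 (by norm_num)
            (clear * - hn0 this; gcongr)
    have a2 : 20 / (pn k : ℝ) ^ 17 ≤ 20 / (pn k : ℝ) ^ 15 := by
      have : (pn k : ℝ) ^ 15 ≤ (pn k : ℝ) ^ 17 := pow_le_pow_right₀ hn1 (by norm_num)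
      (clear * - hn0 this; gcongr)
    have a3 : 27 / (pn k : ℝ) ^ 15 ≤ 1 / (pn k : ℝ) ^ 3 := by
      rw [div_le_div_iff₀ (by (clear * - hn0; positivity)) (by (clear * - hn0; positivity))]
      calc 27 * (pn k : ℝ) ^ 3 ≤ pn k * (pn k : ℝ) ^ 3 := by
            gcongr
            linarith only [hnK]
        _ = (pn k : ℝ) ^ 4 := by ring
        _ ≤ (pn k : ℝ) ^ 15 := pow_le_pow_right₀ hn1 (by norm_num)
        _ = _ := by ring
    have a4 : 1 / (pn k : ℝ) ^ 15 + 6 / (pn k : ℝ) ^ 15 + 20 / (pn k : ℝ) ^ 15 =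
        27 / (pn k : ℝ) ^ 15 := by ring
    linarith only [a1, a2, a3, a4]
  have e0 : (if i = j then eps0 S else 0) =
      pW k * (if i = j then xr (pn k) (pρ k) else 0) +
        (if i = j then mfield S.B (fh (pn k) 0) (fh (pn k) 0) else 0) -
          Lam k * (if i = j then 1 else 0) := by
    unfold eps0
    split_ifs <;> ring
  rw [st6_split, st6_mfield hk, e0]
  set G := ∑ l : Fin (pK k), ov (stg S i) (fh (pn k) (pα k l)) * ov (stg S j) (fh (pn k) (pα k l)) with hG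
  set T := ∑ b ∈ range (pK k), ∑ a ∈ range b,
      (s a b : ℝ) * pη k * Xu (pn k) (2 * q (b - a)) (pρ k) *
        devf k ((pα k a + pα k b) / 2) (2 * q (b - a)) (stg S i) (stg S j) with hT
  rw [r2] at r1
  have t5 := t1.trans t4
  have r4 := r1.trans r3
  rw [mul_sub] at g2
  rw [abs_le] at g2 t5 r4 ⊢
  constructor <;> linarith only [c1, g2, t5, r4]

/-- Coulomb integrals between the sites -/
theorem vS_near (hk : 10 ≤ k) (S : SiteB k C R) (i j i' j' : Fin (pK k)) :
    |vS S (Sum.inl i) (Sum.inl j) (Sum.inl i') (Sum.inl j') -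
      (if i = j ∧ i' = j' then wS k i i' else 0)| ≤ 1 / ((pn k : ℝ) ^ 2 * (pK k : ℝ) ^ 500) := by
  have hn2 := st3_pn_two k hk
  have hK := st6_K_ge hk
  have hK0 : (0 : ℝ) < pK k := by linarith only [hK]
  have hn0 : (0 : ℝ) < pn k := by exact_mod_cast st6_n_pos hk
  have hn1 : (1 : ℝ) ≤ pn k := by exact_mod_cast st6_n_pos hk
  have h1 := st6_coul4 hk S i j i' j'
  have hv : vS S (Sum.inl i) (Sum.inl j) (Sum.inl i') (Sum.inl j') =
      coul (stg S i) (stg S j) (stg S i') (stg S j') := rfl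
  rw [hv]
  -- the fh part
  have h2 : |coul (fh (pn k) (pα k i)) (fh (pn k) (pα k j)) (fh (pn k) (pα k i'))
      (fh (pn k) (pα k j')) - (if i = j ∧ i' = j' then wS k i i' else 0)| ≤
      1 / ((pn k : ℝ) ^ 2 * (pK k : ℝ) ^ 500) / 2 := by
    by_cases h : i = j ∧ i' = j'
    · rw [if_pos h]
      obtain ⟨rfl, rfl⟩ := h
      rw [wdir_eq (pn k) hn2]
      unfold wS
      rw [sub_self, abs_zero]
      (clear * - hn2 hK; positivity)
    · rw [if_neg h, sub_zero]
      have h3 : i ≠ j ∨ i' ≠ j' := by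
        by_contra h4
        push Not at h4
        exact h h4
      have hK2 : 2 ≤ pK k := by have := pK_ge k hk; omega
      have h4 := coul_off (pn k) (pK k) hK2 hn2 i j i' j' h3
      have h5 := (log_pn_le k hk).1
      have h6 : (pn k : ℝ) ^ (-(9 / 4) : ℝ) = 1 / ((pn k : ℝ) ^ 2 * (pK k : ℝ) ^ 512) :=
        pn_quarter k
      rw [h6] at h4
      refine h4.trans ?_
      calc 2 ^ 11 * (pK k : ℝ) * (1 + Real.log (pn k)) * (1 / ((pn k : ℝ) ^ 2 * (pK k : ℝ) ^ 512))
          ≤ 2 ^ 11 * (pK k : ℝ) * (pK k : ℝ) ^ 2 * (1 / ((pn k : ℝ) ^ 2 * (pK k : ℝ) ^ 512)) := by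
            (clear * - h5 hK2 hn2; gcongr)
        _ = 2 ^ 11 / ((pK k : ℝ) ^ 9) * (1 / ((pn k : ℝ) ^ 2 * (pK k : ℝ) ^ 500)) := by
            field_simp
        _ ≤ 1 / 2 * (1 / ((pn k : ℝ) ^ 2 * (pK k : ℝ) ^ 500)) := by
            refine mul_le_mul_of_nonneg_right ?_ (by (clear * - hn2 hK2; positivity))
            rw [div_le_div_iff₀ (by (clear * - hK2; positivity)) (by norm_num)]
            have : (1024 : ℝ) ^ 9 ≤ (pK k : ℝ) ^ 9 := by (clear * - hK; gcongr)
            linarith only [this]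
        _ = _ := by ring
  have h3 : 16 * ((pK k : ℝ) * (1 / 2 ^ (4 * pe0 k))) ≤
      1 / ((pn k : ℝ) ^ 2 * (pK k : ℝ) ^ 500) / 2 := by
    have h4 := st6_eps hk
    have h5 := st6_K_le hk 2 (by norm_num)
    have h6 := st6_K_le hk 500 (by norm_num)
    have h7 : (1 : ℝ) ≤ 2 ^ pe0 k := one_le_pow₀ (by norm_num)
    calc 16 * ((pK k : ℝ) * (1 / 2 ^ (4 * pe0 k)))
        ≤ 16 * ((pK k : ℝ) * (1 / (2 ^ pe0 k * (pn k : ℝ) ^ 64))) := by (clear * - h4 hK; gcongr)
      _ ≤ 16 * ((pK k : ℝ) * (1 / (1 * (pn k : ℝ) ^ 64))) := by (clear * - hn2 h7 hK; gcongr)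
      _ ≤ 1 / ((pn k : ℝ) ^ 2 * (pn k : ℝ)) / 2 := by
          have e : 16 * ((pK k : ℝ) * (1 / (1 * (pn k : ℝ) ^ 64))) =
              (32 * (pK k : ℝ)) / (pn k : ℝ) ^ 61 * (1 / ((pn k : ℝ) ^ 2 * (pn k : ℝ)) / 2) := by
            field_simp
            norm_num
          rw [e]
          refine mul_le_of_le_one_left (by positivity) ?_
          rw [div_le_one (by positivity)]
          calc 32 * (pK k : ℝ) ≤ (pK k : ℝ) ^ 2 := by nlinarith only [hK]
            _ ≤ pn k := h5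
            _ = (pn k : ℝ) ^ 1 := (pow_one _).symm
            _ ≤ (pn k : ℝ) ^ 61 := pow_le_pow_right₀ hn1 (by norm_num)
      _ ≤ _ := by (clear * - hn2 hK h6; gcongr)
  rw [abs_le] at h1 h2 ⊢
  constructor <;> linarith only [h1, h2, h3]

end Vale.Agent.P370.Q
end

section

/-!
Helper for `St7`: bilinear forms on nice functions, linear combinations of shell functions.
-/

namespace Vale.Agent.P370.Q.St7

open MeasureTheory Finset Vale.Agent.P370 Vale.Agent.P370.Q

/-! ### closure of the shells -/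

theorem xp_add (κ : ℝ) (z z' : Hyd.Pl × Hyd.Pl) (x : R3) :
    Hyd.xp κ (z + z').1 (z + z').2 x = Hyd.xp κ z.1 z.2 x + Hyd.xp κ z'.1 z'.2 x := by
  unfold Hyd.xp Hyd.ev
  simp only [Prod.fst_add, Prod.snd_add, map_add]
  ring

theorem xp_smul (κ c : ℝ) (z : Hyd.Pl × Hyd.Pl) (x : R3) :
    Hyd.xp κ (c • z).1 (c • z).2 x = c * Hyd.xp κ z.1 z.2 x := by
  unfold Hyd.xp Hyd.ev
  simp only [Prod.smul_fst, Prod.smul_snd, MvPolynomial.smul_eval]
  ring

theorem isShell_add {n : ℕ} (hn : 1 ≤ n) {φ ψ : R3 → ℝ} (hφ : IsShell n φ) (hψ : IsShell n ψ) :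
    IsShell n (fun x => φ x + ψ x) := by
  obtain ⟨z, hz, rfl⟩ := (isShell_iff hn).1 hφ
  obtain ⟨z', hz', rfl⟩ := (isShell_iff hn).1 hψ
  exact (isShell_iff hn).2 ⟨z + z', Submodule.add_mem _ hz hz', by
    funext x
    exact (xp_add _ z z' x).symm⟩

theorem isShell_smul {n : ℕ} (hn : 1 ≤ n) (c : ℝ) {φ : R3 → ℝ} (hφ : IsShell n φ) :
    IsShell n (fun x => c * φ x) := by
  obtain ⟨z, hz, rfl⟩ := (isShell_iff hn).1 hφ
  exact (isShell_iff hn).2 ⟨c • z, Submodule.smul_mem _ _ hz, by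
    funext x
    exact (xp_smul _ c z x).symm⟩

theorem isShell_zero {n : ℕ} (hn : 1 ≤ n) : IsShell n (fun _ => 0) := by
  refine (isShell_iff hn).2 ⟨0, Submodule.zero_mem _, ?_⟩
  funext x
  unfold Hyd.xp Hyd.ev
  simp only [Prod.fst_zero, map_zero, Prod.snd_zero, mul_zero, add_zero, one_div, neg_mul, zero_mul]

theorem isShell_sum {n : ℕ} (hn : 1 ≤ n) {ι : Type} (t : Finset ι) (a : ι → ℝ)
    (f : ι → R3 → ℝ) (hf : ∀ i ∈ t, IsShell n (f i)) :
    IsShell n (fun x => ∑ i ∈ t, a i * f i x) := by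
  classical
  induction t using Finset.induction_on with
  | empty => simpa using isShell_zero hn
  | insert i t hi ih =>
    have h1 := isShell_add hn (isShell_smul hn (a i) (hf i (Finset.mem_insert_self i t)))
      (ih fun j hj => hf j (Finset.mem_insert_of_mem hj))
    simpa only [Finset.sum_insert hi] using h1

theorem inV_add {n : ℕ} {φ ψ : R3 → ℝ} (hφ : InV n φ) (hψ : InV n ψ) :
    InV n (fun x => φ x + ψ x) := by
  obtain ⟨P, hP, rfl⟩ := hφ
  obtain ⟨P', hP', rfl⟩ := hψ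
  refine ⟨P + P', Hyd.mem_Harm.1 (Submodule.add_mem _ (Hyd.mem_Harm.2 hP) (Hyd.mem_Harm.2 hP')),
    ?_⟩
  funext x
  simp only [vfun, pe, map_add]
  ring

theorem inV_smul {n : ℕ} (c : ℝ) {φ : R3 → ℝ} (hφ : InV n φ) : InV n (fun x => c * φ x) := by
  obtain ⟨P, hP, rfl⟩ := hφ
  refine ⟨c • P, Hyd.mem_Harm.1 (Submodule.smul_mem _ c (Hyd.mem_Harm.2 hP)), ?_⟩
  funext x
  simp only [vfun, pe, MvPolynomial.smul_eval]
  ring

theorem inV_zero {n : ℕ} : InV n (fun _ => 0) := by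
  refine ⟨0, Hyd.mem_Harm.1 (Submodule.zero_mem _), ?_⟩
  funext x
  simp only [vfun, pe, map_zero, zero_mul]

theorem inV_sum {n : ℕ} {ι : Type} (t : Finset ι) (a : ι → ℝ)
    (f : ι → R3 → ℝ) (hf : ∀ i ∈ t, InV n (f i)) :
    InV n (fun x => ∑ i ∈ t, a i * f i x) := by
  classical
  induction t using Finset.induction_on with
  | empty => simpa using inV_zero
  | insert i t hi ih =>
    have h1 := inV_add (inV_smul (a i) (hf i (Finset.mem_insert_self i t)))
      (ih fun j hj => hf j (Finset.mem_insert_of_mem hj))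
    simpa only [Finset.sum_insert hi] using h1

theorem fh_inV (n : ℕ) (hn : 1 ≤ n) (α : ℝ) : InV n (fh n α) := by
  have h := inV_smul (1 / Real.sqrt (nf n)) (fsite_InV n hn α)
  have e : fh n α = fun x => 1 / Real.sqrt (nf n) * fsite n α x := by
    funext x
    unfold fh
    ring
  rw [e]
  exact h

/-! ### bilinear forms on nice functions -/

/-- symmetric bilinear forms on nice functions -/
structure Bil (F : (R3 → ℝ) → (R3 → ℝ) → ℝ) : Prop where
  sum : ∀ (ι : Type) (t : Finset ι) (a : ι → ℝ) (f : ι → R3 → ℝ) (g : R3 → ℝ),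
    (∀ i ∈ t, Nice (f i)) → Nice g →
      F (fun x => ∑ i ∈ t, a i * f i x) g = ∑ i ∈ t, a i * F (f i) g
  symm : ∀ f g, Nice f → Nice g → F f g = F g f

theorem nice_zero : Nice (fun _ => (0 : ℝ)) := by
  have := nice_smul (nice_expPoly (κ := 1) one_pos 0 0) 0
  simpa using this

theorem nice_sum {ι : Type} (t : Finset ι) (a : ι → ℝ) (f : ι → R3 → ℝ)
    (hf : ∀ i ∈ t, Nice (f i)) : Nice (fun x => ∑ i ∈ t, a i * f i x) := by
  classical
  induction t using Finset.induction_on with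
  | empty => simpa using nice_zero
  | insert i t hi ih =>
    have h1 := nice_add (nice_smul (hf i (Finset.mem_insert_self i t)) (a i))
      (ih fun j hj => hf j (Finset.mem_insert_of_mem hj))
    simpa only [Finset.sum_insert hi] using h1

theorem Bil.sum_right {F : (R3 → ℝ) → (R3 → ℝ) → ℝ} (hF : Bil F) {ι : Type} (t : Finset ι)
    (a : ι → ℝ) (f : ι → R3 → ℝ) (g : R3 → ℝ) (hf : ∀ i ∈ t, Nice (f i)) (hg : Nice g) :
    F g (fun x => ∑ i ∈ t, a i * f i x) = ∑ i ∈ t, a i * F g (f i) := by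
  rw [hF.symm _ _ hg (nice_sum t a f hf), hF.sum ι t a f g hf hg]
  exact Finset.sum_congr rfl fun i hi => by rw [hF.symm _ _ (hf i hi) hg]

theorem Bil.expand {F : (R3 → ℝ) → (R3 → ℝ) → ℝ} (hF : Bil F) {ι κ : Type} [Fintype ι]
    [Fintype κ] (a : ι → ℝ) (f : ι → R3 → ℝ) (b : κ → ℝ) (g : κ → R3 → ℝ)
    (hf : ∀ i, Nice (f i)) (hg : ∀ j, Nice (g j)) :
    F (fun x => ∑ i, a i * f i x) (fun x => ∑ j, b j * g j x) =
      ∑ i, ∑ j, F (f i) (g j) * a i * b j := by
  rw [hF.sum ι univ a f _ (fun i _ => hf i) (nice_sum univ b g fun j _ => hg j)]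
  refine Finset.sum_congr rfl fun i _ => ?_
  rw [hF.sum_right univ b g (f i) (fun j _ => hg j) (hf i), Finset.mul_sum]
  exact Finset.sum_congr rfl fun j _ => by ring

theorem Bil.add_left {F : (R3 → ℝ) → (R3 → ℝ) → ℝ} (hF : Bil F) {f f' g : R3 → ℝ}
    (hf : Nice f) (hf' : Nice f') (hg : Nice g) : F (f + f') g = F f g + F f' g := by
  have h := hF.sum (Fin 2) univ ![1, 1] ![f, f'] g (fun i _ => by
    fin_cases i
    · exact hf
    · exact hf') hg
  simp only [Fin.sum_univ_two, Matrix.cons_val_zero, Matrix.cons_val_one, one_mul] at h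
  exact h

theorem Bil.add_right {F : (R3 → ℝ) → (R3 → ℝ) → ℝ} (hF : Bil F) {f f' g : R3 → ℝ}
    (hf : Nice f) (hf' : Nice f') (hg : Nice g) (hff : Nice (f + f')) :
    F g (f + f') = F g f + F g f' := by
  rw [hF.symm _ _ hg hff, hF.add_left hf hf' hg, hF.symm _ _ hf hg, hF.symm _ _ hf' hg]

theorem Bil.finsum {κ : Type} (s : Finset κ) (F : κ → (R3 → ℝ) → (R3 → ℝ) → ℝ)
    (c : κ → ℝ) (hF : ∀ j ∈ s, Bil (F j)) : Bil (fun f g => ∑ j ∈ s, c j * F j f g) := by
  refine ⟨fun ι t a f g hf hg => ?_, fun f g hf hg => ?_⟩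
  · simp only [Finset.mul_sum]
    rw [Finset.sum_comm]
    refine Finset.sum_congr rfl fun j hj => ?_
    rw [(hF j hj).sum ι t a f g hf hg, Finset.mul_sum]
    exact Finset.sum_congr rfl fun i _ => by ring
  · exact Finset.sum_congr rfl fun j hj => by rw [(hF j hj).symm f g hf hg]

theorem Bil.add {F G : (R3 → ℝ) → (R3 → ℝ) → ℝ} (hF : Bil F) (hG : Bil G) :
    Bil (fun f g => F f g + G f g) := by
  refine ⟨fun ι t a f g hf hg => ?_, fun f g hf hg => ?_⟩
  · rw [hF.sum ι t a f g hf hg, hG.sum ι t a f g hf hg, ← Finset.sum_add_distrib]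
    exact Finset.sum_congr rfl fun i _ => by ring
  · rw [hF.symm f g hf hg, hG.symm f g hf hg]

theorem bil_gm (y : R3) : Bil (gm y) :=
  ⟨fun _ t a f _ hf hg => gm_sum_left t a f hf hg y, fun f g _ _ => gm_symm y f g⟩

theorem bil_ov : Bil ov :=
  ⟨fun _ t a f _ hf hg => ov_sum_left t a f hf hg, fun f g _ _ => m1_ov_comm f g⟩

theorem bil_bform (ρ : ℝ) (hρ : 0 < ρ) : Bil (bform ρ) :=
  ⟨fun _ t a f _ hf hg => bform_sum_left t a f hf hg ρ hρ, fun f g _ _ => by
    unfold bform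
    simp only [mul_comm (f _)]⟩

theorem bil_mfield {n : ℕ} {C O : Type} [Fintype C] [DecidableEq C] [Fintype O] [DecidableEq O]
    (B : ShellBasis n (C ⊕ O)) : Bil (mfield B) :=
  ⟨fun _ t a f _ hf hg => mfield_sum_left B t a f hf hg, fun _ _ hf hg => mfield_symm B hf hg⟩

theorem bil_nuc {m : ℕ} (w : Fin m → ℝ) (y : Fin m → R3) :
    Bil (fun f g => ∑ β, w β * gm (y β) f g) :=
  Bil.finsum univ (fun β => gm (y β)) w fun β _ => bil_gm (y β)

theorem bil_devf (k : ℕ) (γ : ℝ) (N : ℕ) : Bil (devf k γ N) := by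
  have h : Bil (fun f g => ∑ a ∈ range (pD k), (1 : ℝ) * ∑ b ∈ range (pD k),
      qw (pD k) a * (cdot (av γ) (node (pD k) a b) ^ N).re *
        gm (pρ k • node (pD k) a b) f g) :=
    Bil.finsum _ (fun a f g => ∑ b ∈ range (pD k),
      qw (pD k) a * (cdot (av γ) (node (pD k) a b) ^ N).re *
        gm (pρ k • node (pD k) a b) f g) (fun _ => 1) fun a _ =>
      Bil.finsum _ (fun b => gm (pρ k • node (pD k) a b)) _ fun b _ => bil_gm _
  simp only [one_mul] at h
  exact h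

end Vale.Agent.P370.Q.St7
end

section

/-!
Helper for `St7`: device forms and numerical facts.
-/

namespace Vale.Agent.P370.Q.St7

open MeasureTheory Finset Vale.Agent.P370 Vale.Agent.P370.Q

/-- top devices -/
noncomputable def Tf (k : ℕ) (φ ψ : R3 → ℝ) : ℝ :=
  ∑ i ∈ range (pK k), pL k * Xu (pn k) (2 * (pn k - 1)) (pρ k) *
        devf k (pα k i) (2 * (pn k - 1)) φ ψ

/-- hopping devices -/
noncomputable def Hp (k : ℕ) (q : ℕ → ℕ) (s : ℕ → ℕ → ℕ) (φ ψ : R3 → ℝ) : ℝ :=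
  ∑ j ∈ range (pK k), ∑ i ∈ range j, (s i j : ℝ) * pη k * Xu (pn k) (2 * q (j - i)) (pρ k) *
        devf k ((pα k i + pα k j) / 2) (2 * q (j - i)) φ ψ

theorem bil_Tf (k : ℕ) : Bil (Tf k) :=
  Bil.finsum _ (fun i => devf k (pα k i) (2 * (pn k - 1))) _ fun i _ => bil_devf k _ _

theorem bil_Hp (k : ℕ) (q : ℕ → ℕ) (s : ℕ → ℕ → ℕ) : Bil (Hp k q s) := by
  have h : Bil (fun φ ψ => ∑ j ∈ range (pK k), (1 : ℝ) * ∑ i ∈ range j,
      (s i j : ℝ) * pη k * Xu (pn k) (2 * q (j - i)) (pρ k) *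
        devf k ((pα k i + pα k j) / 2) (2 * q (j - i)) φ ψ) :=
    Bil.finsum _ (fun j φ ψ => ∑ i ∈ range j,
      (s i j : ℝ) * pη k * Xu (pn k) (2 * q (j - i)) (pρ k) *
        devf k ((pα k i + pα k j) / 2) (2 * q (j - i)) φ ψ) (fun _ => 1) fun j _ =>
      Bil.finsum _ (fun i => devf k ((pα k i + pα k j) / 2) (2 * q (j - i))) _ fun i _ =>
        bil_devf _ _ _
  simp only [one_mul] at h
  exact h

/-! ### numerical facts -/

theorem n_big (k : ℕ) (hk : 10 ≤ k) : 1024 ≤ pn k ∧ pK k ≤ pn k := by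
  have h1 := pK_ge k hk
  have h2 : pK k ≤ pn k := by
    rw [pn_eq]
    exact Nat.le_self_pow (by norm_num) _
  exact ⟨h1.trans h2, h2⟩

theorem pe0_le (k : ℕ) : pe0 k ≤ pn k := Nat.div_le_self _ _

theorem pρ_pos (k : ℕ) : 0 < pρ k := by unfold pρ; positivity

theorem pρ_le_one (k : ℕ) : pρ k ≤ 1 := by
  unfold pρ
  rw [div_le_one (by positivity)]
  exact one_le_pow₀ (by norm_num)

/-- sum over a triangle -/
theorem tri_sum_le (K : ℕ) (F : ℕ → ℕ → ℝ) (c : ℝ) (hc : 0 ≤ c)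
    (h : ∀ i j, i < j → j < K → |F i j| ≤ c) :
    |∑ j ∈ range K, ∑ i ∈ range j, F i j| ≤ K * K * c := by
  refine (Finset.abs_sum_le_sum_abs _ _).trans ?_
  calc ∑ j ∈ range K, |∑ i ∈ range j, F i j| ≤ ∑ j ∈ range K, (K : ℝ) * c := by
        refine Finset.sum_le_sum fun j hj => ?_
        have hj' := Finset.mem_range.1 hj
        refine (Finset.abs_sum_le_sum_abs _ _).trans ?_
        calc ∑ i ∈ range j, |F i j| ≤ ∑ i ∈ range j, c :=
              Finset.sum_le_sum fun i hi => h i j (Finset.mem_range.1 hi) hj'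
          _ = j * c := by rw [Finset.sum_const, Finset.card_range, nsmul_eq_mul]
          _ ≤ K * c := by
              have : (j : ℝ) ≤ K := by exact_mod_cast hj'.le
              gcongr
    _ = K * K * c := by rw [Finset.sum_const, Finset.card_range, nsmul_eq_mul]; ring

/-- crude bound of all devices -/
theorem dev_crude (k : ℕ) (hk : 10 ≤ k) (q : ℕ → ℕ) (hq : GoodQ k q) (s : ℕ → ℕ → ℕ)
    (hs : GoodS k q s) {φ ψ : R3 → ℝ} (hφ : IsShell (pn k) φ) (hψ : IsShell (pn k) ψ) :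
    |Tf k φ ψ + Hp k q s φ ψ| ≤ 2 ^ (36 * pn k ^ 3) * Real.sqrt (ov φ φ * ov ψ ψ) := by
  obtain ⟨hn, hKn⟩ := n_big k hk
  have hn1 : 1 ≤ pn k := by omega
  set σ := Real.sqrt (ov φ φ * ov ψ ψ) with hσ
  have hσ0 : 0 ≤ σ := Real.sqrt_nonneg _
  have hρ0 := pρ_pos k
  have hρ1 := pρ_le_one k
  have hnn : (pn k : ℝ) ≤ 2 ^ pn k := by exact_mod_cast Nat.lt_two_pow_self.le
  have hKr : (pK k : ℝ) ≤ 2 ^ pn k := by
    have : (pK k : ℝ) ≤ pn k := by exact_mod_cast hKn
    linarith only [hnn, this]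
  have hP0 : (0 : ℝ) < 2 ^ (34 * pn k ^ 3) := by positivity
  have hdev : ∀ γ N, |devf k γ N φ ψ| ≤ 16 * σ := by
    intro γ N
    refine (devf_crude k hk γ N hn1 hn1 hφ hψ).trans ?_
    have : 16 * pρ k ≤ 16 := by linarith only [hρ1]
    exact mul_le_mul_of_nonneg_right this hσ0
  have hT : |Tf k φ ψ| ≤ 2 ^ pn k * (2 ^ pn k * 2 ^ (34 * pn k ^ 3) * (16 * σ)) := by
    unfold Tf
    refine (Finset.abs_sum_le_sum_abs _ _).trans ?_
    calc ∑ i ∈ range (pK k), |pL k * Xu (pn k) (2 * (pn k - 1)) (pρ k) *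
          devf k (pα k i) (2 * (pn k - 1)) φ ψ|
        ≤ ∑ i ∈ range (pK k), 2 ^ pn k * 2 ^ (34 * pn k ^ 3) * (16 * σ) := by
          refine Finset.sum_le_sum fun i _ => ?_
          obtain ⟨x1, x2⟩ := Xu_le k (2 * (pn k - 1)) hk (by omega)
          have hL : pL k ≤ 2 ^ pn k := by
            rw [(pe0_eq k hk).2]
            exact pow_le_pow_right₀ (by norm_num) (pe0_le k)
          have hL0 : 0 < pL k := by rw [(pe0_eq k hk).2]; positivity
          rw [abs_mul, abs_of_pos (by (clear * - hL0 x1; positivity))]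
          have := hdev (pα k i) (2 * (pn k - 1))
          (clear * - hL x2 x1 this; gcongr)
      _ = pK k * (2 ^ pn k * 2 ^ (34 * pn k ^ 3) * (16 * σ)) := by
          rw [Finset.sum_const, Finset.card_range, nsmul_eq_mul]
      _ ≤ _ := by (clear * - hKr; gcongr)
  have hH : |Hp k q s φ ψ| ≤
      2 ^ pn k * 2 ^ pn k * ((2 ^ pn k) ^ 5 * 2 ^ (34 * pn k ^ 3) * (16 * σ)) := by
    unfold Hp
    have hc : (0 : ℝ) ≤ (2 ^ pn k) ^ 5 * 2 ^ (34 * pn k ^ 3) * (16 * σ) := by (clear * -; positivity)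
    refine (tri_sum_le (pK k) _ _ hc fun i j hij hj => ?_).trans ?_
    · have hr := goodQ_range k hk q hq (j - i) (by omega) (by omega)
      obtain ⟨x1, x2⟩ := Xu_le k (2 * q (j - i)) hk (by omega)
      have h1 := (goodS_bound k hk q hq s hs i j hij hj).1
      have h0 : 0 ≤ (s i j : ℝ) * pη k := by unfold pη; (clear * -; positivity)
      rw [abs_mul, abs_of_nonneg (by (clear * - h0 x1; positivity))]
      have h2 : (s i j : ℝ) * pη k ≤ (2 ^ pn k) ^ 5 := by
        refine h1.trans ?_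
        (clear * - hn hnn; gcongr)
      have := hdev ((pα k i + pα k j) / 2) (2 * q (j - i))
      (clear * - h2 x2 x1 this; gcongr)
    · gcongr
  have hsum : 2 ^ pn k * (2 ^ pn k * 2 ^ (34 * pn k ^ 3) * (16 * σ)) +
      2 ^ pn k * 2 ^ pn k * ((2 ^ pn k) ^ 5 * 2 ^ (34 * pn k ^ 3) * (16 * σ)) ≤
      2 ^ (36 * pn k ^ 3) * σ := by
    have e : (2 : ℝ) ^ pn k * (2 ^ pn k * 2 ^ (34 * pn k ^ 3) * (16 * σ)) +
      2 ^ pn k * 2 ^ pn k * ((2 ^ pn k) ^ 5 * 2 ^ (34 * pn k ^ 3) * (16 * σ)) =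
      ((2 ^ pn k) ^ 2 * 16 + (2 ^ pn k) ^ 7 * 16) * 2 ^ (34 * pn k ^ 3) * σ := by ring
    rw [e]
    refine mul_le_mul_of_nonneg_right ?_ hσ0
    have h1 : ((2 : ℝ) ^ pn k) ^ 2 * 16 + (2 ^ pn k) ^ 7 * 16 ≤ 2 ^ (7 * pn k + 5) := by
      have h2 : ((2 : ℝ) ^ pn k) ^ 2 ≤ (2 ^ pn k) ^ 7 :=
        pow_le_pow_right₀ (one_le_pow₀ (by norm_num)) (by norm_num)
      have h3 : (2 : ℝ) ^ (7 * pn k + 5) = (2 ^ pn k) ^ 7 * 32 := by
        rw [pow_add, ← pow_mul, mul_comm 7]
        norm_num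
      rw [h3]
      linarith only [h2]
    calc _ ≤ (2 : ℝ) ^ (7 * pn k + 5) * 2 ^ (34 * pn k ^ 3) :=
          mul_le_mul_of_nonneg_right h1 hP0.le
      _ = 2 ^ (7 * pn k + 5 + 34 * pn k ^ 3) := by rw [← pow_add]
      _ ≤ 2 ^ (36 * pn k ^ 3) := by
          refine pow_le_pow_right₀ (by norm_num) ?_
          have h4 : 1024 * pn k ≤ pn k ^ 3 := by
            calc 1024 * pn k ≤ pn k ^ 2 * pn k := by
                  refine Nat.mul_le_mul_right _ ?_
                  nlinarith only [hn]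
              _ = pn k ^ 3 := by ring
          (clear * - hn h4; omega)
  calc |Tf k φ ψ + Hp k q s φ ψ| ≤ |Tf k φ ψ| + |Hp k q s φ ψ| := abs_add_le _ _
    _ ≤ _ := (add_le_add hT hH).trans hsum

/-- hopping devices on the top subspace -/
theorem hop_top (k : ℕ) (hk : 10 ≤ k) (q : ℕ → ℕ) (hq : GoodQ k q) (s : ℕ → ℕ → ℕ)
    (hs : GoodS k q s) {φ ψ : R3 → ℝ} (hφ : InV (pn k) φ) (hψ : InV (pn k) ψ) :
    |Hp k q s φ ψ| ≤ 2 * (pn k : ℝ) ^ 7 * Real.sqrt (ov φ φ * ov ψ ψ) := by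
  obtain ⟨hn, hKn⟩ := n_big k hk
  set σ := Real.sqrt (ov φ φ * ov ψ ψ) with hσ
  have hσ0 : 0 ≤ σ := Real.sqrt_nonneg _
  have hKr : (pK k : ℝ) ≤ pn k := by exact_mod_cast hKn
  unfold Hp
  have hc : (0 : ℝ) ≤ (pn k : ℝ) ^ 5 * (2 * σ) := by (clear * - hn; positivity)
  refine (tri_sum_le (pK k) _ _ hc fun i j hij hj => ?_).trans ?_
  · have hr := goodQ_range k hk q hq (j - i) (by omega) (by omega)
    have h1 := (goodS_bound k hk q hq s hs i j hij hj).1
    have h0 : 0 ≤ (s i j : ℝ) * pη k := by unfold pη; (clear * -; positivity)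
    have h2 := devf_top_le k hk ((pα k i + pα k j) / 2) (q (j - i)) hr.1 (by omega) hφ hψ
    rw [mul_assoc, abs_mul, abs_of_nonneg h0]
    (clear * - h1 h2 hn; gcongr)
  · calc (pK k : ℝ) * pK k * ((pn k : ℝ) ^ 5 * (2 * σ))
        ≤ (pn k : ℝ) * pn k * ((pn k : ℝ) ^ 5 * (2 * σ)) := by (clear * - hKr hn; gcongr)
      _ = _ := by ring

/-- top devices on the top subspace -/
theorem Tf_top (k : ℕ) (hk : 10 ≤ k) {φ ψ : R3 → ℝ} (hφ : InV (pn k) φ)
    (hψ : InV (pn k) ψ) :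
    Tf k φ ψ = ∑ i ∈ range (pK k), pL k *
      -(zt k (2 * (pn k - 1)) * gam (pn k) * (ov φ (fh (pn k) (pα k i)) *
        ov ψ (fh (pn k) (pα k i)) -
        ov φ (gsite (pn k) (pα k i)) * ov ψ (gsite (pn k) (pα k i)) / nf (pn k))) := by
  unfold Tf
  refine Finset.sum_congr rfl fun i _ => ?_
  rw [mul_assoc, devf_rank_two k hk (pα k i) hφ hψ]

theorem zt_top (k : ℕ) (hk : 10 ≤ k) : 1 / 2 ≤ zt k (2 * (pn k - 1)) := by
  obtain ⟨hn, -⟩ := n_big k hk
  exact (zt_bounds k _ hk (by omega) (by omega)).1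

theorem Lam_ge (k : ℕ) (hk : 10 ≤ k) : 2 ^ pe0 k / (16 * (pn k : ℝ)) ≤ Lam k := by
  obtain ⟨hn, -⟩ := n_big k hk
  have h1 := zt_top k hk
  have h2 := (gam_bounds (pn k) (by omega)).1
  have hL := (pe0_eq k hk).2
  unfold Lam
  rw [hL]
  have hn0 : (0 : ℝ) < pn k := by exact_mod_cast (by omega : 0 < pn k)
  calc (2 : ℝ) ^ pe0 k / (16 * (pn k : ℝ)) = 2 ^ pe0 k * (1 / 2) * (1 / (8 * (pn k : ℝ))) := by
        field_simp
        norm_num
    _ ≤ _ := by (clear * - h1 h2 hn; gcongr)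

end Vale.Agent.P370.Q.St7
end

section

/-!
The gap above the sites.
-/

namespace Vale.Agent.P370.Q

open MeasureTheory Finset

namespace St7

theorem amgm (a c p q : ℝ) (ha : 0 < a) : 2 * (c * (p * q)) ≤ a * p ^ 2 + c ^ 2 / a * q ^ 2 := by
  have h : a * p ^ 2 + c ^ 2 / a * q ^ 2 - 2 * (c * (p * q)) = (a * p - c * q) ^ 2 / a := by
    field_simp
    ring
  have h2 : 0 ≤ (a * p - c * q) ^ 2 / a := by (clear * - ha; positivity)
  (clear * - h h2; linarith)

/-- the final estimate -/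
theorem real_ineq (s r r1 r2 W xr g θ X m ε δ a mf L u1 u2 u3 u4 u5 u6 e1 e2 m1 m2 bf : ℝ)
    (hr : r ^ 2 = r1 ^ 2 + r2 ^ 2)
    (ha : 0 < a) (hθ : 0 ≤ θ) (hε : 0 ≤ ε) (hW : 0 ≤ W)
    (k1 : |u1| ≤ X * (s * r2)) (k2 : |u2| ≤ θ * (s * r1)) (k3 : |u3| ≤ X * (r1 * r2))
    (k4 : |u4| ≤ X * r2 ^ 2) (k5 : 0 ≤ u5) (k6 : |u6| ≤ θ * r1 ^ 2)
    (k7 : |e1| ≤ ε * (s * r)) (k8 : |e2| ≤ ε * r ^ 2) (k9 : |m1| ≤ m * (s * r))
    (k10 : |m2| ≤ m * r ^ 2) (k11 : xr * r ^ 2 + g * r2 ^ 2 ≤ bf)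
    (c1 : 3 * a + ε ≤ δ)
    (c2 : θ ^ 2 / a + θ + m ^ 2 / a + 1 + m + 2 * ε + mf ≤ L / 2)
    (c3 : X ^ 2 / a + X ^ 2 + X ≤ W * g) :
    0 ≤ δ * s ^ 2 + 2 * (u1 + u2 + e1 + m1) +
      (W * bf + u5 + u6 + 2 * u3 + u4 + e2 + m2) - (W * xr + mf - L / 2) * r ^ 2 := by
  have i1 := amgm a X s r2 ha
  have i2 := amgm a θ s r1 ha
  have i3 := amgm a m s r ha
  have i4 : 2 * (ε * (s * r)) ≤ ε * s ^ 2 + ε * r ^ 2 := by linarith only [mul_nonneg_of_nonpos_of_nonpos (Mathlib.Tactic.Linarith.sub_nonpos_of_le (sq_nonneg (s - r))) (Mathlib.Tactic.Linarith.sub_nonpos_of_le hε)]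
  have i5 : 2 * (X * (r1 * r2)) ≤ r1 ^ 2 + X ^ 2 * r2 ^ 2 := by linarith only [sq_nonneg (r1 - X * r2)]
  have hr1 : r1 ^ 2 ≤ r ^ 2 := by linarith only [hr, sq_nonneg r2]
  have i6 : θ ^ 2 / a * r1 ^ 2 ≤ θ ^ 2 / a * r ^ 2 := mul_le_mul_of_nonneg_left hr1 (by (clear * - ha; positivity))
  have i7 : θ * r1 ^ 2 ≤ θ * r ^ 2 := mul_le_mul_of_nonneg_left hr1 hθ
  have i8 : W * (xr * r ^ 2 + g * r2 ^ 2) ≤ W * bf := mul_le_mul_of_nonneg_left k11 hW
  have j1 := (abs_le.1 k1).1
  have j2 := (abs_le.1 k2).1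
  have j3 := (abs_le.1 k3).1
  have j4 := (abs_le.1 k4).1
  have j6 := (abs_le.1 k6).1
  have j7 := (abs_le.1 k7).1
  have j8 := (abs_le.1 k8).1
  have j9 := (abs_le.1 k9).1
  have j10 := (abs_le.1 k10).1
  have d1 : (3 * a + ε) * s ^ 2 ≤ δ * s ^ 2 := mul_le_mul_of_nonneg_right c1 (sq_nonneg s)
  have d2 : (θ ^ 2 / a + θ + m ^ 2 / a + 1 + m + 2 * ε + mf) * r ^ 2 ≤ L / 2 * r ^ 2 :=
    mul_le_mul_of_nonneg_right c2 (sq_nonneg r)
  have d3 : (X ^ 2 / a + X ^ 2 + X) * r2 ^ 2 ≤ W * g * r2 ^ 2 :=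
    mul_le_mul_of_nonneg_right c3 (sq_nonneg r2)
  clear k1 k2 k3 k4 k6 k7 k8 k9 k10 k11 c1 c2 c3
  linarith

theorem numeric (k : ℕ) (hk : 10 ≤ k) (mf L : ℝ) (hL : 2 ^ pe0 k / (16 * (pn k : ℝ)) ≤ L)
    (hmf : mf ≤ 12 * (pn k : ℝ) ^ 3) :
    3 * (1 / (8 * 2 ^ (pe0 k / 4))) + 1 / 2 ^ (15 * pn k ^ 2) ≤ (1 : ℝ) / 2 ^ (pe0 k / 4) ∧
    (2 * (pn k : ℝ) ^ 7) ^ 2 / (1 / (8 * 2 ^ (pe0 k / 4))) + 2 * (pn k : ℝ) ^ 7 +
      (12 * (pn k : ℝ) ^ 3) ^ 2 / (1 / (8 * 2 ^ (pe0 k / 4))) + 1 + 12 * (pn k : ℝ) ^ 3 +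
        2 * (1 / 2 ^ (15 * pn k ^ 2)) + mf ≤ L / 2 ∧
    ((2 : ℝ) ^ (36 * pn k ^ 3)) ^ 2 / (1 / (8 * 2 ^ (pe0 k / 4))) +
      ((2 : ℝ) ^ (36 * pn k ^ 3)) ^ 2 + 2 ^ (36 * pn k ^ 3) ≤
        pW k * (pρ k ^ (2 * pn k - 2) / 2 ^ (16 * pn k ^ 2)) := by
  obtain ⟨hn, -⟩ := n_big k hk
  have he := pe0_le k
  have hn2 : pn k ≤ pn k ^ 2 := Nat.le_self_pow (by norm_num) _
  have h23 : 1024 * pn k ^ 2 ≤ pn k ^ 3 := by
    calc 1024 * pn k ^ 2 ≤ pn k * pn k ^ 2 := Nat.mul_le_mul_right _ hn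
      _ = pn k ^ 3 := by ring
  have h12 : 1024 * pn k ≤ pn k ^ 2 := by
    calc 1024 * pn k ≤ pn k * pn k := Nat.mul_le_mul_right _ hn
      _ = pn k ^ 2 := by ring
  have hnr : (1024 : ℝ) ≤ pn k := by exact_mod_cast hn
  set E : ℝ := 2 ^ (pe0 k / 4) with hE
  have hE1 : 1 ≤ E := one_le_pow₀ (by norm_num)
  have hE0 : 0 < E := by linarith only [hE1]
  have hε : (1 : ℝ) / 2 ^ (15 * pn k ^ 2) ≤ 1 / (8 * E) := by
    refine one_div_le_one_div_of_le (by positivity) ?_
    calc 8 * E = 2 ^ (3 + pe0 k / 4) := by rw [pow_add]; norm_num [hE]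
      _ ≤ 2 ^ (15 * pn k ^ 2) := pow_le_pow_right₀ (by norm_num) (by omega)
  refine ⟨?_, ?_, ?_⟩
  · have : 3 * (1 / (8 * E)) + 1 / (8 * E) ≤ 1 / E := by
      have e : 3 * (1 / (8 * E)) + 1 / (8 * E) = (1 / 2) * (1 / E) := by
        field_simp
        norm_num
      rw [e]
      have : 0 < 1 / E := by positivity
      linarith only [this]
    linarith only [hε, this]
  · have hε1 : (1 : ℝ) / 2 ^ (15 * pn k ^ 2) ≤ 1 := by
      refine hε.trans ?_
      rw [div_le_one (by positivity)]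
      linarith only [hE1]
    have hpow := pn_pow_le k hk 20 (by norm_num)
    set n : ℝ := (pn k : ℝ) with hnd
    have hn0 : 0 < n := by linarith only [hnr]
    have e1 : (2 * n ^ 7) ^ 2 / (1 / (8 * E)) = 32 * n ^ 14 * E := by
      field_simp
      ring
    have e2 : (12 * n ^ 3) ^ 2 / (1 / (8 * E)) = 1152 * n ^ 6 * E := by
      field_simp
      ring
    rw [e1, e2]
    have h0 : 2 ^ pe0 k / (16 * n) / 2 ≤ L / 2 := by linarith only [hL]
    refine le_trans ?_ h0
    have hB : n ^ 20 * E ≤ 2 ^ pe0 k := by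
      calc n ^ 20 * E ≤ 2 ^ (pe0 k / 64) * 2 ^ (pe0 k / 4) := by
            rw [hE]
            exact mul_le_mul_of_nonneg_right hpow (by positivity)
        _ = 2 ^ (pe0 k / 64 + pe0 k / 4) := by rw [← pow_add]
        _ ≤ 2 ^ pe0 k := pow_le_pow_right₀ (by norm_num) (by (clear * -; omega))
    have hC : n ^ 16 * E ≤ 2 ^ pe0 k / (16 * n) / 2 := by
      rw [div_div, le_div_iff₀ (by (clear * - hn; positivity))]
      refine le_trans ?_ hB
      have : n ^ 20 * E = n ^ 16 * E * (n ^ 4) := by ring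
      rw [this]
      refine mul_le_mul_of_nonneg_left ?_ (by positivity)
      calc 16 * n * 2 = 32 * n := by ring
        _ ≤ n ^ 3 * n := by
            refine mul_le_mul_of_nonneg_right ?_ hn0.le
            calc (32 : ℝ) ≤ 1024 ^ 3 := by norm_num
              _ ≤ n ^ 3 := by (clear * - hnr; gcongr)
        _ = n ^ 4 := by ring
    refine le_trans ?_ hC
    have q1 : n ^ 3 ≤ n ^ 14 * E := by
      calc n ^ 3 ≤ n ^ 14 := pow_le_pow_right₀ (by linarith only [hnr]) (by norm_num)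
        _ ≤ n ^ 14 * E := le_mul_of_one_le_right (by positivity) hE1
    have q2 : n ^ 7 ≤ n ^ 14 * E := by
      calc n ^ 7 ≤ n ^ 14 := pow_le_pow_right₀ (by linarith only [hnr]) (by norm_num)
        _ ≤ n ^ 14 * E := le_mul_of_one_le_right (by positivity) hE1
    have q3 : n ^ 6 * E ≤ n ^ 14 * E :=
      mul_le_mul_of_nonneg_right (pow_le_pow_right₀ (by linarith only [hnr]) (by norm_num)) hE0.le
    have q4 : 1 ≤ n ^ 14 * E := by
      have : 1 ≤ n ^ 14 := one_le_pow₀ (by linarith only [hnr])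
      nlinarith only [this, hE1]
    have q5 : n ^ 16 * E = n ^ 2 * (n ^ 14 * E) := by ring
    have q6 : (1024 : ℝ) ^ 2 ≤ n ^ 2 := by (clear * - hnr; gcongr)
    have q7 : (1024 : ℝ) ^ 2 * (n ^ 14 * E) ≤ n ^ 2 * (n ^ 14 * E) :=
      mul_le_mul_of_nonneg_right q6 (by positivity)
    rw [q5]
    linarith only [hε1, hmf, q1, q2, q3, q4, q7]
  · have e1 : ((2 : ℝ) ^ (36 * pn k ^ 3)) ^ 2 / (1 / (8 * E)) +
      ((2 : ℝ) ^ (36 * pn k ^ 3)) ^ 2 + 2 ^ (36 * pn k ^ 3) ≤ 2 ^ (96 * pn k ^ 3) := by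
      set Y : ℝ := 2 ^ (36 * pn k ^ 3) with hY
      have hY1 : 1 ≤ Y := one_le_pow₀ (by norm_num)
      have e2 : Y ^ 2 / (1 / (8 * E)) = 8 * E * Y ^ 2 := by
        (clear * - hE1 hY1; field_simp)
      rw [e2]
      have hEn : E ≤ 2 ^ pn k := pow_le_pow_right₀ (by norm_num) (by (clear * - hn he; omega))
      calc 8 * E * Y ^ 2 + Y ^ 2 + Y ≤ 8 * E * Y ^ 2 + E * Y ^ 2 + E * Y ^ 2 := by nlinarith only [hY1, hE1]
        _ = 10 * E * Y ^ 2 := by ring
        _ ≤ 2 ^ 4 * 2 ^ pn k * Y ^ 2 := by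
            gcongr
            norm_num
        _ = 2 ^ (4 + pn k + 72 * pn k ^ 3) := by
            rw [hY, ← pow_mul, ← pow_add, ← pow_add]
            congr 1
            ring
        _ ≤ 2 ^ (96 * pn k ^ 3) := pow_le_pow_right₀ (by norm_num) (by (clear * - hn hn2 h23; omega))
    refine e1.trans ?_
    have e3 : pW k * (pρ k ^ (2 * pn k - 2) / 2 ^ (16 * pn k ^ 2)) =
        2 ^ (128 * pn k ^ 3) / 2 ^ (16 * pn k ^ 2 * (2 * pn k - 2) + 16 * pn k ^ 2) := by
      unfold pW pρ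
      rw [div_pow, one_pow, ← pow_mul, pow_add]
      (clear * -; field_simp)
    rw [e3, le_div_iff₀ (by positivity), ← pow_add]
    refine pow_le_pow_right₀ (by norm_num) ?_
    have h4 : 16 * pn k ^ 2 * (2 * pn k - 2) + 16 * pn k ^ 2 ≤ 32 * pn k ^ 3 := by
      have h5 : 16 * pn k ^ 2 * (2 * pn k - 2) + 16 * pn k ^ 2 ≤
          16 * pn k ^ 2 * (2 * pn k - 2) + 16 * pn k ^ 2 * 2 := by omega
      calc _ ≤ 16 * pn k ^ 2 * (2 * pn k - 2) + 16 * pn k ^ 2 * 2 := h5
        _ = 16 * pn k ^ 2 * (2 * pn k - 2 + 2) := by ring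
        _ = 16 * pn k ^ 2 * (2 * pn k) := by congr 1; omega
        _ = 32 * pn k ^ 3 := by ring
    (clear * - h4; omega)

/-! ### assembly -/

variable {k : ℕ} {C R : Type} [Fintype C] [DecidableEq C] [Fintype R] [DecidableEq R]

/-- the form of the one-body matrix -/
noncomputable def Hf (S : SiteB k C R) {m : ℕ} (w : Fin m → ℝ) (y : Fin m → R3)
    (f g : R3 → ℝ) : ℝ :=
  (∑ β, w β * gm (y β) f g) + mfield S.B f g

theorem hS_eq (S : SiteB k C R) {m : ℕ} (w : Fin m → ℝ) (y : Fin m → R3)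
    (p o : Fin (pK k) ⊕ R) :
    hS S w y p o = Hf S w y (S.B.χ (Sum.inr p)) (S.B.χ (Sum.inr o)) := rfl

theorem bil_Hf (S : SiteB k C R) {m : ℕ} (w : Fin m → ℝ) (y : Fin m → R3) :
    Bil (Hf S w y) := (bil_nuc w y).add (bil_mfield S.B)

theorem nice_chi (S : SiteB k C R) (a : C ⊕ (Fin (pK k) ⊕ R)) : Nice (S.B.χ a) :=
  nice_basis S.B a

theorem shell_chi (S : SiteB k C R) (o : Fin (pK k) ⊕ R) :
    IsShell (pn k) (S.B.χ (Sum.inr o)) := by
  have := S.B.mem (Sum.inr o)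
  rwa [S.hO o] at this

theorem ov_chi (S : SiteB k C R) (p o : Fin (pK k) ⊕ R) :
    ov (S.B.χ (Sum.inr p)) (S.B.χ (Sum.inr o)) = if p = o then 1 else 0 := by
  rw [S.B.ortho]
  by_cases h : p = o
  · subst h
    rw [if_pos rfl, if_pos rfl]
  · rw [if_neg h, if_neg (fun h' => h (Sum.inr_injective h'))]

/-- the abstract estimate for a function orthogonal to the sites -/
theorem gap_core (hk : 10 ≤ k) (S : SiteB k C R) (q : ℕ → ℕ) (hq : GoodQ k q)
    (s : ℕ → ℕ → ℕ) (hs : GoodS k q s) (w : Fin (pD k * pD k) → ℕ)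
    (y : Fin (pD k * pD k) → R3) (H : Approx k q s w y) (φS φR : R3 → ℝ)
    (hSV : InV (pn k) φS) (hRs : IsShell (pn k) φR)
    (hSfh : ∀ i, ov φS (gsite (pn k) (pα k i)) = 0)
    (hort : ∀ i : Fin (pK k), ov φR (S.B.χ (Sum.inr (Sum.inl i))) = 0)
    (hSR : ov φR φS = 0) :
    0 ≤ 1 / 2 ^ (pe0 k / 4) * ov φS φS + 2 * Hf S (fun β => (w β : ℝ)) y φS φR +
      Hf S (fun β => (w β : ℝ)) y φR φR - (eps0 S + Lam k / 2) * ov φR φR := by
  obtain ⟨hn, hKn⟩ := n_big k hk
  have hn1 : 1 ≤ pn k := by omega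
  have hn2 : 2 ≤ pn k := by omega
  have hρ := pρ_pos k
  have hρ2 : pρ k ≤ 1 / 2 ^ (8 * pn k ^ 2) := by
    unfold pρ
    refine one_div_le_one_div_of_le (by positivity) ?_
    exact pow_le_pow_right₀ (by norm_num) (by nlinarith only [])
  obtain ⟨φ1, φ2, hsplit, h1V, h2s, h2V, h2b, h2f⟩ := isolation (pn k) hn2 (pρ k) hρ hρ2 φR hRs
  have hSs := hSV.isShell hn1
  have h1s := h1V.isShell hn1
  have nS := hSs.nice hn1
  have nR := hRs.nice hn1
  have n1 := h1s.nice hn1
  have n2 := h2s.nice hn1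
  have n12 : Nice (φ1 + φ2) := by rw [← hsplit]; exact nR
  -- overlaps
  have hov1 : ∀ i : Fin (pK k), ov φ1 (S.B.χ (Sum.inr (Sum.inl i))) = 0 := by
    intro i
    have e1 := hort i
    rw [hsplit, bil_ov.add_left n1 n2 (nice_chi S _), h2V _ (S.inV hk i), add_zero] at e1
    exact e1
  have hov1fh : ∀ i ∈ range (pK k), ov φ1 (fh (pn k) (pα k i)) = 0 := by
    intro i hi
    obtain ⟨a, ha⟩ := S.fh_span hk ⟨i, Finset.mem_range.1 hi⟩
    simp only at ha
    rw [ha, bil_ov.sum_right univ a (fun i => S.B.χ (Sum.inr (Sum.inl i))) φ1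
      (fun i _ => nice_chi S _) n1]
    exact Finset.sum_eq_zero fun j _ => by rw [hov1 j, mul_zero]
  have hov21 : ov φ2 φ1 = 0 := h2V φ1 h1V
  have hov12 : ov φ1 φ2 = 0 := by rw [bil_ov.symm _ _ n1 n2]; exact hov21
  have hov2S : ov φ2 φS = 0 := h2V φS hSV
  have hov1S : ov φ1 φS = 0 := by
    rw [hsplit, bil_ov.add_left n1 n2 nS, hov2S, add_zero] at hSR
    exact hSR
  have hovR : ov φR φR = ov φ1 φ1 + ov φ2 φ2 := by
    rw [hsplit, bil_ov.add_left n1 n2 n12, bil_ov.add_right n1 n2 n1 n12,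
      bil_ov.add_right n1 n2 n2 n12, hov12, hov21]
    ring
  -- forms
  have hb := bil_bform (pρ k) hρ
  have hT := bil_Tf k
  have hH := bil_Hp k q s
  have hexSR := hex_eq k hk q s hSs hRs
  have hexRR := hex_eq k hk q s hRs hRs
  have hxr : ∀ {f g : R3 → ℝ}, InV (pn k) f → InV (pn k) g →
      bform (pρ k) f g = xr (pn k) (pρ k) * ov f g := fun hf hg =>
    bform_top (pn k) hn1 hf hg (pρ k) hρ
  have hbSR : bform (pρ k) φS φR = 0 := by
    rw [hsplit, hb.add_right n1 n2 nS n12, hxr hSV h1V, bil_ov.symm _ _ nS n1, hov1S, mul_zero,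
      hb.symm _ _ nS n2, h2b φS hSV, add_zero]
  have hbRR : xr (pn k) (pρ k) * ov φR φR +
      pρ k ^ (2 * pn k - 2) / 2 ^ (16 * pn k ^ 2) * ov φ2 φ2 ≤ bform (pρ k) φR φR := by
    have e1 : bform (pρ k) φR φR = bform (pρ k) φ1 φ1 + bform (pρ k) φ2 φ2 := by
      rw [hsplit, hb.add_left n1 n2 n12, hb.add_right n1 n2 n1 n12, hb.add_right n1 n2 n2 n12,
        hb.symm _ _ n1 n2, h2b φ1 h1V]
      ring
    rw [e1, hovR, hxr h1V h1V]
    linarith only [h2f]
  have hTSR : Tf k φS φR = Tf k φS φ2 := by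
    have e1 : Tf k φS φ1 = 0 := by
      rw [Tf_top k hk hSV h1V]
      refine Finset.sum_eq_zero fun i hi => ?_
      rw [hov1fh i hi, hSfh i]
      ring
    rw [hsplit, hT.add_right n1 n2 nS n12, e1, zero_add]
  have hTRR : Tf k φR φR = Tf k φ1 φ1 + 2 * Tf k φ1 φ2 + Tf k φ2 φ2 := by
    rw [hsplit, hT.add_left n1 n2 n12, hT.add_right n1 n2 n1 n12, hT.add_right n1 n2 n2 n12,
      hT.symm _ _ n2 n1]
    ring
  have hT11 : 0 ≤ Tf k φ1 φ1 := by
    rw [Tf_top k hk h1V h1V]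
    refine Finset.sum_nonneg fun i hi => ?_
    rw [hov1fh i hi]
    have h1 := zt_top k hk
    have h2 := (gam_bounds (pn k) hn2).1
    have h3 : (0 : ℝ) ≤ 1 / (8 * (pn k : ℝ)) := by (clear * - hn; positivity)
    have h4 := nf_pos (pn k) hn1
    have hL : 0 < pL k := by rw [(pe0_eq k hk).2]; positivity
    have h5 : 0 ≤ zt k (2 * (pn k - 1)) := by linarith only [h1]
    have h6 : 0 ≤ gam (pn k) := h3.trans h2
    have e : pL k * -(zt k (2 * (pn k - 1)) * gam (pn k) * (0 * 0 -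
        ov φ1 (gsite (pn k) (pα k i)) * ov φ1 (gsite (pn k) (pα k i)) / nf (pn k))) =
        pL k * (zt k (2 * (pn k - 1)) * gam (pn k) *
          (ov φ1 (gsite (pn k) (pα k i)) ^ 2 / nf (pn k))) := by ring
    rw [e]
    (clear * - hL h1 h6 h4; positivity)
  have hHSR : Hp k q s φS φR = Hp k q s φS φ1 + Hp k q s φS φ2 := by
    rw [hsplit, hH.add_right n1 n2 nS n12]
  have hHRR : Hp k q s φR φR = Hp k q s φ1 φ1 + 2 * Hp k q s φ1 φ2 + Hp k q s φ2 φ2 := by
    rw [hsplit, hH.add_left n1 n2 n12, hH.add_right n1 n2 n1 n12, hH.add_right n1 n2 n2 n12,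
      hH.symm _ _ n2 n1]
    ring
  -- square roots
  have pS := bd_ov_nonneg φS
  have pR := bd_ov_nonneg φR
  have p1 := bd_ov_nonneg φ1
  have p2 := bd_ov_nonneg φ2
  have sq : ∀ {f : R3 → ℝ}, 0 ≤ ov f f → Real.sqrt (ov f f) ^ 2 = ov f f :=
    fun h => Real.sq_sqrt h
  have sqm : ∀ {f g : R3 → ℝ}, 0 ≤ ov f f →
      Real.sqrt (ov f f * ov g g) = Real.sqrt (ov f f) * Real.sqrt (ov g g) :=
    fun h => Real.sqrt_mul h _
  have sqs : ∀ {f : R3 → ℝ}, 0 ≤ ov f f → Real.sqrt (ov f f * ov f f) = ov f f :=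
    fun h => Real.sqrt_mul_self h
  -- bounds
  have k1 := dev_crude k hk q hq s hs hSs h2s
  have k2 := hop_top k hk q hq s hs hSV h1V
  have k3 := dev_crude k hk q hq s hs h1s h2s
  have k4 := dev_crude k hk q hq s hs h2s h2s
  have k6 := hop_top k hk q hq s hs h1V h1V
  have k7 := rounding k hk q hq s hs w y H hn1 hn1 hSs hRs
  have k8 := rounding k hk q hq s hs w y H hn1 hn1 hRs hRs
  have hC : (Fintype.card C : ℝ) ≤ (pn k : ℝ) ^ 3 := by exact_mod_cast (S.card hk).2.1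
  have hmb : ∀ {f g : R3 → ℝ}, IsShell (pn k) f → IsShell (pn k) g →
      |mfield S.B f g| ≤ 12 * (pn k : ℝ) ^ 3 * Real.sqrt (ov f f * ov g g) := by
    intro f g hf hg
    refine (mfield_bound S.B f g hf hg hn1).trans ?_
    have := Real.sqrt_nonneg (ov f f * ov g g)
    (clear * - hC; gcongr)
  have k9 := hmb hSs hRs
  have k10 := hmb hRs hRs
  have hmf : mfield S.B (fh (pn k) 0) (fh (pn k) 0) ≤ 12 * (pn k : ℝ) ^ 3 := by
    have h1 := hmb ((fh_inV (pn k) hn1 0).isShell hn1) ((fh_inV (pn k) hn1 0).isShell hn1)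
    rw [ov_fh_self (pn k) hn2 0, mul_one, Real.sqrt_one, mul_one] at h1
    exact (le_abs_self _).trans h1
  rw [sqm pS] at k1 k2 k7 k9
  rw [sqm p1] at k3
  rw [sqs p2] at k4
  rw [sqs p1] at k6
  rw [sqs pR] at k8 k10
  obtain ⟨c1, c2, c3⟩ := numeric k hk (mfield S.B (fh (pn k) 0) (fh (pn k) 0)) (Lam k)
    (Lam_ge k hk) hmf
  have hW : 0 ≤ pW k := by unfold pW; positivity
  have hfin := real_ineq (Real.sqrt (ov φS φS)) (Real.sqrt (ov φR φR)) (Real.sqrt (ov φ1 φ1))
    (Real.sqrt (ov φ2 φ2)) (pW k) (xr (pn k) (pρ k)) (pρ k ^ (2 * pn k - 2) / 2 ^ (16 * pn k ^ 2))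
    (2 * (pn k : ℝ) ^ 7) (2 ^ (36 * pn k ^ 3)) (12 * (pn k : ℝ) ^ 3) (1 / 2 ^ (15 * pn k ^ 2))
    (1 / 2 ^ (pe0 k / 4)) (1 / (8 * 2 ^ (pe0 k / 4))) (mfield S.B (fh (pn k) 0) (fh (pn k) 0))
    (Lam k) (Tf k φS φ2 + Hp k q s φS φ2) (Hp k q s φS φ1) (Tf k φ1 φ2 + Hp k q s φ1 φ2)
    (Tf k φ2 φ2 + Hp k q s φ2 φ2) (Tf k φ1 φ1) (Hp k q s φ1 φ1)
    (∑ β, (w β : ℝ) * gm (y β) φS φR - hex k q s φS φR)
    (∑ β, (w β : ℝ) * gm (y β) φR φR - hex k q s φR φR)
    (mfield S.B φS φR) (mfield S.B φR φR) (bform (pρ k) φR φR)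
    (by rw [sq pR, sq p1, sq p2, hovR]) (by positivity) (by (clear * - hn; positivity)) (by positivity) hW
    k1 k2 k3 (by rw [sq p2]; exact k4) hT11 (by rw [sq p1]; exact k6) k7
    (by rw [sq pR]; exact k8) k9 (by rw [sq pR]; exact k10)
    (by rw [sq pR, sq p2]; exact hbRR) c1 c2 c3
  rw [sq pS, sq pR] at hfin
  have hexSR' : hex k q s φS φR = Tf k φS φ2 + (Hp k q s φS φ1 + Hp k q s φS φ2) := by
    rw [hexSR, hbSR, ← hHSR, ← hTSR]
    unfold Tf Hp
    ring
  have hexRR' : hex k q s φR φR = pW k * bform (pρ k) φR φR +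
      (Tf k φ1 φ1 + 2 * Tf k φ1 φ2 + Tf k φ2 φ2) +
      (Hp k q s φ1 φ1 + 2 * Hp k q s φ1 φ2 + Hp k q s φ2 φ2) := by
    rw [hexRR, ← hHRR, ← hTRR]
    rfl
  unfold Hf eps0
  rw [hexSR', hexRR'] at hfin
  linarith only [hfin]

end St7

variable {k : ℕ} {C R : Type} [Fintype C] [DecidableEq C] [Fintype R] [DecidableEq R]

open St7 in
/-- quadratic form of the one-body matrix -/
theorem hS_gap (hk : 10 ≤ k) (S : SiteB k C R) (q : ℕ → ℕ) (hq : GoodQ k q)
    (s : ℕ → ℕ → ℕ) (hs : GoodS k q s) (w : Fin (pD k * pD k) → ℕ)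
    (y : Fin (pD k * pD k) → R3) (H : Approx k q s w y) (x : Fin (pK k) ⊕ R → ℝ) :
    (∑ i, ∑ j, hS S (fun β => (w β : ℝ)) y (Sum.inl i) (Sum.inl j) * x (Sum.inl i) *
        x (Sum.inl j)) - 1 / 2 ^ (pe0 k / 4) * (∑ i, x (Sum.inl i) ^ 2) +
      (eps0 S + Lam k / 2) * (∑ r, x (Sum.inr r) ^ 2) ≤
        qf (hS S (fun β => (w β : ℝ)) y) x := by
  obtain ⟨hn, hKn⟩ := n_big k hk
  have hn1 : 1 ≤ pn k := by omega
  set W' : Fin (pD k * pD k) → ℝ := fun β => (w β : ℝ)
  set fS : Fin (pK k) → R3 → ℝ := fun i => S.B.χ (Sum.inr (Sum.inl i)) with hfS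
  set fR : R → R3 → ℝ := fun r => S.B.χ (Sum.inr (Sum.inr r)) with hfR
  set φS : R3 → ℝ := fun z => ∑ i, x (Sum.inl i) * fS i z with hφS
  set φR : R3 → ℝ := fun z => ∑ r, x (Sum.inr r) * fR r z with hφR
  have nS : ∀ i, Nice (fS i) := fun i => nice_chi S _
  have nR : ∀ r, Nice (fR r) := fun r => nice_chi S _
  have hB := bil_Hf S W' y
  have e1 : Hf S W' y φS φS = ∑ i, ∑ j, hS S W' y (Sum.inl i) (Sum.inl j) * x (Sum.inl i) *
      x (Sum.inl j) := hB.expand _ fS _ fS nS nS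
  have e2 : Hf S W' y φS φR = ∑ i, ∑ r, hS S W' y (Sum.inl i) (Sum.inr r) * x (Sum.inl i) *
      x (Sum.inr r) := hB.expand _ fS _ fR nS nR
  have e3 : Hf S W' y φR φS = ∑ r, ∑ i, hS S W' y (Sum.inr r) (Sum.inl i) * x (Sum.inr r) *
      x (Sum.inl i) := hB.expand _ fR _ fS nR nS
  have e4 : Hf S W' y φR φR = ∑ r, ∑ r', hS S W' y (Sum.inr r) (Sum.inr r') * x (Sum.inr r) *
      x (Sum.inr r') := hB.expand _ fR _ fR nR nR
  have NS : Nice φS := St7.nice_sum univ _ fS fun i _ => nS i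
  have NR : Nice φR := St7.nice_sum univ _ fR fun i _ => nR i
  have e5 : Hf S W' y φR φS = Hf S W' y φS φR := hB.symm _ _ NR NS
  have hqf : qf (hS S W' y) x = Hf S W' y φS φS + 2 * Hf S W' y φS φR + Hf S W' y φR φR := by
    unfold qf
    simp only [Fintype.sum_sum_type]
    rw [Finset.sum_add_distrib, Finset.sum_add_distrib, ← e1, ← e2, ← e3, ← e4, e5]
    ring
  have o1 : ov φS φS = ∑ i, x (Sum.inl i) ^ 2 := by
    rw [bil_ov.expand _ fS _ fS nS nS]
    refine Finset.sum_congr rfl fun i _ => ?_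
    rw [Finset.sum_eq_single i]
    · rw [hfS, ov_chi, if_pos rfl]
      ring
    · intro j _ hj
      rw [hfS, ov_chi, if_neg (fun h => hj (Sum.inl_injective h).symm)]
      ring
    · intro h
      exact absurd (Finset.mem_univ i) h
  have o2 : ov φR φR = ∑ r, x (Sum.inr r) ^ 2 := by
    rw [bil_ov.expand _ fR _ fR nR nR]
    refine Finset.sum_congr rfl fun i _ => ?_
    rw [Finset.sum_eq_single i]
    · rw [hfR, ov_chi, if_pos rfl]
      ring
    · intro j _ hj
      rw [hfR, ov_chi, if_neg (fun h => hj (Sum.inr_injective h).symm)]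
      ring
    · intro h
      exact absurd (Finset.mem_univ i) h
  have o3 : ov φR φS = 0 := by
    rw [bil_ov.expand _ fR _ fS nR nS]
    refine Finset.sum_eq_zero fun r _ => Finset.sum_eq_zero fun i _ => ?_
    rw [hfS, hfR, ov_chi, if_neg (by simp)]
    ring
  have o4 : ∀ i : Fin (pK k), ov φR (S.B.χ (Sum.inr (Sum.inl i))) = 0 := by
    intro i
    rw [bil_ov.sum R univ _ fR _ (fun r _ => nR r) (nice_chi S _)]
    refine Finset.sum_eq_zero fun r _ => ?_
    rw [hfR, ov_chi, if_neg (by simp)]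
    ring
  have o5 : ∀ i : ℕ, ov φS (gsite (pn k) (pα k i)) = 0 := by
    intro i
    have ng : Nice (gsite (pn k) (pα k i)) := nice_gsite hn1 _
    rw [bil_ov.sum _ univ _ fS _ (fun r _ => nS r) ng]
    refine Finset.sum_eq_zero fun j _ => ?_
    have h1 : ov (fS j) (gsite (pn k) (pα k i)) = 0 := by
      have h2 : fS j = fun z => ∑ l, S.Cm j l * fh (pn k) (pα k l) z := S.chi j
      rw [h2, bil_ov.sum _ univ _ (fun l : Fin (pK k) => fh (pn k) (pα k l)) _
        (fun l _ => ((fh_inV (pn k) hn1 _).isShell hn1).nice hn1) ng]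
      refine Finset.sum_eq_zero fun l _ => ?_
      have h3 : ov (fh (pn k) (pα k l)) (gsite (pn k) (pα k i)) = 0 := by
        have h4 : fh (pn k) (pα k l) = fun z => ∑ _u : Fin 1, (1 / Real.sqrt (nf (pn k))) *
            fsite (pn k) (pα k l) z := by
          funext z
          simp only [fh, Finset.univ_unique, Finset.sum_const, Finset.card_singleton, one_smul]
          ring
        rw [h4, bil_ov.sum (Fin 1) univ (fun _ => 1 / Real.sqrt (nf (pn k)))
          (fun _ => fsite (pn k) (pα k l)) _ (fun _ _ => nice_fsite hn1 _) ng]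
        simp [site_ov_fg (pn k) (by omega)]
      rw [h3, mul_zero]
    rw [h1, mul_zero]
  have hSV : InV (pn k) φS := inV_sum univ _ fS fun i _ => S.inV hk i
  have hRs : IsShell (pn k) φR := isShell_sum hn1 univ _ fR fun r _ => shell_chi S _
  have hcore := gap_core hk S q hq s hs w y H φS φR hSV hRs o5 o4 o3
  rw [hqf, ← e1, ← o1, ← o2]
  linarith only [hcore]

theorem hS_symm (S : SiteB k C R) {m : ℕ} (w : Fin m → ℝ) (y : Fin m → R3)
    (p o : Fin (pK k) ⊕ R) : hS S w y p o = hS S w y o p := by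
  rw [St7.hS_eq, St7.hS_eq]
  exact (St7.bil_Hf S w y).symm _ _ (St7.nice_chi S _) (St7.nice_chi S _)

end Vale.Agent.P370.Q
end
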