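import Vale.Agent.P370.MathlibUsed
import Vale.Agent.P370.Bdl.B5
import Vale.Agent.P370.Bdl.B9
import Vale.Agent.P370.Bdl.B7
import Vale.Agent.P370.Bdl.B4
import Vale.Agent.P370.Bdl.B2
import Vale.Agent.P370.Bdl.B12
import Vale.Agent.P370.Bdl.B1
import Vale.Agent.P370.Bdl.B8
import Vale.Agent.P370.Bdl.B10

set_option linter.all false

section

/-!
Solid Legendre polynomials are harmonic; harmonic polynomials are determined by their values on
the null vectors `av α`; the addition theorem.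
-/

namespace Vale.Agent.P370.KC

open MeasureTheory Finset ComplexConjugate MvPolynomial Vale.Agent.P370.Q Vale.Agent.P370.Hyd

theorem pl_C_two : (C 2 : Pl) = 2 := by
  rw [show (2 : ℝ) = ((2 : ℕ) : ℝ) by norm_num, map_natCast]; norm_num

theorem lapP_ylin_mul (y : R3) (P : Pl) :
    lapP (ylin y * P) = ylin y * lapP P + 2 * yd y P := by
  unfold lapP yd
  rw [Finset.mul_sum, Finset.mul_sum, ← Finset.sum_add_distrib]
  refine Finset.sum_congr rfl fun k _ => ?_
  rw [Derivation.leibniz, map_add]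
  simp only [smul_eq_mul]
  rw [Derivation.leibniz, Derivation.leibniz, pderiv_ylin, pderiv_C]
  simp only [smul_eq_mul]
  ring

theorem lapP_C_mul (a : ℝ) (P : Pl) : lapP (C a * P) = C a * lapP P := by
  unfold lapP
  rw [Finset.mul_sum]
  refine Finset.sum_congr rfl fun k _ => ?_
  rw [Derivation.leibniz, pderiv_C, smul_zero, add_zero, smul_eq_mul, Derivation.leibniz, pderiv_C,
    smul_zero, add_zero, smul_eq_mul]

theorem lapP_sub (P Q : Pl) : lapP (P - Q) = lapP P - lapP Q := by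
  unfold lapP
  rw [← Finset.sum_sub_distrib]
  refine Finset.sum_congr rfl fun k _ => ?_
  rw [map_sub, map_sub]

theorem lapP_zonP (y : R3) (l : ℕ) : lapP (zonP y l) = 0 := by
  induction l using Nat.twoStepInduction with
  | zero =>
    rw [zonP_zero]
    unfold lapP
    refine Finset.sum_eq_zero fun k _ => ?_
    rw [show (1 : Pl) = C 1 by rw [C_1], pderiv_C, map_zero]
  | one =>
    rw [zonP_one]
    unfold lapP
    refine Finset.sum_eq_zero fun k _ => ?_
    rw [pderiv_ylin, pderiv_C]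
  | more n ih0 ih1 =>
    rw [zonP_succ, lapP_C_mul, lapP_sub, lapP_C_mul, lapP_C_mul, lapP_ylin_mul,
      lapP_nsq_mul (zonP_hom y n), ih0, ih1, yd_zonP, mul_zero, mul_zero, zero_add, add_zero]
    have h1 : (C (2 * (n : ℝ) + 3) : Pl) * 2 * C (((n : ℝ) + 1) * ‖y‖ ^ 2) =
        C (((n : ℝ) + 1) * ‖y‖ ^ 2) * C (4 * (n : ℝ) + 6) := by
      rw [← pl_C_two, ← C_mul, ← C_mul, ← C_mul]
      congr 1
      ring
    linear_combination (C (1 / ((n : ℝ) + 2)) * zonP y n) * h1

theorem zonP_mem (y : R3) (l : ℕ) : zonP y l ∈ Hyd.Harm l :=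
  mem_Harm.2 ⟨zonP_hom y l, lapP_zonP y l⟩

/-! ### values on null vectors -/

theorem pc_mul (P P' : Poly3) (c : C3) : pc (P * P') c = pc P c * pc P' c := by
  unfold pc; simp

theorem pc_C (a : ℝ) (c : C3) : pc (C a) c = a := by
  unfold pc; simp

theorem pc_sub (P P' : Poly3) (c : C3) : pc (P - P') c = pc P c - pc P' c := by
  unfold pc; simp

theorem pc_ylin (y : R3) (c : C3) : pc (ylin y) c = cdot c y := by
  unfold pc ylin cdot
  simp only [eval₂_sum, eval₂_mul, eval₂_C, eval₂_X]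
  refine Finset.sum_congr rfl fun k _ => ?_
  rw [mul_comm]
  rfl

theorem pc_nsq (c : C3) (hc : cc c c = 0) : pc nsq c = 0 := by
  rw [← hc]
  unfold pc Hyd.nsq cc
  simp only [eval₂_sum, eval₂_pow, eval₂_X]
  refine Finset.sum_congr rfl fun k _ => ?_
  ring

theorem Am_succ (m : ℕ) : (2 * (m : ℝ) + 3) * Am (m + 1) = ((m : ℝ) + 1) * Am m := by
  unfold Am
  have h1 : ((2 * (m + 1) + 1).factorial : ℝ) = (2 * m + 3) * ((2 * m + 2) *
      ((2 * m + 1).factorial : ℝ)) := by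
    rw [show 2 * (m + 1) + 1 = (2 * m + 2) + 1 by ring, Nat.factorial_succ,
      show 2 * m + 2 = (2 * m + 1) + 1 by ring, Nat.factorial_succ]
    push_cast
    ring
  rw [h1, Nat.factorial_succ]
  have h2 : ((2 * m + 1).factorial : ℝ) ≠ 0 := by positivity
  have h3 : (2 * (m : ℝ) + 3) ≠ 0 := by positivity
  have h4 : (2 * (m : ℝ) + 2) ≠ 0 := by positivity
  push_cast
  field_simp
  ring

theorem Am_zero : Am 0 = 1 := by
  unfold Am
  simp

theorem pc_zonP (y : R3) (c : C3) (hc : cc c c = 0) (l : ℕ) :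
    (((2 * (l : ℝ) + 1) * Am l : ℝ) : ℂ) * pc (zonP y l) c = cdot c y ^ l := by
  induction l using Nat.twoStepInduction with
  | zero =>
    rw [zonP_zero, Am_zero, show (1 : Pl) = C 1 by rw [C_1], pc_C]
    simp
  | one =>
    rw [zonP_one, pc_ylin]
    have := Am_succ 0
    rw [Am_zero] at this
    norm_num at this
    have h1 : Am 1 = 1 / 3 := by linarith
    rw [h1]
    push_cast
    ring
  | more n ih0 ih1 =>
    rw [zonP_succ, pc_mul, pc_sub, pc_mul, pc_mul, pc_mul, pc_mul, pc_ylin, pc_nsq c hc, pc_C,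
      pc_C, pc_C, zero_mul, mul_zero, sub_zero, pow_succ, ← ih1]
    have h1 := Am_succ (n + 1)
    have h2 : ((n : ℝ) + 2) ≠ 0 := by positivity
    have h3 : (2 * (((n + 2 : ℕ) : ℝ)) + 1) * Am (n + 2) * (1 / ((n : ℝ) + 2)) = Am (n + 1) := by
      push_cast at h1 ⊢
      field_simp
      linarith
    have h4 : (((2 * (((n + 2 : ℕ) : ℝ)) + 1) * Am (n + 2) * (1 / ((n : ℝ) + 2)) : ℝ) : ℂ) =
        ((Am (n + 1) : ℝ) : ℂ) := by rw [h3]
    push_cast at h4 ⊢
    linear_combination ((2 * (n : ℂ) + 3) * (cdot c y * pc (zonP y (n + 1)) c)) * h4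

/-! ### division by `nsq` -/

theorem div_nsq (P : Pl) : ∃ (Q : Pl) (A B : MvPolynomial (Fin 2) ℝ),
    P = nsq * Q + rename Fin.castSucc A + X 2 * rename Fin.castSucc B := by
  induction P using MvPolynomial.induction_on with
  | C a => exact ⟨0, C a, 0, by simp⟩
  | add p q hp hq =>
    obtain ⟨Q, A, B, rfl⟩ := hp
    obtain ⟨Q', A', B', rfl⟩ := hq
    exact ⟨Q + Q', A + A', B + B', by rw [map_add, map_add]; ring⟩
  | mul_X p i hp =>
    obtain ⟨Q, A, B, rfl⟩ := hp
    have h0 : (rename Fin.castSucc (X 0 : MvPolynomial (Fin 2) ℝ) : Pl) = X 0 := by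
      rw [rename_X]; rfl
    have h1 : (rename Fin.castSucc (X 1 : MvPolynomial (Fin 2) ℝ) : Pl) = X 1 := by
      rw [rename_X]; rfl
    have hn : nsq = X 0 ^ 2 + X 1 ^ 2 + X 2 ^ 2 := by
      unfold Hyd.nsq
      rw [Fin.sum_univ_three]
    fin_cases i
    · refine ⟨Q * X 0, A * X 0, B * X 0, ?_⟩
      simp only [map_mul, h0]
      simp only [Fin.zero_eta, Fin.isValue]
      ring
    · refine ⟨Q * X 1, A * X 1, B * X 1, ?_⟩
      simp only [map_mul, h1]
      simp only [Fin.mk_one, Fin.isValue]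
      ring
    · refine ⟨Q * X 2 + rename Fin.castSucc B, -(B * (X 0 ^ 2 + X 1 ^ 2)), A, ?_⟩
      simp only [map_mul, map_neg, map_add, map_pow, h0, h1]
      simp only [Fin.reduceFinMk]
      rw [hn]
      ring

theorem pc_add (P P' : Poly3) (c : C3) : pc (P + P') c = pc P c + pc P' c := by
  unfold pc; simp

theorem pc_smul_av {l : ℕ} {P : Pl} (hP : P.IsHomogeneous l) (t : ℂ) (c : C3) :
    pc P (fun k => t * c k) = t ^ l * pc P c := by
  unfold pc
  rw [eval₂_eq', eval₂_eq', Finset.mul_sum]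
  refine Finset.sum_congr rfl fun d hd => ?_
  have h1 : d.degree = l := by
    by_contra hcon
    exact (mem_support_iff.1 hd) (hP.coeff_eq_zero hcon)
  have h2 : ∏ i, (t * c i) ^ d i = t ^ l * ∏ i, c i ^ d i := by
    simp only [mul_pow, Finset.prod_mul_distrib]
    rw [Finset.prod_pow_eq_pow_sum, ← h1, Finsupp.degree_eq_sum]
  rw [h2]
  ring

/-- a real polynomial in two variables vanishing on `i ℝ × i ℝ` -/
theorem two_zero {A : MvPolynomial (Fin 2) ℝ}
    (h : ∀ x y : ℝ, eval₂ (algebraMap ℝ ℂ) ![Complex.I * x, Complex.I * y] A = 0) : A = 0 := by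
  apply MvPolynomial.map_injective (algebraMap ℝ ℂ) (algebraMap ℝ ℂ).injective
  rw [map_zero]
  refine MvPolynomial.funext_set (fun _ => Set.range (fun t : ℝ => Complex.I * (t : ℂ))) ?_ ?_
  · intro _
    refine Set.infinite_range_of_injective fun a b hab => ?_
    exact Complex.ofReal_injective (mul_left_cancel₀ Complex.I_ne_zero hab)
  · intro x hx
    have hx' : ∀ i, ∃ t : ℝ, Complex.I * (t : ℂ) = x i := fun i => hx i (Set.mem_univ i)
    choose w hw using hx'
    rw [map_zero, eval_map, ← h (w 0) (w 1)]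
    congr 1
    funext i
    rw [← hw i]
    fin_cases i <;> rfl

/-- a homogeneous polynomial vanishing on the null vectors `av α` is divisible by `nsq` -/
theorem null_div {l : ℕ} {P : Pl} (hP : P.IsHomogeneous l) (h : ∀ α : ℝ, pc P (av α) = 0) :
    ∃ Q, P = nsq * Q := by
  obtain ⟨Q, A, B, hPQ⟩ := div_nsq P
  have hval : ∀ (t α : ℝ), eval₂ (algebraMap ℝ ℂ)
      ![Complex.I * ((t * Real.cos α : ℝ) : ℂ), Complex.I * ((t * Real.sin α : ℝ) : ℂ)] A +
      (t : ℂ) * eval₂ (algebraMap ℝ ℂ)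
      ![Complex.I * ((t * Real.cos α : ℝ) : ℂ), Complex.I * ((t * Real.sin α : ℝ) : ℂ)] B = 0 := by
    intro t α
    have h1 : pc P (fun k => (t : ℂ) * av α k) = 0 := by
      rw [pc_smul_av hP, h, mul_zero]
    have hnull : cc (fun k => (t : ℂ) * av α k) (fun k => (t : ℂ) * av α k) = 0 := by
      have h2 := c1_null α
      unfold cc at h2 ⊢
      have h3 : ∑ k, (t : ℂ) * av α k * ((t : ℂ) * av α k) =
          (t : ℂ) ^ 2 * ∑ k, av α k * av α k := by
        rw [Finset.mul_sum]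
        refine Finset.sum_congr rfl fun k _ => ?_
        ring
      rw [h3, h2, mul_zero]
    have hcomp : ((fun k => (t : ℂ) * av α k) ∘ Fin.castSucc : Fin 2 → ℂ) =
        ![Complex.I * ((t * Real.cos α : ℝ) : ℂ), Complex.I * ((t * Real.sin α : ℝ) : ℂ)] := by
      funext i
      fin_cases i
      · simp [av]
        ring
      · simp [av]
        ring
    rw [hPQ, pc_add, pc_add, pc_mul, pc_mul, pc_nsq _ hnull, zero_mul, zero_add] at h1
    unfold pc at h1
    rw [eval₂_rename, eval₂_rename, hcomp, eval₂_X] at h1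
    have h4 : (t : ℂ) * av α 2 = t := by simp [av]
    rw [h4] at h1
    exact h1
  have hboth : ∀ x y : ℝ, eval₂ (algebraMap ℝ ℂ) ![Complex.I * x, Complex.I * y] A = 0 ∧
      ((Real.sqrt (x ^ 2 + y ^ 2) : ℝ) : ℂ) *
        eval₂ (algebraMap ℝ ℂ) ![Complex.I * x, Complex.I * y] B = 0 := by
    intro x y
    obtain ⟨t, ht⟩ : ∃ t : ℝ, t = Real.sqrt (x ^ 2 + y ^ 2) := ⟨_, rfl⟩
    have hz : ‖(⟨x, y⟩ : ℂ)‖ = t := by
      rw [ht, Complex.norm_eq_sqrt_sq_add_sq]
    have hx : t * Real.cos (Complex.arg ⟨x, y⟩) = x := by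
      rw [← hz, Complex.norm_mul_cos_arg]
    have hy : t * Real.sin (Complex.arg ⟨x, y⟩) = y := by
      rw [← hz, Complex.norm_mul_sin_arg]
    have h1 := hval t (Complex.arg ⟨x, y⟩)
    have h2 := hval (-t) (Complex.arg ⟨x, y⟩ + Real.pi)
    rw [hx, hy] at h1
    rw [Real.cos_add_pi, Real.sin_add_pi, neg_mul_neg, neg_mul_neg, hx, hy] at h2
    rw [← ht]
    push_cast at h2
    constructor
    · linear_combination (h1 + h2) / 2
    · linear_combination (h1 - h2) / 2
  have hA : A = 0 := two_zero fun x y => (hboth x y).1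
  have hB : B = 0 := by
    have h1 : (X 0 ^ 2 + X 1 ^ 2 : MvPolynomial (Fin 2) ℝ) * B = 0 := by
      refine two_zero fun x y => ?_
      have h2 := (hboth x y).2
      rw [eval₂_mul]
      simp only [eval₂_add, eval₂_pow, eval₂_X, Matrix.cons_val_zero, Matrix.cons_val_one]
      have h3 : ((Real.sqrt (x ^ 2 + y ^ 2) : ℝ) : ℂ) ^ 2 = (x : ℂ) ^ 2 + (y : ℂ) ^ 2 := by
        rw [← Complex.ofReal_pow, Real.sq_sqrt (by positivity)]
        push_cast
        ring
      have h4 : (Complex.I * (x : ℂ)) ^ 2 + (Complex.I * (y : ℂ)) ^ 2 =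
          -(((Real.sqrt (x ^ 2 + y ^ 2) : ℝ) : ℂ) ^ 2) := by
        rw [h3, mul_pow, mul_pow, Complex.I_sq]
        ring
      rw [h4]
      linear_combination (-((Real.sqrt (x ^ 2 + y ^ 2) : ℝ) : ℂ)) * h2
    rcases mul_eq_zero.1 h1 with h2 | h2
    · exfalso
      have h3 := congrArg (MvPolynomial.eval (fun _ : Fin 2 => (1 : ℝ))) h2
      simp at h3
    · exact h2
  refine ⟨Q, ?_⟩
  rw [hA, hB] at hPQ
  rw [hPQ]
  simp

theorem harm_null_zero {l : ℕ} {P : Pl} (hP : P ∈ Hyd.Harm l) (h : ∀ α : ℝ, pc P (av α) = 0) :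
    P = 0 := by
  obtain ⟨Q, hQ⟩ := null_div (mem_Harm.1 hP).1 h
  exact harm_nsq_zero hP hQ

end Vale.Agent.P370.KC
end

section

/-!
The addition theorem and the explicit kernel of a shell.
-/

namespace Vale.Agent.P370.KC

open MeasureTheory Finset ComplexConjugate MvPolynomial Vale.Agent.P370.Q Vale.Agent.P370.Hyd

/-- the two sphere integrals -/
theorem hsph_eq (P P' : Pl) :
    Hyd.sph P P' = 4 * Real.pi * Vale.Agent.P370.Q.sph (fun u => pe P u * pe P' u) := by
  have hc : Continuous fun u : R3 => pe P u * pe P' u :=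
    (continuous_pe' P).mul (continuous_pe' P')
  rw [sph_eq_toSphere _ hc.continuousOn]
  unfold Hyd.sph
  rw [smul_eq_mul, ← mul_assoc, mul_one_div_cancel (by positivity), one_mul]
  rfl

variable {p : (l : ℕ) → Fin (2 * l + 1) → Pl}

theorem harm_expand (hp : HarmFam p) {l : ℕ} {h : Pl} (hh : h ∈ Hyd.Harm l) :
    h = ∑ i, Hyd.sph (p l i) h • p l i := by
  let f : Fin (2 * l + 1) → Hyd.Harm l := fun i => ⟨p l i, hp.mem l i⟩
  let v : Hyd.Harm l := ⟨h, hh⟩ - ∑ i, Hyd.sph (p l i) h • f i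
  have hB : ∀ a b : Hyd.Harm l, (sphB.domRestrict₁₂ (Hyd.Harm l) (Hyd.Harm l)) a b =
      Hyd.sph a.1 b.1 := fun a b => rfl
  have hv : v = 0 := by
    refine orthonormal_complete (sphB.domRestrict₁₂ (Hyd.Harm l) (Hyd.Harm l)) f
      (fun i j => by rw [hB]; exact hp.orth l i j) ?_ fun i => ?_
    · rw [finrank_Harm, Fintype.card_fin]
    · show (sphB.domRestrict₁₂ (Hyd.Harm l) (Hyd.Harm l)) (f i)
        (⟨h, hh⟩ - ∑ j, Hyd.sph (p l j) h • f j) = 0
      rw [map_sub, map_sum, Finset.sum_eq_single i]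
      · rw [map_smul, hB, hB]
        show Hyd.sph (p l i) h - Hyd.sph (p l i) h • Hyd.sph (p l i) (p l i) = 0
        rw [hp.orth, if_pos rfl, smul_eq_mul, mul_one, sub_self]
      · intro b _ hb
        rw [map_smul, hB]
        show Hyd.sph (p l b) h • Hyd.sph (p l i) (p l b) = 0
        rw [hp.orth, if_neg hb.symm, smul_zero]
      · intro h'
        exact absurd (Finset.mem_univ i) h'
  have h1 := congrArg (Submodule.subtype (Hyd.Harm l)) hv
  rw [map_sub, map_sum, map_zero, sub_eq_zero] at h1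
  exact h1

theorem hsph_null (l : ℕ) (α : ℝ) {P : Pl} (hP : P ∈ Hyd.Harm l) :
    Hyd.sph P (c1A α l) = 4 * Real.pi * (Am l * (pc P (av α)).re) ∧
    Hyd.sph P (c1B α l) = 4 * Real.pi * (Am l * (pc P (av α)).im) := by
  have hcont : Continuous (fun u : R3 => cdot (av α) u ^ l * (pe P u : ℂ)) :=
    ((continuous_cdot' _).pow _).mul (Complex.continuous_ofReal.comp (continuous_pe' P))
  have hE := sph_eval (av α) (c1_null α) l P (mem_Harm.1 hP).1
  constructor
  · rw [hsph_eq]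
    congr 1
    have h1 : Vale.Agent.P370.Q.sph (fun u => pe P u * pe (c1A α l) u) =
        Vale.Agent.P370.Q.sph (fun u => (cdot (av α) u ^ l * (pe P u : ℂ)).re) := by
      refine sph_congr fun u _ => ?_
      rw [(c1_pe α l u).1, Complex.mul_re, Complex.ofReal_re, Complex.ofReal_im]
      ring
    rw [h1, sph_re _ hcont, hE, Complex.mul_re, Complex.ofReal_re, Complex.ofReal_im]
    ring
  · rw [hsph_eq]
    congr 1
    have h1 : Vale.Agent.P370.Q.sph (fun u => pe P u * pe (c1B α l) u) =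
        Vale.Agent.P370.Q.sph (fun u => (cdot (av α) u ^ l * (pe P u : ℂ)).im) := by
      refine sph_congr fun u _ => ?_
      rw [(c1_pe α l u).2, Complex.mul_im, Complex.ofReal_re, Complex.ofReal_im]
      ring
    rw [h1, sph_im _ hcont, hE, Complex.mul_im, Complex.ofReal_re, Complex.ofReal_im]
    ring

theorem pc_sum {ι : Type*} (s : Finset ι) (f : ι → Poly3) (c : C3) :
    pc (∑ i ∈ s, f i) c = ∑ i ∈ s, pc (f i) c := by
  unfold pc
  exact eval₂_sum _ _ _ _

theorem Am_pos (l : ℕ) : 0 < Am l := by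
  unfold Am
  positivity

/-- **Addition theorem** for orthonormal families of harmonic polynomials. -/
theorem addition_thm (hp : HarmFam p) (l : ℕ) (x y : R3) :
    ∑ i, ev (p l i) x * ev (p l i) y = (2 * (l : ℝ) + 1) / (4 * Real.pi) * zon l x y := by
  let K : Pl := ∑ i, C (ev (p l i) y) * p l i
  have hK : K ∈ Hyd.Harm l := by
    refine Submodule.sum_mem _ fun i _ => ?_
    rw [← smul_eq_C_mul]
    exact Submodule.smul_mem _ _ (hp.mem l i)
  let D : Pl := C (4 * Real.pi / (2 * (l : ℝ) + 1)) * K - zonP y l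
  have hD : D ∈ Hyd.Harm l := by
    refine Submodule.sub_mem _ ?_ (zonP_mem y l)
    rw [← smul_eq_C_mul]
    exact Submodule.smul_mem _ _ hK
  have hpcK : ∀ α : ℝ, ((4 * Real.pi * Am l : ℝ) : ℂ) * pc K (av α) = cdot (av α) y ^ l := by
    intro α
    have hA := harm_expand hp (mem_Harm.2 (c1_harm α l).1)
    have hB := harm_expand hp (mem_Harm.2 (c1_harm α l).2)
    have hA1 : pe (c1A α l) y = ∑ i, (4 * Real.pi * (Am l * (pc (p l i) (av α)).re)) *
        ev (p l i) y := by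
      conv_lhs => rw [hA]
      rw [pe_eq]
      unfold ev
      rw [map_sum]
      refine Finset.sum_congr rfl fun i _ => ?_
      rw [smul_eval, (hsph_null l α (hp.mem l i)).1]
    have hB1 : pe (c1B α l) y = ∑ i, (4 * Real.pi * (Am l * (pc (p l i) (av α)).im)) *
        ev (p l i) y := by
      conv_lhs => rw [hB]
      rw [pe_eq]
      unfold ev
      rw [map_sum]
      refine Finset.sum_congr rfl fun i _ => ?_
      rw [smul_eval, (hsph_null l α (hp.mem l i)).2]
    have h1 : cdot (av α) y ^ l = ((pe (c1A α l) y : ℝ) : ℂ) +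
        ((pe (c1B α l) y : ℝ) : ℂ) * Complex.I := by
      rw [(c1_pe α l y).1, (c1_pe α l y).2, Complex.re_add_im]
    rw [h1, hA1, hB1, pc_sum, Finset.mul_sum]
    push_cast
    rw [Finset.sum_mul, ← Finset.sum_add_distrib]
    refine Finset.sum_congr rfl fun i _ => ?_
    rw [pc_mul, pc_C]
    conv_lhs => rw [← Complex.re_add_im (pc (p l i) (av α))]
    ring
  have hD0 : D = 0 := by
    refine harm_null_zero hD fun α => ?_
    have h2 : (((2 * (l : ℝ) + 1) * Am l : ℝ) : ℂ) ≠ 0 := by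
      rw [Complex.ofReal_ne_zero]
      exact (mul_pos (by positivity) (Am_pos l)).ne'
    refine (mul_eq_zero.1 (?_ : (((2 * (l : ℝ) + 1) * Am l : ℝ) : ℂ) * pc D (av α) = 0)).resolve_left h2
    rw [pc_sub, pc_mul, pc_C, mul_sub, pc_zonP y (av α) (c1_null α) l, ← hpcK α, ← mul_assoc,
      ← Complex.ofReal_mul]
    have h3 : (2 * (l : ℝ) + 1) * Am l * (4 * Real.pi / (2 * (l : ℝ) + 1)) =
        4 * Real.pi * Am l := by
      have : (2 * (l : ℝ) + 1) ≠ 0 := by positivity
      field_simp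
    rw [h3, sub_self]
  have h4 : C (4 * Real.pi / (2 * (l : ℝ) + 1)) * K = zonP y l := sub_eq_zero.1 hD0
  have h5 : ev (C (4 * Real.pi / (2 * (l : ℝ) + 1)) * K) x = ev (zonP y l) x := by rw [h4]
  rw [ev_mul, ev_C, ev_zonP] at h5
  have h6 : ev K x = ∑ i, ev (p l i) x * ev (p l i) y := by
    show MvPolynomial.eval _ (∑ i, C (ev (p l i) y) * p l i) = _
    rw [map_sum]
    refine Finset.sum_congr rfl fun i _ => ?_
    rw [map_mul, eval_C, mul_comm]
    rfl
  rw [← h6, ← h5]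
  have : (2 * (l : ℝ) + 1) ≠ 0 := by positivity
  have hpi := Real.pi_ne_zero
  field_simp

/-! ### the explicit basis -/

theorem gS_isShell {k l : ℕ} (hl : l ≤ k) {h : Pl} (hh : h ∈ Hyd.Harm l) :
    IsShell (k + 1) (gS k l h).1.1 := by
  refine (isShell_iff (Nat.succ_pos k)).2 ⟨zf (Hyd.kap k) l (k + 1 - l) h, ?_, ?_⟩
  · rw [mem_Eig]
    have h1 : (1 / ((k + 1 : ℕ) : ℝ)) = Hyd.kap k := by
      unfold Hyd.kap
      push_cast
      rfl
    rw [h1]
    refine ⟨?_, TL_zf' hl hh⟩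
    unfold zf
    refine Submodule.sum_mem _ fun j hj => Submodule.smul_mem _ _ ?_
    rw [Finset.mem_range] at hj
    have hhom := (mem_Harm.1 hh).1
    unfold pw E
    rw [Submodule.mem_prod]
    by_cases he : Even j
    · rw [if_pos he]
      obtain ⟨i, rfl⟩ := he
      have e1 : (i + i) / 2 = i := by omega
      refine ⟨?_, Submodule.zero_mem _⟩
      rw [e1]
      exact isHomogeneous_mem_lt (isHomogeneous_nsq_pow_mul hhom i) (by omega)
    · rw [if_neg he]
      obtain ⟨i, rfl⟩ := Nat.not_even_iff_odd.1 he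
      have e1 : (2 * i + 1) / 2 = i := by omega
      refine ⟨Submodule.zero_mem _, ?_⟩
      rw [e1]
      exact isHomogeneous_mem_lt (isHomogeneous_nsq_pow_mul hhom i) (by omega)
  · have h1 : (1 / ((k + 1 : ℕ) : ℝ)) = Hyd.kap k := by
      unfold Hyd.kap
      push_cast
      rfl
    rw [h1]
    rfl

/-- the explicit shell basis -/
noncomputable def orbBasis (hp : HarmFam p) (n : ℕ) : ShellBasis n (Orb n) where
  χ a := (orb p a).1.1
  lev a := a.1.1 + 1
  lev_pos _ := Nat.succ_pos _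
  lev_le a := a.1.2
  mem a := by
    have h1 := gS_isShell (k := a.1) (l := a.2.1) (by omega) (hp.mem a.2.1 a.2.2)
    obtain ⟨z, hz, hz2⟩ := (isShell_iff (Nat.succ_pos _)).1 h1
    refine (isShell_iff (Nat.succ_pos _)).2 ⟨(Real.sqrt (radN a.1 a.2.1))⁻¹ • z,
      Submodule.smul_mem _ _ hz, ?_⟩
    have h2 : (orb p a).1.1 = fun x => (Real.sqrt (radN a.1 a.2.1))⁻¹ *
        (gS a.1 a.2.1 (p a.2.1 a.2.2)).1.1 x := rfl
    rw [h2, hz2]
    funext x
    unfold xp
    simp only [Prod.smul_fst, Prod.smul_snd]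
    have e3 : ∀ (c : ℝ) (P : Pl), ev (c • P) x = c * ev P x := fun c P => by
      simp [ev, smul_eval]
    rw [e3, e3]
    ring
  ortho a b := orb_orth hp a b
  card k hk1 hk := by
    rw [Finset.card_filter, Fintype.sum_sigma, Finset.sum_eq_single (⟨k - 1, by omega⟩ : Fin n)]
    · have h1 : k - 1 + 1 = k := by omega
      simp only [h1, if_true]
      rw [Finset.sum_const, Finset.card_univ, Fintype.card_sigma, smul_eq_mul, mul_one]
      simp only [Fintype.card_fin]
      rw [h1, Fin.sum_univ_eq_sum_range (fun l => 2 * l + 1)]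
      have : ∀ k : ℕ, ∑ l ∈ Finset.range k, (2 * l + 1) = k ^ 2 := by
        intro k
        induction k with
        | zero => simp
        | succ k ih =>
          rw [Finset.sum_range_succ, ih]
          ring
      exact this k
    · intro b _ hb
      refine Finset.sum_eq_zero fun x _ => ?_
      rw [if_neg]
      intro h
      apply hb
      refine Fin.ext ?_
      show b.1 = k - 1
      have : b.1 + 1 = k := h
      omega
    · intro h
      exact absurd (Finset.mem_univ _) h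

theorem ov_symm (f g : R3 → ℝ) : ov f g = ov g f := by
  unfold ov
  simp only [mul_comm]

/-- the kernel of a shell does not depend on the basis -/
theorem kernel_indep {n n' : ℕ} (hn : 1 ≤ n) (hn' : 1 ≤ n') {A A' : Type} [Fintype A]
    [DecidableEq A] [Fintype A'] [DecidableEq A'] (B : ShellBasis n A) (B' : ShellBasis n' A')
    {k : ℕ} (hk : 1 ≤ k) (hkn : k ≤ n) (hkn' : k ≤ n') (x y : R3) :
    ∑ a ∈ univ.filter (fun a => B.lev a = k), B.χ a x * B.χ a y =
      ∑ a ∈ univ.filter (fun a => B'.lev a = k), B'.χ a x * B'.χ a y := by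
  have h1 : ∀ b ∈ univ.filter (fun a => B'.lev a = k), B'.χ b y =
      ∑ a ∈ univ.filter (fun a => B.lev a = k), ov (B.χ a) (B'.χ b) * B.χ a y := by
    intro b hb
    rw [Finset.mem_filter] at hb
    have h2 := shell_expand hn B hk hkn (φ := B'.χ b) (by rw [← hb.2]; exact B'.mem b)
    conv_lhs => rw [h2]
    rw [Finset.sum_filter]
    refine Finset.sum_congr rfl fun a _ => ?_
    split_ifs <;> simp
  have h2 : ∀ a ∈ univ.filter (fun a => B.lev a = k), B.χ a x =
      ∑ b ∈ univ.filter (fun a => B'.lev a = k), ov (B.χ a) (B'.χ b) * B'.χ b x := by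
    intro a ha
    rw [Finset.mem_filter] at ha
    have h2 := shell_expand hn' B' hk hkn' (φ := B.χ a) (by rw [← ha.2]; exact B.mem a)
    conv_lhs => rw [h2]
    rw [Finset.sum_filter]
    refine Finset.sum_congr rfl fun b _ => ?_
    rw [ov_symm (B.χ a)]
    split_ifs <;> simp
  rw [Finset.sum_congr rfl fun a ha => by rw [h2 a ha],
    Finset.sum_congr rfl (g := fun b => B'.χ b x * _) fun b hb => by rw [h1 b hb]]
  simp only [Finset.sum_mul, Finset.mul_sum]
  rw [Finset.sum_comm]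
  refine Finset.sum_congr rfl fun b _ => Finset.sum_congr rfl fun a _ => ?_
  ring

/-- kernel of the subshell `(k + 1, l)` -/
noncomputable def subK (k l : ℕ) (x y : R3) : ℝ :=
  (2 * (l : ℝ) + 1) / (4 * Real.pi * radN k l) * (rad k l ‖x‖ * rad k l ‖y‖) * zon l x y

theorem sub_kernel (hp : HarmFam p) {n : ℕ} (k : Fin n) (l : Fin (k.1 + 1)) (x y : R3) :
    ∑ i, (orb p (⟨k, l, i⟩ : Orb n)).1.1 x * (orb p (⟨k, l, i⟩ : Orb n)).1.1 y =
      subK k l x y := by
  have h1 : ∀ (i : Fin (2 * l.1 + 1)) (z : R3), (orb p (⟨k, l, i⟩ : Orb n)).1.1 z =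
      (Real.sqrt (radN k l))⁻¹ * (ev (p l i) z * rad k l ‖z‖) := by
    intro i z
    rw [← gS_apply]
    rfl
  simp only [h1]
  have hR := radN_pos (k := k) (l := l) (by omega)
  have h2 : (Real.sqrt (radN k l))⁻¹ * (Real.sqrt (radN k l))⁻¹ = (radN k l)⁻¹ := by
    rw [← mul_inv, Real.mul_self_sqrt hR.le]
  have h3 : ∀ i : Fin (2 * l.1 + 1), (Real.sqrt (radN k l))⁻¹ * (ev (p l i) x * rad k l ‖x‖) *
      ((Real.sqrt (radN k l))⁻¹ * (ev (p l i) y * rad k l ‖y‖)) =
      (radN k l)⁻¹ * (rad k l ‖x‖ * rad k l ‖y‖) * (ev (p l i) x * ev (p l i) y) := by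
    intro i
    rw [← h2]
    ring
  rw [Finset.sum_congr rfl fun i _ => h3 i, ← Finset.mul_sum, addition_thm hp]
  unfold subK
  have hpi := Real.pi_ne_zero
  have := hR.ne'
  field_simp

/-- **Explicit kernel of a shell.** -/
theorem shell_kernel {n : ℕ} {A : Type} [Fintype A] [DecidableEq A] (B : ShellBasis n A)
    {k : ℕ} (hkn : k < n) (x y : R3) :
    ∑ a ∈ univ.filter (fun a => B.lev a = k + 1), B.χ a x * B.χ a y =
      ∑ l ∈ range (k + 1), subK k l x y := by
  obtain ⟨p, hp⟩ := exists_harmFam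
  rw [kernel_indep (by omega) (by omega) B (orbBasis hp n) (Nat.succ_pos k) hkn hkn,
    Finset.sum_filter, Fintype.sum_sigma, Finset.sum_eq_single (⟨k, hkn⟩ : Fin n)]
  · rw [Fintype.sum_sigma, ← Fin.sum_univ_eq_sum_range]
    refine Finset.sum_congr rfl fun l _ => ?_
    rw [← sub_kernel hp (⟨k, hkn⟩ : Fin n) l]
    refine Finset.sum_congr rfl fun i _ => ?_
    exact if_pos rfl
  · intro b _ hb
    refine Finset.sum_eq_zero fun x _ => ?_
    rw [if_neg]
    intro h
    apply hb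
    refine Fin.ext ?_
    show b.1 = k
    have : b.1 + 1 = k + 1 := h
    omega
  · intro h
    exact absurd (Finset.mem_univ _) h

/-- **Explicit kernel of the closed shells.** -/
theorem zclosed_kernel {n : ℕ} {C O : Type} [Fintype C] [DecidableEq C] [Fintype O]
    [DecidableEq O] (B : ShellBasis n (C ⊕ O)) (hC : ∀ c, B.lev (Sum.inl c) < n)
    (hO : ∀ o, B.lev (Sum.inr o) = n) (x y : R3) :
    ∑ c : C, B.χ (Sum.inl c) x * B.χ (Sum.inl c) y =
      ∑ k ∈ range (n - 1), ∑ l ∈ range (k + 1), subK k l x y := by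
  have h1 : ∀ k ∈ range (n - 1), ∑ l ∈ range (k + 1), subK k l x y =
      ∑ c : C, if B.lev (Sum.inl c) = k + 1 then
        B.χ (Sum.inl c) x * B.χ (Sum.inl c) y else 0 := by
    intro k hk
    rw [Finset.mem_range] at hk
    rw [← shell_kernel B (show k < n by omega), Finset.sum_filter, Fintype.sum_sum_type]
    have h2 : ∑ o : O, (if B.lev (Sum.inr o) = k + 1 then
        B.χ (Sum.inr o) x * B.χ (Sum.inr o) y else 0) = 0 := by
      refine Finset.sum_eq_zero fun o _ => ?_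
      rw [if_neg]
      rw [hO]
      omega
    rw [h2, add_zero]
  rw [Finset.sum_congr rfl h1, Finset.sum_comm]
  refine Finset.sum_congr rfl fun c _ => ?_
  have h3 := B.lev_pos (Sum.inl c)
  have h4 := hC c
  rw [Finset.sum_eq_single (B.lev (Sum.inl c) - 1)]
  · rw [if_pos (by omega)]
  · intro b _ hb
    rw [if_neg (by omega)]
  · intro h
    exfalso
    apply h
    rw [Finset.mem_range]
    omega

end Vale.Agent.P370.KC
end

section

/-!
Funk-Hecke formula for null powers and Legendre polynomials.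
-/

namespace Vale.Agent.P370.KC

open MeasureTheory intervalIntegral ComplexConjugate
open Vale.Agent.P370.Q
open Vale.Agent.P370.Q.S3 (ez norm_ez cdotL cdotL_apply rot cdot_rot cc_rot sph_zonal_null laplace_eq
  lp_continuous Xf)

theorem exists_rot (e v : R3) (h : ‖e‖ = ‖v‖) : ∃ g : R3 ≃ₗᵢ[ℝ] R3, g e = v :=
  ⟨_, Submodule.reflection_sub (v := e) (w := v) h⟩

theorem continuous_cdot (c : C3) : Continuous (cdot c) := (cdotL c).continuous_of_finiteDimensional

theorem inner_mem_Icc {u v : R3} (hu : ‖u‖ = 1) (hv : ‖v‖ = 1) :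
    inner ℝ u v ∈ Set.Icc (-1 : ℝ) 1 := by
  have h := abs_real_inner_le_norm u v
  rw [hu, hv, mul_one] at h
  exact ⟨(abs_le.1 h).1, (abs_le.1 h).2⟩

/-- Funk-Hecke for null powers, general axis -/
theorem sph_zonal_null' (v : R3) (hv : ‖v‖ = 1) (c : C3) (hc : cc c c = 0) (N : ℕ) (f : ℝ → ℝ)
    (hf : ContinuousOn f (Set.Icc (-1) 1)) :
    sph (fun u => (f (inner ℝ v u) : ℝ) • cdot c u ^ N) = (lc f N : ℝ) • cdot c v ^ N := by
  obtain ⟨g, hg⟩ := exists_rot ez v (by rw [norm_ez, hv])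
  have h0 : ContinuousOn (fun u : R3 => (f (inner ℝ v u) : ℝ) • cdot c u ^ N)
      (Metric.sphere 0 1) := by
    have hA : ContinuousOn (fun u : R3 => f (inner ℝ v u)) (Metric.sphere 0 1) :=
      hf.comp (by fun_prop) fun u hu => inner_mem_Icc hv (by simpa using hu)
    exact hA.smul ((continuous_cdot c).pow N).continuousOn
  rw [← sph_rot g _ h0]
  have h1 : sph (fun u => (f (inner ℝ v (g u)) : ℝ) • cdot c (g u) ^ N) =
      sph (fun u => (f (inner ℝ ez u) : ℝ) • cdot (rot g c) u ^ N) := by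
    refine sph_congr fun u _ => ?_
    rw [cdot_rot, ← hg, g.inner_map_map]
  rw [h1, sph_zonal_null (rot g c) (by rw [cc_rot, hc]) N f hf]
  have h2 : rot g c 2 = cdot c v := by
    unfold rot
    rw [← hg]
    rfl
  rw [h2]
  rfl

theorem continuous_cdot_av : Continuous fun p : ℝ × R3 => cdot (av p.1) p.2 := by
  have h : (fun p : ℝ × R3 => cdot (av p.1) p.2) = fun p : ℝ × R3 =>
      Complex.I * (Real.cos p.1 : ℂ) * (p.2 0 : ℂ) + Complex.I * (Real.sin p.1 : ℂ) * (p.2 1 : ℂ) +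
        (p.2 2 : ℂ) := by
    funext p
    unfold cdot
    rw [Fin.sum_univ_three]
    simp [av]
  rw [h]
  fun_prop

/-- Laplace's integral as an average over null vectors -/
theorem laplace_av (N : ℕ) (u : R3) (hu : ‖u‖ = 1) :
    ∫ ψ in (0 : ℝ)..(2 * Real.pi), cdot (av ψ) u ^ N = 2 * Real.pi * (S3.lp N (inner ℝ ez u) : ℂ) := by
  have hin : inner ℝ ez u = u 2 := by
    simp [ez, EuclideanSpace.inner_single_left]
  have hn : u 0 ^ 2 + u 1 ^ 2 + u 2 ^ 2 = 1 := by
    have := EuclideanSpace.norm_sq_eq u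
    rw [hu, Fin.sum_univ_three] at this
    simp only [Real.norm_eq_abs, sq_abs] at this
    linarith
  rw [hin]
  set σ := √(u 0 ^ 2 + u 1 ^ 2) with hσ
  have hσ2 : σ ^ 2 = u 0 ^ 2 + u 1 ^ 2 := Real.sq_sqrt (by positivity)
  have hexp : ∀ ψ : ℝ, cdot (av ψ) u = Complex.I * (Real.cos ψ : ℂ) * (u 0 : ℂ) +
      Complex.I * (Real.sin ψ : ℂ) * (u 1 : ℂ) + (u 2 : ℂ) := by
    intro ψ
    unfold cdot
    rw [Fin.sum_univ_three]
    simp [av]
  rcases eq_or_ne σ 0 with h0 | h0
  · have h1 : u 0 = 0 ∧ u 1 = 0 := by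
      rw [h0] at hσ2
      constructor
      · nlinarith [sq_nonneg (u 0), sq_nonneg (u 1)]
      · nlinarith [sq_nonneg (u 0), sq_nonneg (u 1)]
    have h := laplace_eq Complex.I 0 1 σ (u 2) (by simp) (by rw [hσ2]; linarith) N
    rw [one_pow, mul_one] at h
    rw [← h]
    refine integral_congr fun ψ _ => ?_
    simp only [hexp, h1.1, h1.2]
    unfold Xf
    rw [h0]
    simp
  · have hc : (σ : ℂ) ≠ 0 := by exact_mod_cast h0
    have h := laplace_eq (Complex.I * (u 0 : ℂ) / σ) (Complex.I * (u 1 : ℂ) / σ) 1 σ (u 2)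
      (by
        have e : ((u 0 : ℂ)) ^ 2 + (u 1 : ℂ) ^ 2 = (σ : ℂ) ^ 2 := by exact_mod_cast hσ2.symm
        rw [div_pow, div_pow, mul_pow, mul_pow, Complex.I_sq, ← add_div]
        have e2 : -1 * (u 0 : ℂ) ^ 2 + -1 * (u 1 : ℂ) ^ 2 = -(σ : ℂ) ^ 2 := by rw [← e]; ring
        rw [e2]
        field_simp
        ring) (by rw [hσ2]; linarith) N
    rw [one_pow, mul_one] at h
    rw [← h]
    refine integral_congr fun ψ _ => ?_
    simp only [hexp]
    unfold Xf
    congr 1
    field_simp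
    ring

/-- interchange of a sphere average and an interval integral -/
theorem sph_integral_swap (F : ℝ → R3 → ℂ) (hF : Continuous fun p : ℝ × R3 => F p.1 p.2)
    {a b : ℝ} (hab : a ≤ b) :
    sph (fun u => ∫ ψ in a..b, F ψ u) = ∫ ψ in a..b, sph (F ψ) := by
  have h1 : ∀ ψ, ContinuousOn (F ψ) (Metric.sphere 0 1) := fun ψ =>
    (hF.comp (by fun_prop : Continuous fun u : R3 => (ψ, u))).continuousOn
  have h2 : Continuous fun u => ∫ ψ in a..b, F ψ u :=
    intervalIntegral.continuous_parametric_intervalIntegral_of_continuous'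
      (f := fun u ψ => F ψ u) (hF.comp continuous_swap) a b
  rw [sph_eq_toSphere _ h2.continuousOn]
  have h3 : ∀ ψ, sph (F ψ) = (1 / (4 * Real.pi)) • ∫ ω : Metric.sphere (0 : R3) 1, F ψ ω
      ∂(volume : Measure R3).toSphere := fun ψ => sph_eq_toSphere _ (h1 ψ)
  simp only [h3]
  rw [intervalIntegral.integral_smul]
  congr 1
  simp only [intervalIntegral.integral_of_le hab]
  refine integral_integral_swap ?_
  have hc : Continuous (Function.uncurry fun (ω : Metric.sphere (0 : R3) 1) (ψ : ℝ) => F ψ ω) :=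
    hF.comp (by fun_prop : Continuous fun p : Metric.sphere (0 : R3) 1 × ℝ => (p.2, (p.1 : R3)))
  obtain ⟨C, hC⟩ := (isCompact_univ (X := Metric.sphere (0 : R3) 1)).prod
    (isCompact_Icc (a := a) (b := b)) |>.exists_bound_of_continuousOn hc.continuousOn
  refine Integrable.of_bound hc.aestronglyMeasurable C ?_
  have hae : ∀ᵐ ψ ∂(volume.restrict (Set.Ioc a b)), ψ ∈ Set.Ioc a b :=
    ae_restrict_mem measurableSet_Ioc
  have : ∀ᵐ p ∂(((volume : Measure R3).toSphere).prod (volume.restrict (Set.Ioc a b))),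
      p.2 ∈ Set.Ioc a b := Measure.quasiMeasurePreserving_snd.ae hae
  filter_upwards [this] with p hp
  exact hC p ⟨Set.mem_univ _, Set.Ioc_subset_Icc_self hp⟩

/-- extension of a function on `[-1,1]` -/
noncomputable def ext1 (f : ℝ → ℝ) : ℝ → ℝ := Set.IccExtend (by norm_num : (-1 : ℝ) ≤ 1)
  (fun t => f t)

theorem ext1_eq (f : ℝ → ℝ) {t : ℝ} (ht : t ∈ Set.Icc (-1 : ℝ) 1) : ext1 f t = f t := by
  unfold ext1
  rw [Set.IccExtend_of_mem _ _ ht]

theorem continuous_ext1 {f : ℝ → ℝ} (hf : ContinuousOn f (Set.Icc (-1) 1)) :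
    Continuous (ext1 f) := by
  unfold ext1
  refine Continuous.Icc_extend' ?_
  exact continuousOn_iff_continuous_domRestrict.1 hf

/-- **Funk-Hecke formula** for Legendre polynomials -/
theorem funk_hecke_ez (v : R3) (hv : ‖v‖ = 1) (N : ℕ) (f : ℝ → ℝ)
    (hf : ContinuousOn f (Set.Icc (-1) 1)) :
    sph (fun u => S3.lp N (inner ℝ ez u) * f (inner ℝ v u)) = lc f N * S3.lp N (inner ℝ ez v) := by
  have hfe := continuous_ext1 hf
  have hcont : Continuous fun p : ℝ × R3 => (ext1 f (inner ℝ v p.2) : ℝ) • cdot (av p.1) p.2 ^ N :=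
    Continuous.smul (hfe.comp (by fun_prop)) (continuous_cdot_av.pow N)
  have h1 := sph_integral_swap
    (fun ψ u => (ext1 f (inner ℝ v u) : ℝ) • cdot (av ψ) u ^ N) hcont
    (a := 0) (b := 2 * Real.pi) (by positivity)
  have h2 : ∀ ψ, sph (fun u => (ext1 f (inner ℝ v u) : ℝ) • cdot (av ψ) u ^ N) =
      (lc f N : ℝ) • cdot (av ψ) v ^ N := by
    intro ψ
    have hnull : cc (av ψ) (av ψ) = 0 := by
      rw [cc_eq, av_eq, GC.dd_av_self]
    rw [← sph_zonal_null' v hv (av ψ) hnull N f hf]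
    refine sph_congr fun u hu => ?_
    rw [ext1_eq f (inner_mem_Icc hv hu)]
  simp only [h2] at h1
  rw [intervalIntegral.integral_smul, laplace_av N v hv] at h1
  have h3 : sph (fun u => ∫ ψ in (0 : ℝ)..(2 * Real.pi),
      (ext1 f (inner ℝ v u) : ℝ) • cdot (av ψ) u ^ N) =
      sph (fun u => (2 * Real.pi) • ((S3.lp N (inner ℝ ez u) * f (inner ℝ v u) : ℝ) : ℂ)) := by
    refine sph_congr fun u hu => ?_
    rw [intervalIntegral.integral_smul, laplace_av N u hu, ext1_eq f (inner_mem_Icc hv hu)]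
    simp only [Complex.real_smul]
    push_cast
    ring
  rw [h3, sph_smul] at h1
  have hco : ContinuousOn (fun u : R3 => S3.lp N (inner ℝ ez u) * f (inner ℝ v u))
      (Metric.sphere 0 1) := by
    refine ContinuousOn.mul ((lp_continuous N).comp (by fun_prop)).continuousOn ?_
    exact hf.comp (by fun_prop) fun u hu => inner_mem_Icc hv (by simpa using hu)
  have h4 : sph (fun u => ((S3.lp N (inner ℝ ez u) * f (inner ℝ v u) : ℝ) : ℂ)) =
      ((sph (fun u => S3.lp N (inner ℝ ez u) * f (inner ℝ v u)) : ℝ) : ℂ) := by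
    have hco' : ContinuousOn (fun u : R3 => ((S3.lp N (inner ℝ ez u) * f (inner ℝ v u) : ℝ) : ℂ))
      (Metric.sphere 0 1) := Complex.continuous_ofReal.comp_continuousOn hco
    rw [sph_eq_toSphere _ hco, sph_eq_toSphere _ hco', integral_complex_ofReal]
    simp
  rw [h4] at h1
  have hpi : (2 * Real.pi : ℂ) ≠ 0 := by
    exact_mod_cast (by positivity : (2 * Real.pi : ℝ) ≠ 0)
  simp only [Complex.real_smul] at h1
  have h5 : (2 * Real.pi : ℂ) * ((sph (fun u => S3.lp N (inner ℝ ez u) * f (inner ℝ v u)) : ℝ) : ℂ) =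
      (2 * Real.pi : ℂ) * ((lc f N * S3.lp N (inner ℝ ez v) : ℝ) : ℂ) := by
    push_cast at h1 ⊢
    linear_combination h1
  exact_mod_cast mul_left_cancel₀ hpi h5

/-- **Funk-Hecke formula** -/
theorem funk_hecke (e v : R3) (he : ‖e‖ = 1) (hv : ‖v‖ = 1) (N : ℕ) (f : ℝ → ℝ)
    (hf : ContinuousOn f (Set.Icc (-1) 1)) :
    sph (fun u => S3.lp N (inner ℝ e u) * f (inner ℝ v u)) = lc f N * S3.lp N (inner ℝ e v) := by
  obtain ⟨g, hg⟩ := exists_rot ez e (by rw [norm_ez, he])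
  have hco : ContinuousOn (fun u : R3 => S3.lp N (inner ℝ e u) * f (inner ℝ v u))
      (Metric.sphere 0 1) := by
    refine ContinuousOn.mul ((lp_continuous N).comp (by fun_prop)).continuousOn ?_
    exact hf.comp (by fun_prop) fun u hu => inner_mem_Icc hv (by simpa using hu)
  rw [← sph_rot g _ hco]
  have h1 : sph (fun u => S3.lp N (inner ℝ e (g u)) * f (inner ℝ v (g u))) =
      sph (fun u => S3.lp N (inner ℝ ez u) * f (inner ℝ (g.symm v) u)) := by
    refine sph_congr fun u _ => ?_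
    have e1 : inner ℝ e (g u) = inner ℝ ez u := by rw [← hg, g.inner_map_map]
    have e2 : inner ℝ v (g u) = inner ℝ (g.symm v) u := by
      rw [← g.inner_map_map (g.symm v) u, g.apply_symm_apply]
    rw [e1, e2]
  rw [h1, funk_hecke_ez (g.symm v) (by rw [g.symm.norm_map, hv]) N f hf]
  have e3 : inner ℝ ez (g.symm v) = inner ℝ e v := by
    rw [← g.inner_map_map ez (g.symm v), g.apply_symm_apply, hg]
  rw [e3]

end Vale.Agent.P370.KC
end

section

/-!
Reproducing property of Legendre polynomials on harmonic polynomials, addition theorem.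
-/

namespace Vale.Agent.P370.KC

open MeasureTheory ComplexConjugate
open Vale.Agent.P370.Q
open MvPolynomial (C X pderiv)

theorem continuous_pe (P : Poly3) : Continuous (pe P) := by
  unfold pe
  refine (MvPolynomial.continuous_eval P).comp ?_
  fun_prop

theorem pe_add (P Q : Poly3) (x : R3) : pe (P + Q) x = pe P x + pe Q x := by
  unfold pe; simp

theorem pe_mul (P Q : Poly3) (x : R3) : pe (P * Q) x = pe P x * pe Q x := by
  unfold pe; simp

theorem pe_C (c : ℝ) (x : R3) : pe (C c) x = c := by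
  unfold pe; simp

theorem pe_X (i : Fin 3) (x : R3) : pe (X i) x = x i := by
  unfold pe; simp

theorem pe_sum {ι : Type*} (s : Finset ι) (f : ι → Poly3) (x : R3) :
    pe (∑ i ∈ s, f i) x = ∑ i ∈ s, pe (f i) x := by
  unfold pe; simp

theorem pe_pow (P : Poly3) (n : ℕ) (x : R3) : pe (P ^ n) x = pe P x ^ n := by
  unfold pe; simp

theorem pe_zero (x : R3) : pe 0 x = 0 := by
  unfold pe; simp

theorem pe_hom {l : ℕ} {P : Poly3} (hP : P.IsHomogeneous l) (t : ℝ) (x : R3) :
    pe P (t • x) = t ^ l * pe P x := Hyd.ev_smul_homog hP t x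

theorem gauss_integrable (P : Poly3) :
    Integrable (fun x : R3 => pe P x * Real.exp (-‖x‖ ^ 2)) := by
  have h := (Hyd.integrable_poly_exp (κ := 1) one_pos P).norm.const_mul (Real.exp 1)
  refine h.mono' ?_ (.of_forall fun x => ?_)
  · exact ((continuous_pe P).mul (by fun_prop)).aestronglyMeasurable
  · have h1 : Real.exp (-‖x‖ ^ 2) ≤ Real.exp 1 * Real.exp (-1 * ‖x‖) := by
      rw [← Real.exp_add]
      apply Real.exp_le_exp.2
      nlinarith [sq_nonneg (‖x‖ - 1), norm_nonneg x]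
    rw [norm_mul, norm_mul, Real.norm_of_nonneg (Real.exp_pos _).le,
      Real.norm_of_nonneg (Real.exp_pos _).le]
    calc ‖pe P x‖ * Real.exp (-‖x‖ ^ 2) ≤ ‖pe P x‖ * (Real.exp 1 * Real.exp (-1 * ‖x‖)) := by
          gcongr
      _ = _ := by
          show _ = Real.exp 1 * (‖pe P x‖ * Real.exp (-1 * ‖x‖))
          ring

/-- Gaussian functional -/
noncomputable def GS (P : Poly3) : ℝ := ∫ x : R3, pe P x * Real.exp (-‖x‖ ^ 2)

theorem GS_add (P Q : Poly3) : GS (P + Q) = GS P + GS Q := by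
  unfold GS
  rw [← integral_add (gauss_integrable P) (gauss_integrable Q)]
  refine integral_congr_ae (.of_forall fun x => ?_)
  simp only [pe_add]
  ring

theorem GS_C_mul (c : ℝ) (P : Poly3) : GS (C c * P) = c * GS P := by
  unfold GS
  rw [← integral_const_mul]
  refine integral_congr_ae (.of_forall fun x => ?_)
  simp only [pe_mul, pe_C]
  ring

theorem GS_zero : GS 0 = 0 := by
  unfold GS
  simp [pe_zero]

theorem GS_sum {ι : Type*} (s : Finset ι) (f : ι → Poly3) :
    GS (∑ i ∈ s, f i) = ∑ i ∈ s, GS (f i) := by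
  classical
  induction s using Finset.induction_on with
  | empty => simp [GS_zero]
  | insert a s ha ih => rw [Finset.sum_insert ha, Finset.sum_insert ha, GS_add, ih]

theorem hasFDerivAt_pe (P : Poly3) (x : R3) :
    HasFDerivAt (pe P) (∑ k, pe (pderiv k P) x • (EuclideanSpace.proj k : R3 →L[ℝ] ℝ)) x := by
  induction P using MvPolynomial.induction_on with
  | C a =>
    have e : pe (C a) = fun _ => a := by
      funext y
      exact pe_C a y
    rw [e]
    simp only [MvPolynomial.pderiv_C, pe_zero, zero_smul, Finset.sum_const_zero]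
    exact hasFDerivAt_const a x
  | add P Q hP hQ =>
    have e : pe (P + Q) = fun y => pe P y + pe Q y := by
      funext y
      exact pe_add P Q y
    rw [e]
    refine (hP.add hQ).congr_fderiv ?_
    rw [← Finset.sum_add_distrib]
    refine Finset.sum_congr rfl fun k _ => ?_
    rw [map_add, pe_add, add_smul]
  | mul_X P i hP =>
    have e : pe (P * X i) = fun y => pe P y * y i := by
      funext y
      rw [pe_mul, pe_X]
    rw [e]
    have h1 : HasFDerivAt (fun y : R3 => y i) (EuclideanSpace.proj i : R3 →L[ℝ] ℝ) x :=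
      (EuclideanSpace.proj i : R3 →L[ℝ] ℝ).hasFDerivAt
    refine (hP.mul h1).congr_fderiv ?_
    have e2 : ∀ k : Fin 3, pe (pderiv k (P * X i)) x =
        pe P x * (if k = i then 1 else 0) + x i * pe (pderiv k P) x := by
      intro k
      rw [Derivation.leibniz, MvPolynomial.pderiv_X, smul_eq_mul, smul_eq_mul, pe_add, pe_mul,
        pe_mul, pe_X]
      congr 2
      by_cases h : k = i
      · subst h
        simp [pe]
      · rw [if_neg h, Pi.single_apply, if_neg (fun h' => h h'.symm)]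
        exact pe_zero x
    simp only [e2, add_smul, Finset.sum_add_distrib]
    rw [Finset.smul_sum]
    congr 1
    · simp [ite_smul]
    · refine Finset.sum_congr rfl fun k _ => ?_
      rw [mul_smul]

theorem hasFDerivAt_gaussR (x : R3) :
    HasFDerivAt (fun x : R3 => Real.exp (-‖x‖ ^ 2))
      (Real.exp (-‖x‖ ^ 2) • (-((2 : ℝ) • (innerSL ℝ x)))) x := by
  have h1 : HasFDerivAt (fun x : R3 => ‖x‖ ^ 2) ((2 : ℝ) • (innerSL ℝ x)) x := by
    have := (hasStrictFDerivAt_norm_sq x).hasFDerivAt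
    rwa [two_nsmul, ← two_smul ℝ] at this
  exact (h1.neg).exp

/-- Gaussian integration by parts -/
theorem GS_ibp (k : Fin 3) (P : Poly3) : GS (X k * P) = (1 / 2) * GS (pderiv k P) := by
  have hfd : ∀ x : R3, fderiv ℝ (fun x : R3 => Real.exp (-‖x‖ ^ 2)) x
      (EuclideanSpace.single k 1) = -2 * x k * Real.exp (-‖x‖ ^ 2) := by
    intro x
    rw [(hasFDerivAt_gaussR x).fderiv]
    have hin : (inner ℝ x (EuclideanSpace.single k (1 : ℝ)) : ℝ) = x k := by
      rw [EuclideanSpace.inner_single_right]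
      simp
    simp [hin]
    ring
  have hfp : ∀ x : R3, fderiv ℝ (pe P) x (EuclideanSpace.single k 1) = pe (pderiv k P) x := by
    intro x
    rw [(hasFDerivAt_pe P x).fderiv]
    simp [PiLp.single_apply]
  have h := integral_mul_fderiv_eq_neg_fderiv_mul_of_integrable (μ := (volume : Measure R3))
    (f := pe P) (g := fun x : R3 => Real.exp (-‖x‖ ^ 2))
    (v := EuclideanSpace.single k 1)
    (by simp only [hfp]; exact gauss_integrable _)
    (by
      simp only [hfd]
      refine ((gauss_integrable (X k * P)).const_mul (-2)).congr (.of_forall fun x => ?_)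
      simp only [pe_mul, pe_X]
      ring) (gauss_integrable P) (fun x _ => (hasFDerivAt_pe P x).differentiableAt)
    (fun x _ => (hasFDerivAt_gaussR x).differentiableAt)
  simp only [hfd, hfp] at h
  have e : ∫ x : R3, pe P x * (-2 * x k * Real.exp (-‖x‖ ^ 2)) = -2 * GS (X k * P) := by
    unfold GS
    rw [← integral_const_mul]
    refine integral_congr_ae (.of_forall fun x => ?_)
    simp only [pe_mul, pe_X]
    ring
  rw [e] at h
  unfold GS at h ⊢
  linarith

/-- linear form -/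
noncomputable def Lw (w : Fin 3 → ℝ) : Poly3 := ∑ k, C (w k) * X k

/-- directional derivative -/
noncomputable def Dw (w : Fin 3 → ℝ) : Derivation ℝ Poly3 Poly3 := ∑ k, (C (w k) : Poly3) • pderiv k

theorem Dw_apply (w : Fin 3 → ℝ) (P : Poly3) : Dw w P = ∑ k, C (w k) * pderiv k P := by
  unfold Dw
  have h := map_sum (Derivation.coeFnAddMonoidHom (R := ℝ) (A := Poly3) (M := Poly3))
    (fun k => (C (w k) : Poly3) • pderiv k) Finset.univ
  have h2 := congrFun h P
  rw [Finset.sum_apply] at h2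
  exact h2

theorem pe_Lw (w : Fin 3 → ℝ) (x : R3) : pe (Lw w) x = ∑ k, w k * x k := by
  unfold Lw
  rw [pe_sum]
  simp only [pe_mul, pe_C, pe_X]

theorem GS_Lw (w : Fin 3 → ℝ) (P : Poly3) : GS (Lw w * P) = (1 / 2) * GS (Dw w P) := by
  rw [Dw_apply, GS_sum]
  unfold Lw
  rw [Finset.sum_mul, GS_sum, Finset.mul_sum]
  refine Finset.sum_congr rfl fun k _ => ?_
  rw [mul_assoc, GS_C_mul, GS_C_mul, GS_ibp]
  ring

theorem Dw_Lw (w : Fin 3 → ℝ) : Dw w (Lw w) = C (∑ k, w k ^ 2) := by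
  rw [Dw_apply, map_sum]
  refine Finset.sum_congr rfl fun k _ => ?_
  have : pderiv k (Lw w) = C (w k) := by
    unfold Lw
    rw [map_sum, Finset.sum_eq_single k]
    · rw [Derivation.leibniz, MvPolynomial.pderiv_C, MvPolynomial.pderiv_X_self]
      simp
    · intro j _ hj
      rw [Derivation.leibniz, MvPolynomial.pderiv_C, MvPolynomial.pderiv_X_of_ne hj]
      simp
    · simp
  rw [this, ← map_mul, sq]

theorem pderiv_comm' (i j : Fin 3) (P : Poly3) :
    pderiv i (pderiv j P) = pderiv j (pderiv i P) := by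
  have h : ⁅(pderiv i : Derivation ℝ Poly3 Poly3), (pderiv j : Derivation ℝ Poly3 Poly3)⁆ = 0 := by
    refine MvPolynomial.derivation_ext fun k => ?_
    rw [Derivation.commutator_apply, MvPolynomial.pderiv_X, MvPolynomial.pderiv_X,
      Derivation.zero_apply]
    by_cases hj : j = k
    · by_cases hi : i = k
      · subst hj hi
        simp
      · subst hj
        rw [Pi.single_apply, Pi.single_apply, if_pos rfl, if_neg (fun h => hi h.symm)]
        simp
    · rw [Pi.single_apply, if_neg (fun h => hj h.symm), Pi.single_apply]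
      by_cases hi : k = i
      · rw [if_pos hi]
        simp
      · rw [if_neg hi]
        simp
  have h2 := congrArg (fun D : Derivation ℝ Poly3 Poly3 => D P) h
  simp only [Derivation.commutator_apply, Derivation.zero_apply] at h2
  exact sub_eq_zero.1 h2

theorem lap_Dw (w : Fin 3 → ℝ) (P : Poly3) : lap (Dw w P) = Dw w (lap P) := by
  unfold lap
  rw [map_sum]
  refine Finset.sum_congr rfl fun i _ => ?_
  rw [Dw_apply, Dw_apply, map_sum, map_sum]
  refine Finset.sum_congr rfl fun k _ => ?_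
  rw [Derivation.leibniz, MvPolynomial.pderiv_C, smul_zero, add_zero, smul_eq_mul,
    Derivation.leibniz, MvPolynomial.pderiv_C, smul_zero, add_zero, smul_eq_mul,
    pderiv_comm' i k P, pderiv_comm' i k (pderiv i P)]

theorem Dw_homog {l : ℕ} {P : Poly3} (hP : P.IsHomogeneous (l + 1)) (w : Fin 3 → ℝ) :
    (Dw w P).IsHomogeneous l := by
  rw [Dw_apply]
  refine MvPolynomial.IsHomogeneous.sum _ _ _ fun k _ => ?_
  have := (MvPolynomial.isHomogeneous_C (Fin 3) (w k)).mul (hP.pderiv (i := k))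
  simpa using this

theorem Dw_harm {l : ℕ} {P : Poly3} (hP : Harm (l + 1) P) (w : Fin 3 → ℝ) : Harm l (Dw w P) :=
  ⟨Dw_homog hP.1 w, by rw [lap_Dw, hP.2, map_zero]⟩

theorem Dw_pow_mul (w : Fin 3 → ℝ) (m : ℕ) (P : Poly3) :
    Dw w (Lw w ^ m * P) = C ((m : ℝ) * ∑ k, w k ^ 2) * (Lw w ^ (m - 1) * P) + Lw w ^ m * Dw w P := by
  rw [Derivation.leibniz, Derivation.leibniz_pow, Dw_Lw, map_mul]
  simp only [smul_eq_mul, nsmul_eq_mul, map_natCast]
  ring

theorem GS_succ (w : Fin 3 → ℝ) (m : ℕ) (P : Poly3) :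
    GS (Lw w ^ (m + 1) * P) = (1 / 2) * (((m : ℝ) * ∑ k, w k ^ 2) * GS (Lw w ^ (m - 1) * P) +
      GS (Lw w ^ m * Dw w P)) := by
  rw [pow_succ', mul_assoc, GS_Lw, Dw_pow_mul, GS_add, GS_C_mul]

theorem GS_harm {l : ℕ} (hl : 1 ≤ l) {P : Poly3} (hP : Harm l P) : GS P = 0 := by
  have h1 := hP.1.sum_X_mul_pderiv
  have h2 : GS (∑ i, X i * pderiv i P) = (1 / 2) * GS (lap P) := by
    rw [GS_sum]
    unfold lap
    rw [GS_sum, Finset.mul_sum]
    exact Finset.sum_congr rfl fun i _ => GS_ibp i _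
  rw [h1, hP.2, GS_zero, mul_zero] at h2
  have h3 : (l • P : Poly3) = C (l : ℝ) * P := by
    rw [nsmul_eq_mul, map_natCast]
  rw [h3, GS_C_mul] at h2
  have h4 : (l : ℝ) ≠ 0 := by positivity
  exact (mul_eq_zero.1 h2).resolve_left h4

theorem GS_low (w : Fin 3 → ℝ) : ∀ (m l : ℕ) (P : Poly3), Harm l P → m < l →
    GS (Lw w ^ m * P) = 0 := by
  intro m
  induction m using Nat.strong_induction_on with
  | _ m ih =>
    intro l P hP hm
    cases m with
    | zero => rw [pow_zero, one_mul]; exact GS_harm (by omega) hP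
    | succ m =>
      obtain ⟨l, rfl⟩ : ∃ l', l = l' + 1 := ⟨l - 1, by omega⟩
      rw [GS_succ, ih m (by omega) l (Dw w P) (Dw_harm hP w) (by omega)]
      rcases Nat.eq_zero_or_pos m with rfl | hm0
      · simp
      · rw [ih (m - 1) (by omega) (l + 1) P hP (by omega)]
        simp

theorem pe_Dw {l : ℕ} {P : Poly3} (hP : P.IsHomogeneous l) (w : R3) :
    pe (Dw (fun k => w k) P) w = l * pe P w := by
  rw [Dw_apply]
  have h1 := hP.sum_X_mul_pderiv
  have h2 : pe (∑ k, C (w k) * pderiv k P) w = pe (∑ k, X k * pderiv k P) w := by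
    rw [pe_sum, pe_sum]
    refine Finset.sum_congr rfl fun k _ => ?_
    rw [pe_mul, pe_mul, pe_C, pe_X]
  rw [h2, h1]
  unfold pe
  simp

theorem GS_top (w : R3) : ∀ (l : ℕ) (P : Poly3), Harm l P →
    GS (Lw (fun k => w k) ^ l * P) = (l.factorial : ℝ) / 2 ^ l * pe P w * GS 1 := by
  intro l
  induction l with
  | zero =>
    intro P hP
    have h := hP.1
    obtain ⟨a, rfl⟩ : ∃ a, P = C a := by
      refine ⟨MvPolynomial.coeff 0 P, ?_⟩
      have := MvPolynomial.totalDegree_eq_zero_iff_eq_C.1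
        (Nat.le_zero.1 (h.totalDegree_le))
      exact this
    rw [pow_zero, one_mul, pe_C]
    have := GS_C_mul a 1
    rw [mul_one] at this
    rw [this]
    simp
  | succ l ih =>
    intro P hP
    rw [GS_succ, ih (Dw _ P) (Dw_harm hP _)]
    have h1 : (l : ℝ) * (∑ k, w k ^ 2) * GS (Lw (fun k => w k) ^ (l - 1) * P) = 0 := by
      rw [GS_low _ (l - 1) (l + 1) P hP (by omega), mul_zero]
    rw [h1, zero_add]
    rw [show Dw (fun k => w k) P = Dw (fun k => w k) P from rfl, pe_Dw hP.1 w,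
      Nat.factorial_succ]
    push_cast
    rw [pow_succ]
    ring

end Vale.Agent.P370.KC
end

section

/-!
Reproducing property on the sphere, addition theorem.
-/

namespace Vale.Agent.P370.KC

open MeasureTheory
open Vale.Agent.P370.Q
open MvPolynomial (C X pderiv)

/-- Gaussian functional and sphere average -/
theorem GS_eq_sph {d : ℕ} {P : Poly3} (hP : P.IsHomogeneous d) :
    GS P = 4 * Real.pi * (∫ r in Set.Ioi (0 : ℝ), r ^ (d + 2) * Real.exp (-r ^ 2)) * sph (pe P) := by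
  have h := GC.integral_homog_mul_radial_real (volume : Measure R3) (pe P) d
    (fun t _ x => pe_hom hP t x) (fun r => Real.exp (-r ^ 2))
  rw [finrank_euclideanSpace, Fintype.card_fin] at h
  unfold GS
  rw [h, sph_eq_toSphere _ (continuous_pe P).continuousOn, smul_eq_mul]
  have hpi := Real.pi_pos
  field_simp

theorem Lw_homog (w : Fin 3 → ℝ) : (Lw w).IsHomogeneous 1 := by
  unfold Lw
  refine MvPolynomial.IsHomogeneous.sum _ _ _ fun k _ => ?_
  have := (MvPolynomial.isHomogeneous_C (Fin 3) (w k)).mul (MvPolynomial.isHomogeneous_X ℝ k)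
  simpa using this

theorem GS_one : GS 1 = Real.pi * Real.sqrt Real.pi := by
  have h := GS_eq_sph (MvPolynomial.isHomogeneous_one (Fin 3) ℝ)
  have h1 := GC.integral_pow_mul_exp_neg_sq 0
  have h2 : sph (pe (1 : Poly3)) = 1 := by
    have : pe (1 : Poly3) = fun _ => (1 : ℝ) := by
      funext x
      unfold pe
      simp
    rw [this, sph_const]
  norm_num at h1
  rw [h, h2, h1]
  ring

theorem radial_pos (d : ℕ) : 0 < ∫ r in Set.Ioi (0 : ℝ), r ^ (d + 2) * Real.exp (-r ^ 2) := by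
  have h := integral_rpow_mul_exp_neg_rpow (p := 2) (q := (d + 2 : ℕ)) (by norm_num)
    (by have : (0 : ℝ) ≤ ((d + 2 : ℕ) : ℝ) := Nat.cast_nonneg _
        linarith)
  have e : ∫ r in Set.Ioi (0 : ℝ), r ^ (d + 2) * Real.exp (-r ^ 2) =
      ∫ x in Set.Ioi (0 : ℝ), x ^ (((d + 2 : ℕ) : ℝ)) * Real.exp (-x ^ (2 : ℝ)) := by
    refine setIntegral_congr_fun measurableSet_Ioi fun x _ => ?_
    simp only [Real.rpow_natCast]
    norm_num
  rw [e, h]
  have : 0 < Real.Gamma ((((d + 2 : ℕ) : ℝ) + 1) / 2) := Real.Gamma_pos_of_pos (by positivity)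
  positivity

theorem pe_Lw_inner (w x : R3) : pe (Lw fun k => w k) x = inner ℝ w x := by
  rw [pe_Lw, PiLp.inner_apply]
  refine Finset.sum_congr rfl fun k _ => ?_
  simp [mul_comm]

/-- low powers are orthogonal to harmonic polynomials -/
theorem sph_low {l : ℕ} {P : Poly3} (hP : Harm l P) (w : R3) {m : ℕ} (hm : m < l) :
    sph (fun u => (inner ℝ w u) ^ m * pe P u) = 0 := by
  have h1 := GS_low (fun k => w k) m l P hP hm
  have h2 := GS_eq_sph (((Lw_homog fun k => w k).pow m).mul hP.1)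
  rw [h1] at h2
  have e : sph (pe (Lw (fun k => w k) ^ m * P)) = sph (fun u => (inner ℝ w u) ^ m * pe P u) := by
    refine sph_congr fun u _ => ?_
    rw [pe_mul, pe_pow, pe_Lw_inner]
  rw [e] at h2
  have hr := radial_pos (1 * m + l)
  have hpi := Real.pi_pos
  have h3 : 4 * Real.pi * (∫ r in Set.Ioi (0 : ℝ), r ^ (1 * m + l + 2) * Real.exp (-r ^ 2)) ≠ 0 := by
    positivity
  exact (mul_eq_zero.1 h2.symm).resolve_left h3

/-- pairing with the top power -/
theorem sph_top {l : ℕ} {P : Poly3} (hP : Harm l P) (w : R3) :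
    sph (fun u => (inner ℝ w u) ^ l * pe P u) = Am l * pe P w := by
  have h1 := GS_top w l P hP
  have h2 := GS_eq_sph (((Lw_homog fun k => w k).pow l).mul hP.1)
  have e0 : 1 * l + l = 2 * l := by ring
  rw [h1, e0, GC.integral_pow_mul_exp_neg_sq, GS_one] at h2
  have e : sph (pe (Lw (fun k => w k) ^ l * P)) = sph (fun u => (inner ℝ w u) ^ l * pe P u) := by
    refine sph_congr fun u _ => ?_
    rw [pe_mul, pe_pow, pe_Lw_inner]
  rw [e] at h2
  have hpi := Real.pi_pos
  have hs : 0 < Real.sqrt Real.pi := Real.sqrt_pos.2 hpi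
  have f1 : (0 : ℝ) < l.factorial := by exact_mod_cast l.factorial_pos
  have f2 : (0 : ℝ) < (2 * l + 1).factorial := by exact_mod_cast (2 * l + 1).factorial_pos
  have e4 : (4 : ℝ) ^ l = 2 ^ l * 2 ^ l := by rw [← mul_pow]; norm_num
  unfold Am
  rw [e4] at h2
  field_simp at h2 ⊢
  linarith

/-- leading coefficient of the Legendre polynomial -/
theorem LP_lead (n : ℕ) : (LP n).coeff n = ((2 * n).factorial : ℝ) / (2 ^ n * (n.factorial : ℝ) ^ 2) := by
  induction n using Nat.twoStepInduction with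
  | zero => simp [LP]
  | one => simp [LP]
  | more n ih0 ih1 =>
    simp only [LP]
    rw [Polynomial.coeff_C_mul, Polynomial.coeff_sub, Polynomial.coeff_C_mul,
      Polynomial.coeff_C_mul, Polynomial.coeff_X_mul,
      Polynomial.coeff_eq_zero_of_natDegree_lt (p := LP n)
        (lt_of_le_of_lt (LP_natDegree_le n) (by omega)), ih1]
    rw [show 2 * (n + 2) = (2 * (n + 1) + 1) + 1 by ring, Nat.factorial_succ (2 * (n + 1) + 1),
      Nat.factorial_succ (2 * (n + 1)), show n + 2 = (n + 1) + 1 by ring,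
      Nat.factorial_succ (n + 1)]
    have f1 : ((n + 1).factorial : ℝ) ≠ 0 := by positivity
    push_cast
    field_simp
    ring

theorem continuousOn_zonal (f : ℝ → ℝ) (hf : Continuous f) (w : R3) (P : Poly3) :
    ContinuousOn (fun u : R3 => f (inner ℝ w u) * pe P u) (Metric.sphere 0 1) :=
  ((hf.comp (by fun_prop)).mul (continuous_pe P)).continuousOn

theorem sph_sum {ι : Type*} (s : Finset ι) (f : ι → R3 → ℝ) (hf : ∀ i, Continuous (f i)) :
    sph (fun u => ∑ i ∈ s, f i u) = ∑ i ∈ s, sph (f i) := by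
  classical
  induction s using Finset.induction_on with
  | empty => simp [sph_const]
  | insert a s ha ih =>
    simp only [Finset.sum_insert ha]
    rw [sph_add (hf a).continuousOn (continuous_finsetSum s fun i _ => hf i).continuousOn, ih]

/-- **reproducing property** of the Legendre polynomials -/
theorem sph_repro {l : ℕ} {P : Poly3} (hP : Harm l P) (w : R3) :
    sph (fun u => S3.lp l (inner ℝ w u) * pe P u) = pe P w / (2 * l + 1) := by
  have h1 : ∀ t, S3.lp l t = ∑ i ∈ Finset.range (l + 1), (LP l).coeff i * t ^ i := by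
    intro t
    rw [← LP_eval, Polynomial.eval_eq_sum_range' (lt_of_le_of_lt (LP_natDegree_le l)
      (Nat.lt_succ_self l))]
  have h2 : sph (fun u => S3.lp l (inner ℝ w u) * pe P u) =
      sph (fun u => ∑ i ∈ Finset.range (l + 1),
        (LP l).coeff i * ((inner ℝ w u) ^ i * pe P u)) := by
    congr 1
    funext u
    rw [h1, Finset.sum_mul]
    refine Finset.sum_congr rfl fun i _ => ?_
    ring
  have hc : ∀ i, Continuous fun u : R3 => (LP l).coeff i * ((inner ℝ w u) ^ i * pe P u) := by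
    intro i
    exact continuous_const.mul ((by fun_prop : Continuous fun u : R3 =>
      (inner ℝ w u : ℝ) ^ i).mul (continuous_pe P))
  rw [h2, sph_sum _ _ hc, Finset.sum_range_succ]
  have h3 : ∀ (i : ℕ), sph (fun u => (LP l).coeff i * ((inner ℝ w u) ^ i * pe P u)) =
      (LP l).coeff i * sph (fun u => (inner ℝ w u) ^ i * pe P u) := by
    intro i
    have := sph_smul ((LP l).coeff i) (fun u : R3 => (inner ℝ w u : ℝ) ^ i * pe P u)
    simpa only [smul_eq_mul] using this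
  simp only [h3]
  rw [Finset.sum_eq_zero fun i hi => by
    rw [sph_low hP w (Finset.mem_range.1 hi), mul_zero], zero_add, sph_top hP, LP_lead]
  unfold Am
  have f1 : (l.factorial : ℝ) ≠ 0 := by positivity
  have f2 : ((2 * l).factorial : ℝ) ≠ 0 := by positivity
  have f3 : ((2 * l + 1).factorial : ℝ) = (2 * (l : ℝ) + 1) * ((2 * l).factorial : ℝ) := by
    rw [Nat.factorial_succ]
    push_cast
    ring
  rw [f3]
  field_simp

/-- norm of the zonal function -/
theorem sph_lp_sq (l : ℕ) (v : R3) (hv : ‖v‖ = 1) :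
    sph (fun u => S3.lp l (inner ℝ v u) * S3.lp l (inner ℝ v u)) = 1 / (2 * (l : ℝ) + 1) := by
  have h := funk_hecke v v hv hv l (S3.lp l) (S3.lp_continuous l).continuousOn
  rw [h]
  unfold lc
  rw [lp_norm_sq, real_inner_self_eq_norm_sq, hv]
  norm_num [S3.lp_one]
  field_simp

/-- a nonnegative continuous function with vanishing average vanishes on the sphere -/
theorem sph_eq_zero {f : R3 → ℝ} (hf : ContinuousOn f (Metric.sphere 0 1))
    (h0 : ∀ u, ‖u‖ = 1 → 0 ≤ f u) (h : sph f = 0) : ∀ u, ‖u‖ = 1 → f u = 0 := by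
  rw [sph_eq_toSphere f hf, smul_eq_mul] at h
  have hpi := Real.pi_pos
  have h1 : ∫ ω : Metric.sphere (0 : R3) 1, f ω ∂(volume : Measure R3).toSphere = 0 :=
    (mul_eq_zero.1 h).resolve_left (by positivity)
  have hc : Continuous (fun ω : Metric.sphere (0 : R3) 1 => f ω) :=
    continuousOn_iff_continuous_domRestrict.1 hf
  have h2 := (integral_eq_zero_iff_of_nonneg (fun ω => h0 _ (mem_sphere_zero_iff_norm.1 ω.2))
    (sph1_integrable f hf)).1 h1
  have h3 := (Continuous.ae_eq_iff_eq (μ := (volume : Measure R3).toSphere) hc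
    continuous_zero).1 h2
  intro u hu
  exact congrFun h3 ⟨u, mem_sphere_zero_iff_norm.2 hu⟩

/-- **addition theorem** -/
theorem addition_theorem {l : ℕ} {ι : Type} [Fintype ι] [DecidableEq ι] (Y : ι → Poly3)
    (hY : ∀ i, Harm l (Y i))
    (ho : ∀ i j, sph (fun u => pe (Y i) u * pe (Y j) u) = if i = j then 1 else 0)
    (hcard : Fintype.card ι = 2 * l + 1) (u v : R3) (hu : ‖u‖ = 1) (hv : ‖v‖ = 1) :
    ∑ i, pe (Y i) u * pe (Y i) v = (2 * l + 1) * S3.lp l (inner ℝ v u) := by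
  -- error function at fixed `v`
  have hL : Continuous (S3.lp l) := S3.lp_continuous l
  have key : ∀ v : R3, ‖v‖ = 1 → sph (fun u => (∑ i, pe (Y i) u * pe (Y i) v -
      (2 * l + 1) * S3.lp l (inner ℝ v u)) ^ 2) = (2 * l + 1) - ∑ i, pe (Y i) v ^ 2 := by
    intro v hv
    have e : ∀ u : R3, (∑ i, pe (Y i) u * pe (Y i) v - (2 * l + 1) * S3.lp l (inner ℝ v u)) ^ 2 =
        (∑ i, ∑ j, (pe (Y i) v * pe (Y j) v) * (pe (Y i) u * pe (Y j) u)) +
        ((∑ i, (-2 * (2 * (l : ℝ) + 1) * pe (Y i) v) * (S3.lp l (inner ℝ v u) * pe (Y i) u)) +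
        ((2 * (l : ℝ) + 1) ^ 2 * (S3.lp l (inner ℝ v u) * S3.lp l (inner ℝ v u)))) := by
      intro u
      have e1 : (∑ i, pe (Y i) u * pe (Y i) v) ^ 2 =
          ∑ i, ∑ j, (pe (Y i) v * pe (Y j) v) * (pe (Y i) u * pe (Y j) u) := by
        rw [sq, Finset.sum_mul_sum]
        refine Finset.sum_congr rfl fun i _ => Finset.sum_congr rfl fun j _ => ?_
        ring
      have e2 : ∑ i, (-2 * (2 * (l : ℝ) + 1) * pe (Y i) v) * (S3.lp l (inner ℝ v u) * pe (Y i) u) =
          -2 * (2 * (l : ℝ) + 1) * S3.lp l (inner ℝ v u) * ∑ i, pe (Y i) u * pe (Y i) v := by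
        rw [Finset.mul_sum]
        refine Finset.sum_congr rfl fun i _ => ?_
        ring
      rw [← e1, e2]
      ring
    have c0 : ∀ i, Continuous (pe (Y i)) := fun i => continuous_pe (Y i)
    have cL : Continuous fun u : R3 => S3.lp l (inner ℝ v u) := hL.comp (by fun_prop)
    have c1 : Continuous fun u : R3 => ∑ i, ∑ j, (pe (Y i) v * pe (Y j) v) *
        (pe (Y i) u * pe (Y j) u) :=
      continuous_finsetSum _ fun i _ => continuous_finsetSum _ fun j _ =>
        continuous_const.mul ((c0 i).mul (c0 j))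
    have c2 : Continuous fun u : R3 => ∑ i, (-2 * (2 * (l : ℝ) + 1) * pe (Y i) v) *
        (S3.lp l (inner ℝ v u) * pe (Y i) u) :=
      continuous_finsetSum _ fun i _ => continuous_const.mul (cL.mul (c0 i))
    have c3 : Continuous fun u : R3 => (2 * (l : ℝ) + 1) ^ 2 *
        (S3.lp l (inner ℝ v u) * S3.lp l (inner ℝ v u)) := continuous_const.mul (cL.mul cL)
    have hsm : ∀ (c : ℝ) (f : R3 → ℝ), sph (fun u => c * f u) = c * sph f := by
      intro c f
      have := sph_smul c f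
      simpa only [smul_eq_mul] using this
    have c23 : Continuous fun u : R3 => (∑ i, (-2 * (2 * (l : ℝ) + 1) * pe (Y i) v) *
        (S3.lp l (inner ℝ v u) * pe (Y i) u)) + (2 * (l : ℝ) + 1) ^ 2 *
        (S3.lp l (inner ℝ v u) * S3.lp l (inner ℝ v u)) := c2.add c3
    have d1 : ∀ i j, Continuous fun u : R3 => (pe (Y i) v * pe (Y j) v) *
        (pe (Y i) u * pe (Y j) u) := fun i j => continuous_const.mul ((c0 i).mul (c0 j))
    have d2 : ∀ i, Continuous fun u : R3 => ∑ j, (pe (Y i) v * pe (Y j) v) *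
        (pe (Y i) u * pe (Y j) u) := fun i => continuous_finsetSum _ fun j _ => d1 i j
    have d3 : ∀ i, Continuous fun u : R3 => (-2 * (2 * (l : ℝ) + 1) * pe (Y i) v) *
        (S3.lp l (inner ℝ v u) * pe (Y i) u) := fun i => continuous_const.mul (cL.mul (c0 i))
    simp only [e]
    rw [sph_add c1.continuousOn c23.continuousOn, sph_add c2.continuousOn c3.continuousOn,
      sph_sum _ _ d2, sph_sum _ _ d3, hsm, sph_lp_sq l v hv]
    have s1 : ∑ i, sph (fun u => ∑ j, (pe (Y i) v * pe (Y j) v) * (pe (Y i) u * pe (Y j) u)) =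
        ∑ i, pe (Y i) v ^ 2 := by
      refine Finset.sum_congr rfl fun i _ => ?_
      rw [sph_sum _ _ (d1 i)]
      simp only [hsm, ho]
      simp
      ring
    have s2 : ∑ i, sph (fun u => (-2 * (2 * (l : ℝ) + 1) * pe (Y i) v) *
        (S3.lp l (inner ℝ v u) * pe (Y i) u)) = -2 * ∑ i, pe (Y i) v ^ 2 := by
      rw [Finset.mul_sum]
      refine Finset.sum_congr rfl fun i _ => ?_
      rw [hsm, sph_repro (hY i)]
      field_simp
    rw [s1, s2]
    have hl : (2 * (l : ℝ) + 1) ≠ 0 := by positivity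
    field_simp
    ring
  -- the diagonal is constant
  have cS : Continuous fun v : R3 => ∑ i, pe (Y i) v ^ 2 :=
    continuous_finsetSum _ fun i _ => (continuous_pe (Y i)).pow 2
  have hdiag : ∀ v : R3, ‖v‖ = 1 → (2 * (l : ℝ) + 1) - ∑ i, pe (Y i) v ^ 2 = 0 := by
    refine sph_eq_zero (continuous_const.sub cS).continuousOn (fun v hv => ?_) ?_
    · rw [← key v hv]
      have h := sph_mono (f := fun _ => (0 : ℝ)) (g := fun u => (∑ i, pe (Y i) u * pe (Y i) v -
        (2 * l + 1) * S3.lp l (inner ℝ v u)) ^ 2) continuousOn_const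
        (by
          refine Continuous.continuousOn ?_
          exact (((continuous_finsetSum _ fun i _ => (continuous_pe (Y i)).mul
            continuous_const)).sub (continuous_const.mul (hL.comp (by fun_prop)))).pow 2)
        (fun u _ => sq_nonneg _)
      rwa [sph_const] at h
    · have h1 : (fun v : R3 => (2 * (l : ℝ) + 1) - ∑ i, pe (Y i) v ^ 2) =
          fun v => (2 * (l : ℝ) + 1) + (-1 : ℝ) * ∑ i, pe (Y i) v ^ 2 := by
        funext v
        ring
      have cS' : Continuous fun v : R3 => (-1 : ℝ) * ∑ i, pe (Y i) v ^ 2 := continuous_const.mul cS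
      rw [h1, sph_add continuousOn_const cS'.continuousOn, sph_const]
      have h2 := sph_smul (-1 : ℝ) (fun v : R3 => ∑ i, pe (Y i) v ^ 2)
      simp only [smul_eq_mul] at h2
      have d4 : ∀ i, Continuous fun v : R3 => pe (Y i) v ^ 2 := fun i => (continuous_pe (Y i)).pow 2
      rw [h2, sph_sum _ _ d4]
      have h3 : ∀ i, sph (fun u => pe (Y i) u ^ 2) = 1 := by
        intro i
        have := ho i i
        rw [if_pos rfl] at this
        rw [← this]
        congr 1
        funext u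
        ring
      simp only [h3]
      rw [Finset.sum_const, Finset.card_univ, hcard]
      simp
  have hz := sph_eq_zero (f := fun u => (∑ i, pe (Y i) u * pe (Y i) v -
      (2 * l + 1) * S3.lp l (inner ℝ v u)) ^ 2)
    (by
      refine Continuous.continuousOn ?_
      exact (((continuous_finsetSum _ fun i _ => (continuous_pe (Y i)).mul
        continuous_const)).sub (continuous_const.mul (hL.comp (by fun_prop)))).pow 2)
    (fun u _ => sq_nonneg _) (by rw [key v hv, hdiag v hv]) u hu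
  have := pow_eq_zero_iff (two_ne_zero) |>.1 hz
  linarith

end Vale.Agent.P370.KC
end

section

/-!
KC3: the kernel of the closed shells.
-/

namespace Vale.Agent.P370.KC

open Finset MeasureTheory Vale.Agent.P370.Q

/-- cosine of the angle -/
noncomputable def ca (x y : R3) : ℝ := inner ℝ x y / (‖x‖ * ‖y‖)

/-- kernel of the subshell `(k, l)` divided by `2 l + 1` -/
noncomputable def Qk (k l : ℕ) (x y : R3) : ℝ :=
  (‖x‖ * ‖y‖) ^ l * (Hyd.rad k l ‖x‖ * Hyd.rad k l ‖y‖) * S3.lp l (ca x y) /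
    (4 * Real.pi * Hyd.radN k l)

theorem subK_eq (k l : ℕ) (x y : R3) : subK k l x y = (2 * (l : ℝ) + 1) * Qk k l x y := by
  unfold subK Qk zon ca
  rw [mul_pow]
  ring

/-- the kernel of the closed shells -/
theorem closed_kernel_eq {n : ℕ} {C O : Type} [Fintype C] [DecidableEq C] [Fintype O]
    [DecidableEq O] (B : ShellBasis n (C ⊕ O)) (hC : ∀ c, B.lev (Sum.inl c) < n)
    (hO : ∀ o, B.lev (Sum.inr o) = n) (x y : R3) (hx : x ≠ 0) (hy : y ≠ 0) :
    ∑ c : C, B.χ (Sum.inl c) x * B.χ (Sum.inl c) y =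
      ∑ k ∈ range (n - 1), ∑ l ∈ range (k + 1), (2 * (l : ℝ) + 1) * Qk k l x y := by
  rw [zclosed_kernel B hC hO x y]
  refine Finset.sum_congr rfl fun k _ => Finset.sum_congr rfl fun l _ => ?_
  exact subK_eq k l x y

end Vale.Agent.P370.KC
end

section

/-!
KC5: Coulomb integrals of the subshell kernels; Coulomb energy of the closed shells.
-/

namespace Vale.Agent.P370.KC

open Finset MeasureTheory Vale.Agent.P370.Q

/-- Legendre products against the Coulomb kernel -/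
theorem leg_coul (a b : ℕ) {r s : ℝ} (hr : 0 < r) (hs : 0 < s) (hne : r ≠ s) :
    (1 / 2) * ∫ t in (-1 : ℝ)..1, S3.lp a t * S3.lp b t / √(S3.Dd r s t) =
      ∑ L ∈ range (a + b + 1), tri a b L * (min r s ^ L / max r s ^ (L + 1)) := by
  have h1 : ∀ t : ℝ, S3.lp a t * S3.lp b t / √(S3.Dd r s t) =
      ∑ L ∈ range (a + b + 1), ((2 * (L : ℝ) + 1) * tri a b L) *
        (1 / √(S3.Dd r s t) * S3.lp L t) := by
    intro t
    rw [lp_mul, Finset.sum_div]
    exact Finset.sum_congr rfl fun L _ => by ring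
  simp only [h1]
  rw [intervalIntegral.integral_finsetSum fun L _ => (S3.aI_int hr hs hne L).const_mul _,
    Finset.mul_sum]
  refine Finset.sum_congr rfl fun L _ => ?_
  rw [intervalIntegral.integral_const_mul]
  have h2 := S3.aI_eq hr hs hne L
  unfold S3.aI at h2
  have h3 : (1 / 2) * ((2 * (L : ℝ) + 1) * tri a b L *
      ∫ t in (-1 : ℝ)..1, 1 / √(S3.Dd r s t) * S3.lp L t) =
      (2 * (L : ℝ) + 1) * tri a b L *
        ((1 / 2) * ∫ t in (-1 : ℝ)..1, 1 / √(S3.Dd r s t) * S3.lp L t) := by ring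
  rw [h3, h2]
  have h4 : (2 * (L : ℝ) + 1) ≠ 0 := by positivity
  field_simp

/-- the kernel as a sum over orbitals -/
theorem Qk_sum {k l : ℕ} (hl : l ≤ k) : ∃ f : Fin (2 * l + 1) → R3 → ℝ, (∀ i, Nice (f i)) ∧
    ∀ x y, Qk k l x y = (1 / (2 * (l : ℝ) + 1)) * ∑ i, f i x * f i y := by
  obtain ⟨p, hp⟩ := Hyd.exists_harmFam
  refine ⟨fun i => (Hyd.orb p (⟨⟨k, Nat.lt_succ_self k⟩, ⟨l, Nat.lt_succ_of_le hl⟩, i⟩ :
    Hyd.Orb (k + 1))).1.1, fun i => ?_, fun x y => ?_⟩
  · exact ((orbBasis hp (k + 1)).mem _).nice ((orbBasis hp (k + 1)).lev_pos _)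
  · have h := sub_kernel hp (n := k + 1) ⟨k, Nat.lt_succ_self k⟩ ⟨l, Nat.lt_succ_of_le hl⟩ x y
    rw [subK_eq] at h
    have h2 : (2 * (l : ℝ) + 1) ≠ 0 := by positivity
    have h3 : Qk k l x y = (1 / (2 * (l : ℝ) + 1)) * ((2 * (l : ℝ) + 1) * Qk k l x y) := by
      field_simp
    rw [h3]
    exact congrArg _ h.symm

/-- integrability of the exchange integrand -/
theorem exch_int {k l k' l' : ℕ} (hl : l ≤ k) (hl' : l' ≤ k') :
    (∀ y : R3, y ≠ 0 → Integrable (fun x => Qk k l x y * Qk k' l' x y / dist x y)) ∧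
      Integrable (fun y => ∫ x, Qk k l x y * Qk k' l' x y / dist x y) := by
  obtain ⟨f, hf, hfe⟩ := Qk_sum hl
  obtain ⟨f', hf', hfe'⟩ := Qk_sum hl'
  have h1 : ∀ x y : R3, Qk k l x y * Qk k' l' x y / dist x y =
      ∑ i, ∑ j, (1 / (2 * (l : ℝ) + 1) * (1 / (2 * (l' : ℝ) + 1)) * (f i y * f' j y)) *
        (f i x * f' j x / dist x y) := by
    intro x y
    rw [hfe, hfe']
    have e1 : 1 / (2 * (l : ℝ) + 1) * ∑ i, f i x * f i y =
        ∑ i, 1 / (2 * (l : ℝ) + 1) * (f i x * f i y) := Finset.mul_sum _ _ _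
    have e2 : 1 / (2 * (l' : ℝ) + 1) * ∑ i, f' i x * f' i y =
        ∑ i, 1 / (2 * (l' : ℝ) + 1) * (f' i x * f' i y) := Finset.mul_sum _ _ _
    rw [e1, e2, Finset.sum_mul_sum, Finset.sum_div]
    refine Finset.sum_congr rfl fun i _ => ?_
    rw [Finset.sum_div]
    refine Finset.sum_congr rfl fun j _ => ?_
    ring
  have hint : ∀ y : R3, Integrable (fun x => Qk k l x y * Qk k' l' x y / dist x y) := by
    intro y
    simp only [h1]
    exact integrable_finsetSum _ fun i _ => integrable_finsetSum _ fun j _ =>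
      (nice_integrable_nuc (hf i) (hf' j) y).const_mul _
  refine ⟨fun y _ => hint y, ?_⟩
  have h2 : ∀ y : R3, ∫ x, Qk k l x y * Qk k' l' x y / dist x y =
      ∑ i, ∑ j, (1 / (2 * (l : ℝ) + 1) * (1 / (2 * (l' : ℝ) + 1))) *
        (nuc y (f i) (f' j) * (f i y * f' j y)) := by
    intro y
    simp only [h1]
    rw [integral_finsetSum _ fun i _ => integrable_finsetSum _ fun j _ =>
      (nice_integrable_nuc (hf i) (hf' j) y).const_mul _]
    refine Finset.sum_congr rfl fun i _ => ?_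
    rw [integral_finsetSum _ fun j _ => (nice_integrable_nuc (hf i) (hf' j) y).const_mul _]
    refine Finset.sum_congr rfl fun j _ => ?_
    rw [integral_const_mul]
    unfold nuc
    ring
  simp only [h2]
  exact integrable_finsetSum _ fun i _ => integrable_finsetSum _ fun j _ =>
    (coul_integrable (hf i) (hf' j) (hf i) (hf' j)).const_mul _

/-- integrability of the direct integrand -/
theorem dir_int {k l k' l' : ℕ} (hl : l ≤ k) (hl' : l' ≤ k') :
    (∀ y : R3, Integrable (fun x => Qk k l x x / dist x y)) ∧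
      Integrable (fun y => (∫ x, Qk k l x x / dist x y) * Qk k' l' y y) := by
  obtain ⟨f, hf, hfe⟩ := Qk_sum hl
  obtain ⟨f', hf', hfe'⟩ := Qk_sum hl'
  have h1 : ∀ x y : R3, Qk k l x x / dist x y =
      ∑ i, (1 / (2 * (l : ℝ) + 1)) * (f i x * f i x / dist x y) := by
    intro x y
    rw [hfe, Finset.mul_sum, Finset.sum_div]
    exact Finset.sum_congr rfl fun i _ => by ring
  have hint : ∀ y : R3, Integrable (fun x => Qk k l x x / dist x y) := by
    intro y
    simp only [h1]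
    exact integrable_finsetSum _ fun i _ => (nice_integrable_nuc (hf i) (hf i) y).const_mul _
  refine ⟨hint, ?_⟩
  have h2 : ∀ y : R3, (∫ x, Qk k l x x / dist x y) * Qk k' l' y y =
      ∑ i, ∑ j, (1 / (2 * (l : ℝ) + 1) * (1 / (2 * (l' : ℝ) + 1))) *
        (nuc y (f i) (f i) * (f' j y * f' j y)) := by
    intro y
    simp only [h1]
    rw [integral_finsetSum _ fun i _ => (nice_integrable_nuc (hf i) (hf i) y).const_mul _, hfe']
    have e2 : 1 / (2 * (l' : ℝ) + 1) * ∑ i, f' i y * f' i y =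
        ∑ i, 1 / (2 * (l' : ℝ) + 1) * (f' i y * f' i y) := Finset.mul_sum _ _ _
    rw [e2, Finset.sum_mul_sum]
    refine Finset.sum_congr rfl fun i _ => Finset.sum_congr rfl fun j _ => ?_
    rw [integral_const_mul]
    unfold nuc
    ring
  simp only [h2]
  exact integrable_finsetSum _ fun i _ => integrable_finsetSum _ fun j _ =>
    (coul_integrable (hf i) (hf i) (hf' j) (hf' j)).const_mul _

/-! ### radial functions -/

/-- radial function of the exchange density -/
noncomputable def rx (k l k' l' : ℕ) (r : ℝ) : ℝ :=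
  r ^ (l + l' + 2) * (Hyd.rad k l r * Hyd.rad k' l' r)

theorem rx_eq (k l k' l' : ℕ) (r : ℝ) : rx k l k' l' r =
    ∑ z ∈ range (k + 1 - l) ×ˢ range (k' + 1 - l'), (lag k l z.1 * lag k' l' z.2) *
      me (l + l' + 2 + z.1 + z.2) (kp k + kp k') r := by
  unfold rx
  rw [rad_eq, rad_eq, Finset.sum_product]
  have h1 : r ^ (l + l' + 2) * ((∑ j ∈ Finset.range (k + 1 - l), lag k l j * r ^ j) *
      Real.exp (-(kp k * r)) * ((∑ j ∈ Finset.range (k' + 1 - l'), lag k' l' j * r ^ j) *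
      Real.exp (-(kp k' * r)))) = ((∑ j ∈ Finset.range (k + 1 - l), lag k l j * r ^ j) *
      (∑ j ∈ Finset.range (k' + 1 - l'), lag k' l' j * r ^ j)) *
      (r ^ (l + l' + 2) * Real.exp (-((kp k + kp k') * r))) := by
    rw [show -((kp k + kp k') * r) = -(kp k * r) + -(kp k' * r) by ring, Real.exp_add]
    ring
  rw [h1, Finset.sum_mul_sum, Finset.sum_mul]
  refine Finset.sum_congr rfl fun i _ => ?_
  rw [Finset.sum_mul]
  refine Finset.sum_congr rfl fun j _ => ?_
  unfold me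
  rw [pow_add, pow_add]
  ring

theorem kp_pos (k : ℕ) : 0 < kp k := by
  unfold kp
  positivity

theorem Jf_TT (p q : ℕ) (α β : ℝ) : Jf p q α β = TT q p β α := by
  unfold Jf TT
  refine Finset.sum_congr rfl fun i hi => ?_
  rw [Finset.mem_range] at hi
  rw [show q + 1 - i = q - i + 1 by omega, add_comm α β]

theorem RL_Phi (L p q : ℕ) {α β : ℝ} (hα : 0 < α) (hβ : 0 < β) (hp : L + 1 ≤ p)
    (hq : L + 1 ≤ q) : RL L (me p α) (me q β) = Phi p q L α β := by
  rw [RL_me L p q hα hβ hp hq]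
  unfold Phi
  rw [Jf_TT, Jf_TT]
  ring

theorem RL_rx (k l k' l' L : ℕ) (hL : L ≤ l + l') :
    RL L (rx k l k' l') (rx k l k' l') =
      ∑ i ∈ range (k + 1 - l), ∑ j ∈ range (k + 1 - l), ∑ i' ∈ range (k' + 1 - l'),
        ∑ j' ∈ range (k' + 1 - l'), lag k l i * lag k l j * lag k' l' i' * lag k' l' j' *
          Phi (l + l' + 2 + i + i') (l + l' + 2 + j + j') L (kp k + kp k') (kp k + kp k') := by
  have hα : 0 < kp k + kp k' := add_pos (kp_pos k) (kp_pos k')
  have h1 : rx k l k' l' = fun r => ∑ z ∈ range (k + 1 - l) ×ˢ range (k' + 1 - l'),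
      (lag k l z.1 * lag k' l' z.2) * me (l + l' + 2 + z.1 + z.2) (kp k + kp k') r := by
    funext r
    exact rx_eq k l k' l' r
  conv_lhs => rw [h1]
  rw [RL_sum _ _ _ _ _ _ L hα hα (fun i _ => by omega), Finset.sum_product]
  refine Finset.sum_congr rfl fun i _ => ?_
  have h2 : ∀ i' : ℕ, ∑ z ∈ range (k + 1 - l) ×ˢ range (k' + 1 - l'),
      (lag k l i * lag k' l' i') * (lag k l z.1 * lag k' l' z.2) *
        RL L (me (l + l' + 2 + i + i') (kp k + kp k'))
          (me (l + l' + 2 + z.1 + z.2) (kp k + kp k')) =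
      ∑ j ∈ range (k + 1 - l), ∑ j' ∈ range (k' + 1 - l'),
        lag k l i * lag k l j * lag k' l' i' * lag k' l' j' *
          Phi (l + l' + 2 + i + i') (l + l' + 2 + j + j') L (kp k + kp k') (kp k + kp k') := by
    intro i'
    rw [Finset.sum_product]
    refine Finset.sum_congr rfl fun j _ => Finset.sum_congr rfl fun j' _ => ?_
    rw [RL_Phi L _ _ hα hα (by omega) (by omega)]
    ring
  simp only [h2]
  rw [Finset.sum_comm]

/-- radial function of the density -/
noncomputable def rd (k l : ℕ) (r : ℝ) : ℝ := r ^ (2 * l + 2) * Hyd.rad k l r ^ 2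

theorem rd_eq (k l : ℕ) (r : ℝ) : rd k l r =
    ∑ z ∈ range (k + 1 - l) ×ˢ range (k + 1 - l), (lag k l z.1 * lag k l z.2) *
      me (2 * l + 2 + z.1 + z.2) (2 * kp k) r := by
  have h := rx_eq k l k l r
  unfold rx at h
  unfold rd
  rw [pow_two, show 2 * l + 2 = l + l + 2 by ring, h, show 2 * kp k = kp k + kp k by ring]

theorem RL_rd (k l k' l' : ℕ) :
    RL 0 (rd k l) (rd k' l') =
      ∑ i ∈ range (k + 1 - l), ∑ j ∈ range (k + 1 - l), ∑ i' ∈ range (k' + 1 - l'),
        ∑ j' ∈ range (k' + 1 - l'), lag k l i * lag k l j * lag k' l' i' * lag k' l' j' *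
          Phi (2 * l + 2 + i + j) (2 * l' + 2 + i' + j') 0 (2 * kp k) (2 * kp k') := by
  have hα : 0 < 2 * kp k := by have := kp_pos k; positivity
  have hβ : 0 < 2 * kp k' := by have := kp_pos k'; positivity
  have h1 : rd k l = fun r => ∑ z ∈ range (k + 1 - l) ×ˢ range (k + 1 - l),
      (lag k l z.1 * lag k l z.2) * me (2 * l + 2 + z.1 + z.2) (2 * kp k) r := by
    funext r
    exact rd_eq k l r
  have h1' : rd k' l' = fun r => ∑ z ∈ range (k' + 1 - l') ×ˢ range (k' + 1 - l'),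
      (lag k' l' z.1 * lag k' l' z.2) * me (2 * l' + 2 + z.1 + z.2) (2 * kp k') r := by
    funext r
    exact rd_eq k' l' r
  rw [h1, h1', RL_sum _ _ _ _ _ _ 0 hα hβ (fun i _ => by omega), Finset.sum_product]
  refine Finset.sum_congr rfl fun i _ => Finset.sum_congr rfl fun j _ => ?_
  rw [Finset.sum_product]
  refine Finset.sum_congr rfl fun i' _ => Finset.sum_congr rfl fun j' _ => ?_
  rw [RL_Phi 0 _ _ hα hβ (by omega) (by omega)]
  ring

theorem rx_inner_int (k l k' l' L : ℕ) {s : ℝ} (hs : 0 < s) :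
    IntegrableOn (fun r => rx k l k' l' r * mk L r s) (Set.Ioi 0) := by
  have hα : 0 < kp k + kp k' := add_pos (kp_pos k) (kp_pos k')
  simp only [rx_eq, Finset.sum_mul]
  refine integrable_finsetSum _ fun z _ => ?_
  refine ((inner_int L (l + l' + 2 + z.1 + z.2) hα (by omega) hs).const_mul
    (lag k l z.1 * lag k' l' z.2)).congr (Filter.Eventually.of_forall fun r => ?_)
  show _ * (_ * _) = _ * _ * _
  ring

/-! ### polar coordinates -/

theorem ca_smul {u v : R3} (hu : ‖u‖ = 1) (hv : ‖v‖ = 1) {r s : ℝ} (hr : 0 < r) (hs : 0 < s) :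
    ca (r • u) (s • v) = inner ℝ v u := by
  unfold ca
  rw [norm_smul, norm_smul, hu, hv, inner_smul_left, inner_smul_right, Real.norm_of_nonneg hr.le,
    Real.norm_of_nonneg hs.le, real_inner_comm]
  simp only [conj_trivial]
  have := hr.ne'
  have := hs.ne'
  field_simp

theorem Qk_polar (k l : ℕ) {u v : R3} (hu : ‖u‖ = 1) (hv : ‖v‖ = 1) {r s : ℝ} (hr : 0 < r)
    (hs : 0 < s) : Qk k l (r • u) (s • v) =
      (r * s) ^ l * (Hyd.rad k l r * Hyd.rad k l s) * S3.lp l (inner ℝ v u) /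
        (4 * Real.pi * Hyd.radN k l) := by
  unfold Qk
  rw [ca_smul hu hv hr hs, norm_smul, norm_smul, hu, hv, Real.norm_of_nonneg hr.le,
    Real.norm_of_nonneg hs.le, mul_one, mul_one]

theorem exch_inner {k l k' l' : ℕ} (hl : l ≤ k) (hl' : l' ≤ k') {v : R3} (hv : ‖v‖ = 1) {s : ℝ}
    (hs : 0 < s) : ∫ x, Qk k l x (s • v) * Qk k' l' x (s • v) / dist x (s • v) =
      s ^ (l + l') * (Hyd.rad k l s * Hyd.rad k' l' s) /
        (4 * Real.pi * (Hyd.radN k l * Hyd.radN k' l')) *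
        ∑ L ∈ range (l + l' + 1), tri l l' L *
          ∫ r in Set.Ioi (0 : ℝ), rx k l k' l' r * mk L r s := by
  have hy : s • v ≠ 0 := by
    intro h
    have := congrArg norm h
    rw [norm_smul, hv, norm_zero, mul_one, Real.norm_of_nonneg hs.le] at this
    exact hs.ne' this
  have hN := (Hyd.radN_pos hl).ne'
  have hN' := (Hyd.radN_pos hl').ne'
  have hpi := Real.pi_ne_zero
  rw [polar_sph _ ((exch_int hl hl').1 (s • v) hy)]
  have h1 : ∀ᵐ r ∂((volume : Measure ℝ).restrict (Set.Ioi 0)), (4 * Real.pi * r ^ 2) •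
      sph (fun u => Qk k l (r • u) (s • v) * Qk k' l' (r • u) (s • v) /
        dist (r • u) (s • v)) = s ^ (l + l') * (Hyd.rad k l s * Hyd.rad k' l' s) /
        (4 * Real.pi * (Hyd.radN k l * Hyd.radN k' l')) *
        ∑ L ∈ range (l + l' + 1), tri l l' L * (rx k l k' l' r * mk L r s) := by
    have hne : ∀ᵐ r ∂((volume : Measure ℝ).restrict (Set.Ioi 0)), r ≠ s := by
      refine ae_restrict_of_ae ?_
      rw [ae_iff]
      convert measure_singleton (μ := (volume : Measure ℝ)) s using 2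
      ext r
      simp
    filter_upwards [ae_restrict_mem measurableSet_Ioi, hne] with r hr hrs
    have hr' : 0 < r := hr
    have h2 : sph (fun u => Qk k l (r • u) (s • v) * Qk k' l' (r • u) (s • v) /
        dist (r • u) (s • v)) = sph (fun u => (fun t => (((r * s) ^ l *
          (Hyd.rad k l r * Hyd.rad k l s) / (4 * Real.pi * Hyd.radN k l)) *
          ((r * s) ^ l' * (Hyd.rad k' l' r * Hyd.rad k' l' s) / (4 * Real.pi * Hyd.radN k' l'))) *
          (S3.lp l t * S3.lp l' t / √(S3.Dd r s t))) (inner ℝ v u)) := by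
      refine sph_congr fun u hu => ?_
      rw [Qk_polar k l hu hv hr' hs, Qk_polar k' l' hu hv hr' hs, dist_comm,
        S3.dist_eq v u hv hu]
      have h3 : S3.Dd s r (inner ℝ v u) = S3.Dd r s (inner ℝ v u) := by
        unfold S3.Dd
        ring
      rw [h3]
      ring
    have hc : ContinuousOn (fun t => S3.lp l t * S3.lp l' t / √(S3.Dd r s t))
        (Set.Icc (-1) 1) := by
      have h4 := S3.cA hr' hs hrs
      rw [Set.uIcc_of_le (by norm_num)] at h4
      refine (((S3.lp_continuous l).mul (S3.lp_continuous l')).continuousOn.mul h4).congr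
        fun t _ => ?_
      show S3.lp l t * S3.lp l' t / √(S3.Dd r s t) =
        S3.lp l t * S3.lp l' t * (1 / √(S3.Dd r s t))
      ring
    have hzr : ∀ A : ℝ, sph (fun u => (fun t => A * (S3.lp l t * S3.lp l' t /
        √(S3.Dd r s t))) (inner ℝ v u)) = (1 / 2) * ∫ t in (-1 : ℝ)..1, A *
        (S3.lp l t * S3.lp l' t / √(S3.Dd r s t)) := fun A =>
      S3.sph_zonal_real (fun t => A * (S3.lp l t * S3.lp l' t / √(S3.Dd r s t))) v hv
        (continuousOn_const.mul hc)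
    rw [h2, hzr, intervalIntegral.integral_const_mul, smul_eq_mul]
    have h5 := leg_coul l l' hr' hs hrs
    have h6 : ∀ A : ℝ, (1 / 2) * (A * ∫ t in (-1 : ℝ)..1, S3.lp l t * S3.lp l' t /
        √(S3.Dd r s t)) = A * ((1 / 2) * ∫ t in (-1 : ℝ)..1, S3.lp l t * S3.lp l' t /
        √(S3.Dd r s t)) := fun A => by ring
    rw [h6, h5, Finset.mul_sum, Finset.mul_sum, Finset.mul_sum]
    refine Finset.sum_congr rfl fun L _ => ?_
    unfold rx mk
    rw [mul_pow, mul_pow, pow_add s l l']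
    field_simp
    ring
  rw [integral_congr_ae h1, integral_const_mul]
  congr 1
  rw [integral_finsetSum _ fun L _ => (rx_inner_int k l k' l' L hs).const_mul _]
  exact Finset.sum_congr rfl fun L _ => integral_const_mul _ _

theorem exch_eq {k l k' l' : ℕ} (hl : l ≤ k) (hl' : l' ≤ k') :
    ∫ y, ∫ x, Qk k l x y * Qk k' l' x y / dist x y =
      ∑ L ∈ range (l + l' + 1), tri l l' L * slx k l k' l' L := by
  have hN := (Hyd.radN_pos hl).ne'
  have hN' := (Hyd.radN_pos hl').ne'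
  have hpi := Real.pi_ne_zero
  have hα : 0 < kp k + kp k' := add_pos (kp_pos k) (kp_pos k')
  rw [polar_sph _ (exch_int hl hl').2]
  have h1 : ∀ s ∈ Set.Ioi (0 : ℝ), (4 * Real.pi * s ^ 2) •
      sph (fun v => ∫ x, Qk k l x (s • v) * Qk k' l' x (s • v) / dist x (s • v)) =
      ∑ L ∈ range (l + l' + 1), tri l l' L / (Hyd.radN k l * Hyd.radN k' l') *
        ((∫ r in Set.Ioi (0 : ℝ), rx k l k' l' r * mk L r s) * rx k l k' l' s) := by
    intro s hs
    have hs' : 0 < s := hs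
    have h2 : sph (fun v => ∫ x, Qk k l x (s • v) * Qk k' l' x (s • v) / dist x (s • v)) =
        sph (fun _ => s ^ (l + l') * (Hyd.rad k l s * Hyd.rad k' l' s) /
        (4 * Real.pi * (Hyd.radN k l * Hyd.radN k' l')) *
        ∑ L ∈ range (l + l' + 1), tri l l' L *
          ∫ r in Set.Ioi (0 : ℝ), rx k l k' l' r * mk L r s) :=
      sph_congr fun v hv => exch_inner hl hl' hv hs'
    rw [h2, sph_const, smul_eq_mul, Finset.mul_sum, Finset.mul_sum]
    refine Finset.sum_congr rfl fun L _ => ?_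
    have h3 : rx k l k' l' s = s ^ (l + l') * s ^ 2 * (Hyd.rad k l s * Hyd.rad k' l' s) := by
      unfold rx
      rw [pow_add _ (l + l') 2]
    rw [h3]
    field_simp
  rw [setIntegral_congr_fun measurableSet_Ioi h1]
  have hoi : ∀ L, IntegrableOn (fun s => (∫ r in Set.Ioi (0 : ℝ), rx k l k' l' r * mk L r s) *
      rx k l k' l' s) (Set.Ioi 0) := by
    intro L
    have h4 : ∀ s ∈ Set.Ioi (0 : ℝ), (∫ r in Set.Ioi (0 : ℝ), rx k l k' l' r * mk L r s) *
        rx k l k' l' s = ∑ z ∈ range (k + 1 - l) ×ˢ range (k' + 1 - l'),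
          ∑ w ∈ range (k + 1 - l) ×ˢ range (k' + 1 - l'),
          ((lag k l z.1 * lag k' l' z.2) * (lag k l w.1 * lag k' l' w.2)) *
          ((∫ r in Set.Ioi (0 : ℝ), me (l + l' + 2 + z.1 + z.2) (kp k + kp k') r * mk L r s) *
            me (l + l' + 2 + w.1 + w.2) (kp k + kp k') s) := by
      intro s hs
      have hs' : 0 < s := hs
      have h5 : ∫ r in Set.Ioi (0 : ℝ), rx k l k' l' r * mk L r s =
          ∑ z ∈ range (k + 1 - l) ×ˢ range (k' + 1 - l'), (lag k l z.1 * lag k' l' z.2) *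
          ∫ r in Set.Ioi (0 : ℝ), me (l + l' + 2 + z.1 + z.2) (kp k + kp k') r * mk L r s := by
        have h6 : ∀ r, rx k l k' l' r * mk L r s =
            ∑ z ∈ range (k + 1 - l) ×ˢ range (k' + 1 - l'), (lag k l z.1 * lag k' l' z.2) *
            (me (l + l' + 2 + z.1 + z.2) (kp k + kp k') r * mk L r s) := by
          intro r
          rw [rx_eq, Finset.sum_mul]
          exact Finset.sum_congr rfl fun z _ => by ring
        simp only [h6]
        rw [integral_finsetSum _ fun z _ => (inner_int L _ hα (by omega) hs').const_mul _]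
        exact Finset.sum_congr rfl fun z _ => integral_const_mul _ _
      rw [h5, rx_eq k l k' l' s, Finset.sum_mul_sum]
      exact Finset.sum_congr rfl fun z _ => Finset.sum_congr rfl fun w _ => by ring
    refine IntegrableOn.congr_fun ?_ (fun s hs => (h4 s hs).symm) measurableSet_Ioi
    exact integrable_finsetSum _ fun z _ => integrable_finsetSum _ fun w _ =>
      (outer_int L _ _ hα hα (by omega)).const_mul _
  rw [integral_finsetSum _ fun L _ => (hoi L).const_mul _]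
  refine Finset.sum_congr rfl fun L hL => ?_
  rw [Finset.mem_range] at hL
  rw [integral_const_mul]
  have h7 : ∫ s in Set.Ioi (0 : ℝ), (∫ r in Set.Ioi (0 : ℝ), rx k l k' l' r * mk L r s) *
      rx k l k' l' s = RL L (rx k l k' l') (rx k l k' l') := rfl
  rw [h7, RL_rx k l k' l' L (by omega)]
  unfold slx
  rw [← nrm_eq, ← nrm_eq]
  ring

theorem Qk_diag (k l : ℕ) {u : R3} (hu : ‖u‖ = 1) {r : ℝ} (hr : 0 < r) :
    Qk k l (r • u) (r • u) = r ^ (2 * l) * Hyd.rad k l r ^ 2 / (4 * Real.pi * Hyd.radN k l) := by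
  rw [Qk_polar k l hu hu hr hr]
  have h1 : inner ℝ u u = (1 : ℝ) := by
    rw [real_inner_self_eq_norm_sq, hu, one_pow]
  rw [h1, S3.lp_one, mul_pow, ← pow_add, two_mul]
  ring

theorem dir_inner {k l : ℕ} (hl : l ≤ k) {v : R3} (hv : ‖v‖ = 1) {s : ℝ} (hs : 0 < s) :
    ∫ x, Qk k l x x / dist x (s • v) =
      1 / Hyd.radN k l * ∫ r in Set.Ioi (0 : ℝ), rd k l r * mk 0 r s := by
  have hN := (Hyd.radN_pos hl).ne'
  have hpi := Real.pi_ne_zero
  rw [polar_sph _ ((dir_int hl hl).1 (s • v)), ← integral_const_mul]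
  refine integral_congr_ae ?_
  have hne : ∀ᵐ r ∂((volume : Measure ℝ).restrict (Set.Ioi 0)), r ≠ s := by
    refine ae_restrict_of_ae ?_
    rw [ae_iff]
    convert measure_singleton (μ := (volume : Measure ℝ)) s using 2
    ext r
    simp
  filter_upwards [ae_restrict_mem measurableSet_Ioi, hne] with r hr hrs
  have hr' : 0 < r := hr
  have h2 : sph (fun u => Qk k l (r • u) (r • u) / dist (r • u) (s • v)) =
      sph (fun u => (r ^ (2 * l) * Hyd.rad k l r ^ 2 / (4 * Real.pi * Hyd.radN k l)) •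
        (1 / dist (s • v) (r • u) : ℝ)) := by
    refine sph_congr fun u hu => ?_
    rw [Qk_diag k l hu hr', dist_comm, smul_eq_mul]
    ring
  have hns : ‖s • v‖ = s := by rw [norm_smul, hv, mul_one, Real.norm_of_nonneg hs.le]
  rw [h2, sph_smul, sph_newton_zero r hr' (s • v) (by rw [hns]; exact hrs.symm), hns,
    smul_eq_mul, smul_eq_mul]
  unfold rd mk
  rw [pow_add, max_comm r s, pow_zero, zero_add, pow_one]
  field_simp

theorem dir_eq {k l k' l' : ℕ} (hl : l ≤ k) (hl' : l' ≤ k') :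
    ∫ y, (∫ x, Qk k l x x / dist x y) * Qk k' l' y y = sld k l k' l' := by
  have hN := (Hyd.radN_pos hl).ne'
  have hN' := (Hyd.radN_pos hl').ne'
  have hpi := Real.pi_ne_zero
  rw [polar_sph _ (dir_int hl hl').2]
  have h1 : ∀ s ∈ Set.Ioi (0 : ℝ), (4 * Real.pi * s ^ 2) •
      sph (fun v => (∫ x, Qk k l x x / dist x (s • v)) * Qk k' l' (s • v) (s • v)) =
      1 / (Hyd.radN k l * Hyd.radN k' l') *
        ((∫ r in Set.Ioi (0 : ℝ), rd k l r * mk 0 r s) * rd k' l' s) := by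
    intro s hs
    have hs' : 0 < s := hs
    have h2 : sph (fun v => (∫ x, Qk k l x x / dist x (s • v)) * Qk k' l' (s • v) (s • v)) =
        sph (fun _ => (1 / Hyd.radN k l * ∫ r in Set.Ioi (0 : ℝ), rd k l r * mk 0 r s) *
          (s ^ (2 * l') * Hyd.rad k' l' s ^ 2 / (4 * Real.pi * Hyd.radN k' l'))) :=
      sph_congr fun v hv => by rw [dir_inner hl hv hs', Qk_diag k' l' hv hs']
    rw [h2, sph_const, smul_eq_mul]
    have h3 : rd k' l' s = s ^ (2 * l') * s ^ 2 * Hyd.rad k' l' s ^ 2 := by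
      unfold rd
      rw [pow_add]
    rw [h3]
    field_simp
  rw [setIntegral_congr_fun measurableSet_Ioi h1, integral_const_mul]
  have h7 : ∫ s in Set.Ioi (0 : ℝ), (∫ r in Set.Ioi (0 : ℝ), rd k l r * mk 0 r s) *
      rd k' l' s = RL 0 (rd k l) (rd k' l') := rfl
  rw [h7, RL_rd]
  unfold sld
  rw [← nrm_eq, ← nrm_eq]
  ring

end Vale.Agent.P370.KC
end

section

/-!
KC6: Coulomb energy of the closed shells.
-/

namespace Vale.Agent.P370.KC

open Finset MeasureTheory Vale.Agent.P370.Q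

theorem ae_ne_zero : ∀ᵐ x : R3, x ≠ 0 :=
  compl_mem_ae_iff.2 (measure_singleton (0 : R3))

/-- labels of the closed subshells -/
def clS (n : ℕ) : Finset ((_ : ℕ) × ℕ) := (range (n - 1)).sigma fun k => range (k + 1)

theorem clS_le {n : ℕ} {a : (_ : ℕ) × ℕ} (ha : a ∈ clS n) : a.2 ≤ a.1 := by
  have := (Finset.mem_sigma.1 ha).2
  rw [Finset.mem_range] at this
  omega

theorem closed3_eq (n : ℕ) : closed3 n = ∑ a ∈ clS n, ∑ b ∈ clS n,
    (2 * (a.2 : ℝ) + 1) * (2 * (b.2 : ℝ) + 1) * pe2 a.1 a.2 b.1 b.2 := by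
  unfold closed3 clS
  rw [Finset.sum_sigma]
  refine Finset.sum_congr rfl fun k _ => Finset.sum_congr rfl fun l _ => ?_
  rw [Finset.sum_sigma]

section

variable {C : Type} [Fintype C] {χ : C → R3 → ℝ}

/-- direct energy from the density -/
theorem direct_kernel (hχ : ∀ c, Nice (χ c)) :
    ∑ a, ∑ b, coul (χ a) (χ a) (χ b) (χ b) =
      ∫ y, (∫ x, (∑ a, χ a x * χ a x) / dist x y) * ∑ b, χ b y * χ b y := by
  have h1 : ∀ a, ∑ b, coul (χ a) (χ a) (χ b) (χ b) =
      ∫ y, nuc y (χ a) (χ a) * ∑ c, χ c y * χ c y := fun a => kernel_direct hχ (hχ a) (hχ a)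
  simp only [h1]
  rw [← integral_finsetSum]
  · refine integral_congr_ae (Filter.Eventually.of_forall fun y => ?_)
    show ∑ a, nuc y (χ a) (χ a) * ∑ c, χ c y * χ c y = _
    rw [← Finset.sum_mul]
    congr 1
    unfold nuc
    rw [← integral_finsetSum _ fun a _ => nice_integrable_nuc (hχ a) (hχ a) y]
    refine integral_congr_ae (Filter.Eventually.of_forall fun x => ?_)
    show _ = (∑ a, χ a x * χ a x) / dist x y
    rw [Finset.sum_div]
  · intro a _
    have h2 : (fun y => nuc y (χ a) (χ a) * ∑ c, χ c y * χ c y) =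
        fun y => ∑ c, nuc y (χ a) (χ a) * (χ c y * χ c y) := by
      funext y
      rw [Finset.mul_sum]
    rw [h2]
    exact integrable_finsetSum _ fun c _ => coul_integrable (hχ a) (hχ a) (hχ c) (hχ c)

/-- exchange energy from the kernel -/
theorem exch_kernel (hχ : ∀ c, Nice (χ c)) :
    ∑ a, ∑ b, coul (χ a) (χ b) (χ b) (χ a) =
      ∫ y, ∫ x, (∑ c, χ c x * χ c y) * (∑ c, χ c x * χ c y) / dist x y := by
  have h1 : ∀ y : R3, ∫ x, (∑ c, χ c x * χ c y) * (∑ c, χ c x * χ c y) / dist x y =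
      ∑ a, ∑ b, nuc y (χ a) (χ b) * (χ b y * χ a y) := by
    intro y
    unfold nuc
    have h2 : ∀ a b, (∫ x, χ a x * χ b x / dist x y) * (χ b y * χ a y) =
        ∫ x, χ a x * χ b x / dist x y * (χ b y * χ a y) := fun a b =>
      (integral_mul_const _ _).symm
    simp only [h2]
    have h3 : ∀ a, ∑ b, ∫ x, χ a x * χ b x / dist x y * (χ b y * χ a y) =
        ∫ x, ∑ b, χ a x * χ b x / dist x y * (χ b y * χ a y) := fun a =>
      (integral_finsetSum _ fun b _ => (nice_integrable_nuc (hχ a) (hχ b) y).mul_const _).symm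
    simp only [h3]
    rw [← integral_finsetSum _ fun a _ => integrable_finsetSum _ fun b _ =>
      (nice_integrable_nuc (hχ a) (hχ b) y).mul_const _]
    refine integral_congr_ae (Filter.Eventually.of_forall fun x => ?_)
    show (∑ c, χ c x * χ c y) * (∑ c, χ c x * χ c y) / dist x y =
      ∑ a, ∑ b, χ a x * χ b x / dist x y * (χ b y * χ a y)
    rw [Finset.sum_mul_sum, Finset.sum_div]
    refine Finset.sum_congr rfl fun a _ => ?_
    rw [Finset.sum_div]
    exact Finset.sum_congr rfl fun b _ => by ring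
  simp only [h1]
  rw [integral_finsetSum _ fun a _ => integrable_finsetSum _ fun b _ =>
    coul_integrable (hχ a) (hχ b) (hχ b) (hχ a)]
  refine Finset.sum_congr rfl fun a _ => ?_
  rw [integral_finsetSum _ fun b _ => coul_integrable (hχ a) (hχ b) (hχ b) (hχ a)]
  rfl

end

/-- direct energy of the subshells -/
theorem direct_sub (n : ℕ) :
    ∫ y, (∫ x, (∑ a ∈ clS n, (2 * (a.2 : ℝ) + 1) * Qk a.1 a.2 x x) / dist x y) *
      (∑ b ∈ clS n, (2 * (b.2 : ℝ) + 1) * Qk b.1 b.2 y y) =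
    ∑ a ∈ clS n, ∑ b ∈ clS n, (2 * (a.2 : ℝ) + 1) * (2 * (b.2 : ℝ) + 1) *
      sld a.1 a.2 b.1 b.2 := by
  have h1 : ∀ y : R3, (∫ x, (∑ a ∈ clS n, (2 * (a.2 : ℝ) + 1) * Qk a.1 a.2 x x) / dist x y) *
      (∑ b ∈ clS n, (2 * (b.2 : ℝ) + 1) * Qk b.1 b.2 y y) =
      ∑ a ∈ clS n, ∑ b ∈ clS n, (2 * (a.2 : ℝ) + 1) * (2 * (b.2 : ℝ) + 1) *
        ((∫ x, Qk a.1 a.2 x x / dist x y) * Qk b.1 b.2 y y) := by
    intro y
    have h2 : ∫ x, (∑ a ∈ clS n, (2 * (a.2 : ℝ) + 1) * Qk a.1 a.2 x x) / dist x y =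
        ∑ a ∈ clS n, (2 * (a.2 : ℝ) + 1) * ∫ x, Qk a.1 a.2 x x / dist x y := by
      have e : ∀ x : R3, (∑ a ∈ clS n, (2 * (a.2 : ℝ) + 1) * Qk a.1 a.2 x x) / dist x y =
          ∑ a ∈ clS n, (2 * (a.2 : ℝ) + 1) * (Qk a.1 a.2 x x / dist x y) := by
        intro x
        rw [Finset.sum_div]
        exact Finset.sum_congr rfl fun a _ => by ring
      simp only [e]
      rw [integral_finsetSum _ fun a ha => ((dir_int (k' := a.1) (clS_le ha) (clS_le ha)).1 y).const_mul _]
      exact Finset.sum_congr rfl fun a _ => integral_const_mul _ _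
    rw [h2, Finset.sum_mul_sum]
    exact Finset.sum_congr rfl fun a _ => Finset.sum_congr rfl fun b _ => by ring
  simp only [h1]
  rw [integral_finsetSum _ fun a ha => integrable_finsetSum _ fun b hb =>
    (dir_int (clS_le ha) (clS_le hb)).2.const_mul _]
  refine Finset.sum_congr rfl fun a ha => ?_
  rw [integral_finsetSum _ fun b hb => (dir_int (clS_le ha) (clS_le hb)).2.const_mul _]
  refine Finset.sum_congr rfl fun b hb => ?_
  rw [integral_const_mul, dir_eq (clS_le ha) (clS_le hb)]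

/-- exchange energy of the subshells -/
theorem exch_sub (n : ℕ) :
    ∫ y : R3, ∫ x, (∑ a ∈ clS n, (2 * (a.2 : ℝ) + 1) * Qk a.1 a.2 x y) *
      (∑ b ∈ clS n, (2 * (b.2 : ℝ) + 1) * Qk b.1 b.2 x y) / dist x y =
    ∑ a ∈ clS n, ∑ b ∈ clS n, (2 * (a.2 : ℝ) + 1) * (2 * (b.2 : ℝ) + 1) *
      ∑ L ∈ range (a.2 + b.2 + 1), tri a.2 b.2 L * slx a.1 a.2 b.1 b.2 L := by
  have h1 : ∀ y : R3, y ≠ 0 → ∫ x, (∑ a ∈ clS n, (2 * (a.2 : ℝ) + 1) * Qk a.1 a.2 x y) *
      (∑ b ∈ clS n, (2 * (b.2 : ℝ) + 1) * Qk b.1 b.2 x y) / dist x y =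
      ∑ a ∈ clS n, ∑ b ∈ clS n, (2 * (a.2 : ℝ) + 1) * (2 * (b.2 : ℝ) + 1) *
        ∫ x, Qk a.1 a.2 x y * Qk b.1 b.2 x y / dist x y := by
    intro y hy
    have e : ∀ x : R3, (∑ a ∈ clS n, (2 * (a.2 : ℝ) + 1) * Qk a.1 a.2 x y) *
        (∑ b ∈ clS n, (2 * (b.2 : ℝ) + 1) * Qk b.1 b.2 x y) / dist x y =
        ∑ a ∈ clS n, ∑ b ∈ clS n, (2 * (a.2 : ℝ) + 1) * (2 * (b.2 : ℝ) + 1) *
          (Qk a.1 a.2 x y * Qk b.1 b.2 x y / dist x y) := by
      intro x
      rw [Finset.sum_mul_sum, Finset.sum_div]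
      refine Finset.sum_congr rfl fun a _ => ?_
      rw [Finset.sum_div]
      exact Finset.sum_congr rfl fun b _ => by ring
    simp only [e]
    rw [integral_finsetSum _ fun a ha => integrable_finsetSum _ fun b hb =>
      ((exch_int (clS_le ha) (clS_le hb)).1 y hy).const_mul _]
    refine Finset.sum_congr rfl fun a ha => ?_
    rw [integral_finsetSum _ fun b hb => ((exch_int (clS_le ha) (clS_le hb)).1 y hy).const_mul _]
    exact Finset.sum_congr rfl fun b _ => integral_const_mul _ _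
  rw [integral_congr_ae (ae_ne_zero.mono fun y hy => h1 y hy)]
  rw [integral_finsetSum _ fun a ha => integrable_finsetSum _ fun b hb =>
    (exch_int (clS_le ha) (clS_le hb)).2.const_mul _]
  refine Finset.sum_congr rfl fun a ha => ?_
  rw [integral_finsetSum _ fun b hb => (exch_int (clS_le ha) (clS_le hb)).2.const_mul _]
  refine Finset.sum_congr rfl fun b hb => ?_
  rw [integral_const_mul, exch_eq (clS_le ha) (clS_le hb)]

theorem closed_energy {n : ℕ} {C O : Type} [Fintype C] [DecidableEq C] [Fintype O]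
    [DecidableEq O] (B : ShellBasis n (C ⊕ O)) (hC : ∀ c, B.lev (Sum.inl c) < n)
    (hO : ∀ o, B.lev (Sum.inr o) = n) :
    ∑ a : C, ∑ b : C, (2 * coulM B.χ (Sum.inl a) (Sum.inl a) (Sum.inl b) (Sum.inl b) -
      coulM B.χ (Sum.inl a) (Sum.inl b) (Sum.inl b) (Sum.inl a)) = closed3 n := by
  have hχ : ∀ c : C, Nice (B.χ (Sum.inl c)) := fun c => nice_basis B (Sum.inl c)
  have hK : ∀ x y : R3, x ≠ 0 → y ≠ 0 →
      ∑ c : C, B.χ (Sum.inl c) x * B.χ (Sum.inl c) y =
        ∑ a ∈ clS n, (2 * (a.2 : ℝ) + 1) * Qk a.1 a.2 x y := by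
    intro x y hx hy
    rw [closed_kernel_eq B hC hO x y hx hy]
    unfold clS
    rw [Finset.sum_sigma]
  have hD : ∑ a : C, ∑ b : C, coulM B.χ (Sum.inl a) (Sum.inl a) (Sum.inl b) (Sum.inl b) =
      ∑ a ∈ clS n, ∑ b ∈ clS n, (2 * (a.2 : ℝ) + 1) * (2 * (b.2 : ℝ) + 1) *
        sld a.1 a.2 b.1 b.2 := by
    rw [← direct_sub]
    refine (direct_kernel (χ := fun c => B.χ (Sum.inl c)) hχ).trans ?_
    refine integral_congr_ae (ae_ne_zero.mono fun y hy => ?_)
    simp only
    rw [hK y y hy hy]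
    congr 1
    refine integral_congr_ae (ae_ne_zero.mono fun x hx => ?_)
    simp only
    rw [hK x x hx hx]
  have hX : ∑ a : C, ∑ b : C, coulM B.χ (Sum.inl a) (Sum.inl b) (Sum.inl b) (Sum.inl a) =
      ∑ a ∈ clS n, ∑ b ∈ clS n, (2 * (a.2 : ℝ) + 1) * (2 * (b.2 : ℝ) + 1) *
        ∑ L ∈ range (a.2 + b.2 + 1), tri a.2 b.2 L * slx a.1 a.2 b.1 b.2 L := by
    rw [← exch_sub]
    refine (exch_kernel (χ := fun c => B.χ (Sum.inl c)) hχ).trans ?_
    refine integral_congr_ae (ae_ne_zero.mono fun y hy => ?_)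
    simp only
    refine integral_congr_ae (ae_ne_zero.mono fun x hx => ?_)
    simp only
    rw [hK x y hx hy]
  simp only [Finset.sum_sub_distrib, ← Finset.mul_sum]
  rw [hD, hX, closed3_eq, Finset.mul_sum, ← Finset.sum_sub_distrib]
  refine Finset.sum_congr rfl fun a _ => ?_
  rw [Finset.mul_sum, ← Finset.sum_sub_distrib]
  refine Finset.sum_congr rfl fun b _ => ?_
  unfold pe2
  ring

end Vale.Agent.P370.KC
end

section

/-!
KC7: one-body integrals over the small ball and their truncated series.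
-/

namespace Vale.Agent.P370.KC

open Finset MeasureTheory Vale.Agent.P370.Q

theorem gm_ca_self {x : R3} (hx : x ≠ 0) : ca x x = 1 := by
  unfold ca
  have h : 0 < ‖x‖ := norm_pos_iff.mpr hx
  rw [real_inner_self_eq_norm_sq]
  field_simp

/-- density of the closed shells -/
theorem gm_density {n : ℕ} {C O : Type} [Fintype C] [DecidableEq C] [Fintype O]
    [DecidableEq O] (B : ShellBasis n (C ⊕ O)) (hC : ∀ c, B.lev (Sum.inl c) < n)
    (hO : ∀ o, B.lev (Sum.inr o) = n) (x : R3) (hx : x ≠ 0) :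
    ∑ c : C, B.χ (Sum.inl c) x * B.χ (Sum.inl c) x =
      ∑ k ∈ range (n - 1), ∑ l ∈ range (k + 1), (2 * (l : ℝ) + 1) *
        (‖x‖ ^ (2 * l) * Hyd.rad k l ‖x‖ ^ 2 / (4 * Real.pi * Hyd.radN k l)) := by
  rw [closed_kernel_eq B hC hO x x hx hx]
  refine Finset.sum_congr rfl fun k _ => Finset.sum_congr rfl fun l _ => ?_
  unfold Qk
  rw [gm_ca_self hx, S3.lp_one]
  ring

/-- average of the potential difference over a sphere -/
theorem gm_sph {y : R3} {r : ℝ} (hr : 0 < r) (hne : ‖y‖ ≠ r) (c : ℝ) :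
    sph (fun u : R3 => c * (1 / ‖r • u‖ - 1 / dist (r • u) y)) =
      c * (1 / r - 1 / max ‖y‖ r) := by
  have hcont : ContinuousOn (fun u : R3 => (1 / dist y (r • u) : ℝ)) (Metric.sphere 0 1) := by
    refine ContinuousOn.div continuousOn_const (by fun_prop) fun u hu => ?_
    have hu1 : ‖u‖ = 1 := mem_sphere_zero_iff_norm.mp hu
    intro h0
    rw [dist_eq_zero] at h0
    apply hne
    rw [h0, norm_smul, hu1, mul_one, Real.norm_of_nonneg hr.le]
  have h1 : sph (fun u : R3 => c * (1 / ‖r • u‖ - 1 / dist (r • u) y)) =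
      sph (fun u : R3 => c • ((fun _ : R3 => (1 / r : ℝ)) u +
        (fun u : R3 => (-1 : ℝ) • (1 / dist y (r • u) : ℝ)) u)) := by
    refine sph_congr fun u hu => ?_
    rw [norm_smul, hu, mul_one, Real.norm_of_nonneg hr.le, dist_comm]
    simp only [smul_eq_mul]
    ring
  have hcont' : ContinuousOn (fun u : R3 => (-1 : ℝ) • (1 / dist y (r • u) : ℝ))
      (Metric.sphere 0 1) := hcont.const_smul (-1 : ℝ)
  rw [h1, sph_smul, sph_add continuousOn_const hcont', sph_const, sph_smul,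
    sph_newton_zero r hr y hne]
  simp only [smul_eq_mul]
  ring

/-- trace of `gm` over the closed shells -/
theorem gm_closed {n : ℕ} {C O : Type} [Fintype C] [DecidableEq C] [Fintype O]
    [DecidableEq O] (B : ShellBasis n (C ⊕ O)) (hC : ∀ c, B.lev (Sum.inl c) < n)
    (hO : ∀ o, B.lev (Sum.inr o) = n) (y : R3) (hy : y ≠ 0) :
    ∑ c : C, gm y (B.χ (Sum.inl c)) (B.χ (Sum.inl c)) =
      ∑ k ∈ range (n - 1), ∑ l ∈ range (k + 1), (2 * (l : ℝ) + 1) * gI k l ‖y‖ := by
  have hy0 : 0 < ‖y‖ := norm_pos_iff.mpr hy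
  have hnice : ∀ c, Nice (B.χ (Sum.inl c)) := fun c => (B.mem _).nice (B.lev_pos _)
  -- the radial density
  set K : ℝ → ℝ := fun r => ∑ k ∈ range (n - 1), ∑ l ∈ range (k + 1), (2 * (l : ℝ) + 1) *
        (r ^ (2 * l) * Hyd.rad k l r ^ 2 / (4 * Real.pi * Hyd.radN k l)) with hK
  have hsum : ∑ c : C, gm y (B.χ (Sum.inl c)) (B.χ (Sum.inl c))
      = ∫ x, (∑ c : C, B.χ (Sum.inl c) x * B.χ (Sum.inl c) x) * (1 / ‖x‖ - 1 / dist x y) := by
    unfold gm
    rw [← integral_finsetSum _ fun c _ => integrable_gm (hnice c) (hnice c) y]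
    refine integral_congr_ae (Filter.Eventually.of_forall fun x => ?_)
    simp only
    rw [Finset.sum_mul]
  have hint : Integrable fun x : R3 =>
      (∑ c : C, B.χ (Sum.inl c) x * B.χ (Sum.inl c) x) * (1 / ‖x‖ - 1 / dist x y) := by
    have h := integrable_finsetSum Finset.univ
      (fun c (_ : c ∈ Finset.univ) => integrable_gm (hnice c) (hnice c) y)
    refine h.congr (Filter.Eventually.of_forall fun x => ?_)
    simp only [Finset.sum_mul]
  rw [hsum, polar_sph _ hint]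
  -- the inner average
  have hin : ∀ r : ℝ, 0 < r → r ≠ ‖y‖ →
      (4 * Real.pi * r ^ 2) • sph (fun u : R3 =>
        (∑ c : C, B.χ (Sum.inl c) (r • u) * B.χ (Sum.inl c) (r • u)) *
          (1 / ‖r • u‖ - 1 / dist (r • u) y)) =
      (4 * Real.pi * r ^ 2) * (K r * (1 / r - 1 / max ‖y‖ r)) := by
    intro r hr hne
    rw [← gm_sph hr hne.symm (K r), smul_eq_mul]
    congr 1
    refine sph_congr fun u hu => ?_
    have hru : ‖r • u‖ = r := by rw [norm_smul, hu, mul_one, Real.norm_of_nonneg hr.le]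
    have hne0 : r • u ≠ 0 := by
      rw [← norm_pos_iff, hru]; exact hr
    rw [gm_density B hC hO (r • u) hne0, hru]
  have hae : ∀ᵐ r : ℝ ∂(volume.restrict (Set.Ioi (0 : ℝ))),
      (4 * Real.pi * r ^ 2) • sph (fun u : R3 =>
        (∑ c : C, B.χ (Sum.inl c) (r • u) * B.χ (Sum.inl c) (r • u)) *
          (1 / ‖r • u‖ - 1 / dist (r • u) y)) =
      (Set.Ioc (0 : ℝ) ‖y‖).indicator (fun r => ∑ k ∈ range (n - 1), ∑ l ∈ range (k + 1),
        (2 * (l : ℝ) + 1) * (r ^ (2 * l + 2) * Hyd.rad k l r ^ 2 * (1 / r - 1 / ‖y‖) /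
          Hyd.radN k l)) r := by
    have h1 : ∀ᵐ r : ℝ ∂(volume.restrict (Set.Ioi (0 : ℝ))), r ≠ ‖y‖ :=
      ae_restrict_of_ae (by
        rw [ae_iff]
        have : {a : ℝ | ¬a ≠ ‖y‖} = {‖y‖} := by ext a; simp
        rw [this]
        exact measure_singleton _)
    filter_upwards [h1, ae_restrict_mem measurableSet_Ioi] with r hne hr
    have hr0 : 0 < r := hr
    rw [hin r hr0 hne]
    by_cases hle : r ≤ ‖y‖
    · have hm : r ∈ Set.Ioc (0 : ℝ) ‖y‖ := ⟨hr0, hle⟩
      rw [Set.indicator_of_mem hm, max_eq_left hle]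
      simp only [hK]
      rw [Finset.sum_mul, Finset.mul_sum]
      refine Finset.sum_congr rfl fun k _ => ?_
      rw [Finset.sum_mul, Finset.mul_sum]
      refine Finset.sum_congr rfl fun l hl => ?_
      have hl' : l ≤ k := Nat.lt_succ_iff.mp (Finset.mem_range.mp hl)
      have hN := (Hyd.radN_pos hl').ne'
      have hpi := Real.pi_ne_zero
      have e : 4 * Real.pi * r ^ 2 * ((2 * (l : ℝ) + 1) *
          (r ^ (2 * l) * Hyd.rad k l r ^ 2 / (4 * Real.pi * Hyd.radN k l)) *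
            (1 / r - 1 / ‖y‖)) = (4 * Real.pi * r ^ 2) * ((2 * (l : ℝ) + 1) *
          (r ^ (2 * l) * Hyd.rad k l r ^ 2 / (4 * Real.pi * Hyd.radN k l))) *
            (1 / r - 1 / ‖y‖) := by ring
      rw [e, pow_add]
      generalize (1 / r - 1 / ‖y‖) = W
      field_simp
    · push Not at hle
      have hm : r ∉ Set.Ioc (0 : ℝ) ‖y‖ := fun h => absurd h.2 (not_le.mpr hle)
      rw [Set.indicator_of_notMem hm, max_eq_right hle.le]
      simp
  rw [integral_congr_ae hae, setIntegral_indicator measurableSet_Ioc]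
  have hset : Set.Ioi (0 : ℝ) ∩ Set.Ioc 0 ‖y‖ = Set.Ioc 0 ‖y‖ := by
    ext r
    simp only [Set.mem_inter_iff, Set.mem_Ioi, Set.mem_Ioc]
    tauto
  rw [hset, ← intervalIntegral.integral_of_le hy0.le]
  have hii : ∀ k l : ℕ, IntervalIntegrable (fun r : ℝ =>
      (2 * (l : ℝ) + 1) * (r ^ (2 * l + 2) * Hyd.rad k l r ^ 2 * (1 / r - 1 / ‖y‖) /
          Hyd.radN k l)) volume 0 ‖y‖ := by
    intro k l
    have hc : Continuous (Hyd.rad k l) := by
      have := Hyd.continuous_Lr (Hyd.kap k) l (k + 1 - l)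
      unfold Hyd.rad
      fun_prop
    have h1 : Continuous fun r : ℝ =>
        (2 * (l : ℝ) + 1) * (r ^ (2 * l + 1) * (1 - r / ‖y‖) * Hyd.rad k l r ^ 2 /
          Hyd.radN k l) := by fun_prop
    refine (h1.intervalIntegrable 0 ‖y‖).congr ?_
    rw [Set.uIoc_of_le hy0.le]
    refine fun r hr => ?_
    have hr0 : r ≠ 0 := hr.1.ne'
    show (2 * (l : ℝ) + 1) * (r ^ (2 * l + 1) * (1 - r / ‖y‖) * Hyd.rad k l r ^ 2 /
      Hyd.radN k l) = (2 * (l : ℝ) + 1) * (r ^ (2 * l + 2) * Hyd.rad k l r ^ 2 *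
        (1 / r - 1 / ‖y‖) / Hyd.radN k l)
    have : r ^ (2 * l + 1) * (1 - r / ‖y‖) = r ^ (2 * l + 2) * (1 / r - 1 / ‖y‖) := by
      field_simp
      ring
    rw [this]
    ring
  have hio : ∀ k ∈ range (n - 1), IntervalIntegrable (fun r : ℝ => ∑ l ∈ range (k + 1),
      (2 * (l : ℝ) + 1) * (r ^ (2 * l + 2) * Hyd.rad k l r ^ 2 * (1 / r - 1 / ‖y‖) /
          Hyd.radN k l)) volume 0 ‖y‖ := by
    intro k _
    have h := IntervalIntegrable.sum (range (k + 1)) (fun l _ => hii k l)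
    refine h.congr fun r _ => ?_
    simp only [Finset.sum_apply]
  rw [intervalIntegral.integral_finsetSum hio]
  refine Finset.sum_congr rfl fun k _ => ?_
  rw [intervalIntegral.integral_finsetSum fun l _ => hii k l]
  refine Finset.sum_congr rfl fun l _ => ?_
  unfold gI
  rw [intervalIntegral.integral_const_mul, intervalIntegral.integral_div]

theorem gm_eN_hasDerivAt (N : ℕ) (y : ℝ) : HasDerivAt (eN (N + 1)) (-(eN N y)) y := by
  have h1 : HasDerivAt (fun y : ℝ => ∑ i ∈ range (N + 1), (-y) ^ i / (i.factorial : ℝ))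
      (∑ i ∈ range (N + 1), ((i : ℝ) * (-y) ^ (i - 1) * (-1)) / (i.factorial : ℝ)) y := by
    refine HasDerivAt.fun_sum fun i _ => ?_
    exact ((hasDerivAt_neg y).pow i).div_const _
  have h2 : ∑ i ∈ range (N + 1), ((i : ℝ) * (-y) ^ (i - 1) * (-1)) / (i.factorial : ℝ) =
      -(eN N y) := by
    rw [Finset.sum_range_succ']
    unfold eN
    rw [← Finset.sum_neg_distrib]
    simp only [Nat.cast_zero, zero_mul, zero_div, add_zero]
    refine Finset.sum_congr rfl fun i _ => ?_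
    rw [Nat.factorial_succ, Nat.add_sub_cancel]
    push_cast
    have : ((i : ℝ) + 1) ≠ 0 := by positivity
    have : (i.factorial : ℝ) ≠ 0 := by positivity
    field_simp
  rw [← h2]
  exact h1

theorem gm_eN_continuous (N : ℕ) : Continuous (eN N) := by
  unfold eN
  fun_prop

theorem gm_eN_zero (N : ℕ) : eN (N + 1) 0 = 1 := by
  unfold eN
  rw [Finset.sum_range_succ']
  simp

theorem gm_eN_sign (N : ℕ) : ∀ x : ℝ, 0 ≤ x →
    0 ≤ (-1) ^ N * (Real.exp (-x) - eN N x) ∧
      (-1) ^ N * (Real.exp (-x) - eN N x) ≤ x ^ N / N.factorial := by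
  induction N with
  | zero =>
    intro x hx
    have : Real.exp (-x) ≤ 1 := Real.exp_le_one_iff.mpr (by linarith)
    simp only [eN, range_zero, sum_empty, pow_zero, sub_zero, one_mul, Nat.factorial_zero,
      Nat.cast_one, div_one]
    exact ⟨(Real.exp_pos _).le, this⟩
  | succ N ih =>
    intro x hx
    set f : ℝ → ℝ := fun y => (-1) ^ (N + 1) * (Real.exp (-y) - eN (N + 1) y) with hf
    set g : ℝ → ℝ := fun y => (-1) ^ N * (Real.exp (-y) - eN N y) with hg
    have hder : ∀ y : ℝ, HasDerivAt f (g y) y := by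
      intro y
      have h1 : HasDerivAt (fun y : ℝ => Real.exp (-y)) (Real.exp (-y) * (-1)) y :=
        (hasDerivAt_neg y).exp
      have h2 := (h1.sub (gm_eN_hasDerivAt N y)).const_mul ((-1 : ℝ) ^ (N + 1))
      refine h2.congr_deriv ?_
      simp only [hg]
      ring
    have hgc : Continuous g := by
      have := gm_eN_continuous N
      simp only [hg]
      fun_prop
    have hf0 : f 0 = 0 := by
      simp only [hf, gm_eN_zero, neg_zero, Real.exp_zero, sub_self, mul_zero]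
    have hint : ∫ y in (0 : ℝ)..x, g y = f x := by
      rw [intervalIntegral.integral_eq_sub_of_hasDerivAt (fun y _ => hder y)
        (hgc.intervalIntegrable _ _), hf0, sub_zero]
    show 0 ≤ f x ∧ f x ≤ _
    rw [← hint]
    constructor
    · exact intervalIntegral.integral_nonneg hx fun y hy => (ih y hy.1).1
    · have h3 : ∫ y in (0 : ℝ)..x, g y ≤ ∫ y in (0 : ℝ)..x, y ^ N / N.factorial :=
        intervalIntegral.integral_mono_on hx (hgc.intervalIntegrable _ _)
          ((by fun_prop : Continuous fun y : ℝ => y ^ N / (N.factorial : ℝ)).intervalIntegrable _ _)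
          fun y hy => (ih y hy.1).2
      refine h3.trans (le_of_eq ?_)
      rw [intervalIntegral.integral_div, integral_pow, Nat.factorial_succ]
      push_cast
      have : (N.factorial : ℝ) ≠ 0 := by positivity
      have : ((N : ℝ) + 1) ≠ 0 := by positivity
      field_simp
      ring

/-- alternating Taylor remainder -/
theorem eN_err (N : ℕ) (x : ℝ) (hx : 0 ≤ x) : |eN N x - Real.exp (-x)| ≤ x ^ N / N.factorial := by
  obtain ⟨h1, h2⟩ := gm_eN_sign N x hx
  have h3 : |(-1 : ℝ) ^ N * (Real.exp (-x) - eN N x)| = |eN N x - Real.exp (-x)| := by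
    rw [abs_mul, abs_pow, abs_neg, abs_one, one_pow, one_mul, abs_sub_comm]
  rw [← h3, abs_of_nonneg h1]
  exact h2

/-- removing the singularity of the weight -/
theorem gm_w (a : ℕ) (ρ : ℝ) (hρ : 0 < ρ) (F : ℝ → ℝ) :
    ∫ r in (0 : ℝ)..ρ, r ^ (a + 1) * F r * (1 / r - 1 / ρ) =
      ∫ r in (0 : ℝ)..ρ, r ^ a * (1 - r / ρ) * F r := by
  rw [intervalIntegral.integral_of_le hρ.le, intervalIntegral.integral_of_le hρ.le]
  refine setIntegral_congr_fun measurableSet_Ioc fun r hr => ?_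
  have hr0 : r ≠ 0 := hr.1.ne'
  show r ^ (a + 1) * F r * (1 / r - 1 / ρ) = r ^ a * (1 - r / ρ) * F r
  field_simp
  ring

theorem ser_eq (N a : ℕ) (ha : 1 ≤ a) (α ρ : ℝ) (hρ : 0 < ρ) :
    ∫ r in (0 : ℝ)..ρ, r ^ a * eN N (α * r) * (1 / r - 1 / ρ) = ser N a α ρ := by
  obtain ⟨b, rfl⟩ : ∃ b, a = b + 1 := ⟨a - 1, by omega⟩
  rw [gm_w b ρ hρ (fun r => eN N (α * r))]
  have h1 : ∀ r : ℝ, r ^ b * (1 - r / ρ) * eN N (α * r) =
      ∑ i ∈ range N, ((-α) ^ i / (i.factorial : ℝ)) * (r ^ (b + i) - r ^ (b + i + 1) / ρ) := by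
    intro r
    unfold eN
    rw [Finset.mul_sum]
    refine Finset.sum_congr rfl fun i _ => ?_
    rw [show -(α * r) = (-α) * r by ring, mul_pow]
    field_simp
    ring
  simp only [h1]
  rw [intervalIntegral.integral_finsetSum]
  · unfold ser
    refine Finset.sum_congr rfl fun i _ => ?_
    rw [intervalIntegral.integral_const_mul, intervalIntegral.integral_sub
      ((by fun_prop : Continuous fun r : ℝ => r ^ (b + i)).intervalIntegrable _ _)
      ((by fun_prop : Continuous fun r : ℝ => r ^ (b + i + 1) / ρ).intervalIntegrable _ _),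
      intervalIntegral.integral_div, integral_pow, integral_pow]
    have e1 : ((b : ℝ) + i + 1) ≠ 0 := by positivity
    have e2 : ((b : ℝ) + i + 1 + 1) ≠ 0 := by positivity
    push_cast
    rw [show b + 1 + i = b + i + 1 by ring]
    simp only [ne_eq, Nat.add_eq_zero_iff, one_ne_zero, and_false, not_false_eq_true, zero_pow,
      sub_zero]
    have e3 : (b : ℝ) + 1 + i = b + i + 1 := by ring
    rw [e3]
    field_simp
    ring
  · intro i _
    exact (by fun_prop : Continuous fun r : ℝ => ((-α) ^ i / (i.factorial : ℝ)) *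
      (r ^ (b + i) - r ^ (b + i + 1) / ρ)).intervalIntegrable _ _

theorem gI_nonneg (k l : ℕ) (ρ : ℝ) (hρ : 0 < ρ) : 0 ≤ gI k l ρ := by
  unfold gI
  refine div_nonneg (intervalIntegral.integral_nonneg hρ.le fun r hr => ?_)
    (setIntegral_nonneg measurableSet_Ioi fun r hr => ?_)
  · rcases hr.1.eq_or_lt with h | h
    · rw [← h]; simp
    · have h1 : 1 / ρ ≤ 1 / r := one_div_le_one_div_of_le h hr.2
      have h2 : 0 ≤ 1 / r - 1 / ρ := by linarith
      positivity
  · have : (0 : ℝ) < r := hr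
    positivity

theorem gm_exp_two : Real.exp 2 ≤ 8 := by
  have h : Real.exp 1 < 2.7182818286 := Real.exp_one_lt_d9
  have h2 : Real.exp 2 = Real.exp 1 * Real.exp 1 := by rw [← Real.exp_add]; norm_num
  have h0 := Real.exp_pos 1
  rw [h2]
  linarith only [mul_pos_of_neg_of_neg (Mathlib.Tactic.Linarith.sub_neg_of_lt h) (Mathlib.Tactic.Linarith.sub_neg_of_lt h0), h]

/-- replacing the exponential by its Taylor polynomial in a nonnegative integral -/
theorem gm_trunc (N a : ℕ) {α ρ : ℝ} (hα : 0 ≤ α) (hα2 : α ≤ 2) (hρ : 0 < ρ) (hρ1 : ρ ≤ 1)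
    {P : ℝ → ℝ} (hP : Continuous P) :
    |(∫ r in (0 : ℝ)..ρ, r ^ a * (1 - r / ρ) * (P r ^ 2 * eN N (α * r))) -
      ∫ r in (0 : ℝ)..ρ, r ^ a * (1 - r / ρ) * (P r ^ 2 * Real.exp (-(α * r)))| ≤
      8 * (2 * ρ) ^ N *
        ∫ r in (0 : ℝ)..ρ, r ^ a * (1 - r / ρ) * (P r ^ 2 * Real.exp (-(α * r))) := by
  have he := gm_eN_continuous N
  have c1 : Continuous fun r : ℝ => r ^ a * (1 - r / ρ) * (P r ^ 2 * eN N (α * r)) := by
    fun_prop
  have c2 : Continuous fun r : ℝ => r ^ a * (1 - r / ρ) * (P r ^ 2 * Real.exp (-(α * r))) := by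
    fun_prop
  rw [← intervalIntegral.integral_sub (c1.intervalIntegrable _ _) (c2.intervalIntegrable _ _),
    ← intervalIntegral.integral_const_mul]
  refine (intervalIntegral.abs_integral_le_integral_abs hρ.le).trans ?_
  refine intervalIntegral.integral_mono_on hρ.le ((c1.sub c2).abs.intervalIntegrable _ _)
    ((c2.const_mul _).intervalIntegrable _ _) fun r hr => ?_
  obtain ⟨h0, h1⟩ := hr
  have hw : 0 ≤ r ^ a * (1 - r / ρ) := by
    have : r / ρ ≤ 1 := (div_le_one hρ).mpr h1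
    have : 0 ≤ 1 - r / ρ := by linarith
    positivity
  have hx0 : 0 ≤ α * r := mul_nonneg hα h0
  have hx1 : α * r ≤ 2 * ρ := mul_le_mul hα2 h1 h0 (by norm_num)
  have hx2 : α * r ≤ 2 := by linarith
  have herr : |eN N (α * r) - Real.exp (-(α * r))| ≤
      8 * (2 * ρ) ^ N * Real.exp (-(α * r)) := by
    refine (eN_err N _ hx0).trans ?_
    have e1 : (α * r) ^ N / (N.factorial : ℝ) ≤ (2 * ρ) ^ N := by
      refine (div_le_self (by positivity) ?_).trans (pow_le_pow_left₀ hx0 hx1 N)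
      exact_mod_cast Nat.one_le_iff_ne_zero.mpr (Nat.factorial_ne_zero N)
    have e2 : 1 ≤ 8 * Real.exp (-(α * r)) := by
      rw [Real.exp_neg, ← div_eq_mul_inv, le_div_iff₀ (Real.exp_pos _), one_mul]
      exact (Real.exp_le_exp.mpr hx2).trans gm_exp_two
    calc (α * r) ^ N / (N.factorial : ℝ) ≤ (2 * ρ) ^ N * 1 := by rw [mul_one]; exact e1
      _ ≤ (2 * ρ) ^ N * (8 * Real.exp (-(α * r))) := by gcongr
      _ = _ := by ring
  calc |r ^ a * (1 - r / ρ) * (P r ^ 2 * eN N (α * r)) -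
        r ^ a * (1 - r / ρ) * (P r ^ 2 * Real.exp (-(α * r)))|
      = (r ^ a * (1 - r / ρ)) * P r ^ 2 * |eN N (α * r) - Real.exp (-(α * r))| := by
        rw [show r ^ a * (1 - r / ρ) * (P r ^ 2 * eN N (α * r)) -
          r ^ a * (1 - r / ρ) * (P r ^ 2 * Real.exp (-(α * r))) =
          (r ^ a * (1 - r / ρ) * P r ^ 2) * (eN N (α * r) - Real.exp (-(α * r))) by ring,
          abs_mul, abs_of_nonneg (mul_nonneg hw (sq_nonneg _))]
    _ ≤ (r ^ a * (1 - r / ρ)) * P r ^ 2 * (8 * (2 * ρ) ^ N * Real.exp (-(α * r))) := by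
        gcongr
    _ = _ := by ring

theorem gm_kp_pos (k : ℕ) : 0 < kp k := by unfold kp; positivity

theorem gm_kp_le (k : ℕ) : kp k ≤ 1 := by
  unfold kp
  rw [div_le_one (by positivity)]
  have : (0 : ℝ) ≤ k := by positivity
  linarith

theorem gIs_err (N k l : ℕ) (hl : l ≤ k) (ρ : ℝ) (hρ : 0 < ρ) (hρ1 : ρ ≤ 1) :
    |gIs N k l ρ - gI k l ρ| ≤ 8 * (2 * ρ) ^ N * gI k l ρ := by
  set P : ℝ → ℝ := fun r => ∑ j ∈ range (k + 1 - l), lag k l j * r ^ j with hPdef
  have hP : Continuous P := by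
    simp only [hPdef]
    fun_prop
  have hn := nrm_pos k l hl
  have he := gm_eN_continuous N
  have e1 : gI k l ρ = (∫ r in (0 : ℝ)..ρ, r ^ (2 * l + 1) * (1 - r / ρ) *
      (P r ^ 2 * Real.exp (-((2 * kp k) * r)))) / nrm k l := by
    unfold gI
    rw [nrm_eq, gm_w (2 * l + 1) ρ hρ (fun r => Hyd.rad k l r ^ 2)]
    congr 1
    refine intervalIntegral.integral_congr fun r _ => ?_
    simp only [rad_eq, hPdef]
    rw [mul_pow, ← Real.exp_nat_mul]
    congr 3
    push_cast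
    ring
  have e2 : gIs N k l ρ = (∫ r in (0 : ℝ)..ρ, r ^ (2 * l + 1) * (1 - r / ρ) *
      (P r ^ 2 * eN N ((2 * kp k) * r))) / nrm k l := by
    unfold gIs
    congr 1
    have h1 : ∀ r : ℝ, r ^ (2 * l + 1) * (1 - r / ρ) * (P r ^ 2 * eN N ((2 * kp k) * r)) =
        ∑ i ∈ range (k + 1 - l), ∑ j ∈ range (k + 1 - l), (lag k l i * lag k l j) *
          (r ^ (2 * l + 1 + i + j) * (1 - r / ρ) * eN N ((2 * kp k) * r)) := by
      intro r
      simp only [hPdef]
      rw [pow_two, Finset.sum_mul_sum, Finset.sum_mul, Finset.mul_sum]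
      refine Finset.sum_congr rfl fun i _ => ?_
      rw [Finset.sum_mul, Finset.mul_sum]
      refine Finset.sum_congr rfl fun j _ => ?_
      ring
    simp only [h1]
    rw [intervalIntegral.integral_finsetSum fun i _ =>
      (by fun_prop : Continuous fun r : ℝ => ∑ j ∈ range (k + 1 - l), (lag k l i * lag k l j) *
          (r ^ (2 * l + 1 + i + j) * (1 - r / ρ) *
            eN N ((2 * kp k) * r))).intervalIntegrable _ _]
    refine Finset.sum_congr rfl fun i _ => ?_
    rw [intervalIntegral.integral_finsetSum fun j _ =>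
      (by fun_prop : Continuous fun r : ℝ => (lag k l i * lag k l j) *
          (r ^ (2 * l + 1 + i + j) * (1 - r / ρ) *
            eN N ((2 * kp k) * r))).intervalIntegrable _ _]
    refine Finset.sum_congr rfl fun j _ => ?_
    rw [intervalIntegral.integral_const_mul, ← ser_eq N (2 * l + 2 + i + j) (by omega) _ ρ hρ,
      show 2 * l + 2 + i + j = (2 * l + 1 + i + j) + 1 by ring,
      gm_w (2 * l + 1 + i + j) ρ hρ (fun r => eN N (2 * kp k * r))]
  rw [e1, e2, ← sub_div, abs_div, abs_of_pos hn, ← mul_div_assoc]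
  have hk := gm_kp_pos k
  have hk1 := gm_kp_le k
  exact div_le_div_of_nonneg_right (gm_trunc N (2 * l + 1) (by positivity) (by linarith only [hk1]) hρ hρ1 hP)
    hn.le

theorem xrs_err (N n : ℕ) (hn : 1 ≤ n) (ρ : ℝ) (hρ : 0 < ρ) (hρ1 : ρ ≤ 1) :
    |xrs N n ρ - xr n ρ| ≤ 8 * (2 * ρ) ^ N * xr n ρ := by
  have hn0 : (0 : ℝ) < n := by exact_mod_cast hn
  have hn1 : (1 : ℝ) ≤ n := by exact_mod_cast hn
  have hα : (0 : ℝ) < 2 / n := by positivity
  have hα2 : (2 : ℝ) / n ≤ 2 := div_le_self (by norm_num) hn1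
  obtain ⟨b, hb⟩ : ∃ b, 2 * n = b + 1 := ⟨2 * n - 1, by omega⟩
  have hexp : ∀ r : ℝ, Real.exp (-(2 * r / n)) = Real.exp (-(2 / n * r)) := by
    intro r
    congr 2
    ring
  have hI0 : I0 n = ((2 * n).factorial : ℝ) * ((n : ℝ) / 2) ^ (2 * n + 1) := by
    unfold I0
    simp only [hexp]
    rw [(rad_int (2 * n) hα).2, div_pow, div_pow]
    field_simp
  have hI0pos : 0 < I0 n := by rw [hI0]; positivity
  have e1 : xr n ρ = (∫ r in (0 : ℝ)..ρ, r ^ b * (1 - r / ρ) *
      ((1 : ℝ) ^ 2 * Real.exp (-(2 / n * r)))) / I0 n := by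
    unfold xr
    simp only [hexp, hb]
    rw [gm_w b ρ hρ (fun r => Real.exp (-(2 / n * r)))]
    simp
  have e2 : xrs N n ρ = (∫ r in (0 : ℝ)..ρ, r ^ b * (1 - r / ρ) *
      ((1 : ℝ) ^ 2 * eN N (2 / n * r))) / I0 n := by
    unfold xrs
    rw [hI0, ← ser_eq N (2 * n) (by omega) _ ρ hρ]
    congr 1
    rw [hb, gm_w b ρ hρ (fun r => eN N (2 / n * r))]
    simp
  rw [e1, e2, ← sub_div, abs_div, abs_of_pos hI0pos, ← mul_div_assoc]
  exact div_le_div_of_nonneg_right
    (gm_trunc N b hα.le hα2 hρ hρ1 (P := fun _ => (1 : ℝ)) continuous_const) hI0pos.le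

end Vale.Agent.P370.KC
end

section

/-!
Angular integrals for the direct Coulomb integral of two great circle orbitals.
-/

namespace Vale.Agent.P370.KC

open MeasureTheory intervalIntegral
open Vale.Agent.P370.Q

/-- Legendre coefficients of `(1 - t ^ 2) ^ m` -/
noncomputable def eL (m L : ℕ) : ℝ := lc (fun t => (1 - t ^ 2) ^ m) L

/-- closed form of the even coefficients -/
noncomputable def ec (m j : ℕ) : ℝ :=
  (-1) ^ j * (4 ^ m * (m.factorial : ℝ) ^ 2 * ((2 * j).factorial : ℝ) * ((m + j).factorial : ℝ)) /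
    ((j.factorial : ℝ) ^ 2 * ((m - j).factorial : ℝ) * ((2 * m + 2 * j + 1).factorial : ℝ))

theorem lp_neg (L : ℕ) (t : ℝ) : S3.lp L (-t) = (-1) ^ L * S3.lp L t := by
  induction L using Nat.twoStepInduction with
  | zero => simp [S3.lp]
  | one => simp [S3.lp]
  | more n ih0 ih1 =>
    have h1 := S3.lp_succ n t
    have h2 := S3.lp_succ n (-t)
    rw [ih0, ih1] at h2
    have hn : ((n : ℝ) + 2) ≠ 0 := by positivity
    apply mul_left_cancel₀ hn
    rw [h2]
    have e : ((n : ℝ) + 2) * ((-1) ^ (n + 2) * S3.lp (n + 2) t) =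
        (-1) ^ (n + 2) * (((n : ℝ) + 2) * S3.lp (n + 2) t) := by ring
    rw [e, h1]
    ring

theorem eL_odd (m L : ℕ) (hL : Odd L) : eL m L = 0 := by
  unfold eL lc
  have h : ∫ t in (-1 : ℝ)..1, (1 - t ^ 2) ^ m * S3.lp L t = 0 := by
    have h1 := intervalIntegral.integral_comp_neg (a := -1) (b := 1)
      (fun t : ℝ => (1 - t ^ 2) ^ m * S3.lp L t)
    have h2 : ∫ t in (-1 : ℝ)..1, (1 - (-t) ^ 2) ^ m * S3.lp L (-t) =
        -∫ t in (-1 : ℝ)..1, (1 - t ^ 2) ^ m * S3.lp L t := by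
      rw [← intervalIntegral.integral_neg]
      refine integral_congr fun t _ => ?_
      rw [lp_neg, hL.neg_one_pow]
      ring
    rw [h2] at h1
    simp only [neg_neg] at h1
    linarith
  rw [h, mul_zero]

theorem norm_sq_av (α : ℝ) (u : R3) (hu : ‖u‖ = 1) :
    ‖cdot (av α) u‖ ^ 2 = 1 - (inner ℝ (nuv α) u) ^ 2 := by
  have h := GC.norm_sq_eq_add α u
  rw [hu] at h
  rw [cdot_eq_lf, av_eq, nuv_inner]
  linarith

theorem norm_nuv (α : ℝ) : ‖nuv α‖ = 1 := by
  have h : ‖nuv α‖ ^ 2 = 1 := by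
    rw [EuclideanSpace.norm_sq_eq, Fin.sum_univ_three]
    simp [nuv]
  have := norm_nonneg (nuv α)
  nlinarith

theorem conj_av (α : ℝ) (x : R3) : (starRingEnd ℂ) (cdot (av α) x) = cdot (av (α + Real.pi)) x := by
  rw [cdot_eq_lf, cdot_eq_lf, av_eq, av_eq, GC.conj_lf_av]

/-- the even Legendre coefficients of `(1 - t ^ 2) ^ m` -/
theorem eL_even (m j : ℕ) (hj : j ≤ m) : eL m (2 * j) = ec m j := by
  -- compare Funk-Hecke with the triple product for the null vector `av (π / 2)`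
  have hv := norm_nuv 0
  have hnull : cc (av (Real.pi / 2)) (av (Real.pi / 2)) = 0 := av_null _
  have h1 := sph_zonal_null' (nuv 0) hv (av (Real.pi / 2)) hnull (2 * j)
    (fun t => (1 - t ^ 2) ^ m) (by fun_prop)
  have h2 := sph_triple (av 0) (av (0 + Real.pi)) (av (Real.pi / 2)) (av_null _) (av_null _)
    (av_null _) m j hj
  have e : sph (fun u => cdot (av 0) u ^ m * cdot (av (0 + Real.pi)) u ^ m *
      cdot (av (Real.pi / 2)) u ^ (2 * j)) =
      sph (fun u => ((fun t => (1 - t ^ 2) ^ m) (inner ℝ (nuv 0) u) : ℝ) •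
        cdot (av (Real.pi / 2)) u ^ (2 * j)) := by
    refine sph_congr fun u hu => ?_
    rw [← mul_pow, ← conj_av, Complex.mul_conj, Complex.normSq_eq_norm_sq, norm_sq_av 0 u hu,
      Complex.real_smul]
    push_cast
    ring
  rw [e, h1] at h2
  have hcc : ∀ α β : ℝ, cc (av α) (av β) = ((1 - Real.cos (α - β) : ℝ) : ℂ) := fun α β => by
    rw [cc_eq, av_eq, av_eq, GC.dd_av]
  have hc1 : cc (av 0) (av (0 + Real.pi)) = 2 := by
    rw [hcc]
    simp
    norm_num
  have hc2 : cc (av 0) (av (Real.pi / 2)) = 1 := by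
    rw [hcc]
    simp
  have hc3 : cc (av (0 + Real.pi)) (av (Real.pi / 2)) = 1 := by
    rw [hcc]
    have : 0 + Real.pi - Real.pi / 2 = Real.pi / 2 := by ring
    rw [this]
    simp
  have hc4 : cdot (av (Real.pi / 2)) (nuv 0) = Complex.I := by
    unfold cdot
    rw [Fin.sum_univ_three]
    simp [av, nuv]
  rw [hc1, hc2, hc3, hc4, one_pow, mul_one, mul_one, Complex.real_smul, pow_mul, Complex.I_sq] at h2
  have h3 : (lc (fun t => (1 - t ^ 2) ^ m) (2 * j) : ℂ) = ((ec m j : ℝ) : ℂ) := by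
    have hsq : ((-1 : ℂ) ^ j) * (-1) ^ j = 1 := by
      rw [← mul_pow]
      norm_num
    have h4 : (lc (fun t => (1 - t ^ 2) ^ m) (2 * j) : ℂ) =
        (lc (fun t => (1 - t ^ 2) ^ m) (2 * j) : ℂ) * (-1) ^ j * (-1) ^ j := by
      rw [mul_assoc, hsq, mul_one]
    rw [h4, h2]
    unfold ec
    push_cast
    have e4 : (4 : ℂ) ^ m = 2 ^ (m + j) * 2 ^ (m - j) := by
      rw [← pow_add, show m + j + (m - j) = 2 * m by omega, pow_mul]
      norm_num
    rw [e4]
    ring
  unfold eL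
  exact_mod_cast h3

theorem ec_top (m : ℕ) : ec m m = (-1) ^ m * Am (2 * m) := by
  unfold ec Am
  rw [Nat.sub_self, Nat.factorial_zero, show m + m = 2 * m by ring,
    show 2 * m + 2 * m + 1 = 2 * (2 * m) + 1 by ring]
  have f1 : (m.factorial : ℝ) ≠ 0 := by positivity
  have e4 : (4 : ℝ) ^ m = 2 ^ (2 * m) := by rw [pow_mul]; norm_num
  rw [e4]
  push_cast
  field_simp

/-- Legendre expansion of `(1 - t ^ 2) ^ m` -/
theorem expand_m (m : ℕ) (t : ℝ) :
    (1 - t ^ 2) ^ m = ∑ L ∈ Finset.range (2 * m + 1), (2 * (L : ℝ) + 1) * eL m L * S3.lp L t := by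
  have h := LP_expand (2 * m + 1) ((1 - Polynomial.X ^ 2) ^ m) (by
    refine lt_of_le_of_lt (Polynomial.degree_le_natDegree) ?_
    have h1 : ((1 - Polynomial.X ^ 2 : Polynomial ℝ) ^ m).natDegree ≤ 2 * m := by
      refine Polynomial.natDegree_pow_le.trans ?_
      have h2 : (1 - Polynomial.X ^ 2 : Polynomial ℝ).natDegree ≤ 2 := by
        refine (Polynomial.natDegree_sub_le _ _).trans ?_
        simp
      calc m * (1 - Polynomial.X ^ 2 : Polynomial ℝ).natDegree ≤ m * 2 := Nat.mul_le_mul_left _ h2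
        _ = 2 * m := by ring
    exact_mod_cast Nat.lt_succ_of_le h1) t
  have e : ∀ s : ℝ, Polynomial.eval s ((1 - Polynomial.X ^ 2 : Polynomial ℝ) ^ m) =
      (1 - s ^ 2) ^ m := by
    intro s
    simp
  simp only [e] at h
  exact h

/-- the multipole kernel -/
noncomputable def mkl (L : ℕ) (r s : ℝ) : ℝ := min r s ^ L / max r s ^ (L + 1)

theorem sph_sum_on {ι : Type*} (s : Finset ι) (f : ι → R3 → ℝ)
    (hf : ∀ i, ContinuousOn (f i) (Metric.sphere 0 1)) :
    sph (fun u => ∑ i ∈ s, f i u) = ∑ i ∈ s, sph (f i) := by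
  classical
  induction s using Finset.induction_on with
  | empty => simp [sph_const]
  | insert a s ha ih =>
    simp only [Finset.sum_insert ha]
    rw [sph_add (hf a) (continuousOn_finsetSum s fun i _ => hf i), ih]

theorem sph_const_mul (c : ℝ) (f : R3 → ℝ) : sph (fun u => c * f u) = c * sph f := by
  have := sph_smul c f
  simpa only [smul_eq_mul] using this

theorem lc_inv_sqrt {r s : ℝ} (hr : 0 < r) (hs : 0 < s) (hne : r ≠ s) (L : ℕ) :
    lc (fun t => 1 / √(S3.Dd r s t)) L = 1 / (2 * (L : ℝ) + 1) * mkl L r s :=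
  S3.aI_eq hr hs hne L

theorem continuousOn_inv_sqrt {r s : ℝ} (hr : 0 < r) (hs : 0 < s) (hne : r ≠ s) :
    ContinuousOn (fun t => 1 / √(S3.Dd r s t)) (Set.Icc (-1 : ℝ) 1) := by
  have := S3.cA hr hs hne
  rwa [Set.uIcc_of_le (by norm_num)] at this

/-- potential of the axisymmetric part -/
theorem ang_pot1 {r s : ℝ} (hr : 0 < r) (hs : 0 < s) (hne : r ≠ s) (m : ℕ) (e v : R3)
    (he : ‖e‖ = 1) (hv : ‖v‖ = 1) :
    sph (fun u => (1 - (inner ℝ e u) ^ 2) ^ m * (1 / √(S3.Dd r s (inner ℝ v u)))) =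
      ∑ L ∈ Finset.range (2 * m + 1), eL m L * mkl L r s * S3.lp L (inner ℝ e v) := by
  have hk := continuousOn_inv_sqrt hr hs hne
  have hkc : ContinuousOn (fun u : R3 => 1 / √(S3.Dd r s (inner ℝ v u))) (Metric.sphere 0 1) :=
    hk.comp (by fun_prop) fun u hu => inner_mem_Icc hv (by simpa using hu)
  have h1 : sph (fun u => (1 - (inner ℝ e u) ^ 2) ^ m * (1 / √(S3.Dd r s (inner ℝ v u)))) =
      sph (fun u => ∑ L ∈ Finset.range (2 * m + 1), ((2 * (L : ℝ) + 1) * eL m L) *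
        (S3.lp L (inner ℝ e u) * (1 / √(S3.Dd r s (inner ℝ v u))))) := by
    congr 1
    funext u
    rw [expand_m m, Finset.sum_mul]
    refine Finset.sum_congr rfl fun L _ => ?_
    ring
  have hc : ∀ L : ℕ, ContinuousOn (fun u : R3 => ((2 * (L : ℝ) + 1) * eL m L) *
      (S3.lp L (inner ℝ e u) * (1 / √(S3.Dd r s (inner ℝ v u))))) (Metric.sphere 0 1) := by
    intro L
    exact continuousOn_const.mul (((S3.lp_continuous L).comp (by fun_prop)).continuousOn.mul hkc)
  rw [h1, sph_sum_on _ _ hc]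
  refine Finset.sum_congr rfl fun L _ => ?_
  rw [sph_const_mul, funk_hecke e v he hv L _ hk, lc_inv_sqrt hr hs hne]
  have : (2 * (L : ℝ) + 1) ≠ 0 := by positivity
  field_simp

/-- Funk-Hecke for real parts of null powers -/
theorem sph_zonal_re (v : R3) (hv : ‖v‖ = 1) (α : ℝ) (N : ℕ) (f : ℝ → ℝ)
    (hf : ContinuousOn f (Set.Icc (-1) 1)) :
    sph (fun u => f (inner ℝ v u) * (cdot (av α) u ^ N).re) = lc f N * (cdot (av α) v ^ N).re := by
  have hfe := continuous_ext1 hf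
  have h := sph_zonal_null' v hv (av α) (av_null α) N f hf
  have h1 : sph (fun u => (ext1 f (inner ℝ v u) : ℝ) • cdot (av α) u ^ N) =
      (lc f N : ℝ) • cdot (av α) v ^ N := by
    rw [← h]
    refine sph_congr fun u hu => ?_
    rw [ext1_eq f (inner_mem_Icc hv hu)]
  have h2 := sph_re (fun u => (ext1 f (inner ℝ v u) : ℝ) • cdot (av α) u ^ N)
    (by
      have hA : Continuous fun u : R3 => ext1 f (inner ℝ v u) := hfe.comp (by fun_prop)
      exact hA.smul ((continuous_cdot (av α)).pow N))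
  rw [h1] at h2
  simp only [Complex.real_smul, Complex.re_ofReal_mul] at h2
  rw [← h2]
  refine sph_congr fun u hu => ?_
  rw [ext1_eq f (inner_mem_Icc hv hu)]

/-- potential of the oscillating part -/
theorem ang_pot2 {r s : ℝ} (hr : 0 < r) (hs : 0 < s) (hne : r ≠ s) (N : ℕ) (α : ℝ) (v : R3)
    (hv : ‖v‖ = 1) :
    sph (fun u => (cdot (av α) u ^ N).re * (1 / √(S3.Dd r s (inner ℝ v u)))) =
      1 / (2 * (N : ℝ) + 1) * mkl N r s * (cdot (av α) v ^ N).re := by
  have hk := continuousOn_inv_sqrt hr hs hne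
  rw [← lc_inv_sqrt hr hs hne N, ← sph_zonal_re v hv α N _ hk]
  congr 1
  funext u
  ring

theorem inner_nuv (α β : ℝ) : inner ℝ (nuv α) (nuv β) = Real.cos (α - β) := by
  rw [nuv_inner, GC.nu, Real.cos_sub]
  simp [nuv]
  ring

theorem cdot_av_nuv (α β : ℝ) :
    cdot (av β) (nuv α) = -(Complex.I * (Real.sin (α - β) : ℝ)) := by
  unfold cdot
  rw [Fin.sum_univ_three, Real.sin_sub]
  simp [av, nuv]
  ring

theorem re_cdot_av_nuv (α β : ℝ) (m : ℕ) :
    (cdot (av β) (nuv α) ^ (2 * m)).re = (-1) ^ m * Real.sin (α - β) ^ (2 * m) := by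
  rw [cdot_av_nuv, pow_mul, neg_sq, mul_pow, Complex.I_sq]
  have : (-1 * ((Real.sin (α - β) : ℝ) : ℂ) ^ 2) ^ m =
      (((-1) ^ m * Real.sin (α - β) ^ (2 * m) : ℝ) : ℂ) := by
    rw [mul_pow, ← pow_mul]
    push_cast
    ring
  rw [this, Complex.ofReal_re]

/-- axisymmetric against axisymmetric -/
theorem ang_rr (L m : ℕ) (α β : ℝ) :
    sph (fun u => S3.lp L (inner ℝ (nuv α) u) * (1 - (inner ℝ (nuv β) u) ^ 2) ^ m) =
      eL m L * S3.lp L (Real.cos (α - β)) := by
  rw [funk_hecke (nuv α) (nuv β) (norm_nuv α) (norm_nuv β) L (fun t => (1 - t ^ 2) ^ m)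
    (by fun_prop), inner_nuv]
  rfl

theorem lc_lp (L N : ℕ) : lc (S3.lp L) N = if L = N then 1 / (2 * (N : ℝ) + 1) else 0 := by
  unfold lc
  by_cases h : L = N
  · subst h
    rw [if_pos rfl, lp_norm_sq]
    field_simp
  · rw [if_neg h, lp_ortho_ne h, mul_zero]

/-- axisymmetric against oscillating -/
theorem ang_ro (L m : ℕ) (α β : ℝ) :
    sph (fun u => S3.lp L (inner ℝ (nuv α) u) * (cdot (av β) u ^ (2 * m)).re) =
      if L = 2 * m then 1 / (4 * (m : ℝ) + 1) * ((-1) ^ m * Real.sin (α - β) ^ (2 * m)) else 0 := by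
  rw [sph_zonal_re (nuv α) (norm_nuv α) β (2 * m) (S3.lp L) (S3.lp_continuous L).continuousOn,
    lc_lp, re_cdot_av_nuv]
  by_cases h : L = 2 * m
  · rw [if_pos h, if_pos h]
    push_cast
    ring
  · rw [if_neg h, if_neg h, zero_mul]

/-- oscillating against axisymmetric -/
theorem ang_or (m : ℕ) (α β : ℝ) :
    sph (fun u => (cdot (av α) u ^ (2 * m)).re * (1 - (inner ℝ (nuv β) u) ^ 2) ^ m) =
      Am (2 * m) * Real.sin (α - β) ^ (2 * m) := by
  have h := sph_zonal_re (nuv β) (norm_nuv β) α (2 * m) (fun t => (1 - t ^ 2) ^ m) (by fun_prop)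
  have e : sph (fun u => (cdot (av α) u ^ (2 * m)).re * (1 - (inner ℝ (nuv β) u) ^ 2) ^ m) =
      sph (fun u => (1 - (inner ℝ (nuv β) u) ^ 2) ^ m * (cdot (av α) u ^ (2 * m)).re) := by
    congr 1
    funext u
    ring
  rw [e, h, re_cdot_av_nuv]
  have h2 : lc (fun t => (1 - t ^ 2) ^ m) (2 * m) = (-1) ^ m * Am (2 * m) := by
    rw [← ec_top, ← eL_even m m le_rfl]
    rfl
  rw [h2]
  have h3 : Real.sin (β - α) ^ (2 * m) = Real.sin (α - β) ^ (2 * m) := by
    rw [← neg_sub, Real.sin_neg, pow_mul, neg_sq, ← pow_mul]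
  rw [h3]
  have h4 : ((-1 : ℝ) ^ m) * (-1) ^ m = 1 := by
    rw [← mul_pow]
    norm_num
  linear_combination (Am (2 * m) * Real.sin (α - β) ^ (2 * m)) * h4

/-- oscillating against oscillating -/
theorem ang_oo (m : ℕ) (α β : ℝ) :
    sph (fun u => (cdot (av α) u ^ (2 * m)).re * (cdot (av β) u ^ (2 * m)).re) =
      Am (2 * m) / 2 * ((1 - Real.cos (α - β)) ^ (2 * m) + (1 + Real.cos (α - β)) ^ (2 * m)) := by
  have hc : Continuous fun u : R3 => (cdot (av α) u ^ (2 * m)).re * (cdot (av β) u ^ (2 * m)).re :=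
    (Complex.continuous_re.comp ((continuous_cdot (av α)).pow _)).mul
      (Complex.continuous_re.comp ((continuous_cdot (av β)).pow _))
  have h := GC.integral_sphere_two (2 * m) α β
  rw [sph_eq_toSphere _ hc.continuousOn]
  have e : ∫ ω : Metric.sphere (0 : R3) 1, (cdot (av α) ω ^ (2 * m)).re *
      (cdot (av β) ω ^ (2 * m)).re ∂(volume : Measure R3).toSphere =
      ∫ ω : Metric.sphere (0 : R3) 1, GC.fr (2 * m) α ω * GC.fr (2 * m) β ω
        ∂(volume : Measure R3).toSphere := by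
    refine integral_congr_ae (.of_forall fun ω => ?_)
    simp only [GC.fr, cdot_eq_lf, av_eq]
  rw [e, h, smul_eq_mul]
  unfold GC.c2 Am
  rw [div_pow, div_pow]
  have e4 : (4 : ℝ) ^ (2 * m) = 2 ^ (2 * m) * 2 ^ (2 * m) := by
    rw [← mul_pow]
    norm_num
  rw [e4]
  have hpi := Real.pi_pos
  have f3 : ((2 * (2 * m) + 1).factorial : ℝ) ≠ 0 := by positivity
  field_simp
  ring

end Vale.Agent.P370.KC
end

section

/-!
KC9: the direct Coulomb integrals of the sites.
-/

namespace Vale.Agent.P370.KC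

open Finset MeasureTheory Vale.Agent.P370.Q

/-- prefactor of the densities -/
noncomputable def pre (n : ℕ) : ℝ := 4 / ((n : ℝ) ^ (2 * n + 2) * ((n - 1).factorial : ℝ) ^ 2)

theorem wd_nf_pos (n : ℕ) (hn : 1 ≤ n) : 0 < nf n := by
  have : (0 : ℝ) < n := by exact_mod_cast hn
  have := Real.pi_pos
  unfold nf
  positivity

theorem pre_eq (n : ℕ) (hn : 1 ≤ n) : 4 * Real.pi / (2 * nf n) = pre n := by
  have h0 : (n : ℝ) ≠ 0 := by
    have : (0 : ℝ) < n := by exact_mod_cast hn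
    exact this.ne'
  have h1 := Real.pi_ne_zero
  have h2 : ((n - 1).factorial : ℝ) ≠ 0 := by positivity
  unfold nf pre
  field_simp

theorem pre_nonneg (n : ℕ) : 0 ≤ pre n := by
  unfold pre
  positivity

/-- oscillating part of the density of a site -/
noncomputable def rho1 (n : ℕ) (α : ℝ) : R3 → ℝ := fun x => fh n α x ^ 2 - rho0 n α x

theorem continuous_rho1 (n : ℕ) (hn : 1 ≤ n) (α : ℝ) : Continuous (rho1 n α) :=
  ((continuous_fh n α).pow 2).sub (continuous_rho0 n hn α)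

theorem abs_rho1_le (n : ℕ) (hn : 1 ≤ n) (α : ℝ) (x : R3) : |rho1 n α x| ≤ rho0 n α x := by
  have h1 := fh_sq_le n hn α x
  have h2 := sq_nonneg (fh n α x)
  unfold rho1
  rw [abs_le]
  constructor <;> linarith

theorem rho1_eq (n : ℕ) (hn : 1 ≤ n) (α : ℝ) (x : R3) :
    rho1 n α x = (cdot (av α) x ^ (2 * (n - 1))).re * Real.exp (-(2 * ‖x‖ / n)) / (2 * nf n) := by
  have hnf := wd_nf_pos n hn
  unfold rho1 fh fsite rho0
  rw [div_pow, Real.sq_sqrt hnf.le, mul_pow, ← Real.exp_nat_mul]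
  have e1 : ((2 : ℕ) : ℝ) * -(‖x‖ / n) = -(2 * ‖x‖ / n) := by
    push_cast
    ring
  rw [e1]
  have e2 : ((cdot (av α) x ^ (n - 1)).re) ^ 2 =
      (‖cdot (av α) x‖ ^ (2 * (n - 1)) + (cdot (av α) x ^ (2 * (n - 1))).re) / 2 := by
    have h1 : cdot (av α) x ^ (2 * (n - 1)) = (cdot (av α) x ^ (n - 1)) ^ 2 := by
      rw [← pow_mul, mul_comm]
    have h2 : ‖cdot (av α) x‖ ^ (2 * (n - 1)) = ‖cdot (av α) x ^ (n - 1)‖ ^ 2 := by
      rw [norm_pow, ← pow_mul, mul_comm]
    rw [h1, h2, ← Complex.normSq_eq_norm_sq, Complex.normSq_apply, sq, sq, Complex.mul_re]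
    ring
  rw [e2]
  field_simp
  ring

theorem wd_cdot_smul (c : C3) (r : ℝ) (x : R3) : cdot c (r • x) = (r : ℂ) * cdot c x := by
  unfold cdot
  rw [Finset.mul_sum]
  refine Finset.sum_congr rfl fun k _ => ?_
  simp
  ring

theorem rho0_smul (n : ℕ) (hn : 1 ≤ n) (α : ℝ) (u : R3) (hu : ‖u‖ = 1) {r : ℝ} (hr : 0 < r) :
    4 * Real.pi * r ^ 2 * rho0 n α (r • u) = pre n * (r ^ (2 * n) * Real.exp (-(2 / n * r))) *
      (1 - (inner ℝ (nuv α) u) ^ 2) ^ (n - 1) := by
  have hnf := wd_nf_pos n hn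
  have n1 : ‖r • u‖ = r := by rw [norm_smul, hu, mul_one, Real.norm_eq_abs, abs_of_pos hr]
  have n2 : ‖cdot (av α) (r • u)‖ ^ (2 * (n - 1)) =
      r ^ (2 * (n - 1)) * (1 - (inner ℝ (nuv α) u) ^ 2) ^ (n - 1) := by
    rw [wd_cdot_smul, norm_mul, mul_pow, Complex.norm_real, Real.norm_eq_abs, abs_of_pos hr,
      ← norm_sq_av α u hu, pow_mul ‖cdot (av α) u‖]
  have n3 : -(2 * r / (n : ℝ)) = -(2 / n * r) := by ring
  have n4 : r ^ (2 * n) = r ^ 2 * r ^ (2 * (n - 1)) := by
    rw [← pow_add]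
    congr 1
    omega
  unfold rho0
  rw [n1, n2, n3, ← pre_eq n hn, n4]
  ring

theorem rho1_smul (n : ℕ) (hn : 1 ≤ n) (α : ℝ) (u : R3) (hu : ‖u‖ = 1) {r : ℝ} (hr : 0 < r) :
    4 * Real.pi * r ^ 2 * rho1 n α (r • u) = pre n * (r ^ (2 * n) * Real.exp (-(2 / n * r))) *
      (cdot (av α) u ^ (2 * (n - 1))).re := by
  have n1 : ‖r • u‖ = r := by rw [norm_smul, hu, mul_one, Real.norm_eq_abs, abs_of_pos hr]
  have n2 : (cdot (av α) (r • u) ^ (2 * (n - 1))).re =
      r ^ (2 * (n - 1)) * (cdot (av α) u ^ (2 * (n - 1))).re := by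
    rw [wd_cdot_smul, mul_pow, ← Complex.ofReal_pow, Complex.re_ofReal_mul]
  have n3 : -(2 * r / (n : ℝ)) = -(2 / n * r) := by ring
  have n4 : r ^ (2 * n) = r ^ 2 * r ^ (2 * (n - 1)) := by
    rw [← pow_add]
    congr 1
    omega
  rw [rho1_eq n hn, n1, n2, n3, ← pre_eq n hn, n4]
  ring

/-- potentials in polar coordinates -/
theorem pot_polar (n : ℕ) (F A : R3 → ℝ)
    (hA : ∀ u : R3, ‖u‖ = 1 → ∀ r : ℝ, 0 < r → 4 * Real.pi * r ^ 2 * F (r • u) =
      pre n * (r ^ (2 * n) * Real.exp (-(2 / n * r))) * A u)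
    (s : ℝ) (v : R3) (hv : ‖v‖ = 1) (hint : Integrable (fun x => F x / dist x (s • v))) :
    ∫ x, F x / dist x (s • v) = ∫ r in Set.Ioi (0 : ℝ),
      pre n * (r ^ (2 * n) * Real.exp (-(2 / n * r))) *
        sph (fun u => A u * (1 / √(S3.Dd r s (inner ℝ v u)))) := by
  rw [polar_sph _ hint]
  refine setIntegral_congr_fun measurableSet_Ioi fun r hr => ?_
  have hr0 : 0 < r := hr
  simp only [smul_eq_mul]
  rw [← sph_const_mul, ← sph_const_mul]
  refine sph_congr fun u hu => ?_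
  have h := hA u hu r hr0
  rw [S3.dist_eq u v hu hv r s, real_inner_comm v u]
  calc 4 * Real.pi * r ^ 2 * (F (r • u) / √(S3.Dd r s (inner ℝ v u)))
      = (4 * Real.pi * r ^ 2 * F (r • u)) * (1 / √(S3.Dd r s (inner ℝ v u))) := by ring
    _ = _ := by
        rw [h]
        ring

theorem ae_ne_Ioi (s : ℝ) : ∀ᵐ r ∂(volume.restrict (Set.Ioi (0 : ℝ))), r ≠ s ∧ 0 < r := by
  have h1 : ∀ᵐ r ∂(volume.restrict (Set.Ioi (0 : ℝ))), r ≠ s := by
    refine ae_restrict_of_ae ?_
    rw [ae_iff]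
    simp
  have h2 : ∀ᵐ r ∂(volume.restrict (Set.Ioi (0 : ℝ))), r ∈ Set.Ioi (0 : ℝ) :=
    ae_restrict_mem measurableSet_Ioi
  filter_upwards [h1, h2] with r a b
  exact ⟨a, b⟩

/-- radial factor of the potential -/
noncomputable def IL (n L : ℕ) (s : ℝ) : ℝ := ∫ r in Set.Ioi (0 : ℝ),
  r ^ (2 * n) * Real.exp (-(2 / n * r)) * (min r s ^ L / max r s ^ (L + 1))

theorem alpha_pos (n : ℕ) (hn : 1 ≤ n) : (0 : ℝ) < 2 / n := by
  have : (0 : ℝ) < n := by exact_mod_cast hn
  positivity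

theorem IL_integrable (n : ℕ) (hn : 1 ≤ n) {L : ℕ} (hL : L + 1 ≤ 2 * n) {s : ℝ} (hs : 0 < s) :
    IntegrableOn (fun r => r ^ (2 * n) * Real.exp (-(2 / n * r)) *
      (min r s ^ L / max r s ^ (L + 1))) (Set.Ioi 0) :=
  (Phi_eq (2 * n) (2 * n) L (alpha_pos n hn) (alpha_pos n hn) hL hL).1 s hs

/-- potential of the symmetric density -/
theorem pot0 (n : ℕ) (hn : 2 ≤ n) (α : ℝ) {s : ℝ} (hs : 0 < s) (v : R3) (hv : ‖v‖ = 1) :
    ∫ x, rho0 n α x / dist x (s • v) = ∑ L ∈ range (2 * n - 1),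
      (pre n * eL (n - 1) L * S3.lp L (inner ℝ (nuv α) v)) * IL n L s := by
  rw [pot_polar n (rho0 n α) (fun u => (1 - (inner ℝ (nuv α) u) ^ 2) ^ (n - 1))
    (fun u hu r hr => rho0_smul n (by omega) α u hu hr) s v hv (rho0_pot n hn α _).1]
  have h1 : ∫ r in Set.Ioi (0 : ℝ), pre n * (r ^ (2 * n) * Real.exp (-(2 / n * r))) *
        sph (fun u => (1 - (inner ℝ (nuv α) u) ^ 2) ^ (n - 1) *
          (1 / √(S3.Dd r s (inner ℝ v u)))) =
      ∫ r in Set.Ioi (0 : ℝ), ∑ L ∈ range (2 * n - 1),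
        (pre n * eL (n - 1) L * S3.lp L (inner ℝ (nuv α) v)) *
          (r ^ (2 * n) * Real.exp (-(2 / n * r)) * (min r s ^ L / max r s ^ (L + 1))) := by
    refine integral_congr_ae ?_
    filter_upwards [ae_ne_Ioi s] with r hr
    rw [ang_pot1 hr.2 hs hr.1 (n - 1) (nuv α) v (norm_nuv α) hv,
      show 2 * (n - 1) + 1 = 2 * n - 1 by omega, Finset.mul_sum]
    refine Finset.sum_congr rfl fun L _ => ?_
    unfold mkl
    ring
  rw [h1, integral_finsetSum]
  · refine Finset.sum_congr rfl fun L _ => ?_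
    rw [integral_const_mul]
    rfl
  · intro L hL
    rw [Finset.mem_range] at hL
    exact (IL_integrable n (by omega) (by omega) hs).const_mul _

/-- potential of the oscillating density -/
theorem pot1 (n : ℕ) (hn : 2 ≤ n) (α : ℝ) {s : ℝ} (hs : 0 < s) (v : R3) (hv : ‖v‖ = 1)
    (hint : Integrable (fun x => rho1 n α x / dist x (s • v))) :
    ∫ x, rho1 n α x / dist x (s • v) =
      (pre n * (1 / (2 * ((2 * (n - 1) : ℕ) : ℝ) + 1)) * (cdot (av α) v ^ (2 * (n - 1))).re) *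
        IL n (2 * (n - 1)) s := by
  rw [pot_polar n (rho1 n α) (fun u => (cdot (av α) u ^ (2 * (n - 1))).re)
    (fun u hu r hr => rho1_smul n (by omega) α u hu hr) s v hv hint]
  unfold IL
  rw [← integral_const_mul]
  refine integral_congr_ae ?_
  filter_upwards [ae_ne_Ioi s] with r hr
  rw [ang_pot2 hr.2 hs hr.1 (2 * (n - 1)) α v hv]
  unfold mkl
  ring

theorem IL_nonneg (n L : ℕ) {s : ℝ} (hs : 0 < s) : 0 ≤ IL n L s := by
  unfold IL
  refine setIntegral_nonneg measurableSet_Ioi fun r hr => ?_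
  have hr0 : 0 < r := hr
  have : 0 < max r s := lt_max_of_lt_left hr0
  have : 0 < min r s := lt_min hr0 hs
  positivity

theorem min_max_le (L : ℕ) {r s : ℝ} (hr : 0 < r) (hs : 0 < s) :
    min r s ^ L / max r s ^ (L + 1) ≤ 1 / r := by
  have h1 : 0 < max r s := lt_max_of_lt_left hr
  have h2 : 0 < min r s := lt_min hr hs
  have h3 : min r s ≤ max r s := min_le_max
  rw [div_le_div_iff₀ (by positivity) hr, one_mul, pow_succ]
  have h4 : min r s ^ L ≤ max r s ^ L := pow_le_pow_left₀ h2.le h3 L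
  have h5 : r ≤ max r s := le_max_left _ _
  exact mul_le_mul h4 h5 hr.le (by positivity)

theorem IL_le (n : ℕ) (hn : 1 ≤ n) {L : ℕ} (hL : L + 1 ≤ 2 * n) {s : ℝ} (hs : 0 < s) :
    IL n L s ≤ ((2 * n - 1).factorial : ℝ) * ((n : ℝ) / 2) ^ (2 * n) := by
  have hα := alpha_pos n hn
  have hn0 : (0 : ℝ) < n := by exact_mod_cast hn
  have h := rad_int (2 * n - 1) hα
  have e : ((2 * n - 1).factorial : ℝ) * ((n : ℝ) / 2) ^ (2 * n) =
      ((2 * n - 1).factorial : ℝ) / (2 / (n : ℝ)) ^ (2 * n - 1 + 1) := by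
    rw [show 2 * n - 1 + 1 = 2 * n by omega, div_pow, div_pow]
    field_simp
  rw [e, ← h.2]
  unfold IL
  refine setIntegral_mono_on (IL_integrable n hn hL hs) h.1 measurableSet_Ioi fun r hr => ?_
  have hr0 : 0 < r := hr
  have h1 := min_max_le L hr0 hs
  calc r ^ (2 * n) * Real.exp (-(2 / n * r)) * (min r s ^ L / max r s ^ (L + 1))
      ≤ r ^ (2 * n) * Real.exp (-(2 / n * r)) * (1 / r) := by gcongr
    _ = r ^ (2 * n - 1) * Real.exp (-(2 / n * r)) := by
        obtain ⟨k, hk⟩ : ∃ k, 2 * n = k + 1 := ⟨2 * n - 1, by omega⟩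
        rw [hk, Nat.add_sub_cancel, pow_succ]
        field_simp

theorem pair_int (n : ℕ) (hn : 2 ≤ n) (α β : ℝ) (F G : R3 → ℝ) (hF : Continuous F)
    (hG : Continuous G) (hFa : ∀ x, |F x| ≤ rho0 n α x) (hGb : ∀ x, |G x| ≤ rho0 n β x) :
    (∀ y, Integrable (fun x => F x / dist x y)) ∧
    Integrable (fun p : R3 × R3 => F p.1 / dist p.1 p.2 * G p.2) (volume.prod volume) := by
  have hmeas : Measurable (fun p : R3 × R3 => F p.1 / dist p.1 p.2 * G p.2) := by
    exact ((hF.measurable.comp measurable_fst).div (by fun_prop)).mul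
      (hG.measurable.comp measurable_snd)
  have hx : ∀ y : R3, Integrable (fun x : R3 => F x / dist x y) := by
    intro y
    have h1 := rho0_pot n hn α y
    refine h1.1.mono' ?_ (.of_forall fun x => ?_)
    · exact (hF.measurable.div (by fun_prop)).aestronglyMeasurable
    · rw [Real.norm_eq_abs, abs_div, abs_of_nonneg (dist_nonneg (x := x) (y := y))]
      gcongr
      exact hFa x
  have hGi : Integrable G := (rho0_integral n hn β).1.mono' hG.aestronglyMeasurable
    (.of_forall fun x => hGb x)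
  refine ⟨hx, ?_⟩
  rw [integrable_prod_iff' hmeas.aestronglyMeasurable]
  refine ⟨.of_forall fun y => (hx y).mul_const (G y), ?_⟩
  have hb : ∀ y : R3, ∫ x : R3, ‖F x / dist x y * G y‖ ≤
      (21 + 3 * Real.log n) / (n : ℝ) ^ 2 * |G y| := by
    intro y
    simp only [norm_mul]
    rw [integral_mul_const, Real.norm_eq_abs (G y)]
    refine mul_le_mul_of_nonneg_right ?_ (abs_nonneg _)
    have h1 := rho0_pot n hn α y
    refine le_trans ?_ h1.2
    refine integral_mono_of_nonneg (.of_forall fun x => norm_nonneg _) h1.1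
      (.of_forall fun x => ?_)
    show ‖F x / dist x y‖ ≤ rho0 n α x / dist x y
    rw [Real.norm_eq_abs, abs_div, abs_of_nonneg (dist_nonneg (x := x) (y := y))]
    gcongr
    exact hFa x
  refine (hGi.abs.const_mul _).mono' ?_
    (.of_forall fun y => (Real.norm_of_nonneg (integral_nonneg fun x => norm_nonneg _)).le.trans
      (hb y))
  exact (hmeas.norm.stronglyMeasurable.integral_prod_left'
    (μ := (volume : Measure R3))).aestronglyMeasurable

theorem pair_int' {F G : R3 → ℝ}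
    (h : Integrable (fun p : R3 × R3 => F p.1 / dist p.1 p.2 * G p.2) (volume.prod volume)) :
    Integrable (fun y => (∫ x, F x / dist x y) * G y) := by
  have h1 := h.integral_prod_right
  refine h1.congr (.of_forall fun y => ?_)
  simp only
  rw [integral_mul_const]

theorem pair_swap {F G : R3 → ℝ}
    (h : Integrable (fun p : R3 × R3 => F p.1 / dist p.1 p.2 * G p.2) (volume.prod volume)) :
    ∫ y, (∫ x, F x / dist x y) * G y = ∫ y, (∫ x, G x / dist x y) * F y := by
  have e1 : ∫ y, (∫ x, F x / dist x y) * G y = ∫ y, ∫ x, F x / dist x y * G y := by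
    refine integral_congr_ae (.of_forall fun y => ?_)
    simp only
    rw [integral_mul_const]
  have e2 : ∫ y, (∫ x, G x / dist x y) * F y = ∫ x, ∫ y, F x / dist x y * G y := by
    refine integral_congr_ae (.of_forall fun x => ?_)
    simp only
    rw [← integral_mul_const]
    refine integral_congr_ae (.of_forall fun y => ?_)
    simp only
    rw [dist_comm y x]
    ring
  rw [e1, e2]
  exact (integral_integral_swap (f := fun x y => F x / dist x y * G y) h).symm

theorem abs_rho0_le (n : ℕ) (hn : 1 ≤ n) (α : ℝ) (x : R3) : |rho0 n α x| ≤ rho0 n α x :=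
  (abs_of_nonneg (rho0_nonneg n hn α x)).le

theorem eL_zc (n L : ℕ) (hn : 1 ≤ n) : eL (n - 1) L = zc n L := zc_eq n L hn

/-- Coulomb energy of the azimuthally symmetric densities -/
theorem W0_eq (n : ℕ) (hn : 2 ≤ n) (δ : ℝ) :
    ∫ y, (∫ x, rho0 n δ x / dist x y) * rho0 n 0 y = W0 n (Real.cos δ) := by
  have hc := fun ζ => continuous_rho0 n (by omega) ζ
  have hI := (pair_int n hn δ 0 _ _ (hc δ) (hc 0) (abs_rho0_le n (by omega) δ)
    (abs_rho0_le n (by omega) 0)).2
  rw [polar_sph _ (pair_int' hI)]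
  have h1 : ∀ s ∈ Set.Ioi (0 : ℝ), (4 * Real.pi * s ^ 2) • sph (fun v =>
      (∫ x, rho0 n δ x / dist x (s • v)) * rho0 n 0 (s • v)) =
      ∑ L ∈ range (2 * n - 1), (pre n ^ 2 * (zc n L ^ 2 * lpv L (Real.cos δ))) *
        (s ^ (2 * n) * Real.exp (-(2 / n * s)) * IL n L s) := by
    intro s hs
    have hs0 : 0 < s := hs
    rw [smul_eq_mul, ← sph_const_mul]
    have h2 : sph (fun v => 4 * Real.pi * s ^ 2 *
        ((∫ x, rho0 n δ x / dist x (s • v)) * rho0 n 0 (s • v))) =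
        sph (fun v => ∑ L ∈ range (2 * n - 1),
          (pre n ^ 2 * eL (n - 1) L * (s ^ (2 * n) * Real.exp (-(2 / n * s)) * IL n L s)) *
            (S3.lp L (inner ℝ (nuv δ) v) * (1 - (inner ℝ (nuv 0) v) ^ 2) ^ (n - 1))) := by
      refine sph_congr fun v hv => ?_
      rw [pot0 n hn δ hs0 v hv]
      calc 4 * Real.pi * s ^ 2 * ((∑ L ∈ range (2 * n - 1),
            (pre n * eL (n - 1) L * S3.lp L (inner ℝ (nuv δ) v)) * IL n L s) * rho0 n 0 (s • v))
          = (∑ L ∈ range (2 * n - 1),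
            (pre n * eL (n - 1) L * S3.lp L (inner ℝ (nuv δ) v)) * IL n L s) *
              (4 * Real.pi * s ^ 2 * rho0 n 0 (s • v)) := by ring
        _ = _ := by
            rw [rho0_smul n (by omega) 0 v hv hs0, Finset.sum_mul]
            refine Finset.sum_congr rfl fun L _ => ?_
            ring
    rw [h2, sph_sum_on]
    · refine Finset.sum_congr rfl fun L _ => ?_
      rw [sph_const_mul, ang_rr, sub_zero, eL_zc n L (by omega), ← lpv_eq]
      ring
    · intro L
      exact (continuous_const.mul (((S3.lp_continuous L).comp (by fun_prop)).mul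
        (by fun_prop))).continuousOn
  rw [setIntegral_congr_fun measurableSet_Ioi h1]
  have hα := alpha_pos n (by omega)
  have hP : ∀ L ∈ range (2 * n - 1), IntegrableOn (fun s => s ^ (2 * n) *
      Real.exp (-(2 / n * s)) * IL n L s) (Set.Ioi 0) ∧ ∫ s in Set.Ioi (0 : ℝ), s ^ (2 * n) *
      Real.exp (-(2 / n * s)) * IL n L s = Phi (2 * n) (2 * n) L (2 / n) (2 / n) := by
    intro L hL
    rw [Finset.mem_range] at hL
    have h := Phi_eq (2 * n) (2 * n) L hα hα (by omega) (by omega)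
    exact h.2
  rw [integral_finsetSum]
  · unfold W0
    rw [Finset.mul_sum]
    refine Finset.sum_congr rfl fun L hL => ?_
    rw [integral_const_mul, (hP L hL).2]
    unfold pre
    ring
  · intro L hL
    exact (hP L hL).1.const_mul _

theorem cb_le (n : ℕ) : (n.centralBinom : ℝ) ^ 2 * (2 * n + 1) ≤ 16 ^ n := by
  induction n with
  | zero => simp
  | succ k ih =>
    have h : ((k : ℝ) + 1) * ((k + 1).centralBinom : ℝ) = 2 * (2 * k + 1) * (k.centralBinom : ℝ) := by
      exact_mod_cast Nat.succ_mul_centralBinom_succ k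
    have hk : (0 : ℝ) < (k : ℝ) + 1 := by positivity
    have h1 : (((k : ℝ) + 1) * ((k + 1).centralBinom : ℝ)) ^ 2 * (2 * ((k + 1 : ℕ) : ℝ) + 1) ≤
        ((k : ℝ) + 1) ^ 2 * 16 ^ (k + 1) := by
      rw [h]
      push_cast
      calc (2 * (2 * (k : ℝ) + 1) * (k.centralBinom : ℝ)) ^ 2 * (2 * ((k : ℝ) + 1) + 1)
          = 4 * ((2 * (k : ℝ) + 1) * (2 * k + 3)) * ((k.centralBinom : ℝ) ^ 2 * (2 * k + 1)) := by
            ring
        _ ≤ 4 * (4 * ((k : ℝ) + 1) ^ 2) * 16 ^ k := by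
            have h3 : (2 * (k : ℝ) + 1) * (2 * k + 3) ≤ 4 * ((k : ℝ) + 1) ^ 2 := by linarith only []
            exact mul_le_mul (mul_le_mul_of_nonneg_left h3 (by norm_num)) ih (by (clear * -; positivity))
              (by positivity)
        _ = _ := by ring
    have h2 : ((k : ℝ) + 1) ^ 2 * (((k + 1).centralBinom : ℝ) ^ 2 * (2 * ((k + 1 : ℕ) : ℝ) + 1)) ≤
        ((k : ℝ) + 1) ^ 2 * 16 ^ (k + 1) := by
      calc _ = (((k : ℝ) + 1) * ((k + 1).centralBinom : ℝ)) ^ 2 * (2 * ((k + 1 : ℕ) : ℝ) + 1) := by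
            ring
        _ ≤ _ := h1
    exact le_of_mul_le_mul_left h2 (by positivity)

/-- normalised radial bound -/
theorem pre_rad (n : ℕ) (hn : 1 ≤ n) :
    pre n * (((2 * n - 1).factorial : ℝ) * ((n : ℝ) / 2) ^ (2 * n)) =
      2 * ((n.centralBinom : ℝ) / 4 ^ n) / n := by
  obtain ⟨m, rfl⟩ : ∃ m, n = m + 1 := ⟨n - 1, by omega⟩
  have h0 : ((m : ℝ) + 1) ≠ 0 := by positivity
  have h1 : (((m + 1).centralBinom : ℕ) : ℝ) * ((m + 1).factorial : ℝ) ^ 2 =
      ((2 * (m + 1)).factorial : ℝ) := by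
    have h := Nat.choose_mul_factorial_mul_factorial (n := 2 * (m + 1)) (k := m + 1) (by omega)
    rw [show 2 * (m + 1) - (m + 1) = m + 1 by omega] at h
    rw [Nat.centralBinom_eq_two_mul_choose, ← h]
    push_cast
    ring
  have h2 : ((2 * (m + 1)).factorial : ℝ) = 2 * ((m : ℝ) + 1) * ((2 * (m + 1) - 1).factorial : ℝ) := by
    rw [show 2 * (m + 1) = (2 * (m + 1) - 1) + 1 by omega, Nat.factorial_succ]
    rw [show 2 * (m + 1) - 1 + 1 - 1 = 2 * (m + 1) - 1 by omega]
    push_cast [show 2 * (m + 1) - 1 + 1 = 2 * (m + 1) by omega]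
    ring
  have h3 : ((m + 1).factorial : ℝ) = ((m : ℝ) + 1) * (m.factorial : ℝ) := by
    rw [Nat.factorial_succ]
    push_cast
    ring
  rw [h3, h2] at h1
  have f1 : (m.factorial : ℝ) ≠ 0 := by positivity
  have h4 : (((m + 1).centralBinom : ℕ) : ℝ) =
      2 * ((m : ℝ) + 1) * ((2 * (m + 1) - 1).factorial : ℝ) /
        (((m : ℝ) + 1) * (m.factorial : ℝ)) ^ 2 := by
    rw [eq_div_iff (by positivity)]
    exact h1
  unfold pre
  rw [Nat.add_sub_cancel, h4]
  push_cast
  have e4 : (2 : ℝ) ^ (2 * (m + 1)) = 4 ^ (m + 1) := by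
    rw [pow_mul]
    norm_num
  rw [div_pow, e4, show 2 * (m + 1) + 2 = 2 * (m + 1) + 2 from rfl, pow_add ((m : ℝ) + 1) _ 2]
  field_simp
  norm_num

theorem cb_div_le (n : ℕ) : (n.centralBinom : ℝ) / 4 ^ n ≤ 1 / √(2 * n + 1) := by
  have h := cb_le n
  have h4 : (0 : ℝ) < 4 ^ n := by positivity
  have hs : 0 < √(2 * (n : ℝ) + 1) := Real.sqrt_pos.2 (by positivity)
  rw [div_le_div_iff₀ h4 hs, one_mul]
  refine le_of_sq_le_sq ?_ h4.le
  rw [mul_pow, Real.sq_sqrt (by positivity), ← pow_mul, mul_comm n 2, pow_mul]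
  norm_num
  linarith

theorem abs_re_av_le (α : ℝ) (v : R3) (hv : ‖v‖ = 1) (m : ℕ) :
    |(cdot (av α) v ^ (2 * m)).re| ≤ 1 := by
  refine (Complex.abs_re_le_norm _).trans ?_
  rw [norm_pow, pow_mul, norm_sq_av α v hv]
  refine pow_le_one₀ ?_ ?_
  · rw [← norm_sq_av α v hv]
    positivity
  · linarith only [sq_nonneg (inner ℝ (nuv α) v)]

/-- the potential of the oscillating density is small -/
theorem pot1_abs (n : ℕ) (hn : 2 ≤ n) (α : ℝ) (y : R3) (hy : y ≠ 0) :
    |∫ x, rho1 n α x / dist x y| ≤ 1 / ((n : ℝ) ^ 2 * √n) := by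
  have hs : 0 < ‖y‖ := norm_pos_iff.2 hy
  have hv : ‖(‖y‖⁻¹ • y)‖ = 1 := by
    rw [norm_smul, norm_inv, norm_norm, inv_mul_cancel₀ hs.ne']
  have hyy : y = ‖y‖ • (‖y‖⁻¹ • y) := by
    rw [smul_smul, mul_inv_cancel₀ hs.ne', one_smul]
  have hint := (pair_int n hn α 0 _ _ (continuous_rho1 n (by omega) α)
    (continuous_rho0 n (by omega) 0) (abs_rho1_le n (by omega) α)
    (abs_rho0_le n (by omega) 0)).1 (‖y‖ • (‖y‖⁻¹ • y))
  have h1 := pot1 n hn α hs (‖y‖⁻¹ • y) hv hint
  rw [← hyy] at h1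
  rw [h1, abs_mul, abs_mul, abs_mul, abs_of_nonneg (pre_nonneg n),
    abs_of_nonneg (IL_nonneg n _ hs), abs_of_nonneg (by (clear * -; positivity))]
  have h2 := abs_re_av_le α _ hv (n - 1)
  have h3 := IL_le n (by omega) (L := 2 * (n - 1)) (by omega) hs
  have h4 := pre_rad n (by omega)
  have h5 := cb_div_le n
  have hn2 : (2 : ℝ) ≤ n := by exact_mod_cast hn
  have hc : (2 * ((2 * (n - 1) : ℕ) : ℝ) + 1) = 4 * n - 3 := by
    rw [Nat.cast_mul, Nat.cast_sub (by omega)]
    push_cast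
    ring
  rw [hc]
  obtain ⟨x, hx⟩ : ∃ x : ℝ, x = (n.centralBinom : ℝ) / 4 ^ n := ⟨_, rfl⟩
  rw [← hx] at h4 h5
  have hp : (0 : ℝ) < 4 * n - 3 := by linarith only [hn2]
  have hsn : 0 < √(n : ℝ) := Real.sqrt_pos.2 (by linarith only [hn2])
  have hsn2 : √(n : ℝ) ≤ √(2 * n + 1) := Real.sqrt_le_sqrt (by linarith only [])
  calc pre n * (1 / (4 * (n : ℝ) - 3)) * |(cdot (av α) (‖y‖⁻¹ • y) ^ (2 * (n - 1))).re| *
        IL n (2 * (n - 1)) ‖y‖
      ≤ pre n * (1 / (4 * (n : ℝ) - 3)) * 1 *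
        (((2 * n - 1).factorial : ℝ) * ((n : ℝ) / 2) ^ (2 * n)) := by
        have := pre_nonneg n
        have := IL_nonneg n (2 * (n - 1)) hs
        gcongr
    _ = (1 / (4 * (n : ℝ) - 3)) * (2 * x / n) := by
        rw [← h4]
        ring
    _ ≤ (1 / (2 * (n : ℝ))) * (2 * (1 / √(n : ℝ)) / n) := by
        have h7 : x ≤ 1 / √(n : ℝ) := h5.trans (one_div_le_one_div_of_le hsn hsn2)
        have h8 : 0 ≤ x := by rw [hx]; (clear * -; positivity)
        have h9 : 0 ≤ 2 * x / (n : ℝ) := by (clear * - h8 hn; positivity)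
        gcongr
        linarith only [hn2]
    _ = 1 / ((n : ℝ) ^ 2 * √n) := by
        field_simp

theorem wd_ae_ne_zero : ∀ᵐ y : R3, y ≠ 0 := by
  rw [ae_iff]
  simp

theorem pot1_int (n : ℕ) (hn : 2 ≤ n) (α : ℝ) (G : R3 → ℝ) (hG : Integrable G) :
    |∫ y, (∫ x, rho1 n α x / dist x y) * G y| ≤ 1 / ((n : ℝ) ^ 2 * √n) * ∫ y, |G y| := by
  rw [← integral_const_mul]
  refine abs_integral_le_integral_abs.trans ?_
  refine integral_mono_of_nonneg (.of_forall fun x => abs_nonneg _) (hG.abs.const_mul _) ?_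
  filter_upwards [wd_ae_ne_zero] with y hy
  rw [abs_mul]
  exact mul_le_mul_of_nonneg_right (pot1_abs n hn α y hy) (abs_nonneg _)

/-- the oscillating parts are negligible -/
theorem wdir_near (n : ℕ) (hn : 2 ≤ n) (δ : ℝ) :
    |wdir n δ - W0 n (Real.cos δ)| ≤ 2 / ((n : ℝ) ^ 2 * √n) := by
  have hn1 : 1 ≤ n := by omega
  have c0 := fun ζ => continuous_rho0 n hn1 ζ
  have c1 := fun ζ => continuous_rho1 n hn1 ζ
  have a0 := fun ζ => abs_rho0_le n hn1 ζ
  have a1 := fun ζ => abs_rho1_le n hn1 ζ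
  have i00 := pair_int n hn δ 0 _ _ (c0 δ) (c0 0) (a0 δ) (a0 0)
  have i01 := pair_int n hn δ 0 _ _ (c0 δ) (c1 0) (a0 δ) (a1 0)
  have i10 := pair_int n hn δ 0 _ _ (c1 δ) (c0 0) (a1 δ) (a0 0)
  have i11 := pair_int n hn δ 0 _ _ (c1 δ) (c1 0) (a1 δ) (a1 0)
  have hfi := integrable_fh_mul n hn 0 0
  have e1 : wdir n δ = (∫ y, (∫ x, rho0 n δ x / dist x y) * rho0 n 0 y) +
      (∫ y, (∫ x, rho0 n δ x / dist x y) * rho1 n 0 y) +
      ∫ y, (∫ x, rho1 n δ x / dist x y) * (fh n 0 y * fh n 0 y) := by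
    have j10 := pair_int' i10.2
    have j11 := pair_int' i11.2
    have j1 : Integrable (fun y => (∫ x, rho1 n δ x / dist x y) * (fh n 0 y * fh n 0 y)) := by
      refine (j10.add j11).congr (.of_forall fun y => ?_)
      simp only [Pi.add_apply]
      unfold rho1
      ring
    have e0 : wdir n δ = ∫ y, (((∫ x, rho0 n δ x / dist x y) * rho0 n 0 y +
        (∫ x, rho0 n δ x / dist x y) * rho1 n 0 y) +
        (∫ x, rho1 n δ x / dist x y) * (fh n 0 y * fh n 0 y)) := ?_
    · have j0 : Integrable (fun y => (∫ x, rho0 n δ x / dist x y) * rho0 n 0 y +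
          (∫ x, rho0 n δ x / dist x y) * rho1 n 0 y) := (pair_int' i00.2).add (pair_int' i01.2)
      rw [e0, integral_add j0 j1, integral_add (pair_int' i00.2) (pair_int' i01.2)]
    unfold wdir coul nuc
    refine integral_congr_ae (.of_forall fun y => ?_)
    simp only
    have e2 : ∫ x, fh n δ x * fh n δ x / dist x y =
        (∫ x, rho0 n δ x / dist x y) + ∫ x, rho1 n δ x / dist x y := by
      rw [← integral_add (i00.1 y) (i10.1 y)]
      refine integral_congr_ae (.of_forall fun x => ?_)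
      simp only
      unfold rho1
      ring
    rw [e2]
    unfold rho1
    ring
  rw [e1, W0_eq n hn δ, pair_swap i01.2]
  have b1 := pot1_int n hn 0 (rho0 n δ) (rho0_integral n hn δ).1
  have b2 := pot1_int n hn δ (fun y => fh n 0 y * fh n 0 y) hfi
  have e3 : ∫ y, |rho0 n δ y| = 1 := by
    rw [← (rho0_integral n hn δ).2]
    exact integral_congr_ae (.of_forall fun y => abs_of_nonneg (rho0_nonneg n hn1 δ y))
  have e4 : ∫ y, |fh n 0 y * fh n 0 y| = 1 := by
    have h2 := ov_fh_self n hn 0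
    unfold ov at h2
    rw [← h2]
    exact integral_congr_ae (.of_forall fun x => abs_of_nonneg (mul_self_nonneg _))
  rw [e3, mul_one] at b1
  simp only [e4, mul_one] at b2
  have e5 : (2 : ℝ) / ((n : ℝ) ^ 2 * √n) = 1 / ((n : ℝ) ^ 2 * √n) + 1 / ((n : ℝ) ^ 2 * √n) := by
    ring
  rw [e5, add_assoc, add_sub_cancel_left]
  exact (abs_add_le _ _).trans (add_le_add b1 b2)

theorem zc_sq_le (n : ℕ) (hn : 1 ≤ n) (L : ℕ) : zc n L ^ 2 ≤ 9 ^ L := by
  have h : |zc n L| ≤ 3 ^ L := by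
    rw [← zc_eq n L hn, abs_mul]
    have h1 := intervalIntegral.norm_integral_le_of_norm_le_const (a := -1) (b := 1)
      (f := fun t : ℝ => (1 - t ^ 2) ^ (n - 1) * S3.lp L t) (C := 3 ^ L) (by
        intro t ht
        rw [Set.uIoc_of_le (by norm_num)] at ht
        have ht' : t ∈ Set.Icc (-1 : ℝ) 1 := ⟨ht.1.le, ht.2⟩
        have h2 := lp_abs_le L t ht'
        have h3 : t ^ 2 ≤ 1 := by linarith only [mul_nonneg_of_nonpos_of_nonpos (Mathlib.Tactic.Linarith.sub_nonpos_of_le ht'.left) (Mathlib.Tactic.Linarith.sub_nonpos_of_le ht'.right)]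
        have h4 : |(1 - t ^ 2) ^ (n - 1)| ≤ 1 := by
          rw [abs_of_nonneg (pow_nonneg (by linarith only [h3]) _)]
          exact pow_le_one₀ (by linarith only [h3]) (by linarith only [sq_nonneg t])
        rw [norm_mul, Real.norm_eq_abs, Real.norm_eq_abs]
        calc |(1 - t ^ 2) ^ (n - 1)| * |S3.lp L t| ≤ 1 * 3 ^ L := by gcongr
          _ = 3 ^ L := one_mul _)
    rw [Real.norm_eq_abs] at h1
    have h5 : |(1 : ℝ) - (-1)| = 2 := by norm_num
    rw [h5] at h1
    have h6 : |(1 / 2 : ℝ)| = 1 / 2 := by norm_num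
    rw [h6]
    linarith only [h1]
  calc zc n L ^ 2 = |zc n L| ^ 2 := (sq_abs _).symm
    _ ≤ (3 ^ L) ^ 2 := by gcongr
    _ = 9 ^ L := by
        rw [← pow_mul, mul_comm, pow_mul]
        norm_num

theorem pre_sq_Phi_le (n : ℕ) (hn : 1 ≤ n) {L : ℕ} (hL : L + 1 ≤ 2 * n) :
    pre n ^ 2 * Phi (2 * n) (2 * n) L (2 / n) (2 / n) ≤ 4 := by
  have hα := alpha_pos n hn
  have hn0 : (0 : ℝ) < n := by exact_mod_cast hn
  have h := Phi_eq (2 * n) (2 * n) L hα hα hL hL
  have hr := rad_int (2 * n) hα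
  have h1 : Phi (2 * n) (2 * n) L (2 / n) (2 / n) ≤
      (((2 * n - 1).factorial : ℝ) * ((n : ℝ) / 2) ^ (2 * n)) *
        (((2 * n).factorial : ℝ) / (2 / (n : ℝ)) ^ (2 * n + 1)) := by
    rw [← h.2.2, ← hr.2, ← integral_const_mul]
    refine setIntegral_mono_on h.2.1 (hr.1.const_mul _) measurableSet_Ioi fun s hs => ?_
    have hs0 : 0 < s := hs
    rw [mul_comm]
    have h3 := IL_le n hn hL hs0
    unfold IL at h3
    exact mul_le_mul_of_nonneg_right h3 (by positivity)
  have h2 : ((2 * n).factorial : ℝ) / (2 / (n : ℝ)) ^ (2 * n + 1) =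
      (((2 * n - 1).factorial : ℝ) * ((n : ℝ) / 2) ^ (2 * n)) * (n : ℝ) ^ 2 := by
    obtain ⟨k, hk⟩ : ∃ k, 2 * n = k + 1 := ⟨2 * n - 1, by omega⟩
    have hk' : (2 * (n : ℝ)) = k + 1 := by exact_mod_cast hk
    rw [show 2 * n - 1 = k by omega, hk, Nat.factorial_succ, div_pow, div_pow, pow_succ (2 : ℝ) (k + 1),
      pow_succ (n : ℝ) (k + 1)]
    push_cast
    rw [← hk']
    field_simp
  have h4 := pre_rad n hn
  have h5 := cb_le n
  calc pre n ^ 2 * Phi (2 * n) (2 * n) L (2 / n) (2 / n)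
      ≤ pre n ^ 2 * ((((2 * n - 1).factorial : ℝ) * ((n : ℝ) / 2) ^ (2 * n)) *
        ((((2 * n - 1).factorial : ℝ) * ((n : ℝ) / 2) ^ (2 * n)) * (n : ℝ) ^ 2)) := by
        rw [← h2]
        gcongr
    _ = (pre n * (((2 * n - 1).factorial : ℝ) * ((n : ℝ) / 2) ^ (2 * n))) ^ 2 * (n : ℝ) ^ 2 := by
        ring
    _ = 4 * ((n.centralBinom : ℝ) ^ 2 / 16 ^ n) := by
        rw [h4]
        have e : (16 : ℝ) ^ n = 4 ^ n * 4 ^ n := by
          rw [← mul_pow]
          norm_num
        rw [e]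
        field_simp
        ring
    _ ≤ 4 * 1 := by
        gcongr
        rw [div_le_one (by positivity)]
        refine le_trans ?_ h5
        have : (0 : ℝ) ≤ (n.centralBinom : ℝ) ^ 2 := by (clear * -; positivity)
        nlinarith only []
    _ = 4 := by norm_num

theorem sum_144 (N : ℕ) : ∑ L ∈ range N, (4 : ℝ) * 144 ^ L ≤ 256 ^ N := by
  induction N with
  | zero => simp
  | succ N ih =>
    rw [Finset.sum_range_succ, pow_succ]
    have h : (144 : ℝ) ^ N ≤ 256 ^ N := by gcongr; norm_num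
    have h2 : (0 : ℝ) < 256 ^ N := by positivity
    linarith

/-- crude Lipschitz bound -/
theorem W0_lip (n : ℕ) (hn : 2 ≤ n) (s t : ℝ) (hs : s ∈ Set.Icc (-1 : ℝ) 1)
    (ht : t ∈ Set.Icc (-1 : ℝ) 1) : |W0 n s - W0 n t| ≤ 2 ^ (16 * n) * |s - t| := by
  have hα := alpha_pos n (by omega)
  have e : W0 n s - W0 n t = ∑ L ∈ range (2 * n - 1), (pre n ^ 2 *
      Phi (2 * n) (2 * n) L (2 / n) (2 / n)) * zc n L ^ 2 * (S3.lp L s - S3.lp L t) := by
    unfold W0
    rw [Finset.mul_sum, Finset.mul_sum, ← Finset.sum_sub_distrib]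
    refine Finset.sum_congr rfl fun L _ => ?_
    rw [lpv_eq, lpv_eq]
    unfold pre
    ring
  rw [e]
  have h1 : ∀ L ∈ range (2 * n - 1), |(pre n ^ 2 *
      Phi (2 * n) (2 * n) L (2 / n) (2 / n)) * zc n L ^ 2 * (S3.lp L s - S3.lp L t)| ≤
      (4 * 144 ^ L) * |s - t| := by
    intro L hL
    rw [Finset.mem_range] at hL
    have a1 := pre_sq_Phi_le n (by omega) (L := L) (by omega)
    have a2 := zc_sq_le n (by omega) L
    have a3 := lp_lip L s t hs ht
    have a4 : 0 ≤ pre n ^ 2 * Phi (2 * n) (2 * n) L (2 / n) (2 / n) :=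
      mul_nonneg (sq_nonneg _) (Phi_nonneg _ _ _ hα hα)
    rw [abs_mul, abs_mul, abs_of_nonneg a4, abs_of_nonneg (sq_nonneg (zc n L))]
    calc (pre n ^ 2 * Phi (2 * n) (2 * n) L (2 / n) (2 / n)) * zc n L ^ 2 *
          |S3.lp L s - S3.lp L t| ≤ 4 * 9 ^ L * (16 ^ L * |s - t|) := by gcongr
      _ = (4 * 144 ^ L) * |s - t| := by
          rw [show (144 : ℝ) = 9 * 16 by norm_num, mul_pow]
          ring
  calc |∑ L ∈ range (2 * n - 1), (pre n ^ 2 *
        Phi (2 * n) (2 * n) L (2 / n) (2 / n)) * zc n L ^ 2 * (S3.lp L s - S3.lp L t)|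
      ≤ ∑ L ∈ range (2 * n - 1), (4 * 144 ^ L) * |s - t| :=
        (Finset.abs_sum_le_sum_abs _ _).trans (Finset.sum_le_sum h1)
    _ = (∑ L ∈ range (2 * n - 1), (4 : ℝ) * 144 ^ L) * |s - t| := by rw [Finset.sum_mul]
    _ ≤ 2 ^ (16 * n) * |s - t| := by
        gcongr
        refine (sum_144 _).trans ?_
        calc (256 : ℝ) ^ (2 * n - 1) ≤ 256 ^ (2 * n) := by
              gcongr
              · norm_num
              · omega
          _ = 2 ^ (16 * n) := by
              rw [show 16 * n = 8 * (2 * n) by ring, pow_mul (2 : ℝ) 8 (2 * n)]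
              congr 1
              norm_num

end Vale.Agent.P370.KC
end

section

/-!
KC12: the explicit constants are computable in polynomial time.
-/

namespace Vale.Agent.P370.KC

open Vale.Agent.Lib.PolyTime Finset Vale.Agent.P370.Q

variable {A : Set Word} {α β : Type*} [Enc α] [Enc β]

/-! ### numerical parameters: computable and polynomially bounded -/

/-- numerical functions which are computable in polynomial time and polynomially bounded -/
def PTB (A : Set Word) {α : Type*} [Enc α] (f : α → ℕ) : Prop := PT A f ∧ PBd f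

theorem PTB.const (n : ℕ) : PTB A (fun _ : α => n) := ⟨PT.const n, PBd.const n⟩

theorem PTB.add {f g : α → ℕ} (hf : PTB A f) (hg : PTB A g) : PTB A (fun a => f a + g a) :=
  ⟨hf.1.add hg.1, hf.2.add hg.2⟩

theorem PTB.mul {f g : α → ℕ} (hf : PTB A f) (hg : PTB A g) : PTB A (fun a => f a * g a) :=
  ⟨hf.1.mul hg.1, hf.2.mul hg.2⟩

theorem PTB.sub {f g : α → ℕ} (hf : PTB A f) (hg : PTB A g) : PTB A (fun a => f a - g a) :=
  ⟨hf.1.sub hg.1, hf.2.mono fun _ => Nat.sub_le _ _⟩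

theorem PTB.div {f g : α → ℕ} (hf : PTB A f) (hg : PTB A g) : PTB A (fun a => f a / g a) :=
  ⟨hf.1.div hg.1, hf.2.mono fun _ => Nat.div_le_self _ _⟩

theorem PTB.powC {f : α → ℕ} (hf : PTB A f) (n : ℕ) : PTB A (fun a => f a ^ n) :=
  ⟨hf.1.powConst n, hf.2.pow n⟩

theorem PTB.succ {f : α → ℕ} (hf : PTB A f) : PTB A (fun a => f a + 1) := hf.add (PTB.const 1)

theorem PTB.two {f : α → ℕ} (hf : PTB A f) : PTB A (fun a => 2 * f a) := (PTB.const 2).mul hf

/-- weakening of the context -/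
theorem PTB.w {f : α → ℕ} (hf : PTB A f) : PTB A (fun p : α × β => f p.1) :=
  ⟨hf.1.comp PT.fst', hf.2.compFst⟩

/-- the last summation variable -/
theorem PTB.u : PTB A (fun p : α × Un => p.2.v) := ⟨PT.snd'.unVal, PBd.unSnd⟩

/-- weakening of the context -/
theorem PTQ.w {f : α → ℝ} (hf : PTQ A f) : PTQ A (fun p : α × β => f p.1) := hf.comp PT.fst'

theorem PTB.q {f : α → ℕ} (hf : PTB A f) : PTQ A (fun a => (f a : ℝ)) := PTQ.ofNat hf.1

theorem PTB.fac {f : α → ℕ} (hf : PTB A f) : PTQ A (fun a => ((f a).factorial : ℝ)) :=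
  PTQ.factorial hf.1 hf.2

theorem PTB.cho {f g : α → ℕ} (hf : PTB A f) (hg : PTB A g) :
    PTQ A (fun a => ((f a).choose (g a) : ℝ)) := PTQ.choose hf.1 hf.2 hg.1 hg.2

theorem PTQ.pw {f : α → ℝ} {e : α → ℕ} (hf : PTQ A f) (he : PTB A e) :
    PTQ A (fun a => f a ^ e a) := hf.pow he.1 he.2

theorem PTQ.sm {m : α → ℕ} {f : α → ℕ → ℝ} (hm : PTB A m)
    (hf : PTQ A (fun p : α × Un => f p.1 p.2.v)) :
    PTQ A (fun a => ∑ i ∈ range (m a), f a i) := PTQ.sum hm.1 hm.2 hf

theorem PTQ.pr {m : α → ℕ} {f : α → ℕ → ℝ} (hm : PTB A m)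
    (hf : PTQ A (fun p : α × Un => f p.1 p.2.v)) :
    PTQ A (fun a => ∏ i ∈ range (m a), f a i) := PTQ.prod hm.1 hm.2 hf

theorem PTQ.lit (n : ℕ) [n.AtLeastTwo] : PTQ A (fun _ : α => (OfNat.ofNat n : ℝ)) :=
  (PTQ.constZ (A := A) (α := α) (n : ℤ)).congr fun _ => by push_cast; rfl

theorem pt_even {m : α → ℕ} (hm : PT A m) : PT A (fun a => decide (Even (m a))) :=
  (PT.odd hm).not.congr fun a => by
    rw [← decide_not]
    exact decide_eq_decide.2 (by rw [Nat.even_iff]; omega)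

/-! ### Legendre polynomials -/

theorem ptq_mom {m : α → ℕ} (hm : PTB A m) : PTQ A (fun a => mom (m a)) := by
  unfold mom
  exact PTQ.ite (pt_even hm.1) (PTQ.one.div (hm.q.add PTQ.one)) PTQ.zero

theorem ptq_lpc {l m : α → ℕ} (hl : PTB A l) (hm : PTB A m) :
    PTQ A (fun a => lpc (l a) (m a)) := by
  have h1 : PTB A (fun a => (l a - m a) / 2) := (hl.sub hm).div (PTB.const 2)
  have h2 : PTB A (fun a => (l a + m a) / 2) := (hl.add hm).div (PTB.const 2)
  unfold lpc
  exact PTQ.ite (PT.decide_and (PT.le hm.1 hl.1) (pt_even (hl.sub hm).1))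
    (((PTQ.one.neg.pw h1).mul (hl.add hm).fac).div
      ((((PTQ.lit 2).pw hl).mul h1.fac).mul h2.fac |>.mul hm.fac)) PTQ.zero

theorem ptq_mu {m L : α → ℕ} (hm : PTB A m) (hL : PTB A L) :
    PTQ A (fun a => mu (m a) (L a)) := by
  unfold mu
  exact PTQ.sm hL.succ ((ptq_lpc hL.w PTB.u).mul (ptq_mom (hm.w.add PTB.u)))

theorem ptq_tri {x y z : α → ℕ} (hx : PTB A x) (hy : PTB A y) (hz : PTB A z) :
    PTQ A (fun a => tri (x a) (y a) (z a)) := by
  unfold tri
  exact PTQ.sm hx.succ (PTQ.sm hy.succ.w (((ptq_lpc hx.w.w PTB.u.w).mul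
    (ptq_lpc hy.w.w PTB.u)).mul (ptq_mu (PTB.u.w.add PTB.u) hz.w.w)))

theorem ptq_zc {n L : α → ℕ} (hn : PTB A n) (hL : PTB A L) :
    PTQ A (fun a => zc (n a) (L a)) := by
  unfold zc
  exact PTQ.sm hn (((PTQ.one.neg.pw PTB.u).mul ((hn.sub (PTB.const 1)).w.cho PTB.u)).mul
    (ptq_mu PTB.u.two hL.w))

theorem ptq_lpv {l : α → ℕ} {x : α → ℝ} (hl : PTB A l) (hx : PTQ A x) :
    PTQ A (fun a => lpv (l a) (x a)) := by
  unfold lpv
  exact PTQ.sm hl.succ ((ptq_lpc hl.w PTB.u).mul (hx.w.pw PTB.u))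

/-! ### radial integrals -/

theorem ptq_Jf {p q : α → ℕ} {x y : α → ℝ} (hp : PTB A p) (hq : PTB A q) (hx : PTQ A x)
    (hy : PTQ A y) : PTQ A (fun a => Jf (p a) (q a) (x a) (y a)) := by
  unfold Jf
  exact PTQ.sm hq.succ (((hq.w.fac.div PTB.u.fac).mul (hp.w.add PTB.u).fac).div
    ((hy.w.pw (hq.succ.w.sub PTB.u)).mul ((hx.w.add hy.w).pw (hp.w.add PTB.u).succ)))

theorem ptq_Phi {u v L : α → ℕ} {x y : α → ℝ} (hu : PTB A u) (hv : PTB A v) (hL : PTB A L)
    (hx : PTQ A x) (hy : PTQ A y) : PTQ A (fun a => Phi (u a) (v a) (L a) (x a) (y a)) := by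
  unfold Phi
  exact (ptq_Jf (hu.add hL) ((hv.sub hL).sub (PTB.const 1)) hx hy).add
    (ptq_Jf (hv.add hL) ((hu.sub hL).sub (PTB.const 1)) hy hx)

theorem ptq_kp {k : α → ℕ} (hk : PTB A k) : PTQ A (fun a => kp (k a)) := by
  unfold kp
  exact PTQ.one.div (hk.q.add PTQ.one)

theorem ptq_lag {k l j : α → ℕ} (hk : PTB A k) (hl : PTB A l) (hj : PTB A j) :
    PTQ A (fun a => lag (k a) (l a) (j a)) := by
  unfold lag
  exact PTQ.pr hj (((PTQ.lit 2).mul (((ptq_kp hk.w).mul ((PTB.u.q.add hl.w.q).add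
    PTQ.one)).sub PTQ.one)).div ((PTB.u.q.add PTQ.one).mul
    ((PTB.u.q.add ((PTQ.lit 2).mul hl.w.q)).add (PTQ.lit 2))))

theorem ptq_nrm {k l : α → ℕ} (hk : PTB A k) (hl : PTB A l) :
    PTQ A (fun a => nrm (k a) (l a)) := by
  unfold nrm
  exact PTQ.sm (hk.succ.sub hl) (PTQ.sm (hk.succ.sub hl).w
    (((ptq_lag hk.w.w hl.w.w PTB.u.w).mul (ptq_lag hk.w.w hl.w.w PTB.u)).mul
      (((((hl.w.w.two.add (PTB.const 2)).add PTB.u.w).add PTB.u).fac).div
        (((PTQ.lit 2).mul (ptq_kp hk.w.w)).pw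
          (((hl.w.w.two.add (PTB.const 3)).add PTB.u.w).add PTB.u)))))

theorem ptq_sld {k l k' l' : α → ℕ} (hk : PTB A k) (hl : PTB A l) (hk' : PTB A k')
    (hl' : PTB A l') : PTQ A (fun a => sld (k a) (l a) (k' a) (l' a)) := by
  unfold sld
  refine PTQ.div (PTQ.sm (hk.succ.sub hl) (PTQ.sm (hk.succ.sub hl).w
    (PTQ.sm (hk'.succ.sub hl').w.w (PTQ.sm (hk'.succ.sub hl').w.w.w ?_))))
    ((ptq_nrm hk hl).mul (ptq_nrm hk' hl'))
  exact ((((ptq_lag hk.w.w.w.w hl.w.w.w.w PTB.u.w.w.w).mul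
    (ptq_lag hk.w.w.w.w hl.w.w.w.w PTB.u.w.w)).mul
    (ptq_lag hk'.w.w.w.w hl'.w.w.w.w PTB.u.w)).mul
    (ptq_lag hk'.w.w.w.w hl'.w.w.w.w PTB.u)).mul
    (ptq_Phi (((hl.w.w.w.w.two.add (PTB.const 2)).add PTB.u.w.w.w).add PTB.u.w.w)
      (((hl'.w.w.w.w.two.add (PTB.const 2)).add PTB.u.w).add PTB.u) (PTB.const 0)
      ((PTQ.lit 2).mul (ptq_kp hk.w.w.w.w)) ((PTQ.lit 2).mul (ptq_kp hk'.w.w.w.w)))

theorem ptq_slx {k l k' l' L : α → ℕ} (hk : PTB A k) (hl : PTB A l) (hk' : PTB A k')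
    (hl' : PTB A l') (hL : PTB A L) :
    PTQ A (fun a => slx (k a) (l a) (k' a) (l' a) (L a)) := by
  unfold slx
  refine PTQ.div (PTQ.sm (hk.succ.sub hl) (PTQ.sm (hk.succ.sub hl).w
    (PTQ.sm (hk'.succ.sub hl').w.w (PTQ.sm (hk'.succ.sub hl').w.w.w ?_))))
    ((ptq_nrm hk hl).mul (ptq_nrm hk' hl'))
  have hll : PTB A (fun a => l a + l' a + 2) := (hl.add hl').add (PTB.const 2)
  have hkk : PTQ A (fun a => kp (k a) + kp (k' a)) := (ptq_kp hk).add (ptq_kp hk')
  exact ((((ptq_lag hk.w.w.w.w hl.w.w.w.w PTB.u.w.w.w).mul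
    (ptq_lag hk.w.w.w.w hl.w.w.w.w PTB.u.w.w)).mul
    (ptq_lag hk'.w.w.w.w hl'.w.w.w.w PTB.u.w)).mul
    (ptq_lag hk'.w.w.w.w hl'.w.w.w.w PTB.u)).mul
    (ptq_Phi ((hll.w.w.w.w.add PTB.u.w.w.w).add PTB.u.w)
      ((hll.w.w.w.w.add PTB.u.w.w).add PTB.u) hL.w.w.w.w hkk.w.w.w.w hkk.w.w.w.w)

theorem ptq_pe2 {k l k' l' : α → ℕ} (hk : PTB A k) (hl : PTB A l) (hk' : PTB A k')
    (hl' : PTB A l') : PTQ A (fun a => pe2 (k a) (l a) (k' a) (l' a)) := by
  unfold pe2
  exact ((PTQ.lit 2).mul (ptq_sld hk hl hk' hl')).sub (PTQ.sm (hl.add hl').succ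
    ((ptq_tri hl.w hl'.w PTB.u).mul (ptq_slx hk.w hl.w hk'.w hl'.w PTB.u)))

theorem ptq_closed3 {n : α → ℕ} (hn : PTB A n) : PTQ A (fun a => closed3 (n a)) := by
  unfold closed3
  have h1 : PTB A (fun a => n a - 1) := hn.sub (PTB.const 1)
  exact PTQ.sm h1 (PTQ.sm PTB.u.succ (PTQ.sm h1.w.w (PTQ.sm PTB.u.succ
    (((((PTQ.lit 2).mul PTB.u.w.w.q).add PTQ.one).mul
      (((PTQ.lit 2).mul PTB.u.q).add PTQ.one)).mul
      (ptq_pe2 PTB.u.w.w.w PTB.u.w.w PTB.u.w PTB.u)))))

theorem ptq_mf {n : α → ℕ} (hn : PTB A n) : PTQ A (fun a => mf (n a)) := by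
  unfold mf
  have h1 : PTB A (fun a => n a - 1) := hn.sub (PTB.const 1)
  exact PTQ.sm h1 (PTQ.sm PTB.u.succ ((((PTQ.lit 2).mul PTB.u.q).add PTQ.one).mul
    (ptq_pe2 h1.w.w h1.w.w PTB.u.w PTB.u)))

/-! ### truncated series -/

theorem ptq_ser {N c : α → ℕ} {x ρ : α → ℝ} (hN : PTB A N) (hc : PTB A c) (hx : PTQ A x)
    (hρ : PTQ A ρ) : PTQ A (fun a => ser (N a) (c a) (x a) (ρ a)) := by
  unfold ser
  exact PTQ.sm hN ((((hx.w.neg.pw PTB.u).div PTB.u.fac).mul (hρ.w.pw (hc.w.add PTB.u))).mul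
    ((PTQ.one.div (hc.w.q.add PTB.u.q)).sub
      (PTQ.one.div ((hc.w.q.add PTB.u.q).add PTQ.one))))

theorem ptq_gIs {N k l : α → ℕ} {ρ : α → ℝ} (hN : PTB A N) (hk : PTB A k) (hl : PTB A l)
    (hρ : PTQ A ρ) : PTQ A (fun a => gIs (N a) (k a) (l a) (ρ a)) := by
  unfold gIs
  exact PTQ.div (PTQ.sm (hk.succ.sub hl) (PTQ.sm (hk.succ.sub hl).w
    (((ptq_lag hk.w.w hl.w.w PTB.u.w).mul (ptq_lag hk.w.w hl.w.w PTB.u)).mul
      (ptq_ser hN.w.w (((hl.w.w.two.add (PTB.const 2)).add PTB.u.w).add PTB.u)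
        ((PTQ.lit 2).mul (ptq_kp hk.w.w)) hρ.w.w)))) (ptq_nrm hk hl)

theorem ptq_gms {N n : α → ℕ} {ρ : α → ℝ} (hN : PTB A N) (hn : PTB A n) (hρ : PTQ A ρ) :
    PTQ A (fun a => gms (N a) (n a) (ρ a)) := by
  unfold gms
  exact PTQ.sm (hn.sub (PTB.const 1)) (PTQ.sm PTB.u.succ
    ((((PTQ.lit 2).mul PTB.u.q).add PTQ.one).mul (ptq_gIs hN.w.w PTB.u.w PTB.u hρ.w.w)))

theorem ptq_xrs {N n : α → ℕ} {ρ : α → ℝ} (hN : PTB A N) (hn : PTB A n) (hρ : PTQ A ρ) :
    PTQ A (fun a => xrs (N a) (n a) (ρ a)) := by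
  unfold xrs
  exact (ptq_ser hN hn.two ((PTQ.lit 2).div hn.q) hρ).div (hn.two.fac.mul
    ((hn.q.div (PTQ.lit 2)).pw hn.two.succ))

/-! ### the sites -/

theorem ptq_W0 {n : α → ℕ} {x : α → ℝ} (hn : PTB A n) (hx : PTQ A x) :
    PTQ A (fun a => W0 (n a) (x a)) := by
  unfold W0
  exact (((PTQ.lit 4).div ((hn.q.pw (hn.two.add (PTB.const 2))).mul
    ((hn.sub (PTB.const 1)).fac.pw (PTB.const 2)))).pw (PTB.const 2)).mul
    (PTQ.sm (hn.two.sub (PTB.const 1)) ((((ptq_zc hn.w PTB.u).pw (PTB.const 2)).mul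
      (ptq_Phi hn.two.w hn.two.w PTB.u ((PTQ.lit 2).div hn.q).w
        ((PTQ.lit 2).div hn.q).w)).mul (ptq_lpv PTB.u hx.w)))

theorem ptq_hopx {n q : α → ℕ} {x : α → ℝ} (hn : PTB A n) (hq : PTB A q) (hx : PTQ A x) :
    PTQ A (fun a => hopx (n a) (q a) (x a)) := by
  have h1 : PTB A (fun a => n a - 1) := hn.sub (PTB.const 1)
  have h2 : PTB A (fun a => n a - 1 - q a) := h1.sub hq
  have h3 : PTQ A (fun a => 1 - x a ^ 2) := PTQ.one.sub (hx.pw (PTB.const 2))
  unfold hopx
  exact (((PTQ.one.div (PTQ.lit 2)).mul (((hn.two.sub (PTB.const 1)).fac.mul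
    (h1.add hq).fac).mul hq.two.fac)).div
    ((((hn.two.add hq.two).sub (PTB.const 1)).fac.mul h2.fac).mul
      (hq.fac.pw (PTB.const 2)))).mul
    (((h3.pw h2).mul (((hx.sub PTQ.one).pw hq.two).add ((hx.add PTQ.one).pw hq.two))).add
      (((hx.pw (PTB.const 2)).pw h2).mul ((PTQ.lit 2).mul (h3.pw hq))))

/-! ### the parameters -/

theorem ptb_k {k : α → ℕ} (hk : PT A k) (hK : PBd (fun a => 2 ^ k a)) : PTB A k :=
  ⟨hk, Alg.pbd_k hK⟩

theorem ptb_pK {k : α → ℕ} (hk : PT A k) (hK : PBd (fun a => 2 ^ k a)) :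
    PTB A (fun a => pK (k a)) := ⟨Alg.pt_aK hk hK, Alg.pbd_aK hK⟩

theorem ptb_pn {k : α → ℕ} (hk : PT A k) (hK : PBd (fun a => 2 ^ k a)) :
    PTB A (fun a => pn (k a)) := ⟨Alg.pt_an hk hK, Alg.pbd_an hK⟩

theorem ptb_pNs {k : α → ℕ} (hk : PT A k) (hK : PBd (fun a => 2 ^ k a)) :
    PTB A (fun a => pNs (k a)) := (PTB.const 32).mul (ptb_pn hk hK)

theorem ptq_pρ {k : α → ℕ} (hk : PT A k) (hK : PBd (fun a => 2 ^ k a)) :
    PTQ A (fun a => pρ (k a)) := by
  unfold pρ
  exact PTQ.one.div ((PTQ.lit 2).pw ((PTB.const 16).mul ((ptb_pn hk hK).powC 2)))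

theorem ptq_pL {k : α → ℕ} (hk : PT A k) (hK : PBd (fun a => 2 ^ k a)) :
    PTQ A (fun a => pL (k a)) := by
  unfold pL
  exact (PTQ.lit 2).pw ((ptb_pn hk hK).div ((PTB.const 4).mul ((ptb_pK hk hK).powC 2)))

theorem ptq_pW {k : α → ℕ} (hk : PT A k) (hK : PBd (fun a => 2 ^ k a)) :
    PTQ A (fun a => pW (k a)) := by
  unfold pW
  exact (PTQ.lit 2).pw ((PTB.const 128).mul ((ptb_pn hk hK).powC 3))

theorem ptq_pT {k : α → ℕ} (hk : PT A k) (hK : PBd (fun a => 2 ^ k a)) :
    PTQ A (fun a => (pT (k a) : ℝ)) :=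
  ((PTQ.lit 2).pw ((PTB.const 2000).mul ((ptb_pn hk hK).powC 3))).congr fun a => by
    rw [pT]
    push_cast
    rfl

theorem ptq_pη {k : α → ℕ} (hk : PT A k) (hK : PBd (fun a => 2 ^ k a)) :
    PTQ A (fun a => pη (k a)) := by
  unfold pη
  exact PTQ.one.div ((PTQ.lit 2).pw (ptb_pn hk hK))

theorem ptq_Am {m : α → ℕ} (hm : PTB A m) : PTQ A (fun a => Am (m a)) := by
  unfold Am
  exact (((PTQ.lit 2).pw hm).mul (hm.fac.pw (PTB.const 2))).div hm.two.succ.fac

theorem ptq_gam {n : α → ℕ} (hn : PTB A n) : PTQ A (fun a => gam (n a)) := by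
  have h1 : PTB A (fun a => n a - 1) := hn.sub (PTB.const 1)
  unfold gam
  exact ((ptq_Am h1.two).mul ((PTQ.lit 2).pw h1)).div ((PTQ.lit 2).mul (ptq_Am h1))

/-! ### the cosines -/

/-- integer approximation of `2 ^ Q cos (π d / (2 K))`, clamped to the right interval -/
def xqn (k d : ℕ) : ℤ := min (2 ^ Alg.aQ k) (max 0 (Alg.cs k (d * 2 ^ (2047 * k + 4))))

/-- the cosines used by the algorithm -/
noncomputable def xq (k d : ℕ) : ℝ := (xqn k d : ℝ) / 2 ^ Alg.aQ k

theorem pt_xqn {k d : α → ℕ} (hk : PT A k) (hK : PBd (fun a => 2 ^ k a)) (hd : PT A d)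
    (hdb : PBd d) : PT A (fun a => xqn (k a) (d a)) := by
  have hkb := Alg.pbd_k hK
  have h1 : PT A (fun a => 2 ^ (2047 * k a + 4)) :=
    PT.twoPow (((PT.const 2047).mul hk).add (PT.const 4)) (by fun_prop)
  have h1b : PBd (fun a => 2 ^ (2047 * k a + 4)) :=
    ((hK.pow 2047).mul (PBd.const 16)).mono fun a => by
      rw [← pow_mul, pow_add, mul_comm (k a) 2047]; norm_num
  have h2 : PT A (fun a => Alg.cs (k a) (d a * 2 ^ (2047 * k a + 4))) :=
    Alg.pt_cs hk hK (hd.mul h1) (hdb.mul h1b)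
  have h3 : PT A (fun a => (2 : ℤ) ^ Alg.aQ (k a)) :=
    PT.twoPowInt (Alg.pt_aQ hk hK) (Alg.pbd_aQ hK)
  have h4 : PT A (fun a => max 0 (Alg.cs (k a) (d a * 2 ^ (2047 * k a + 4)))) :=
    (PT.ite (PT.intLe (PT.const 0) h2) h2 (PT.const 0)).congr fun a => by
      rw [max_def]
  exact (PT.ite (PT.intLe h3 h4) h3 h4).congr fun a => by
    rw [xqn, min_def]

theorem ptq_xq {k d : α → ℕ} (hk : PT A k) (hK : PBd (fun a => 2 ^ k a)) (hd : PT A d)
    (hdb : PBd d) : PTQ A (fun a => xq (k a) (d a)) := by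
  unfold xq
  exact (PTQ.ofInt (pt_xqn hk hK hd hdb)).div ((PTQ.lit 2).pow (Alg.pt_aQ hk hK)
    (Alg.pbd_aQ hK))

theorem ptq_erefx {k : α → ℕ} (hk : PT A k) (hK : PBd (fun a => 2 ^ k a)) :
    PTQ A (fun a => erefx (k a) (xq (k a))) := by
  have hn := ptb_pn hk hK
  have hN := ptb_pNs hk hK
  have hKK := ptb_pK hk hK
  have hT := ptq_pT hk hK
  have hW := ptq_pW hk hK
  have hρ := ptq_pρ hk hK
  have hL := ptq_pL hk hK
  have hx : PTQ A (fun p : α × Un => xq (k p.1) p.2.v) :=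
    ptq_xq (k := fun p : α × Un => k p.1) (d := fun p : α × Un => p.2.v) (hk.comp PT.fst')
      hK.compFst PTB.u.1 PBd.unSnd
  have hsum : PTQ A (fun a => ∑ d ∈ range (pK (k a)), if d = 0 then 0 else
        ((pK (k a) : ℝ) - d) * W0 (pn (k a)) (2 * xq (k a) d ^ 2 - 1)) :=
    PTQ.sm hKK (PTQ.ite (PT.eqNat PTB.u.1 (PT.const 0)) PTQ.zero
      ((hKK.w.q.sub PTB.u.q).mul (ptq_W0 hn.w
        (((PTQ.lit 2).mul (hx.pw (PTB.const 2))).sub PTQ.one))))
  unfold erefx
  exact ((hT.pw (PTB.const 2)).mul (((hn.q.sub PTQ.one).neg).sub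
    (hKK.q.div ((PTQ.lit 2).mul (hn.q.pw (PTB.const 2)))))).add
    (hT.mul (((((PTQ.lit 2).mul (hW.mul (ptq_gms hN hn hρ))).add (ptq_closed3 hn)).add
      (hKK.q.mul (((hW.mul (ptq_xrs hN hn hρ)).add (ptq_mf hn)).sub
        (hL.mul (ptq_gam hn))))).add hsum))

theorem ptq_kapx {k q d : α → ℕ} (hk : PT A k) (hK : PBd (fun a => 2 ^ k a)) (hq : PT A q)
    (hqb : PBd q) (hd : PT A d) (hdb : PBd d) :
    PTQ A (fun a => kapx (k a) (q a) (xq (k a) (d a))) := by
  have hn := ptb_pn hk hK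
  have hx := ptq_xq hk hK hd hdb
  unfold kapx
  exact ((PTQ.lit 2).mul (((ptq_pη hk hK).mul (ptq_hopx hn ⟨hq, hqb⟩ hx)).pw
    (PTB.const 2))).div ((ptq_W0 hn PTQ.one).sub (ptq_W0 hn
      (((PTQ.lit 2).mul (hx.pw (PTB.const 2))).sub PTQ.one)))

theorem ptq_pJ {k : α → ℕ} (hk : PT A k) (hK : PBd (fun a => 2 ^ k a)) :
    PTQ A (fun a => pJ (k a)) := by
  unfold pJ
  exact PTQ.one.div (((ptb_pn hk hK).q.pw (PTB.const 2)).mul
    ((ptb_pK hk hK).q.pw (PTB.const 256)))

end Vale.Agent.P370.KC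
end
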