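import Vale.Agent.P370.MathlibUsed
import Vale.Agent.P370.Bdl.B3
import Vale.Agent.P370.Bdl.B7
import Vale.Agent.P370.Bdl.B6
import Vale.Agent.P370.Bdl.B10
import Vale.Agent.P370.Bdl.B12
import Vale.Agent.P370.Bdl.B5
import Vale.Agent.P370.Bdl.B4
import Vale.Agent.P370.Bdl.B11
import Vale.Agent.P370.Bdl.B9
import Vale.Agent.P370.Bdl.B2
import Vale.Agent.P370.Bdl.B8

set_option linter.all false

section

set_option linter.all false

/-!
Lower bound of the energy on legal clock states (H2): three levels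
(one-qubit propagation, CZ propagation, input and output).
-/

namespace Vale.Agent.P370.H

open Finset

namespace HL

/-! ### norms -/

/-- eigenvalue of `Z_i` -/
def sg {n : ℕ} (i : ℕ) (x : Fin n → Bool) : ℝ :=
  if h : i < n then (if x ⟨i, h⟩ then -1 else 1) else 1

lemma sg_or {n : ℕ} (i : ℕ) (x : Fin n → Bool) : sg i x = 1 ∨ sg i x = -1 := by
  unfold sg
  split_ifs <;> simp

lemma sg_mul {n : ℕ} (i : ℕ) (x : Fin n → Bool) : sg i x * sg i x = 1 := by
  rcases sg_or i x with h | h <;> rw [h] <;> norm_num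

lemma pau2 {n : ℕ} (i : ℕ) (v : RSt n) (x : Fin n → Bool) : pau 2 i v x = sg i x * v x := by
  unfold pau sg
  by_cases h : i < n
  · simp only [h, ↓reduceDIte, OfNat.ofNat_ne_zero, ↓reduceIte, OfNat.ofNat_ne_one, ite_mul, neg_mul, one_mul]
  · simp [h]

lemma nrm2_def {n : ℕ} (v : RSt n) : nrm2 v = ∑ x, v x * v x := rfl

lemma nrm2_nonneg {n : ℕ} (v : RSt n) : 0 ≤ nrm2 v :=
  Finset.sum_nonneg fun _ _ => mul_self_nonneg _

/-- norm -/
noncomputable def nm {n : ℕ} (v : RSt n) : ℝ := √(nrm2 v)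

lemma nm_nonneg {n : ℕ} (v : RSt n) : 0 ≤ nm v := Real.sqrt_nonneg _

lemma nm_sq {n : ℕ} (v : RSt n) : nm v ^ 2 = nrm2 v := Real.sq_sqrt (nrm2_nonneg v)

lemma nm_eq {n : ℕ} (v : RSt n) : nm v = ‖(WithLp.toLp 2 v : EuclideanSpace ℝ (Fin n → Bool))‖ := by
  rw [EuclideanSpace.norm_eq, nm, nrm2_def]
  congr 1
  apply Finset.sum_congr rfl
  intro x _
  simp [← pow_two]

lemma nm_add_le {n : ℕ} (v w : RSt n) : nm (v + w) ≤ nm v + nm w := by
  rw [nm_eq, nm_eq, nm_eq, WithLp.toLp_add]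
  exact norm_add_le _ _

lemma nm_congr {n : ℕ} {v w : RSt n} (h : nrm2 v = nrm2 w) : nm v = nm w := by
  rw [nm, nm, h]

lemma nm_neg {n : ℕ} (v : RSt n) : nm (-v) = nm v := by
  apply nm_congr
  simp only [nrm2_def, Pi.neg_apply, mul_neg, neg_mul, neg_neg]

lemma nm_sub_le {n : ℕ} (v w : RSt n) : nm (v - w) ≤ nm v + nm w := by
  rw [sub_eq_add_neg]
  exact (nm_add_le _ _).trans (by rw [nm_neg])

/-- Young -/
lemma nrm2_add_le {n : ℕ} (v w : RSt n) {η : ℝ} (h : 0 < η) :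
    nrm2 (v + w) ≤ (1 + η) * nrm2 v + (1 + 1 / η) * nrm2 w := by
  rw [nrm2_def, nrm2_def, nrm2_def, Finset.mul_sum, Finset.mul_sum, ← Finset.sum_add_distrib]
  apply Finset.sum_le_sum
  intro x _
  simp only [Pi.add_apply]
  have h1 : 0 ≤ (η * v x - w x) ^ 2 / η := by (clear * - h; positivity)
  have h2 : (η * v x - w x) ^ 2 / η = η * (v x * v x) - 2 * v x * w x + 1 / η * (w x * w x) := by
    field_simp
    ring
  linarith only [h1, h2]

lemma nrm2_add_le2 {n : ℕ} (v w : RSt n) : nrm2 (v + w) ≤ 2 * nrm2 v + 2 * nrm2 w := by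
  have := nrm2_add_le v w (one_pos)
  norm_num at this
  linarith only [this]

/-- Young for the inner product -/
lemma ip_le {n : ℕ} (v w : RSt n) {ε : ℝ} (h : 0 < ε) :
    |ip v w| ≤ ε / 2 * nrm2 v + 1 / (2 * ε) * nrm2 w := by
  have key : ∀ s : ℝ, s * s = 1 → s * ip v w ≤ ε / 2 * nrm2 v + 1 / (2 * ε) * nrm2 w := by
    intro s hs
    rw [nrm2_def, nrm2_def, ip, Finset.mul_sum, Finset.mul_sum, Finset.mul_sum,
      ← Finset.sum_add_distrib]
    apply Finset.sum_le_sum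
    intro x _
    have h1 : 0 ≤ (ε * v x - s * w x) ^ 2 / (2 * ε) := by (clear * - h; positivity)
    have h2 : (ε * v x - s * w x) ^ 2 / (2 * ε) =
        ε / 2 * (v x * v x) - s * (v x * w x) + (s * s) * (1 / (2 * ε) * (w x * w x)) := by
      field_simp
      ring
    rw [hs, one_mul] at h2
    linarith only [h1, h2]
  rw [abs_le]
  constructor
  · have := key (-1) (by norm_num)
    linarith only [this]
  · have := key 1 (by norm_num)
    linarith

/-! ### gates -/

lemma pau_add {n : ℕ} (P i : ℕ) (v w : RSt n) : pau P i (v + w) = pau P i v + pau P i w := by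
  unfold pau
  split_ifs
  · rfl
  · rfl
  · funext x
    simp only [Pi.add_apply]
    ring
  · rfl

lemma pau_smul {n : ℕ} (P i : ℕ) (c : ℝ) (v : RSt n) : pau P i (c • v) = c • pau P i v := by
  unfold pau
  split_ifs
  · rfl
  · rfl
  · funext x
    simp only [Pi.smul_apply, smul_eq_mul]
    ring
  · rfl

lemma refl_add {n : ℕ} (a q : ℕ) (v w : RSt n) : refl a q (v + w) = refl a q v + refl a q w := by
  unfold refl
  split_ifs
  · rfl
  · rw [pau_add, pau_add, smul_add, smul_add]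
    abel

lemma czg_add {n : ℕ} (f s : ℕ) (v w : RSt n) : czg f s (v + w) = czg f s v + czg f s w := by
  unfold czg
  rw [pau_add, pau_add, pau_add, ← smul_add]
  congr 1
  abel

lemma gfine_add {n : ℕ} (rs : List Rnd) (t : ℕ) (v w : RSt n) :
    gfine rs t (v + w) = gfine rs t v + gfine rs t w := by
  have ite' : ∀ {c : Prop} [Decidable c] {a b a' b' a'' b'' : RSt n}, a = a' + a'' →
      b = b' + b'' → (if c then a else b) = (if c then a' else b') + (if c then a'' else b'') := by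
    intro c _ a b a' b' a'' b'' h1 h2
    by_cases hc : c
    · rw [if_pos hc, if_pos hc, if_pos hc]; exact h1
    · rw [if_neg hc, if_neg hc, if_neg hc]; exact h2
  unfold gfine
  exact ite' (ite' (pau_add _ _ _ _) rfl) (ite' (ite' (pau_add _ _ _ _) rfl) (ite'
    (ite' (refl_add _ _ _ _) rfl) (ite' (ite' (pau_add _ _ _ _) rfl)
    (ite' (pau_add _ _ _ _) rfl))))

lemma nrm2_pau2 {n : ℕ} (i : ℕ) (v : RSt n) : nrm2 (pau 2 i v) = nrm2 v := by
  rw [nrm2_def, nrm2_def]
  apply Finset.sum_congr rfl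
  intro x _
  rw [pau2]
  have := sg_mul i x
  linear_combination (v x * v x) * this

lemma czg_apply {n : ℕ} (f s : ℕ) (v : RSt n) (x : Fin n → Bool) :
    czg f s v x = 1 / 2 * (1 + sg f x + sg s x - sg f x * sg s x) * v x := by
  unfold czg
  simp only [Pi.smul_apply, Pi.sub_apply, Pi.add_apply, pau2, smul_eq_mul]
  ring

lemma nrm2_czg {n : ℕ} (f s : ℕ) (v : RSt n) : nrm2 (czg f s v) = nrm2 v := by
  rw [nrm2_def, nrm2_def]
  apply Finset.sum_congr rfl
  intro x _
  rw [czg_apply]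
  rcases sg_or f x with h | h <;> rcases sg_or s x with h' | h' <;> rw [h, h'] <;> ring

/-- flipping a bit -/
def flip {n : ℕ} (i : Fin n) (x : Fin n → Bool) : Fin n → Bool := Function.update x i (!x i)

lemma flip_flip {n : ℕ} (i : Fin n) (x : Fin n → Bool) : flip i (flip i x) = x := by
  unfold flip
  simp

/-- flipping as a permutation -/
def flipE {n : ℕ} (i : Fin n) : (Fin n → Bool) ≃ (Fin n → Bool) :=
  ⟨flip i, flip i, flip_flip i, flip_flip i⟩

lemma nrm2_refl {n : ℕ} (a q : ℕ) (hq : q < n) (v : RSt n) : nrm2 (refl a q v) = nrm2 v := by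
  unfold refl
  split_ifs with ha
  · rfl
  set c := Real.cos (ang a)
  set s := Real.sin (ang a)
  have hcs : s ^ 2 + c ^ 2 = 1 := Real.sin_sq_add_cos_sq _
  have h1 : ∀ x, (c • pau 2 q v + s • pau 1 q v) x * (c • pau 2 q v + s • pau 1 q v) x =
      c ^ 2 * (v x * v x) + s ^ 2 * (v (flip ⟨q, hq⟩ x) * v (flip ⟨q, hq⟩ x)) +
        2 * c * s * (sg q x * v x * v (flip ⟨q, hq⟩ x)) := by
    intro x
    have h2 : pau 1 q v x = v (flip ⟨q, hq⟩ x) := by
      unfold pau flip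
      simp only [hq, ↓reduceDIte, one_ne_zero, ↓reduceIte]
    simp only [Pi.add_apply, Pi.smul_apply, smul_eq_mul, pau2, h2]
    have := sg_mul q x
    linear_combination (c ^ 2 * (v x * v x)) * this
  have h3 : ∑ x, v (flip ⟨q, hq⟩ x) * v (flip ⟨q, hq⟩ x) = ∑ x, v x * v x :=
    (flipE ⟨q, hq⟩).sum_comp (fun x => v x * v x)
  have h4 : ∑ x, sg q x * v x * v (flip ⟨q, hq⟩ x) = 0 := by
    have h5 : ∑ x, sg q x * v x * v (flip ⟨q, hq⟩ x) =
        ∑ x, sg q (flip ⟨q, hq⟩ x) * v (flip ⟨q, hq⟩ x) * v (flip ⟨q, hq⟩ (flip ⟨q, hq⟩ x)) :=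
      ((flipE ⟨q, hq⟩).sum_comp (fun x => sg q x * v x * v (flip ⟨q, hq⟩ x))).symm
    have h6 : ∀ x : Fin n → Bool, sg q (flip ⟨q, hq⟩ x) = - sg q x := by
      intro x
      unfold sg flip
      simp only [hq, dite_true, Function.update_self]
      cases x ⟨q, hq⟩ <;> simp
    have h7 : ∑ x, sg q x * v x * v (flip ⟨q, hq⟩ x) =
        - ∑ x, sg q x * v x * v (flip ⟨q, hq⟩ x) := by
      conv_lhs => rw [h5]
      rw [← Finset.sum_neg_distrib]
      apply Finset.sum_congr rfl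
      intro x _
      rw [h6, flip_flip]
      ring
    linarith only [h7]
  rw [nrm2_def, Finset.sum_congr rfl (fun x _ => h1 x), Finset.sum_add_distrib,
    Finset.sum_add_distrib, ← Finset.mul_sum, ← Finset.mul_sum, ← Finset.mul_sum, h3, h4,
    nrm2_def]
  linear_combination (∑ x, v x * v x) * hcs

lemma rget_ok {N : ℕ} {rs : List Rnd} (hok : ∀ r ∈ rs, r.Ok N) {l : ℕ} (hl : l < rs.length) :
    (rget rs l).Ok N := by
  unfold rget
  rw [List.getD_eq_getElem _ _ hl]
  exact hok _ (List.getElem_mem hl)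

lemma nrm2_gfine {n : ℕ} (rs : List Rnd) (hok : ∀ r ∈ rs, r.Ok n) (t : ℕ) (v : RSt n) :
    nrm2 (gfine rs t v) = nrm2 v := by
  have ite' : ∀ {c : Prop} [Decidable c] {a b : RSt n}, (c → nrm2 a = nrm2 v) →
      (¬ c → nrm2 b = nrm2 v) → nrm2 (if c then a else b) = nrm2 v := by
    intro c _ a b h1 h2
    by_cases hc : c
    · rw [if_pos hc]; exact h1 hc
    · rw [if_neg hc]; exact h2 hc
  unfold gfine
  exact ite' (fun _ => ite' (fun _ => nrm2_pau2 _ _) fun _ => rfl) fun _ =>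
    ite' (fun _ => ite' (fun _ => nrm2_pau2 _ _) fun _ => rfl) fun _ =>
    ite' (fun _ => ite' (fun h => nrm2_refl _ _ (rget_ok hok h).1 _) fun _ => rfl) fun _ =>
    ite' (fun _ => ite' (fun _ => nrm2_pau2 _ _) fun _ => rfl) fun _ =>
    ite' (fun _ => nrm2_pau2 _ _) fun _ => rfl

/-! ### the level two energy -/

lemma q2_ge {n : ℕ} (r : Rnd) (t : ℕ) (c : ℕ → RSt n) (h1 : c (t + 1) = pau 2 r.f (c t))
    (h2 : c (t + 2) = pau 2 r.s (c (t + 1))) (h3 : c (t - 2) = pau 2 r.s (c (t - 1)))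
    (h4 : c (t - 3) = pau 2 r.f (c (t - 2))) :
    1 / 2 * nrm2 (c t - czg r.f r.s (c (t - 1))) ≤ q2 r t c := by
  unfold q2
  rw [h2, h4, h1, h3]
  generalize c t = X
  generalize c (t - 1) = Y
  simp only [nrm2_def, mul_sum, ← sum_add_distrib, ip, ← sum_sub_distrib]
  apply Finset.sum_le_sum
  intro x _
  simp only [pau2, Pi.sub_apply, czg_apply]
  rcases sg_or r.f x with h | h <;> rcases sg_or r.s x with h' | h' <;> rw [h, h'] <;>
    linarith [sq_nonneg (X x - Y x), sq_nonneg (X x + Y x)]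

lemma bil_diff {n : ℕ} (U : RSt n → RSt n) (hU : ∀ v w, U (v + w) = U v + U w)
    (hU2 : ∀ v, nrm2 (U v) = nrm2 v) (c1 c2 d1 d2 : RSt n) {ε C D : ℝ} (hε : 0 < ε)
    (hc1 : nrm2 c1 ≤ C) (hc2 : nrm2 c2 ≤ C) (hd1 : nrm2 d1 ≤ D) (hd2 : nrm2 d2 ≤ D) :
    |ip (c1 + d1) (U (c2 + d2)) - ip c1 (U c2)| ≤ ε * C + (1 / ε + 1) * D := by
  have e : ip (c1 + d1) (U (c2 + d2)) - ip c1 (U c2) =
      ip c1 (U d2) + ip (U c2) d1 + ip d1 (U d2) := by
    rw [hU]
    simp only [ip, ← Finset.sum_add_distrib, ← Finset.sum_sub_distrib]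
    apply Finset.sum_congr rfl
    intro x _
    simp only [Pi.add_apply]
    ring
  have a1 := ip_le c1 (U d2) hε
  have a2 := ip_le (U c2) d1 hε
  have a3 := ip_le d1 (U d2) (one_pos)
  rw [hU2] at a1 a2 a3
  rw [e]
  have b1 : |ip c1 (U d2) + ip (U c2) d1 + ip d1 (U d2)| ≤
      |ip c1 (U d2)| + |ip (U c2) d1| + |ip d1 (U d2)| := abs_add_three _ _ _
  have e2 : (0:ℝ) < 1 / (2 * ε) := by positivity
  have f1 : ε / 2 * nrm2 c1 ≤ ε / 2 * C := by gcongr
  have f2 : ε / 2 * nrm2 c2 ≤ ε / 2 * C := by (clear * - hc2 hε; gcongr)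
  have f3 : 1 / (2 * ε) * nrm2 d1 ≤ 1 / (2 * ε) * D := by gcongr
  have f4 : 1 / (2 * ε) * nrm2 d2 ≤ 1 / (2 * ε) * D := by (clear * - hd2 hε; gcongr)
  have f5 : (1 / ε + 1) * D = 1 / (2 * ε) * D + 1 / (2 * ε) * D + D := by
    field_simp
    ring
  rw [f5]
  linarith only [hd1, hd2, a1, a2, a3, b1, f1, f2, f3, f4]

lemma q2_diff {n : ℕ} (r : Rnd) (t : ℕ) (c d : ℕ → RSt n) {ε C D : ℝ} (hε : 0 < ε)
    (hc0 : nrm2 (c t) ≤ C) (hc1 : nrm2 (c (t + 1)) ≤ C) (hc2 : nrm2 (c (t + 2)) ≤ C)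
    (hc3 : nrm2 (c (t - 1)) ≤ C) (hc4 : nrm2 (c (t - 2)) ≤ C) (hc5 : nrm2 (c (t - 3)) ≤ C)
    (hd0 : nrm2 (d t) ≤ D) (hd1 : nrm2 (d (t + 1)) ≤ D) (hd2 : nrm2 (d (t + 2)) ≤ D)
    (hd3 : nrm2 (d (t - 1)) ≤ D) (hd4 : nrm2 (d (t - 2)) ≤ D) (hd5 : nrm2 (d (t - 3)) ≤ D) :
    q2 r t c - 8 * (ε * C + (1 / ε + 1) * D) ≤ q2 r t (fun k => c k + d k) := by
  have I : ∀ v w : RSt n, id (v + w) = id v + id w := fun _ _ => rfl
  have I2 : ∀ v : RSt n, nrm2 (id v) = nrm2 v := fun _ => rfl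
  have Z : ∀ i, ∀ v w : RSt n, pau 2 i (v + w) = pau 2 i v + pau 2 i w := fun i => pau_add 2 i
  have Z2 : ∀ i, ∀ v : RSt n, nrm2 (pau 2 i v) = nrm2 v := fun i => nrm2_pau2 i
  have t1 := abs_le.1 (bil_diff id I I2 (c t) (c t) (d t) (d t) hε hc0 hc0 hd0 hd0)
  have t2 := abs_le.1 (bil_diff id I I2 (c (t - 1)) (c (t - 1)) (d (t - 1)) (d (t - 1)) hε
    hc3 hc3 hd3 hd3)
  have t3 := abs_le.1 (bil_diff id I I2 (c t) (c (t - 1)) (d t) (d (t - 1)) hε hc0 hc3 hd0 hd3)
  have t4 := abs_le.1 (bil_diff _ (Z r.f) (Z2 r.f) (c t) (c (t - 1)) (d t) (d (t - 1)) hε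
    hc0 hc3 hd0 hd3)
  have t5 := abs_le.1 (bil_diff _ (Z r.s) (Z2 r.s) (c t) (c (t - 1)) (d t) (d (t - 1)) hε
    hc0 hc3 hd0 hd3)
  have t6 := abs_le.1 (bil_diff id I I2 (c (t + 1)) (c t) (d (t + 1)) (d t) hε hc1 hc0 hd1 hd0)
  have t7 := abs_le.1 (bil_diff id I I2 (c (t + 2)) (c (t + 1)) (d (t + 2)) (d (t + 1)) hε
    hc2 hc1 hd2 hd1)
  have t8 := abs_le.1 (bil_diff id I I2 (c (t - 1)) (c (t - 2)) (d (t - 1)) (d (t - 2)) hε
    hc3 hc4 hd3 hd4)
  have t9 := abs_le.1 (bil_diff id I I2 (c (t - 2)) (c (t - 3)) (d (t - 2)) (d (t - 3)) hε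
    hc4 hc5 hd4 hd5)
  have t10 := abs_le.1 (bil_diff id I I2 (c (t + 2)) (c t) (d (t + 2)) (d t) hε hc2 hc0 hd2 hd0)
  have t11 := abs_le.1 (bil_diff id I I2 (c (t - 1)) (c (t - 3)) (d (t - 1)) (d (t - 3)) hε
    hc3 hc5 hd3 hd5)
  simp only [id] at t1 t2 t3 t6 t7 t8 t9 t10 t11
  unfold q2 nrm2
  generalize ε * C + (1 / ε + 1) * D = K at *
  linarith only [t1.1, t2.1, t3.2, t4.2, t5.2, t6.1, t7.1, t8.1, t9.1, t10.1, t11.1]

/-! ### chains and sums -/

lemma chain (x d : ℕ → ℝ) (hx : ∀ k, 0 ≤ x k) (h0 : x 0 = 0) (n : ℕ)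
    (h : ∀ k < n, x (k + 1) ≤ x k + d k) :
    ∑ k ∈ range (n + 1), x k ^ 2 ≤ ((n:ℝ) + 1) * n * ∑ j ∈ range n, d j ^ 2 := by
  have h1 : ∀ k ≤ n, x k ≤ ∑ j ∈ range k, d j := by
    intro k
    induction k with
    | zero => intro _; simp [h0]
    | succ k ih =>
      intro hk
      rw [Finset.sum_range_succ]
      have := h k (by (clear * - hk; omega))
      have := ih (by omega)
      (clear hx h0; linarith)
  have h2 : ∀ k ∈ range (n + 1), x k ^ 2 ≤ n * ∑ j ∈ range n, d j ^ 2 := by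
    intro k hk
    rw [Finset.mem_range] at hk
    have a1 : x k ^ 2 ≤ (∑ j ∈ range k, d j) ^ 2 := by
      have := hx k
      have := h1 k (by omega)
      gcongr
    have a2 : (∑ j ∈ range k, d j) ^ 2 ≤ ((range k).card : ℝ) * ∑ j ∈ range k, d j ^ 2 :=
      sq_sum_le_card_mul_sum_sq
    rw [Finset.card_range] at a2
    have a3 : ∑ j ∈ range k, d j ^ 2 ≤ ∑ j ∈ range n, d j ^ 2 := by
      apply Finset.sum_le_sum_of_subset_of_nonneg
      · intro j hj
        rw [Finset.mem_range] at hj ⊢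
        omega
      · intro j _ _
        (clear * -; positivity)
    have a4 : (k:ℝ) ≤ n := by
      have : k ≤ n := by omega
      exact_mod_cast this
    have a5 : 0 ≤ ∑ j ∈ range k, d j ^ 2 := Finset.sum_nonneg fun _ _ => by (clear * -; (clear * -; positivity))
    calc x k ^ 2 ≤ (k:ℝ) * ∑ j ∈ range k, d j ^ 2 := a1.trans a2
      _ ≤ n * ∑ j ∈ range n, d j ^ 2 := by (clear * - a4 a3; gcongr)
  calc ∑ k ∈ range (n + 1), x k ^ 2 ≤ ∑ k ∈ range (n + 1), n * ∑ j ∈ range n, d j ^ 2 :=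
        Finset.sum_le_sum h2
    _ = _ := by
        rw [Finset.sum_const, Finset.card_range, nsmul_eq_mul]
        push_cast
        ring

lemma sum_blocks (f : ℕ → ℝ) (m : ℕ) :
    ∑ t ∈ range (6 * m), f t = ∑ l ∈ range m, ∑ p ∈ range 6, f (6 * l + p) := by
  induction m with
  | zero => simp only [mul_zero, range_zero, sum_empty]
  | succ m ih =>
    rw [Finset.sum_range_succ, ← ih, show 6 * (m + 1) = 6 * m + 6 by ring, Finset.sum_range_add]

lemma sum_windows (f : ℕ → ℝ) (hf : ∀ t, 0 ≤ f t) (m : ℕ) :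
    ∑ l ∈ range m, ∑ p ∈ range 6, f (6 * l + 3 + p) ≤ ∑ t ∈ range (6 * m + 3), f t := by
  induction m with
  | zero => simpa only [range_zero, sum_empty, mul_zero, zero_add] using Finset.sum_nonneg fun t _ => hf t
  | succ m ih =>
    rw [Finset.sum_range_succ, show 6 * (m + 1) + 3 = 6 * m + 3 + 6 by ring,
      Finset.sum_range_add _ (6 * m + 3) 6]
    linarith only [ih]

lemma sum_fine (F : ℕ → ℝ) (M : ℕ) :
    ∑ t ∈ Icc 1 (tc M), (if t % 6 = 0 then 0 else F t) =
      ∑ l ∈ range (M + 1), ∑ p ∈ range 5, F (6 * l + p + 1) := by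
  have h1 : ∑ t ∈ Icc 1 (tc M), (if t % 6 = 0 then 0 else F t) =
      ∑ t ∈ range (6 * (M + 1)), (if t % 6 = 0 then 0 else F t) := by
    have h2 : range (6 * (M + 1)) = insert 0 (Icc 1 (tc M)) := by
      ext t
      simp only [Finset.mem_range, Finset.mem_insert, Finset.mem_Icc, tc]
      omega
    rw [h2, Finset.sum_insert (by simp only [mem_Icc, nonpos_iff_eq_zero, one_ne_zero, zero_le, and_true, not_false_eq_true])]
    simp only [Nat.zero_mod, ↓reduceIte, zero_add]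
  rw [h1, sum_blocks]
  apply Finset.sum_congr rfl
  intro l _
  rw [Finset.sum_range_succ']
  have h3 : (6 * l + 0) % 6 = 0 := by omega
  rw [if_pos h3, add_zero]
  apply Finset.sum_congr rfl
  intro p hp
  rw [Finset.mem_range] at hp
  rw [if_neg (by omega)]
  rfl

/-! ### input and output -/

lemma runR_add {n : ℕ} (rs : List Rnd) : ∀ v w : RSt n,
    runR rs (v + w) = runR rs v + runR rs w := by
  induction rs with
  | nil => intro v w; rfl
  | cons r rs ih =>
    intro v w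
    have h : rndAct r (v + w) = rndAct r v + rndAct r w := by
      unfold rndAct
      rw [refl_add, czg_add]
    change runR rs (rndAct r (v + w)) = runR rs (rndAct r v) + runR rs (rndAct r w)
    rw [h, ih]

lemma nrm2_runR {n : ℕ} (rs : List Rnd) : (∀ r ∈ rs, r.Ok n) → ∀ v : RSt n,
    nrm2 (runR rs v) = nrm2 v := by
  induction rs with
  | nil => intro _ v; rfl
  | cons r rs ih =>
    intro hok v
    change nrm2 (runR rs (rndAct r v)) = nrm2 v
    rw [ih (fun r' hr' => hok r' (List.mem_cons_of_mem _ hr'))]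
    unfold rndAct
    rw [nrm2_czg, nrm2_refl _ _ (hok r List.mem_cons_self).1]

lemma zer_apply {n : ℕ} (i : ℕ) (v : RSt n) (x : Fin n → Bool) :
    zer i v x = 1 / 2 * (1 + sg i x) * v x := by
  unfold zer
  simp only [Pi.smul_apply, Pi.add_apply, pau2, smul_eq_mul]
  ring

lemma one_apply {n : ℕ} (i : ℕ) (v : RSt n) (x : Fin n → Bool) :
    one i v x = 1 / 2 * (1 - sg i x) * v x := by
  unfold one
  simp only [Pi.smul_apply, Pi.sub_apply, pau2, smul_eq_mul]
  ring

lemma zer_add {n : ℕ} (i : ℕ) (v w : RSt n) : zer i (v + w) = zer i v + zer i w := by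
  funext x
  simp only [Pi.add_apply, zer_apply]
  ring

lemma nrm2_zer_le {n : ℕ} (i : ℕ) (v : RSt n) : nrm2 (zer i v) ≤ nrm2 v := by
  rw [nrm2_def, nrm2_def]
  apply Finset.sum_le_sum
  intro x _
  rw [zer_apply]
  rcases sg_or i x with h | h <;> rw [h] <;> linarith only [mul_self_nonneg (v x)]

lemma nm_zer_le {n : ℕ} (i : ℕ) (v : RSt n) : nm (zer i v) ≤ nm v :=
  Real.sqrt_le_sqrt (nrm2_zer_le i v)

open Classical in
/-- the part of the input satisfying the input conditions -/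
noncomputable def good {n : ℕ} (m : ℕ) (w : RSt n) : RSt n := fun x =>
  if ∀ i, m ≤ i → i < n - 1 → sg i x = 1 then w x else 0

lemma good_valid {n : ℕ} (m : ℕ) (w : RSt n) : ValidIn m (good m w) := by
  intro i h1 h2
  funext x
  rw [one_apply]
  unfold good
  split_ifs with h
  · rw [h i h1 h2]
    simp only [one_div, sub_self, mul_zero, zero_mul, Pi.zero_apply]
  · simp only [one_div, mul_zero, Pi.zero_apply]

lemma good_split {n : ℕ} (m : ℕ) (w : RSt n) :
    nrm2 w = nrm2 (good m w) + nrm2 (w - good m w) := by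
  rw [nrm2_def, nrm2_def, nrm2_def, ← Finset.sum_add_distrib]
  apply Finset.sum_congr rfl
  intro x _
  simp only [Pi.sub_apply]
  unfold good
  split_ifs <;> ring

lemma bad_le {n : ℕ} (m : ℕ) (w : RSt n) :
    nrm2 (w - good m w) ≤ ∑ i ∈ Ico m (n - 1), nrm2 (one i w) := by
  simp only [nrm2_def]
  rw [Finset.sum_comm]
  apply Finset.sum_le_sum
  intro x _
  simp only [Pi.sub_apply]
  unfold good
  split_ifs with h
  · rw [sub_self, mul_zero]
    exact Finset.sum_nonneg fun _ _ => mul_self_nonneg _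
  · push Not at h
    obtain ⟨i, h1, h2, h3⟩ := h
    have h4 : sg i x = -1 := (sg_or i x).resolve_left h3
    rw [sub_zero]
    have h5 : w x * w x = one i w x * one i w x := by
      rw [one_apply, h4]
      ring
    rw [h5]
    exact Finset.single_le_sum (f := fun i => one i w x * one i w x)
      (fun _ _ => mul_self_nonneg _) (Finset.mem_Ico.2 ⟨h1, h2⟩)

lemma io_bound {N : ℕ} (m : ℕ) (rs : List Rnd) (hok : ∀ r ∈ rs, r.Ok N)
    (hacc : ∀ φ : RSt N, ValidIn m φ → 2 / 3 * nrm2 φ ≤ nrm2 (zer 0 (runR rs φ)))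
    (w e : RSt N) :
    49 / 75 * nrm2 w - 98 * nrm2 e ≤
      1000 * (∑ i ∈ Ico m (N - 1), nrm2 (one i w)) + nrm2 (zer 0 (runR rs w + e)) := by
  have h1 := hacc _ (good_valid m w)
  have h2 := good_split m w
  have h3 := bad_le m w
  set φ := good m w
  set χ := w - good m w
  have h4 : nm (zer 0 (runR rs φ)) ≤ nm (zer 0 (runR rs w + e)) + (nm χ + nm e) := by
    have e1 : zer 0 (runR rs w + e) = zer 0 (runR rs φ) + zer 0 (runR rs χ + e) := by
      rw [← zer_add, ← add_assoc, ← runR_add]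
      congr 3
      simp [φ, χ]
    have e2 : zer 0 (runR rs φ) = zer 0 (runR rs w + e) - zer 0 (runR rs χ + e) := by
      rw [e1, add_sub_cancel_right]
    have e3 : nm (zer 0 (runR rs χ + e)) ≤ nm χ + nm e :=
      (nm_zer_le _ _).trans ((nm_add_le _ _).trans (by
        rw [nm_congr (nrm2_runR rs hok χ)]))
    calc nm (zer 0 (runR rs φ)) = nm (zer 0 (runR rs w + e) - zer 0 (runR rs χ + e)) := by
          rw [← e2]
      _ ≤ _ := (nm_sub_le _ _).trans (by linarith only [e3])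
  have h5 := nm_sq (zer 0 (runR rs φ))
  have h6 := nm_sq (zer 0 (runR rs w + e))
  have h7 := nm_sq χ
  have h8 := nm_sq e
  have p1 := nm_nonneg (zer 0 (runR rs φ))
  have p2 := nm_nonneg (zer 0 (runR rs w + e))
  have p3 := nm_nonneg χ
  have p4 := nm_nonneg e
  rw [← h6, ← h8]
  rw [← h7] at h2 h3
  rw [← h5] at h1
  have h9 : nm (zer 0 (runR rs φ)) ^ 2 ≤
      (nm (zer 0 (runR rs w + e)) + (nm χ + nm e)) ^ 2 := by (clear * - p1 h4; gcongr)
  have h10 : (nm (zer 0 (runR rs w + e)) + (nm χ + nm e)) ^ 2 ≤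
      50 / 49 * nm (zer 0 (runR rs w + e)) ^ 2 + 50 * (nm χ + nm e) ^ 2 := by
    linarith only [sq_nonneg (nm (zer 0 (runR rs w + e)) - 49 * (nm χ + nm e))]
  have h11 : (nm χ + nm e) ^ 2 ≤ 2 * nm χ ^ 2 + 2 * nm e ^ 2 := by
    linarith only [sq_nonneg (nm χ - nm e)]
  rw [h2]
  linarith only [h1, h3, h9, h10, h11, sq_nonneg (nm χ)]

/-! ### values of the gates -/

lemma gf10 {n : ℕ} (rs : List Rnd) (v : RSt n) : gfine rs 1 v = v := by
  simp only [gfine, Nat.one_mod, ↓reduceIte, Nat.reduceDiv, nonpos_iff_eq_zero, one_ne_zero]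

lemma gf20 {n : ℕ} (rs : List Rnd) (v : RSt n) : gfine rs 2 v = v := by
  simp only [gfine, Nat.reduceMod, OfNat.ofNat_ne_one, ↓reduceIte, Nat.reduceDiv, nonpos_iff_eq_zero, one_ne_zero]

lemma gf1 {n : ℕ} (rs : List Rnd) (l : ℕ) (v : RSt n) :
    gfine rs (6 * (l + 1) + 1) v = pau 2 (rget rs l).f v := by
  have h1 : (6 * (l + 1) + 1) % 6 = 1 := by omega
  have h2 : (6 * (l + 1) + 1) / 6 = l + 1 := by omega
  unfold gfine
  rw [if_pos h1, h2, if_pos (by omega), Nat.add_sub_cancel]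

lemma gf2 {n : ℕ} (rs : List Rnd) (l : ℕ) (v : RSt n) :
    gfine rs (6 * (l + 1) + 2) v = pau 2 (rget rs l).s v := by
  have h1 : (6 * (l + 1) + 2) % 6 = 2 := by omega
  have h2 : (6 * (l + 1) + 2) / 6 = l + 1 := by omega
  unfold gfine
  rw [if_neg (by omega), if_pos h1, h2, if_pos (by omega), Nat.add_sub_cancel]

lemma gf3 {n : ℕ} (rs : List Rnd) (l : ℕ) (v : RSt n) :
    gfine rs (6 * l + 3) v =
      if l < rs.length then refl (rget rs l).a (rget rs l).q v else v := by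
  have h1 : (6 * l + 3) % 6 = 3 := by omega
  have h2 : (6 * l + 3) / 6 = l := by omega
  unfold gfine
  rw [if_neg (by (clear * - h1; omega)), if_neg (by omega), if_pos h1, h2]

lemma gf4 {n : ℕ} (rs : List Rnd) (l : ℕ) (v : RSt n) :
    gfine rs (6 * l + 4) v = if l < rs.length then pau 2 (rget rs l).f v else v := by
  have h1 : (6 * l + 4) % 6 = 4 := by omega
  have h2 : (6 * l + 4) / 6 = l := by omega
  unfold gfine
  rw [if_neg (by omega), if_neg (by omega), if_neg (by (clear * - h1; omega)), if_pos h1, h2]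

lemma gf5 {n : ℕ} (rs : List Rnd) (l : ℕ) (v : RSt n) :
    gfine rs (6 * l + 5) v = if l < rs.length then pau 2 (rget rs l).s v else v := by
  have h2 : (6 * l + 5) / 6 = l := by omega
  unfold gfine
  rw [if_neg (by omega), if_neg (by omega), if_neg (by (clear * - h2; omega)), if_neg (by omega), h2]

lemma pau2_pau2 {n : ℕ} (i : ℕ) (v : RSt n) : pau 2 i (pau 2 i v) = v := by
  funext x
  rw [pau2, pau2, ← mul_assoc, sg_mul, one_mul]

lemma gfine_sub {n : ℕ} (rs : List Rnd) (t : ℕ) (v w : RSt n) :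
    gfine rs t (v - w) = gfine rs t v - gfine rs t w := by
  have h := gfine_add rs t (v - w) w
  rw [sub_add_cancel] at h
  rw [h, add_sub_cancel_right]

lemma czg_sub {n : ℕ} (f s : ℕ) (v w : RSt n) : czg f s (v - w) = czg f s v - czg f s w := by
  have h := czg_add f s (v - w) w
  rw [sub_add_cancel] at h
  rw [h, add_sub_cancel_right]

/-! ### level one states and history states -/

/-- level one state with the same values at the multiples of six -/
noncomputable def cs {n : ℕ} (rs : List Rnd) (a : ℕ → RSt n) : ℕ → RSt n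
  | 0 => a 0
  | t + 1 => if (t + 1) % 6 = 0 then a (t + 1) else gfine rs (t + 1) (cs rs a t)

/-- history state -/
noncomputable def his {n : ℕ} (rs : List Rnd) (w : RSt n) : ℕ → RSt n
  | 0 => w
  | t + 1 => if (t + 1) % 6 = 0 then czg (rget rs (t / 6)).f (rget rs (t / 6)).s (his rs w t)
      else gfine rs (t + 1) (his rs w t)

lemma cs_six {n : ℕ} (rs : List Rnd) (a : ℕ → RSt n) (l : ℕ) : cs rs a (6 * l) = a (6 * l) := by
  cases l with
  | zero => rfl
  | succ l =>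
    rw [show 6 * (l + 1) = 6 * l + 5 + 1 by ring, cs, if_pos (by (clear * -; omega))]

lemma cs_step {n : ℕ} (rs : List Rnd) (a : ℕ → RSt n) (l p : ℕ) (hp : p < 5) :
    cs rs a (6 * l + p + 1) = gfine rs (6 * l + p + 1) (cs rs a (6 * l + p)) := by
  rw [cs, if_neg (by omega)]

lemma his_six {n : ℕ} (rs : List Rnd) (w : RSt n) (l : ℕ) :
    his rs w (6 * (l + 1)) = czg (rget rs l).f (rget rs l).s (his rs w (6 * l + 5)) := by
  rw [show 6 * (l + 1) = 6 * l + 5 + 1 by ring, his, if_pos (by (clear * -; omega)),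
    show (6 * l + 5) / 6 = l by omega]

lemma his_step {n : ℕ} (rs : List Rnd) (w : RSt n) (l p : ℕ) (hp : p < 5) :
    his rs w (6 * l + p + 1) = gfine rs (6 * l + p + 1) (his rs w (6 * l + p)) := by
  rw [his, if_neg (by (clear * - hp; omega))]

lemma nrm2_his {n : ℕ} (rs : List Rnd) (hok : ∀ r ∈ rs, r.Ok n) (w : RSt n) (t : ℕ) :
    nrm2 (his rs w t) = nrm2 w := by
  induction t with
  | zero => rfl
  | succ t ih =>
    rw [his]
    split_ifs
    · rw [nrm2_czg, ih]
    · rw [nrm2_gfine rs hok, ih]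

lemma his_two {n : ℕ} (rs : List Rnd) (w : RSt n) (l : ℕ) (hl : l ≤ rs.length) :
    his rs w (6 * l + 2) = runR (rs.take l) w := by
  induction l with
  | zero =>
    have h1 : his rs w 1 = gfine rs 1 (his rs w 0) := his_step rs w 0 0 (by norm_num)
    have h2 : his rs w 2 = gfine rs 2 (his rs w 1) := his_step rs w 0 1 (by norm_num)
    simp only [mul_zero, zero_add, List.take_zero]
    rw [h2, h1, gf10, gf20]
    rfl
  | succ l ih =>
    have hl' : l < rs.length := by omega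
    have h3 : his rs w (6 * l + 3) = refl (rget rs l).a (rget rs l).q (his rs w (6 * l + 2)) := by
      rw [his_step rs w l 2 (by norm_num)]
      exact (gf3 rs l _).trans (if_pos hl')
    have h4 : his rs w (6 * l + 4) = pau 2 (rget rs l).f (his rs w (6 * l + 3)) := by
      rw [his_step rs w l 3 (by norm_num)]
      exact (gf4 rs l _).trans (if_pos hl')
    have h5 : his rs w (6 * l + 5) = pau 2 (rget rs l).s (his rs w (6 * l + 4)) := by
      rw [his_step rs w l 4 (by norm_num)]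
      exact (gf5 rs l _).trans (if_pos hl')
    have h7 : his rs w (6 * (l + 1) + 1) = pau 2 (rget rs l).f (his rs w (6 * (l + 1))) := by
      rw [his_step rs w (l + 1) 0 (by norm_num)]
      exact gf1 rs l _
    have h8 : his rs w (6 * (l + 1) + 2) = pau 2 (rget rs l).s (his rs w (6 * (l + 1) + 1)) := by
      rw [his_step rs w (l + 1) 1 (by norm_num)]
      exact gf2 rs l _
    have h9 : rs.take (l + 1) = rs.take l ++ [rget rs l] := by
      rw [List.take_succ_eq_append_getElem hl', rget, List.getD_eq_getElem _ _ hl']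
    have h10 : runR (rs.take l ++ [rget rs l]) w = rndAct (rget rs l) (runR (rs.take l) w) := by
      unfold runR
      rw [List.foldl_append]
      rfl
    rw [h8, h7, his_six, h5, h4, h3, ih (by (clear * - hl; omega)), h9, h10]
    unfold rndAct
    generalize refl (rget rs l).a (rget rs l).q (runR (rs.take l) w) = v
    funext x
    simp only [pau2, czg_apply]
    rcases sg_or (rget rs l).f x with h | h <;> rcases sg_or (rget rs l).s x with h' | h' <;>
      rw [h, h'] <;> ring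

lemma his_last {n : ℕ} (rs : List Rnd) (w : RSt n) :
    his rs w (tc rs.length) = runR rs w := by
  have h3 : his rs w (6 * rs.length + 3) = his rs w (6 * rs.length + 2) := by
    rw [his_step rs w rs.length 2 (by norm_num)]
    exact (gf3 rs _ _).trans (if_neg (lt_irrefl _))
  have h4 : his rs w (6 * rs.length + 4) = his rs w (6 * rs.length + 3) := by
    rw [his_step rs w rs.length 3 (by norm_num)]
    exact (gf4 rs _ _).trans (if_neg (lt_irrefl _))
  have h5 : his rs w (6 * rs.length + 5) = his rs w (6 * rs.length + 4) := by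
    rw [his_step rs w rs.length 4 (by norm_num)]
    exact (gf5 rs _ _).trans (if_neg (lt_irrefl _))
  rw [tc, h5, h4, h3, his_two rs w rs.length le_rfl, List.take_length]

/-! ### the three levels -/

lemma level_one {n : ℕ} (rs : List Rnd) (hok : ∀ r ∈ rs, r.Ok n) (a : ℕ → RSt n) :
    tot rs.length (fun t => a t - cs rs a t) ≤
      60 * (∑ t ∈ Icc 1 (tc rs.length), if t % 6 = 0 then 0
        else 1 / 2 * nrm2 (a t - gfine rs t (a (t - 1)))) := by
  rw [sum_fine]
  unfold tot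
  rw [show tc rs.length + 1 = 6 * (rs.length + 1) by unfold tc; ring, sum_blocks, Finset.mul_sum]
  apply Finset.sum_le_sum
  intro l _
  have h := chain (fun p => nm (a (6 * l + p) - cs rs a (6 * l + p)))
    (fun p => nm (a (6 * l + p + 1) - gfine rs (6 * l + p + 1) (a (6 * l + p))))
    (fun _ => nm_nonneg _) (by simp [cs_six, nm, nrm2_def]) 5 (by
      intro p hp
      change nm (a (6 * l + p + 1) - cs rs a (6 * l + p + 1)) ≤ _
      rw [cs_step rs a l p hp]
      have e : a (6 * l + p + 1) - gfine rs (6 * l + p + 1) (cs rs a (6 * l + p)) =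
          gfine rs (6 * l + p + 1) (a (6 * l + p) - cs rs a (6 * l + p)) +
          (a (6 * l + p + 1) - gfine rs (6 * l + p + 1) (a (6 * l + p))) := by
        rw [gfine_sub]
        abel
      rw [e]
      refine (nm_add_le _ _).trans ?_
      rw [nm_congr (nrm2_gfine rs hok _ _)])
  simp only [nm_sq] at h
  refine h.trans (le_of_eq ?_)
  rw [Finset.mul_sum, Finset.mul_sum]
  apply Finset.sum_congr rfl
  intro p _
  rw [Nat.add_sub_cancel]
  push_cast
  ring

/-- defect of the transition `CZ` -/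
noncomputable def dd {n : ℕ} (rs : List Rnd) (a : ℕ → RSt n) (l : ℕ) : ℝ :=
  nm (a (6 * (l + 1)) - czg (rget rs l).f (rget rs l).s (cs rs a (6 * l + 5)))

lemma level_two {n : ℕ} (rs : List Rnd) (a : ℕ → RSt n) :
    1 / 2 * ∑ l ∈ range rs.length, dd rs a l ^ 2 ≤
      ∑ l ∈ range rs.length, q2 (rget rs l) (6 * (l + 1)) (cs rs a) := by
  rw [Finset.mul_sum]
  apply Finset.sum_le_sum
  intro l hl
  rw [Finset.mem_range] at hl
  have h1 : cs rs a (6 * (l + 1) + 1) = pau 2 (rget rs l).f (cs rs a (6 * (l + 1))) := by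
    rw [cs_step rs a (l + 1) 0 (by norm_num)]
    exact gf1 rs l _
  have h2 : cs rs a (6 * (l + 1) + 2) = pau 2 (rget rs l).s (cs rs a (6 * (l + 1) + 1)) := by
    rw [cs_step rs a (l + 1) 1 (by norm_num)]
    exact gf2 rs l _
  have h4 : cs rs a (6 * l + 4) = pau 2 (rget rs l).f (cs rs a (6 * l + 3)) := by
    rw [cs_step rs a l 3 (by norm_num)]
    exact (gf4 rs l _).trans (if_pos hl)
  have h5 : cs rs a (6 * l + 5) = pau 2 (rget rs l).s (cs rs a (6 * l + 4)) := by
    rw [cs_step rs a l 4 (by (clear * -; norm_num))]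
    exact (gf5 rs l _).trans (if_pos hl)
  have h3 : cs rs a (6 * (l + 1) - 2) = pau 2 (rget rs l).s (cs rs a (6 * (l + 1) - 1)) := by
    rw [show 6 * (l + 1) - 2 = 6 * l + 4 by omega, show 6 * (l + 1) - 1 = 6 * l + 5 by omega, h5,
      pau2_pau2]
  have h6 : cs rs a (6 * (l + 1) - 3) = pau 2 (rget rs l).f (cs rs a (6 * (l + 1) - 2)) := by
    rw [show 6 * (l + 1) - 3 = 6 * l + 3 by omega, show 6 * (l + 1) - 2 = 6 * l + 4 by omega, h4,
      pau2_pau2]
  have h := q2_ge (rget rs l) (6 * (l + 1)) (cs rs a) h1 h2 h3 h6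
  rw [show 6 * (l + 1) - 1 = 6 * l + 5 by omega, cs_six] at h
  unfold dd
  rw [nm_sq]
  exact h

lemma cs_his {n : ℕ} (rs : List Rnd) (hok : ∀ r ∈ rs, r.Ok n) (a : ℕ → RSt n) (l p : ℕ)
    (hp : p ≤ 5) : nrm2 (cs rs a (6 * l + p) - his rs (a 0) (6 * l + p)) =
      nrm2 (a (6 * l) - his rs (a 0) (6 * l)) := by
  induction p with
  | zero => rw [add_zero, cs_six]
  | succ p ih =>
    rw [← add_assoc, cs_step rs a l p (by omega), his_step rs (a 0) l p (by omega), ← gfine_sub,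
      nrm2_gfine rs hok, ih (by omega)]

lemma path {n : ℕ} (rs : List Rnd) (hok : ∀ r ∈ rs, r.Ok n) (a : ℕ → RSt n) :
    tot rs.length (fun t => cs rs a t - his rs (a 0) t) ≤
      6 * (((rs.length : ℝ) + 1) * rs.length) * ∑ l ∈ range rs.length, dd rs a l ^ 2 := by
  unfold tot
  rw [show tc rs.length + 1 = 6 * (rs.length + 1) by unfold tc; ring, sum_blocks]
  have h := chain (fun l => nm (a (6 * l) - his rs (a 0) (6 * l))) (dd rs a)
    (fun _ => nm_nonneg _) (by simp [his, nm, nrm2_def]) rs.length (by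
      intro l _
      rw [his_six]
      have e : a (6 * (l + 1)) - czg (rget rs l).f (rget rs l).s (his rs (a 0) (6 * l + 5)) =
          czg (rget rs l).f (rget rs l).s (cs rs a (6 * l + 5) - his rs (a 0) (6 * l + 5)) +
          (a (6 * (l + 1)) - czg (rget rs l).f (rget rs l).s (cs rs a (6 * l + 5))) := by
        rw [czg_sub]
        abel
      rw [e]
      refine (nm_add_le _ _).trans ?_
      rw [nm_congr (nrm2_czg _ _ _), nm_congr (cs_his rs hok a l 5 le_rfl)]
      exact le_rfl)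
  simp only [nm_sq] at h
  have e : ∑ l ∈ range (rs.length + 1), ∑ p ∈ range 6,
      nrm2 (cs rs a (6 * l + p) - his rs (a 0) (6 * l + p)) =
      6 * ∑ l ∈ range (rs.length + 1), nrm2 (a (6 * l) - his rs (a 0) (6 * l)) := by
    rw [Finset.mul_sum]
    apply Finset.sum_congr rfl
    intro l _
    rw [Finset.sum_congr rfl (fun p hp => cs_his rs hok a l p
      (by rw [Finset.mem_range] at hp; omega)), Finset.sum_const, Finset.card_range]
    simp
  rw [e]
  linarith only [h]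

lemma q2_total {n : ℕ} (rs : List Rnd) (c d : ℕ → RSt n) {ε : ℝ} (hε : 0 < ε) :
    (∑ l ∈ range rs.length, q2 (rget rs l) (6 * (l + 1)) c) -
      8 * (ε * tot rs.length c + (1 / ε + 1) * tot rs.length d) ≤
    ∑ l ∈ range rs.length, q2 (rget rs l) (6 * (l + 1)) (fun k => c k + d k) := by
  have W : ∀ f : ℕ → RSt n, ∑ l ∈ range rs.length, ∑ p ∈ range 6, nrm2 (f (6 * l + 3 + p)) ≤
      tot rs.length f := by
    intro f
    refine (sum_windows (fun t => nrm2 (f t)) (fun _ => nrm2_nonneg _) rs.length).trans ?_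
    unfold tot
    apply Finset.sum_le_sum_of_subset_of_nonneg
    · intro t ht
      rw [Finset.mem_range] at ht ⊢
      unfold tc
      omega
    · intro _ _ _
      exact nrm2_nonneg _
  have S : ∀ f : ℕ → RSt n, ∀ l p, p < 6 →
      nrm2 (f (6 * l + 3 + p)) ≤ ∑ p ∈ range 6, nrm2 (f (6 * l + 3 + p)) := fun f l p hp =>
    Finset.single_le_sum (f := fun p => nrm2 (f (6 * l + 3 + p))) (fun _ _ => nrm2_nonneg _)
      (Finset.mem_range.2 hp)
  have P : ∀ l ∈ range rs.length, q2 (rget rs l) (6 * (l + 1)) c -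
      8 * (ε * (∑ p ∈ range 6, nrm2 (c (6 * l + 3 + p))) +
        (1 / ε + 1) * ∑ p ∈ range 6, nrm2 (d (6 * l + 3 + p))) ≤
      q2 (rget rs l) (6 * (l + 1)) (fun k => c k + d k) := by
    intro l _
    exact q2_diff (rget rs l) (6 * (l + 1)) c d hε
      (S c l 3 (by norm_num)) (S c l 4 (by norm_num)) (S c l 5 (by norm_num))
      (S c l 2 (by norm_num)) (S c l 1 (by norm_num)) (S c l 0 (by norm_num))
      (S d l 3 (by norm_num)) (S d l 4 (by norm_num)) (S d l 5 (by norm_num))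
      (S d l 2 (by norm_num)) (S d l 1 (by norm_num)) (S d l 0 (by norm_num))
  have Q := Finset.sum_le_sum P
  rw [Finset.sum_sub_distrib, ← Finset.mul_sum, Finset.sum_add_distrib, ← Finset.mul_sum,
    ← Finset.mul_sum] at Q
  have w1 := W c
  have w2 := W d
  have p1 : 0 < 1 / ε := by (clear * - hε; positivity)
  have u1 : ε * (∑ l ∈ range rs.length, ∑ p ∈ range 6, nrm2 (c (6 * l + 3 + p))) ≤
      ε * tot rs.length c := by gcongr
  have u2 : (1 / ε + 1) * (∑ l ∈ range rs.length, ∑ p ∈ range 6, nrm2 (d (6 * l + 3 + p))) ≤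
      (1 / ε + 1) * tot rs.length d := by (clear * - w2 hε; gcongr)
  linarith

/-! ### assembly -/

lemma numbers (M r J1 J2 S Q2a Q2c E Dl C B W Ep IO T : ℝ) (hM : 0 ≤ M) (hr : 1000 ≤ r)
    (hrM : M + 1 ≤ r) (hJ1 : J1 = r ^ 24) (hJ2 : J2 = r ^ 8) (hW : 0 ≤ W) (hE : 0 ≤ E)
    (hDl : 0 ≤ Dl) (hB : 0 ≤ B)
    (h1 : Dl ≤ 60 * S) (h2 : 1 / 2 * E ≤ Q2c)
    (h3 : Q2c - 8 * (1 / r ^ 12 * C + (1 / (1 / r ^ 12) + 1) * Dl) ≤ Q2a)
    (h4 : B ≤ 6 * ((M + 1) * M) * E) (h5 : Ep ≤ 2 * Dl + 2 * B)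
    (h6 : C ≤ 2 * (6 * (M + 1) * W) + 2 * B) (h7 : 49 / 75 * W - 98 * Ep ≤ IO)
    (h8 : T ≤ (1 + 1 / 100) * (6 * (M + 1) * W) + (1 + 1 / (1 / 100)) * Ep) (hEp : 0 ≤ Ep) :
    (2 / 3 - 1 / 24) / (6 * (M + 1)) * T ≤ J1 * S + J2 * Q2a + IO := by
  have r0 : 0 < r := by linarith only [hr]
  have r1 : 1 ≤ r := by linarith only [hr]
  have hM1 : 0 < M + 1 := by linarith only [hM]
  -- left side
  have L : (2 / 3 - 1 / 24) / (6 * (M + 1)) * T ≤ 101 / 160 * W + 11 * Ep := by
    have a1 : (2 / 3 - 1 / 24) / (6 * (M + 1)) * T ≤ (2 / 3 - 1 / 24) / (6 * (M + 1)) *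
        ((1 + 1 / 100) * (6 * (M + 1) * W) + (1 + 1 / (1 / 100)) * Ep) := by
      apply mul_le_mul_of_nonneg_left h8
      (clear * - hM; (clear * - hM; positivity))
    have a2 : (2 / 3 - 1 / 24) / (6 * (M + 1)) *
        ((1 + 1 / 100) * (6 * (M + 1) * W) + (1 + 1 / (1 / 100)) * Ep) =
        101 / 160 * W + (505 / 8) * (Ep / (6 * (M + 1))) := by
      field_simp
      ring
    have a3 : Ep / (6 * (M + 1)) ≤ Ep / 6 := by
      apply div_le_div_of_nonneg_left hEp (by norm_num)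
      linarith only [hM]
    linarith only [hEp, a1, a2, a3]
  -- right side
  have q0 : r ^ 8 * (1 / r ^ 12) = 1 / r ^ 4 := by
    field_simp
  have q1 : 1 / r ^ 4 ≤ 1 / 10 ^ 12 := by
    apply one_div_le_one_div_of_le (by (clear * -; norm_num))
    calc (10:ℝ) ^ 12 = 1000 ^ 4 := by norm_num
      _ ≤ r ^ 4 := by (clear * - hr; gcongr)
  have q2 : 1 / r ^ 4 * (M + 1) ≤ 1 / 10 ^ 9 := by
    calc 1 / r ^ 4 * (M + 1) ≤ 1 / r ^ 4 * r := by gcongr
      _ = 1 / r ^ 3 := by (clear * - hr; field_simp)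
      _ ≤ 1 / 10 ^ 9 := by
        apply one_div_le_one_div_of_le (by norm_num)
        calc (10:ℝ) ^ 9 = 1000 ^ 3 := by norm_num
          _ ≤ r ^ 3 := by (clear * - hr; gcongr)
  have R1 : r ^ 8 * (1 / r ^ 12 * C) ≤ 12 / 10 ^ 9 * W + 2 / 10 ^ 12 * B := by
    calc r ^ 8 * (1 / r ^ 12 * C) = 1 / r ^ 4 * C := by rw [← mul_assoc, q0]
      _ ≤ 1 / r ^ 4 * (2 * (6 * (M + 1) * W) + 2 * B) := by gcongr
      _ = 12 * (1 / r ^ 4 * (M + 1)) * W + 2 * (1 / r ^ 4) * B := by ring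
      _ ≤ 12 * (1 / 10 ^ 9) * W + 2 * (1 / 10 ^ 12) * B := by (clear * - q2 hW q1 hB; gcongr)
      _ = _ := by ring
  have R2 : r ^ 8 * ((1 / (1 / r ^ 12) + 1) * Dl) ≤ 2 * r ^ 20 * Dl := by
    have b1 : 1 / (1 / r ^ 12) = r ^ 12 := by rw [one_div_one_div]
    have b2 : (1:ℝ) ≤ r ^ 12 := one_le_pow₀ r1
    have b3 : r ^ 8 * ((r ^ 12 + 1) * Dl) ≤ r ^ 8 * ((r ^ 12 + r ^ 12) * Dl) := by (clear * - b2 hDl hr; gcongr)
    rw [b1]
    calc r ^ 8 * ((r ^ 12 + 1) * Dl) ≤ r ^ 8 * ((r ^ 12 + r ^ 12) * Dl) := b3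
      _ = 2 * r ^ 20 * Dl := by ring
  have R3 : r ^ 8 * Q2a ≥ r ^ 8 * (1 / 2 * E) - 8 * (r ^ 8 * (1 / r ^ 12 * C)) -
      8 * (r ^ 8 * ((1 / (1 / r ^ 12) + 1) * Dl)) := by
    have b0 : 1 / 2 * E - 8 * (1 / r ^ 12 * C + (1 / (1 / r ^ 12) + 1) * Dl) ≤ Q2a := by
      linarith only [h2, h3]
    have b1 : r ^ 8 * (1 / 2 * E - 8 * (1 / r ^ 12 * C + (1 / (1 / r ^ 12) + 1) * Dl)) ≤
        r ^ 8 * Q2a := by (clear * - b0 hr; gcongr)
    linarith only [b1]
  have R4 : B ≤ 6 * r ^ 2 * E := by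
    refine h4.trans ?_
    have : (M + 1) * M ≤ r ^ 2 := by
      rw [pow_two]
      exact mul_le_mul hrM (by linarith only [hrM]) hM r0.le
    have b1 : (M + 1) * M * E ≤ r ^ 2 * E := by (clear * - this hE; gcongr)
    linarith only [b1]
  have R5 : 10 ^ 6 * (r ^ 2 * E) ≤ r ^ 8 * E := by
    have b1 : (10:ℝ) ^ 6 ≤ r ^ 6 := by
      calc (10:ℝ) ^ 6 = 10 ^ 6 * 1 ^ 6 := by norm_num
        _ ≤ 1000 ^ 6 := by norm_num
        _ ≤ r ^ 6 := by gcongr
    have b2 : (10:ℝ) ^ 6 * (r ^ 2 * E) ≤ r ^ 6 * (r ^ 2 * E) := by (clear * - b1 hr hE; gcongr)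
    calc (10:ℝ) ^ 6 * (r ^ 2 * E) ≤ r ^ 6 * (r ^ 2 * E) := b2
      _ = r ^ 8 * E := by ring
  have R6 : 10 ^ 12 * (r ^ 20 * Dl) ≤ r ^ 24 * Dl := by
    have b1 : (10:ℝ) ^ 12 ≤ r ^ 4 := by
      calc (10:ℝ) ^ 12 = 1000 ^ 4 := by norm_num
        _ ≤ r ^ 4 := by (clear * - hr; gcongr)
    have b2 : (10:ℝ) ^ 12 * (r ^ 20 * Dl) ≤ r ^ 4 * (r ^ 20 * Dl) := by (clear * - b1 hr hDl; gcongr)
    calc (10:ℝ) ^ 12 * (r ^ 20 * Dl) ≤ r ^ 4 * (r ^ 20 * Dl) := b2
      _ = r ^ 24 * Dl := by ring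
  have R7 : Dl ≤ r ^ 20 * Dl := by
    have b1 : (1:ℝ) ≤ r ^ 20 := one_le_pow₀ r1
    have b2 : 1 * Dl ≤ r ^ 20 * Dl := by gcongr
    linarith only [b2]
  have R8 : r ^ 24 * Dl ≤ 60 * (r ^ 24 * S) := by
    have b1 : r ^ 24 * Dl ≤ r ^ 24 * (60 * S) := by (clear * - h1 hr; gcongr)
    linarith only [b1]
  have R9 : 0 ≤ r ^ 2 * E := by (clear * - hr hE; positivity)
  rw [hJ1, hJ2]
  linarith only [hW, hDl, hB, h5, h7, L, R1, R2, R3, R4, R5, R6, R7, R8]

end HL

theorem hist_lower (N m : ℕ) (hN : 1 ≤ N) (rs : List Rnd) (hok : ∀ r ∈ rs, r.Ok N)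
    (hacc : ∀ φ : RSt N, ValidIn m φ → 2 / 3 * nrm2 φ ≤ nrm2 (zer 0 (runR rs φ)))
    (a : ℕ → RSt N) :
    (2 / 3 - 1 / 24) / (6 * ((rs.length : ℝ) + 1)) * tot rs.length a ≤
      e1 ((rr N rs.length : ℝ) ^ 24) ((rr N rs.length : ℝ) ^ 8) 1000 m rs a := by
  have r1 : (1000:ℝ) ≤ (rr N rs.length : ℝ) := by
    have : 1000 ≤ rr N rs.length := by unfold rr; omega
    exact_mod_cast this
  have r2 : (rs.length : ℝ) + 1 ≤ (rr N rs.length : ℝ) := by
    have : rs.length + 1 ≤ rr N rs.length := by unfold rr; omega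
    exact_mod_cast this
  have tn : ∀ f : ℕ → RSt N, 0 ≤ tot rs.length f := fun f =>
    Finset.sum_nonneg fun _ _ => HL.nrm2_nonneg _
  have t2 : ∀ f g : ℕ → RSt N, tot rs.length (fun t => f t + g t) ≤
      2 * tot rs.length f + 2 * tot rs.length g := by
    intro f g
    unfold tot
    rw [Finset.mul_sum, Finset.mul_sum, ← Finset.sum_add_distrib]
    exact Finset.sum_le_sum fun _ _ => HL.nrm2_add_le2 _ _
  have hh : tot rs.length (HL.his rs (a 0)) = 6 * ((rs.length : ℝ) + 1) * nrm2 (a 0) := by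
    unfold tot
    rw [Finset.sum_congr rfl (fun t _ => HL.nrm2_his rs hok (a 0) t), Finset.sum_const,
      Finset.card_range, nsmul_eq_mul, tc]
    push_cast
    ring
  have h3 := HL.q2_total rs (HL.cs rs a) (fun t => a t - HL.cs rs a t)
    (ε := 1 / (rr N rs.length : ℝ) ^ 12) (by (clear * - r1; positivity))
  simp only [add_sub_cancel] at h3
  have h5 : tot rs.length (fun t => a t - HL.his rs (a 0) t) ≤
      2 * tot rs.length (fun t => a t - HL.cs rs a t) +
      2 * tot rs.length (fun t => HL.cs rs a t - HL.his rs (a 0) t) := by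
    have := t2 (fun t => a t - HL.cs rs a t) (fun t => HL.cs rs a t - HL.his rs (a 0) t)
    simpa only [sub_add_sub_cancel] using this
  have h6 : tot rs.length (HL.cs rs a) ≤ 2 * (6 * ((rs.length : ℝ) + 1) * nrm2 (a 0)) +
      2 * tot rs.length (fun t => HL.cs rs a t - HL.his rs (a 0) t) := by
    have := t2 (HL.his rs (a 0)) (fun t => HL.cs rs a t - HL.his rs (a 0) t)
    rw [hh] at this
    simpa only [add_sub_cancel] using this
  have h7 : 49 / 75 * nrm2 (a 0) - 98 * tot rs.length (fun t => a t - HL.his rs (a 0) t) ≤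
      1000 * (∑ i ∈ Ico m (N - 1), nrm2 (one i (a 0))) + nrm2 (zer 0 (a (tc rs.length))) := by
    have b1 := HL.io_bound m rs hok hacc (a 0)
      (a (tc rs.length) - HL.his rs (a 0) (tc rs.length))
    rw [← HL.his_last rs (a 0), add_sub_cancel] at b1
    have b2 : nrm2 (a (tc rs.length) - HL.his rs (a 0) (tc rs.length)) ≤
        tot rs.length (fun t => a t - HL.his rs (a 0) t) :=
      Finset.single_le_sum (f := fun t => nrm2 (a t - HL.his rs (a 0) t))
        (fun _ _ => HL.nrm2_nonneg _) (Finset.mem_range.2 (Nat.lt_succ_self _))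
    linarith only [b1, b2]
  have h8 : tot rs.length a ≤ (1 + 1 / 100) * (6 * ((rs.length : ℝ) + 1) * nrm2 (a 0)) +
      (1 + 1 / (1 / 100)) * tot rs.length (fun t => a t - HL.his rs (a 0) t) := by
    rw [← hh]
    unfold tot
    rw [Finset.mul_sum, Finset.mul_sum, ← Finset.sum_add_distrib]
    apply Finset.sum_le_sum
    intro t _
    have := HL.nrm2_add_le (HL.his rs (a 0) t) (a t - HL.his rs (a 0) t)
      (η := 1 / 100) (by (clear * -; norm_num))
    rwa [add_sub_cancel] at this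
  have key := HL.numbers (rs.length : ℝ) (rr N rs.length : ℝ) _ _ _ _ _
    (∑ l ∈ range rs.length, HL.dd rs a l ^ 2) _ _ _ (nrm2 (a 0)) _ _ _ (Nat.cast_nonneg _) r1 r2
    rfl rfl (HL.nrm2_nonneg _) (Finset.sum_nonneg fun _ _ => sq_nonneg _) (tn _) (tn _)
    (HL.level_one rs hok a) (HL.level_two rs a) h3 (HL.path rs hok a) h5 h6 h7 h8 (tn _)
  refine key.trans (le_of_eq ?_)
  unfold e1
  ring

end Vale.Agent.P370.H
end

section

/-!
The final comparison (H9).
-/

namespace Vale.Agent.P370.H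

open Finset

/-! ### auxiliary facts -/

theorem rnd_pau_smul {n : ℕ} (P i : ℕ) (c : ℝ) (v : RSt n) :
    pau P i (c • v) = c • pau P i v := by
  unfold pau
  split_ifs
  · rfl
  · funext x; simp
  · funext x; simp only [Pi.smul_apply, smul_eq_mul]; ring
  · rfl

theorem rnd_tform_smul {n : ℕ} (L : List (Tm ℝ)) (c : ℝ) (v : RSt n) :
    tform L (c • v) = c ^ 2 * tform L v := by
  unfold tform
  rw [← List.sum_map_mul_left]
  congr 1
  refine List.map_congr_left fun t _ => ?_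
  rw [rnd_pau_smul, rnd_pau_smul, clk_ip_smul_left, clk_ip_smul_right]
  ring

theorem rnd_tform_zero {n : ℕ} (L : List (Tm ℝ)) : tform L (0 : RSt n) = 0 := by
  have := rnd_tform_smul L 0 (0 : RSt n)
  simpa using this

/-- energy of the circuit Hamiltonian, no instances -/
theorem ham_no (N m : ℕ) (hN : 1 ≤ N) (rs : List Rnd) (hok : ∀ r ∈ rs, r.Ok N)
    (hacc : ∀ φ : RSt N, ValidIn m φ → 2 / 3 * nrm2 φ ≤ nrm2 (zer 0 (runR rs φ)))
    (v : RSt (N + tc rs.length)) :
    7 / (9 * ((rs.length : ℝ) + 1)) * nrm2 v ≤ tform (ham N m rs 1 trR) v := by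
  have hM : (0 : ℝ) < (rs.length : ℝ) + 1 := by (clear * -; positivity)
  have hM1 : (1 : ℝ) ≤ (rs.length : ℝ) + 1 := by
    have : (0 : ℝ) ≤ (rs.length : ℝ) := Nat.cast_nonneg _
    linarith only []
  have h := clock_lower N m hN rs hok ((2 / 3 - 1 / 24) / (6 * ((rs.length : ℝ) + 1)))
    (by (clear * -; positivity)) (by
      rw [div_le_one (by positivity)]
      linarith only []) (hist_lower N m hN rs hok hacc) v
  have he : 8 * ((2 / 3 - 1 / 24) / (6 * ((rs.length : ℝ) + 1))) -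
      1 / (18 * ((rs.length : ℝ) + 1)) = 7 / (9 * ((rs.length : ℝ) + 1)) := by
    field_simp
    norm_num
  rwa [he] at h

/-- energy of the circuit Hamiltonian, yes instances -/
theorem ham_yes (N m : ℕ) (hN : 1 ≤ N) (rs : List Rnd) (hok : ∀ r ∈ rs, r.Ok N)
    (hacc : ∃ φ : RSt N, nrm2 φ = 1 ∧ ValidIn m φ ∧ nrm2 (zer 0 (runR rs φ)) ≤ 1 / 3) :
    ∃ v : RSt (N + tc rs.length), nrm2 v = 1 ∧
      tform (ham N m rs 1 trR) v ≤ 4 / (9 * ((rs.length : ℝ) + 1)) := by
  obtain ⟨φ, hφ1, hφ2, hφ3⟩ := hacc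
  obtain ⟨a, ha1, ha2⟩ := hist_upper N m hN rs hok ((rr N rs.length : ℝ) ^ 24)
    ((rr N rs.length : ℝ) ^ 8) 1000 φ hφ2
  have hM : (0 : ℝ) < (rs.length : ℝ) + 1 := by (clear * -; positivity)
  have hR : (0 : ℝ) < 6 * ((rs.length : ℝ) + 1) := by (clear * -; positivity)
  have hc : (1 / √(6 * ((rs.length : ℝ) + 1))) ^ 2 = 1 / (6 * ((rs.length : ℝ) + 1)) := by
    rw [div_pow, one_pow, Real.sq_sqrt hR.le]
  refine ⟨(1 / √(6 * ((rs.length : ℝ) + 1))) • lift N (tc rs.length) a, ?_, ?_⟩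
  · rw [clk_nrm2_smul, hc, nrm2_lift, ha1, hφ1]
    (clear * -; field_simp)
  · rw [rnd_tform_smul, hc, tform_lift N m hN rs hok, ha2]
    have h1 : 1 / (6 * ((rs.length : ℝ) + 1)) * (8 * nrm2 (zer 0 (runR rs φ))) ≤
        1 / (6 * ((rs.length : ℝ) + 1)) * (8 * (1 / 3)) := by
      apply mul_le_mul_of_nonneg_left _ (by (clear * -; positivity))
      linarith only [hφ3]
    refine h1.trans (le_of_eq ?_)
    field_simp
    (clear * -; norm_num)

/-- symmetry of the couplings -/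
theorem rnd_jw_symm {B : Type} [Fintype B] [DecidableEq B] (s : ℝ)
    (t : B → B → Fin 3 → Fin 3 → ℝ) (d : B → Fin 3 → ℝ)
    (hts : ∀ b b' a a', t b b' a a' = t b' b a' a) (p q : B × Fin 4) :
    jw s t d p q = jw s t d q p := by
  unfold jw
  by_cases h : p.1 = q.1
  · rw [if_pos h, if_pos h.symm]
    rw [h]
    ring
  · have h' : ¬ q.1 = p.1 := fun e => h e.symm
    simp only [h, h', if_false]
    by_cases hp : p.2 = 0 <;> by_cases hq : q.2 = 0
    · simp [hp, hq]
    · simp [hp, hq]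
    · simp [hp, hq]
    · simp only [ne_eq, hp, not_false_eq_true, dif_pos, hq]
      rw [hts]

/-- the numerical part of the final estimate -/
theorem rnd_num {r n K M : ℝ} (hr : 1000 ≤ r) (hn0 : 0 ≤ n) (hn : n ≤ 7 * r) (hM0 : 0 < M + 1)
    (hM : M + 1 ≤ r) (hK : K = n * 4) :
    4 * (10 ^ 4 * n ^ 6 * (r ^ 100) ^ 2) + 9 * K ^ 2 / 2 + 2 ≤ r ^ 234 / (36 * (M + 1)) := by
  have hr0 : (0 : ℝ) < r := by linarith only [hr]
  have h1 : r ^ 233 / 36 ≤ r ^ 234 / (36 * (M + 1)) := by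
    rw [div_le_div_iff₀ (by norm_num) (by (clear * - hM0; positivity))]
    have : r ^ 233 * (M + 1) ≤ r ^ 233 * r := mul_le_mul_of_nonneg_left hM (by (clear * - hr; positivity))
    linarith only [this]
  have h6 : n ^ 6 ≤ (7 * r) ^ 6 := pow_le_pow_left₀ hn0 hn 6
  have h2 : n ^ 2 ≤ (7 * r) ^ 2 := pow_le_pow_left₀ hn0 hn 2
  have hA : 4 * (10 ^ 4 * n ^ 6 * (r ^ 100) ^ 2) ≤ 10 ^ 10 * r ^ 206 := by
    have : n ^ 6 * (r ^ 100) ^ 2 ≤ (7 * r) ^ 6 * (r ^ 100) ^ 2 :=
      mul_le_mul_of_nonneg_right h6 (by positivity)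
    have he : (7 * r) ^ 6 * (r ^ 100) ^ 2 = 117649 * r ^ 206 := by ring
    rw [he] at this
    have h0 : (0 : ℝ) ≤ r ^ 206 := by (clear * - hr; positivity)
    linarith only [this, h0]
  have hB : 9 * K ^ 2 / 2 + 2 ≤ 10 ^ 4 * r ^ 2 := by
    rw [hK]
    linarith only [mul_nonneg_of_nonpos_of_nonpos (Mathlib.Tactic.Linarith.sub_nonpos_of_le hr) (Mathlib.Tactic.Linarith.sub_nonpos_of_le hr), h2, hr]
  have hr1 : (1 : ℝ) ≤ r := by linarith only [hr]
  have hC : 10 ^ 4 * r ^ 2 ≤ 10 ^ 4 * r ^ 206 :=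
    mul_le_mul_of_nonneg_left (pow_le_pow_right₀ hr1 (by norm_num)) (by norm_num)
  have h27 : (36 * 10 ^ 11 : ℝ) ≤ r ^ 27 := by
    calc (36 * 10 ^ 11 : ℝ) ≤ 1000 ^ 27 := by norm_num
      _ ≤ r ^ 27 := pow_le_pow_left₀ (by norm_num) hr 27
  have hD : 10 ^ 11 * r ^ 206 ≤ r ^ 233 / 36 := by
    have h3 : (36 * 10 ^ 11) * r ^ 206 ≤ r ^ 27 * r ^ 206 :=
      mul_le_mul_of_nonneg_right h27 (by (clear * - hr; positivity))
    have h4 : r ^ 27 * r ^ 206 = r ^ 233 := by ring
    rw [h4] at h3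
    linarith only [h3]
  have h0 : (0 : ℝ) ≤ r ^ 206 := by (clear * - hr; positivity)
  linarith

theorem rnd_sizes (N : ℕ) (M : ℕ) :
    (1000 : ℝ) ≤ rr N M ∧ (((N + tc M : ℕ) : ℝ) ≤ 7 * rr N M) ∧ ((M : ℝ) + 1 ≤ rr N M) ∧
      2 ≤ Fintype.card (Fin (N + tc M)) ∧
      10 ^ 4 * (Fintype.card (Fin (N + tc M)) : ℝ) ^ 6 ≤ (rr N M : ℝ) ^ 100 := by
  have h1 : 1000 ≤ rr N M := by unfold rr; omega
  have h2 : N + tc M ≤ 7 * rr N M := by unfold rr tc; omega
  have h3 : M + 1 ≤ rr N M := by unfold rr; omega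
  have h1' : (1000 : ℝ) ≤ rr N M := by exact_mod_cast h1
  have h2' : ((N + tc M : ℕ) : ℝ) ≤ 7 * rr N M := by exact_mod_cast h2
  refine ⟨h1', h2', by exact_mod_cast h3, ?_, ?_⟩
  · rw [Fintype.card_fin]
    unfold tc
    omega
  · rw [Fintype.card_fin]
    set r : ℝ := (rr N M : ℝ) with hr
    have h6 : ((N + tc M : ℕ) : ℝ) ^ 6 ≤ (7 * r) ^ 6 :=
      pow_le_pow_left₀ (Nat.cast_nonneg _) h2' 6
    have h94 : (10 ^ 4 * 117649 : ℝ) ≤ r ^ 94 := by
      calc (10 ^ 4 * 117649 : ℝ) ≤ 1000 ^ 94 := by norm_num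
        _ ≤ r ^ 94 := pow_le_pow_left₀ (by norm_num) h1' 94
    have hr0 : 0 ≤ r ^ 6 := by (clear * - h1; positivity)
    calc 10 ^ 4 * ((N + tc M : ℕ) : ℝ) ^ 6 ≤ 10 ^ 4 * (7 * r) ^ 6 :=
          mul_le_mul_of_nonneg_left h6 (by norm_num)
      _ = (10 ^ 4 * 117649) * r ^ 6 := by ring
      _ ≤ r ^ 94 * r ^ 6 := mul_le_mul_of_nonneg_right h94 hr0
      _ = r ^ 100 := by ring

/-- the effective energy, in terms of `midA` -/
theorem rnd_teff (N m : ℕ) (hN : 1 ≤ N) (rs : List Rnd) (hok : ∀ r ∈ rs, r.Ok N)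
    (u : (Fin (N + tc rs.length) → Bool) → ℂ) :
    4 * teff ((rr N rs.length : ℝ) ^ 100)
        (tR ((rr N rs.length : ℝ) ^ 66) (ham N m rs (1 : ℝ) trR))
        (dR ((rr N rs.length : ℝ) ^ 66) ((rr N rs.length : ℝ) ^ 100) (ham N m rs (1 : ℝ) trR)) u =
      -midA N m rs * (∑ x, ‖u x‖ ^ 2) + (rr N rs.length : ℝ) ^ 234 / 6 *
        (tform (ham N m rs 1 trR) (fun x => (u x).re) +
          tform (ham N m rs 1 trR) (fun x => (u x).im) -
          11 / (18 * ((rs.length : ℝ) + 1)) * ∑ x, ‖u x‖ ^ 2) := by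
  obtain ⟨hr, -, -, -, -⟩ := rnd_sizes N rs.length
  have hM0 : (0 : ℝ) < (rs.length : ℝ) + 1 := by (clear * -; positivity)
  rw [teff_eq _ (ham_ok N m hN rs hok) _ _ (by (clear * - hr; positivity))]
  unfold midA
  set r : ℝ := (rr N rs.length : ℝ) with hrd
  have hr0 : r ≠ 0 := by
    have : (0 : ℝ) < r := by linarith only [hr]
    exact this.ne'
  have h3 : (r ^ 100) ^ 3 / (24 * r ^ 66) = r ^ 234 / 24 := by
    rw [div_eq_div_iff (by (clear * - hr; positivity)) (by norm_num)]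
    ring
  rw [h3]
  ring

theorem final_no (N m : ℕ) (hN : 1 ≤ N) (rs : List Rnd) (hok : ∀ r ∈ rs, r.Ok N)
    (hacc : ∀ φ : RSt N, ValidIn m φ → 2 / 3 * nrm2 φ ≤ nrm2 (zer 0 (runR rs φ)))
    (K : ℕ) (hK : K = (N + tc rs.length) * 4) (mm : ℕ → ℕ → ℕ) (hmm : CloseW N m rs mm) (A : ℕ)
    (hA : |(A : ℝ) - midA N m rs| ≤ 1) (φ : (Fin K → Fin 2) → ℂ) (hφ : ∑ s, ‖φ s‖ ^ 2 = 1) :
    -(A : ℝ) + 1 ≤ heisenbergForm mm φ := by
  obtain ⟨hr, hn, hM, hB, hsB⟩ := rnd_sizes N rs.length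
  have hM0 : (0 : ℝ) < (rs.length : ℝ) + 1 := by (clear * -; positivity)
  have hLok := ham_ok N m hN rs hok
  have hC : (0 : ℝ) < (rr N rs.length : ℝ) ^ 66 := by (clear * - hr; positivity)
  have hL := ham_abs N m rs
  have hts := fun b b' a a' => tR_symm (n := N + tc rs.length) (ham N m rs (1 : ℝ) trR) hLok
    ((rr N rs.length : ℝ) ^ 66) b b' a a'
  obtain ⟨e, he⟩ := heis_close (N + tc rs.length) K hK mm
    (jw ((rr N rs.length : ℝ) ^ 100) (tR ((rr N rs.length : ℝ) ^ 66) (ham N m rs (1 : ℝ) trR))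
      (dR ((rr N rs.length : ℝ) ^ 66) ((rr N rs.length : ℝ) ^ 100) (ham N m rs (1 : ℝ) trR)))
    (rnd_jw_symm _ _ _ hts) hmm
  obtain ⟨he1, he2⟩ := he (e.symm φ)
  rw [Equiv.apply_symm_apply] at he1 he2
  rw [hφ] at he1
  rw [← he1, mul_one] at he2
  have hl := r2_lower ((rr N rs.length : ℝ) ^ 100)
    (tR ((rr N rs.length : ℝ) ^ 66) (ham N m rs (1 : ℝ) trR))
    (dR ((rr N rs.length : ℝ) ^ 66) ((rr N rs.length : ℝ) ^ 100) (ham N m rs (1 : ℝ) trR))
    hB hsB (fun b b' a a' => tR_nonneg _ hLok _ hC hL b b' a a')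
    (fun b b' a a' => tR_le_one _ hLok _ hC hL b b' a a') hts
    (fun b a => abs_dR_le _ hLok _ _ hC (by (clear * - hr; positivity)) hL b a)
    ((-midA N m rs + (rr N rs.length : ℝ) ^ 234 / (36 * ((rs.length : ℝ) + 1))) / 4) (by
      intro u
      have h1 := rnd_teff N m hN rs hok u
      have h2 := ham_no N m hN rs hok hacc (fun x => (u x).re)
      have h3 := ham_no N m hN rs hok hacc (fun x => (u x).im)
      have h4 : nrm2 (fun x => (u x).re) + nrm2 (fun x => (u x).im) = ∑ x, ‖u x‖ ^ 2 := by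
        unfold nrm2 ip
        rw [← Finset.sum_add_distrib]
        refine Finset.sum_congr rfl fun x _ => ?_
        rw [← Complex.normSq_eq_norm_sq, Complex.normSq_apply]
      have h5 : 7 / (9 * ((rs.length : ℝ) + 1)) * (∑ x, ‖u x‖ ^ 2) ≤
          tform (ham N m rs 1 trR) (fun x => (u x).re) +
            tform (ham N m rs 1 trR) (fun x => (u x).im) := by
        rw [← h4, mul_add]
        exact add_le_add h2 h3
      have h6 : (rr N rs.length : ℝ) ^ 234 / 6 *
          (7 / (9 * ((rs.length : ℝ) + 1)) * (∑ x, ‖u x‖ ^ 2)) ≤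
          (rr N rs.length : ℝ) ^ 234 / 6 * (tform (ham N m rs 1 trR) (fun x => (u x).re) +
            tform (ham N m rs 1 trR) (fun x => (u x).im)) :=
        mul_le_mul_of_nonneg_left h5 (by (clear * - hr; positivity))
      have h7 : (rr N rs.length : ℝ) ^ 234 / 6 *
          (7 / (9 * ((rs.length : ℝ) + 1)) * (∑ x, ‖u x‖ ^ 2)) -
          (rr N rs.length : ℝ) ^ 234 / 6 * (11 / (18 * ((rs.length : ℝ) + 1)) *
            ∑ x, ‖u x‖ ^ 2) =
          (rr N rs.length : ℝ) ^ 234 / (36 * ((rs.length : ℝ) + 1)) * ∑ x, ‖u x‖ ^ 2 := by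
        field_simp
        ring
      linarith only [h1, h6, h7]) (e.symm φ)
  rw [← he1, mul_one] at hl
  have hnum := rnd_num hr (Nat.cast_nonneg (N + tc rs.length)) hn hM0 hM
    (K := (K : ℝ)) (by rw [hK]; push_cast; ring)
  rw [Fintype.card_fin] at hl
  have hA1 := (abs_le.1 hA).1
  have he3 := (abs_le.1 he2).1
  linarith only [hl, hnum, hA1, he3]

theorem final_yes (N m : ℕ) (hN : 1 ≤ N) (rs : List Rnd) (hok : ∀ r ∈ rs, r.Ok N)
    (hacc : ∃ φ : RSt N, nrm2 φ = 1 ∧ ValidIn m φ ∧ nrm2 (zer 0 (runR rs φ)) ≤ 1 / 3)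
    (K : ℕ) (hK : K = (N + tc rs.length) * 4) (mm : ℕ → ℕ → ℕ) (hmm : CloseW N m rs mm) (A : ℕ)
    (hA : |(A : ℝ) - midA N m rs| ≤ 1) :
    ∃ φ : (Fin K → Fin 2) → ℂ, ∑ s, ‖φ s‖ ^ 2 = 1 ∧ heisenbergForm mm φ ≤ -(A : ℝ) := by
  obtain ⟨hr, hn, hM, hB, hsB⟩ := rnd_sizes N rs.length
  have hM0 : (0 : ℝ) < (rs.length : ℝ) + 1 := by (clear * -; positivity)
  have hLok := ham_ok N m hN rs hok
  have hC : (0 : ℝ) < (rr N rs.length : ℝ) ^ 66 := by (clear * - hr; positivity)
  have hL := ham_abs N m rs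
  have hts := fun b b' a a' => tR_symm (n := N + tc rs.length) (ham N m rs (1 : ℝ) trR) hLok
    ((rr N rs.length : ℝ) ^ 66) b b' a a'
  obtain ⟨v, hv1, hv2⟩ := ham_yes N m hN rs hok hacc
  obtain ⟨e, he⟩ := heis_close (N + tc rs.length) K hK mm
    (jw ((rr N rs.length : ℝ) ^ 100) (tR ((rr N rs.length : ℝ) ^ 66) (ham N m rs (1 : ℝ) trR))
      (dR ((rr N rs.length : ℝ) ^ 66) ((rr N rs.length : ℝ) ^ 100) (ham N m rs (1 : ℝ) trR)))
    (rnd_jw_symm _ _ _ hts) hmm
  obtain ⟨Φ, hΦ1, hΦ2⟩ := r2_upper ((rr N rs.length : ℝ) ^ 100)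
    (tR ((rr N rs.length : ℝ) ^ 66) (ham N m rs (1 : ℝ) trR))
    (dR ((rr N rs.length : ℝ) ^ 66) ((rr N rs.length : ℝ) ^ 100) (ham N m rs (1 : ℝ) trR))
    hB hsB (fun b b' a a' => tR_nonneg _ hLok _ hC hL b b' a a')
    (fun b b' a a' => tR_le_one _ hLok _ hC hL b b' a a') hts
    (fun b a => abs_dR_le _ hLok _ _ hC (by (clear * - hr; positivity)) hL b a) (fun x => (v x : ℂ))
  have hu : (∑ x, ‖((v x : ℝ) : ℂ)‖ ^ 2) = 1 := by
    rw [← hv1]
    unfold nrm2 ip
    refine Finset.sum_congr rfl fun x _ => ?_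
    rw [Complex.norm_real, Real.norm_eq_abs, sq_abs, sq]
  have ht := rnd_teff N m hN rs hok (fun x => (v x : ℂ))
  rw [hu] at hΦ1 hΦ2 ht
  have hre : (fun x => ((fun x => (v x : ℂ)) x).re) = v := by
    funext x
    exact Complex.ofReal_re _
  have him : (fun x => ((fun x => (v x : ℂ)) x).im) = (0 : RSt (N + tc rs.length)) := by
    funext x
    exact Complex.ofReal_im _
  rw [hre, him, rnd_tform_zero] at ht
  obtain ⟨he1, he2⟩ := he Φ
  refine ⟨e Φ, by rw [he1, hΦ1], ?_⟩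
  rw [hΦ1] at he2
  have h6 : (rr N rs.length : ℝ) ^ 234 / 6 * tform (ham N m rs 1 trR) v ≤
      (rr N rs.length : ℝ) ^ 234 / 6 * (4 / (9 * ((rs.length : ℝ) + 1))) :=
    mul_le_mul_of_nonneg_left hv2 (by (clear * - hr; positivity))
  have h7 : (rr N rs.length : ℝ) ^ 234 / 6 * (4 / (9 * ((rs.length : ℝ) + 1))) -
      (rr N rs.length : ℝ) ^ 234 / 6 * (11 / (18 * ((rs.length : ℝ) + 1))) =
      -((rr N rs.length : ℝ) ^ 234 / (36 * ((rs.length : ℝ) + 1))) := by
    field_simp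
    ring
  have hnum := rnd_num hr (Nat.cast_nonneg (N + tc rs.length)) hn hM0 hM
    (K := (K : ℝ)) (by rw [hK]; push_cast; ring)
  rw [Fintype.card_fin] at hΦ2
  have hA1 := (abs_le.1 hA).2
  have he3 := (abs_le.1 he2).2
  linarith only [hΦ2, ht, h6, h7, hnum, hA1, he3]

end Vale.Agent.P370.H
end

section

/-!
The one-body inequality for hydrogen.
-/

namespace Vale.Agent.P370.Q

open MeasureTheory Finset ComplexConjugate Hyd

theorem ShellBasis.card_ge {n : ℕ} {A : Type} [Fintype A] [DecidableEq A] (B : ShellBasis n A) :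
    Module.finrank ℝ (E n) ≤ Fintype.card A := by
  rw [finrank_E]
  have h1 : (univ : Finset A).card = ∑ k ∈ range n, (univ.filter (fun a => B.lev a = k + 1)).card
      := by
    rw [Finset.card_eq_sum_card_fiberwise (f := fun a => B.lev a - 1) (t := range n)]
    · refine Finset.sum_congr rfl fun k _ => ?_
      congr 1
      ext a
      have := B.lev_pos a
      simp only [Finset.mem_filter, Finset.mem_univ, true_and]
      omega
    · intro a _
      have h1 := B.lev_pos a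
      have h2 := B.lev_le a
      simp only [Finset.coe_range, Set.mem_Iio]
      omega
  rw [← Finset.card_univ, h1]
  refine Finset.sum_le_sum fun k hk => ?_
  rw [B.card (k + 1) (by omega) (by have := Finset.mem_range.1 hk; omega)]

theorem lev_lt {n k : ℕ} (hk : 1 ≤ k) (hkn : k ≤ n) :
    -((1 / (k : ℝ)) ^ 2 / 2) < -(1 / (2 * ((n : ℝ) + 1) ^ 2)) := by
  have h1 : (0 : ℝ) < k := by exact_mod_cast hk
  have h2 : (k : ℝ) ≤ n := by exact_mod_cast hkn
  have h3 : -((1 / (k : ℝ)) ^ 2 / 2) = -(1 / (2 * (k : ℝ) ^ 2)) := by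
    field_simp
  rw [h3]
  refine neg_lt_neg (one_div_lt_one_div_of_lt (by (clear * - hk; positivity)) ?_)
  nlinarith only [h2]

theorem coef_eq {n k : ℕ} (hk : 1 ≤ k) :
    (1 / (2 * ((n : ℝ) + 1) ^ 2) - 1 / (2 * (k : ℝ) ^ 2))
      = (-((1 / (k : ℝ)) ^ 2 / 2) - -(1 / (2 * ((n : ℝ) + 1) ^ 2))) := by
  have h1 : (0 : ℝ) < k := by exact_mod_cast hk
  field_simp
  ring

/-- The one-body inequality for hydrogen (real version). -/
theorem hydrogen_ineq_real {n : ℕ} (_hn : 1 ≤ n) {A : Type} [Fintype A] [DecidableEq A]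
    (B : ShellBasis n A) {u : R3 → ℝ} (hu : Nice u) :
    -(1 / (2 * ((n : ℝ) + 1) ^ 2)) * ov u u +
        ∑ a, (1 / (2 * ((n : ℝ) + 1) ^ 2) - 1 / (2 * (B.lev a : ℝ) ^ 2)) * ov (B.χ a) u ^ 2
      ≤ (1 / 2) * dir u u - rinv u u := by
  have hz : ∀ a, ∃ z ∈ Eig (B.lev a), B.χ a = xp (1 / (B.lev a : ℝ)) z.1 z.2 := fun a =>
    (isShell_iff (B.lev_pos a)).1 (B.mem a)
  choose z hz1 hz2 using hz
  have h := hyd_lower n (ι := A) (fun a => toAdm (inv_pos' (B.lev_pos a)) (z a))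
    (fun a => -((1 / (B.lev a : ℝ)) ^ 2 / 2))
    (fun a w => toAdm_eigen _ (mem_Eig.1 (hz1 a)).2 w)
    (fun a b => by
      rw [← B.ortho a b]
      show ip _ _ = ov _ _
      rw [hz2 a, hz2 b]
      rfl)
    (fun a => lev_lt (B.lev_pos a) (B.lev_le a)) B.card_ge hu.toS
  rw [kinB_toS hu hu, ipB_toS, iprB_toS] at h
  refine le_trans (le_of_eq ?_) h
  rw [add_comm]
  congr 1
  refine Finset.sum_congr rfl fun a _ => ?_
  rw [coef_eq (B.lev_pos a), hz2 a]
  rfl

/-- The one-body inequality for hydrogen. -/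
theorem hydrogen_ineq {n : ℕ} (hn : 1 ≤ n) {A : Type} [Fintype A] [DecidableEq A]
    (B : ShellBasis n A)
    (u : R3 → ℂ) (hu : ContDiff ℝ (⊤ : ℕ∞) u) (hc : HasCompactSupport u) :
    -(1 / (2 * ((n : ℝ) + 1) ^ 2)) * (∫ x, ‖u x‖ ^ 2) +
        ∑ a, (1 / (2 * ((n : ℝ) + 1) ^ 2) - 1 / (2 * (B.lev a : ℝ) ^ 2)) *
          ‖∫ x, (B.χ a x : ℂ) * u x‖ ^ 2
      ≤ (1 / 2) * (∫ x, ∑ k, ‖fderiv ℝ u x (EuclideanSpace.single k 1)‖ ^ 2) -
        ∫ x, ‖u x‖ ^ 2 / ‖x‖ := by
  have hz : ∀ a, ∃ z ∈ Eig (B.lev a), B.χ a = xp (1 / (B.lev a : ℝ)) z.1 z.2 := fun a =>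
    (isShell_iff (B.lev_pos a)).1 (B.mem a)
  choose z hz1 hz2 using hz
  have hu1 : ContDiff ℝ 1 u := hu.of_le (by exact_mod_cast le_top)
  have h := hyd_lower_complex n (ι := A) (fun a => toAdm (inv_pos' (B.lev_pos a)) (z a))
    (fun a => -((1 / (B.lev a : ℝ)) ^ 2 / 2))
    (fun a w => toAdm_eigen _ (mem_Eig.1 (hz1 a)).2 w)
    (fun a b => by
      rw [← B.ortho a b]
      show ip _ _ = ov _ _
      rw [hz2 a, hz2 b]
      rfl)
    (fun a => lev_lt (B.lev_pos a) (B.lev_le a)) B.card_ge hu1 hc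
  have e1 : (∫ x, ∑ k, ‖fderiv ℝ u x (EuclideanSpace.single k 1)‖ ^ 2)
      = ∑ i, ∫ x, ‖fderiv ℝ u x (ei i)‖ ^ 2 := by
    rw [integral_finsetSum]
    · rfl
    · intro i _
      have hd : Continuous fun x => fderiv ℝ u x (EuclideanSpace.single i 1) :=
        (hu1.continuous_fderiv one_ne_zero).clm_apply continuous_const
      refine Continuous.integrable_of_hasCompactSupport (hd.norm.pow 2) ?_
      refine (hc.fderiv (𝕜 := ℝ)).mono fun x hx => ?_
      rw [Function.mem_support] at hx ⊢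
      intro h0
      exact hx (by rw [h0]; simp)
  rw [e1]
  refine le_trans (le_of_eq ?_) h
  unfold eng
  rw [add_comm]
  congr 1
  refine Finset.sum_congr rfl fun a _ => ?_
  rw [coef_eq (B.lev_pos a), hz2 a]
  rfl

end Vale.Agent.P370.Q
end

section

/-!
Slices of test states and the one-body inequality in each slot.
-/

namespace Vale.Agent.P370.NB

open MeasureTheory Function ComplexConjugate Finset Vale.Agent.P370.Q

variable {N : ℕ}

theorem fst_update (w : Fin N → YS) (i : Fin N) (y : YS) :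
    (fun l => (update w i y l).1) = update (fun l => (w l).1) i y.1 := by
  funext l
  by_cases h : l = i
  · subst h
    simp
  · simp only [update_of_ne h]

theorem snd_update (w : Fin N → YS) (i : Fin N) (y : YS) :
    (fun l => (update w i y l).2) = update (fun l => (w l).2) i y.2 := by
  funext l
  by_cases h : l = i
  · subst h
    simp only [update_self]
  · simp only [update_of_ne h]

theorem ofS_update {E : Type*} (F : (Fin N → R3) → (Fin N → Fin 2) → E) (w : Fin N → YS)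
    (i : Fin N) (y : YS) : ofS F (update w i y) =
      F (update (fun l => (w l).1) i y.1) (update (fun l => (w l).2) i y.2) := by
  unfold ofS
  rw [fst_update, snd_update]

/-- slice of a wave function -/
def sl (ψ : Wave N) (x : Fin N → R3) (s : Fin N → Fin 2) (i : Fin N) (z : R3) : ℂ :=
  ψ (update x i z) s

theorem contDiff_update' (x : Fin N → R3) (i : Fin N) :
    ContDiff ℝ (⊤ : ℕ∞) (fun z : R3 => update x i z) := by
  rw [contDiff_pi]
  intro j
  by_cases h : j = i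
  · subst h
    simp only [update_self]
    exact contDiff_id
  · simp only [update_of_ne h]
    exact contDiff_const

theorem sl_smooth {ψ : Wave N} (hψ : IsTestState ψ) (x : Fin N → R3) (s : Fin N → Fin 2)
    (i : Fin N) : ContDiff ℝ (⊤ : ℕ∞) (sl ψ x s i) :=
  (hψ.smooth s).comp (contDiff_update' x i)

theorem sl_compact {ψ : Wave N} (hψ : IsTestState ψ) (x : Fin N → R3) (s : Fin N → Fin 2)
    (i : Fin N) : HasCompactSupport (sl ψ x s i) := by
  have hK := hψ.compactSupport s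
  have hK' : IsCompact ((fun y : Fin N → R3 => y i) '' tsupport (fun y => ψ y s)) :=
    hK.isCompact.image (continuous_apply i)
  refine HasCompactSupport.intro hK' fun z hz => ?_
  by_contra h
  apply hz
  refine ⟨update x i z, ?_, by simp⟩
  apply subset_tsupport
  exact h

theorem sl_fderiv {ψ : Wave N} (hψ : IsTestState ψ) (x : Fin N → R3) (s : Fin N → Fin 2)
    (i : Fin N) (z v : R3) :
    fderiv ℝ (sl ψ x s i) z v = fderiv ℝ (fun y => ψ y s) (update x i z) (Pi.single i v) := by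
  have h1 : HasFDerivAt (fun y => ψ y s) (fderiv ℝ (fun y => ψ y s) (update x i z))
      (update x i z) := ((hψ.smooth s).differentiable (by simp) _).hasFDerivAt
  have h2 : HasFDerivAt (update x i) (ContinuousLinearMap.pi
      (Pi.single i (ContinuousLinearMap.id ℝ R3))) z := hasFDerivAt_update x z
  have h3 := h1.comp z h2
  have h4 : fderiv ℝ (sl ψ x s i) z = _ := h3.fderiv
  rw [h4, ContinuousLinearMap.comp_apply]
  congr 1
  funext j
  rw [ContinuousLinearMap.coe_pi']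
  by_cases h : j = i
  · subst h
    simp only [Pi.single_eq_same, ContinuousLinearMap.id_apply]
  · simp [Pi.single_eq_of_ne h]

/-- kinetic density of electron `i` -/
noncomputable def kd (ψ : Wave N) (i : Fin N) (x : Fin N → R3) (s : Fin N → Fin 2) : ℝ :=
  ∑ k : Fin 3, ‖fderiv ℝ (fun y => ψ y s) x (Pi.single i (EuclideanSpace.single k 1))‖ ^ 2

/-- one-electron energy density -/
noncomputable def hd (ψ : Wave N) (i : Fin N) (x : Fin N → R3) (s : Fin N → Fin 2) : ℝ :=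
  (1 / 2) * kd ψ i x s - ‖ψ x s‖ ^ 2 / ‖x i‖

theorem kd_continuous {ψ : Wave N} (hψ : IsTestState ψ) (i : Fin N) (s : Fin N → Fin 2) :
    Continuous (fun x => kd ψ i x s) := by
  unfold kd
  refine continuous_finsetSum _ fun k _ => ?_
  have h : Continuous (fderiv ℝ (fun y => ψ y s)) := (hψ.smooth s).continuous_fderiv (by simp)
  exact ((h.clm_apply continuous_const).norm).pow 2

theorem kd_integrable {ψ : Wave N} (hψ : IsTestState ψ) (i : Fin N) (s : Fin N → Fin 2) :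
    Integrable (fun x => kd ψ i x s) := by
  refine (kd_continuous hψ i s).integrable_of_hasCompactSupport ?_
  have h := (hψ.compactSupport s).fderiv (𝕜 := ℝ)
  refine h.mono fun x hx => ?_
  rw [Function.mem_support] at hx ⊢
  intro h0
  apply hx
  unfold kd
  rw [h0]
  simp

theorem hd_integrable {ψ : Wave N} (hψ : IsTestState ψ) (i : Fin N) (s : Fin N → Fin 2) :
    Integrable (fun x => hd ψ i x s) := by
  refine ((kd_integrable hψ i s).const_mul _).sub ?_
  have h := integrable_nuc (fun x => ψ x s) ((hψ.smooth s).of_le (by exact_mod_cast le_top))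
    (hψ.compactSupport s) i 0
  simpa only [dist_zero_right] using h

theorem hd_measurable {ψ : Wave N} (hψ : IsTestState ψ) (i : Fin N) (s : Fin N → Fin 2) :
    Measurable (fun x => hd ψ i x s) := by
  have h1 := (kd_continuous hψ i s).measurable
  have h2 := (hψ.smooth s).continuous.measurable
  have h3 : Measurable (fun x : Fin N → R3 => ‖x i‖) := (measurable_pi_apply i).norm
  exact (h1.const_mul _).sub ((h2.norm.pow_const 2).div h3)

theorem ofS_hd_integrable {ψ : Wave N} (hψ : IsTestState ψ) (i : Fin N) :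
    Integrable (ofS (hd ψ i)) (pm (Fin N) μY) :=
  integrable_pow (F := ofS (hd ψ i)) (fun s => hd_measurable hψ i s) fun s => hd_integrable hψ i s

theorem integral_ofS {F : (Fin N → R3) → (Fin N → Fin 2) → ℝ}
    (h : Integrable (ofS F) (pm (Fin N) μY)) :
    ∫ w, ofS F w ∂(pm (Fin N) μY) = ∑ s, ∫ x, F x s := integral_pow h

/-- slices of the energy density are integrable -/
theorem hd_slice_integrable {ψ : Wave N} (hψ : IsTestState ψ) (i : Fin N) (x : Fin N → R3)
    (s : Fin N → Fin 2) :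
    Integrable (fun z => ∑ k : Fin 3, ‖fderiv ℝ (sl ψ x s i) z (EuclideanSpace.single k 1)‖ ^ 2) ∧
    Integrable (fun z => ‖sl ψ x s i z‖ ^ 2 / ‖z‖) ∧
    Integrable (fun z => ‖sl ψ x s i z‖ ^ 2) := by
  have hs := sl_smooth hψ x s i
  have hc := sl_compact hψ x s i
  refine ⟨?_, ?_, ?_⟩
  · refine Continuous.integrable_of_hasCompactSupport ?_ ?_
    · refine continuous_finsetSum _ fun k _ => ?_
      have h : Continuous (fderiv ℝ (sl ψ x s i)) := hs.continuous_fderiv (by simp)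
      exact ((h.clm_apply continuous_const).norm).pow 2
    · refine (hc.fderiv (𝕜 := ℝ)).mono fun z hz => ?_
      rw [Function.mem_support] at hz ⊢
      intro h0
      apply hz
      rw [h0]
      simp only [zero_apply, norm_zero, ne_eq, OfNat.ofNat_ne_zero, not_false_eq_true, zero_pow, sum_const_zero]
  · have h := coulomb_integrable (volume : Measure R3) (sl ψ x s i)
      (hs.of_le (by exact_mod_cast le_top)) hc (ContinuousLinearMap.id ℝ R3)
      (fun k => EuclideanSpace.single k 1) (fun k => rfl) 0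
    simpa only [ContinuousLinearMap.id_apply, sub_zero] using h
  · refine Continuous.integrable_of_hasCompactSupport (hs.continuous.norm.pow 2) ?_
    refine hc.mono fun z hz => ?_
    rw [Function.mem_support] at hz ⊢
    intro h0
    apply hz
    rw [h0]
    simp

theorem ofS_hd_update {ψ : Wave N} (hψ : IsTestState ψ) (i : Fin N) (w : Fin N → YS) (y : YS) :
    ofS (hd ψ i) (update w i y) =
      (1 / 2) * (∑ k : Fin 3, ‖fderiv ℝ (sl ψ (fun l => (w l).1) (update (fun l => (w l).2) i y.2) i)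
        y.1 (EuclideanSpace.single k 1)‖ ^ 2) -
      ‖sl ψ (fun l => (w l).1) (update (fun l => (w l).2) i y.2) i y.1‖ ^ 2 / ‖y.1‖ := by
  rw [ofS_update]
  unfold hd kd
  simp only [sl_fderiv hψ, update_self]
  rfl

theorem toY_update (ψ : Wave N) (i : Fin N) (w : Fin N → YS) (y : YS) :
    toY ψ (update w i y) = sl ψ (fun l => (w l).1) (update (fun l => (w l).2) i y.2) i y.1 := by
  have := ofS_update ψ w i y
  exact this

/-- integral of a slice of the energy density -/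
theorem integral_hd_slice {ψ : Wave N} (hψ : IsTestState ψ) (i : Fin N) (w : Fin N → YS) :
    ∫ y, ofS (hd ψ i) (update w i y) ∂μY =
      ∑ τ, ((1 / 2) * (∫ z, ∑ k : Fin 3,
        ‖fderiv ℝ (sl ψ (fun l => (w l).1) (update (fun l => (w l).2) i τ) i) z
          (EuclideanSpace.single k 1)‖ ^ 2) -
        ∫ z, ‖sl ψ (fun l => (w l).1) (update (fun l => (w l).2) i τ) i z‖ ^ 2 / ‖z‖) := by
  have h1 : ∀ τ : Fin 2, Integrable (fun z => ofS (hd ψ i) (update w i (z, τ))) := by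
    intro τ
    simp only [ofS_hd_update hψ]
    obtain ⟨h1, h2, -⟩ := hd_slice_integrable hψ i (fun l => (w l).1)
      (update (fun l => (w l).2) i τ)
    exact (h1.const_mul _).sub h2
  have hm : Measurable (ofS (hd ψ i)) := measurable_ofS fun s => hd_measurable hψ i s
  have h2 : Integrable (fun y => ofS (hd ψ i) (update w i y)) μY := by
    refine integrable_Y (fun τ => ?_) h1
    exact (hm.comp (measurable_update w)).comp measurable_prodMk_right
  rw [integral_Y h2]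
  refine Finset.sum_congr rfl fun τ _ => ?_
  simp only [ofS_hd_update hψ]
  obtain ⟨h1, h2, -⟩ := hd_slice_integrable hψ i (fun l => (w l).1)
    (update (fun l => (w l).2) i τ)
  rw [integral_sub (h1.const_mul _) h2, integral_const_mul]

/-- integral of a slice of the density -/
theorem integral_sq_slice {ψ : Wave N} (hψ : IsTestState ψ) (i : Fin N) (w : Fin N → YS) :
    Integrable (fun y => ‖toY ψ (update w i y)‖ ^ 2) μY ∧
    ∫ y, ‖toY ψ (update w i y)‖ ^ 2 ∂μY =
      ∑ τ, ∫ z, ‖sl ψ (fun l => (w l).1) (update (fun l => (w l).2) i τ) i z‖ ^ 2 := by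
  have h2 : Integrable (fun y => ‖toY ψ (update w i y)‖ ^ 2) μY := by
    refine integrable_Y (fun τ => ?_) fun τ => ?_
    · exact ((((toY_dm hψ one_pos).1.comp (measurable_update w)).comp
        measurable_prodMk_right).norm).pow_const 2
    · simp only [toY_update]
      exact (hd_slice_integrable hψ i (fun l => (w l).1) (update (fun l => (w l).2) i τ)).2.2
  refine ⟨h2, ?_⟩
  rw [integral_Y h2]
  refine Finset.sum_congr rfl fun τ _ => ?_
  simp only [toY_update]

end Vale.Agent.P370.NB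
end

section

/-!
The occupation number inequality for test states.
-/

namespace Vale.Agent.P370.NB

open MeasureTheory Function ComplexConjugate Finset Vale.Agent.P370.Q

variable {N : ℕ} {n : ℕ} {A : Type} [Fintype A] [DecidableEq A] (B : ShellBasis n A)
  {κ : ℝ} (hκ : 0 < κ) (hB : ∀ a, ∃ C : ℝ, 0 ≤ C ∧ ∀ x, |B.χ a x| ≤ C * Real.exp (-κ * ‖x‖))

theorem wsp_μ : (wsp κ hκ).μ = μY := rfl

theorem SBFam_θ : (SBFam B hκ hB).θ = so B.χ := rfl

include B in
theorem SB_nonempty (hn : 1 ≤ n) : Nonempty A := by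
  have h := B.card 1 le_rfl hn
  rw [one_pow] at h
  obtain ⟨a, ha⟩ := Finset.card_eq_one.1 h
  exact ⟨a⟩

/-- amplitude of an orbital in a slice -/
theorem amp_eq {ψ : Wave N} (hψ : IsTestState ψ) (i : Fin N) (w : Fin N → YS) (b : A × Fin 2) :
    ∫ y, (so B.χ b y : ℂ) * toY ψ (update w i y) ∂μY =
      ∫ z, (B.χ b.1 z : ℂ) * sl ψ (fun l => (w l).1) (update (fun l => (w l).2) i b.2) i z := by
  obtain ⟨κ, hκ, hB⟩ := SB_exists_kappa B
  have h1 : Integrable (fun y => (so B.χ b y : ℂ) * toY ψ (update w i y)) μY :=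
    (toY_dm hψ hκ).slice_integrable i ((SBFam B hκ hB).orb b) w
  rw [integral_Y h1, Finset.sum_eq_single b.2]
  · refine integral_congr_ae (Filter.Eventually.of_forall fun z => ?_)
    simp only [toY_update]
    unfold so
    rw [if_pos rfl]
  · intro τ _ hτ
    have : ∀ z, (so B.χ b (z, τ) : ℂ) * toY ψ (update w i (z, τ)) = 0 := by
      intro z
      unfold so
      rw [if_neg hτ]
      simp
    simp only [this]
    simp
  · simp only [mem_univ, not_true_eq_false, IsEmpty.forall_iff]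

/-- energies of the orbitals -/
noncomputable def eb (b : A × Fin 2) : ℝ := -(1 / (2 * (B.lev b.1 : ℝ) ^ 2))

noncomputable def eo (n : ℕ) : ℝ := -(1 / (2 * ((n : ℝ) + 1) ^ 2))

include hB in
theorem slot_ineq (hn : 1 ≤ n) {ψ : Wave N} (hψ : IsTestState ψ) (i : Fin N) :
    eo n * (∫ w, ‖toY ψ w‖ ^ 2 ∂(pm (Fin N) μY)) -
      ∑ b, (eo n - eb B b) * ∫ w, ‖op (wsp κ hκ) i (so B.χ b) (so B.χ b) (toY ψ) w‖ ^ 2
        ∂(pm (Fin N) μY) ≤
    ∫ w, ofS (hd ψ i) w ∂(pm (Fin N) μY) := by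
  obtain ⟨a₀⟩ := SB_nonempty B hn
  have hdm := toY_dm hψ hκ
  have hop : ∀ b, Dm (wsp κ hκ) (op (wsp κ hκ) i (so B.χ b) (so B.χ b) (toY ψ)) := fun b =>
    hdm.op i ((SBFam B hκ hB).orb b) ((SBFam B hκ hB).orb b)
  have i1 : Integrable (fun w => ‖toY ψ w‖ ^ 2) (pm (Fin N) μY) := hdm.norm_sq_integrable
  have i2 : ∀ b, Integrable (fun w => ‖op (wsp κ hκ) i (so B.χ b) (so B.χ b) (toY ψ) w‖ ^ 2)
    (pm (Fin N) μY) := fun b => (hop b).norm_sq_integrable
  have e1 : eo n * (∫ w, ‖toY ψ w‖ ^ 2 ∂(pm (Fin N) μY)) -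
      ∑ b, (eo n - eb B b) * ∫ w, ‖op (wsp κ hκ) i (so B.χ b) (so B.χ b) (toY ψ) w‖ ^ 2
        ∂(pm (Fin N) μY) = ∫ w, (eo n * ‖toY ψ w‖ ^ 2 - ∑ b, (eo n - eb B b) *
        ‖op (wsp κ hκ) i (so B.χ b) (so B.χ b) (toY ψ) w‖ ^ 2) ∂(pm (Fin N) μY) := by
    rw [integral_sub (i1.const_mul _) (integrable_finsetSum _ fun b _ => (i2 b).const_mul _),
      integral_const_mul, integral_finsetSum _ fun b _ => (i2 b).const_mul _]
    simp only [integral_const_mul]
  rw [e1]
  have hθ := (SBFam B hκ hB).orb (a₀, 0)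
  refine integral_le_of_slices μY i (h := fun y => so B.χ (a₀, 0) y * so B.χ (a₀, 0) y)
    ((i1.const_mul _).sub (integrable_finsetSum _ fun b _ => (i2 b).const_mul _))
    (ofS_hd_integrable hψ i) (hθ.mul hθ).integrable (fun y => mul_self_nonneg _)
    (((SBFam B hκ hB).ortho (a₀, 0) (a₀, 0)).trans (if_pos rfl)) ?_
  intro w
  obtain ⟨h1, h2⟩ := integral_sq_slice hψ i w
  have h3 : ∀ b, ∀ y, ‖op (wsp κ hκ) i (so B.χ b) (so B.χ b) (toY ψ) (update w i y)‖ ^ 2 =
      (so B.χ b y * so B.χ b y) * ‖∫ z, (B.χ b.1 z : ℂ) *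
        sl ψ (fun l => (w l).1) (update (fun l => (w l).2) i b.2) i z‖ ^ 2 := by
    intro b y
    rw [op_update, wsp_μ, amp_eq B hψ i w b, norm_mul, mul_pow, Complex.norm_real,
      Real.norm_eq_abs, sq_abs, sq (so B.χ b y)]
  have h4 : ∀ b, Integrable (fun y => so B.χ b y * so B.χ b y) μY := fun b =>
    (((SBFam B hκ hB).orb b).mul ((SBFam B hκ hB).orb b)).integrable
  have h5 : ∀ b, ∫ y, so B.χ b y * so B.χ b y ∂μY = 1 := fun b =>
    ((SBFam B hκ hB).ortho b b).trans (if_pos rfl)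
  simp only [h3]
  rw [integral_sub (h1.const_mul _) (integrable_finsetSum _ fun b _ =>
    ((h4 b).mul_const _).const_mul _), integral_const_mul,
    integral_finsetSum _ fun b _ => ((h4 b).mul_const _).const_mul _]
  simp only [integral_const_mul, integral_mul_const, h5, one_mul]
  rw [h2, integral_hd_slice hψ, Fintype.sum_prod_type_right, Finset.mul_sum,
    ← Finset.sum_sub_distrib]
  refine Finset.sum_le_sum fun τ _ => ?_
  have h6 := hydrogen_ineq hn B (sl ψ (fun l => (w l).1) (update (fun l => (w l).2) i τ) i)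
    (sl_smooth hψ _ _ _) (sl_compact hψ _ _ _)
  refine le_trans (le_of_eq ?_) h6
  unfold eo eb
  rw [sub_eq_add_neg, ← Finset.sum_neg_distrib]
  congr 1
  refine Finset.sum_congr rfl fun a _ => ?_
  ring

/-- unperturbed energy -/
noncomputable def H0 (ψ : Wave N) : ℝ := ∑ i, ∫ w, ofS (hd ψ i) w ∂(pm (Fin N) μY)

include hB in
theorem H0_ge (hn : 1 ≤ n) (Cl : Finset (A × Fin 2)) (K : ℕ) (hN : N = Cl.card + K)
    (hcl : ∀ b ∈ Cl, B.lev b.1 < n) (hop : ∀ b ∉ Cl, B.lev b.1 = n)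
    {ψ : Wave N} (hψ : IsTestState ψ) :
    (∑ b ∈ Cl, eb B b + K * (-(1 / (2 * (n : ℝ) ^ 2)))) * normSq ψ +
      (1 / (2 * (n : ℝ) ^ 2) - 1 / (2 * ((n : ℝ) + 1) ^ 2)) *
        (normSq ψ - ∑ I ∈ PreSlots.good (N := N) Cl, ‖(SBFam B hκ hB).coef I (toY ψ)‖ ^ 2) ≤
    H0 ψ := by
  have hn0 : (0 : ℝ) < n := by exact_mod_cast hn
  have hg : 0 ≤ 1 / (2 * (n : ℝ) ^ 2) - 1 / (2 * ((n : ℝ) + 1) ^ 2) := by
    rw [sub_nonneg]
    apply one_div_le_one_div_of_le (by (clear * - hn; positivity))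
    gcongr
    linarith only []
  have h := (SBFam B hκ hB).energy_ge Cl K hN (eb B) (-(1 / (2 * (n : ℝ) ^ 2))) (eo n)
    (1 / (2 * (n : ℝ) ^ 2) - 1 / (2 * ((n : ℝ) + 1) ^ 2)) hg ?_ ?_ ?_ (toY ψ) (toY_dm hψ hκ)
    (toY_anti hψ)
  · rw [← toY_norm_sq hψ]
    refine h.trans ?_
    unfold H0
    exact Finset.sum_le_sum fun i _ => slot_ineq B hκ hB hn hψ i
  · intro b hb
    have h1 := hcl b hb
    have h2 := B.lev_pos b.1
    unfold eb
    obtain ⟨k, hk⟩ : ∃ k : ℕ, k = B.lev b.1 := ⟨_, rfl⟩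
    rw [← hk] at h1 h2 ⊢
    have hk0 : (0 : ℝ) < k := by exact_mod_cast h2
    have hkn : (k : ℝ) + 1 ≤ n := by exact_mod_cast h1
    -- `1/k² ≥ 2/n² - 1/(n+1)²`
    have h3 : 1 / (2 * ((n : ℝ) - 1) ^ 2) ≤ 1 / (2 * (k : ℝ) ^ 2) := by
      apply one_div_le_one_div_of_le (by (clear * - h2; positivity))
      have : (k : ℝ) ≤ n - 1 := by linarith only [hkn]
      (clear * - h2 this; gcongr)
    have hn1 : (0 : ℝ) < (n : ℝ) - 1 := by linarith only [hk0, hkn]
    have h4 : 1 / (2 * (n : ℝ) ^ 2) + (1 / (2 * (n : ℝ) ^ 2) - 1 / (2 * ((n : ℝ) + 1) ^ 2)) ≤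
        1 / (2 * ((n : ℝ) - 1) ^ 2) := by
      have h5 : 1 / (2 * ((n : ℝ) - 1) ^ 2) - (1 / (2 * (n : ℝ) ^ 2) + (1 / (2 * (n : ℝ) ^ 2) -
          1 / (2 * ((n : ℝ) + 1) ^ 2))) = (3 * (n : ℝ) ^ 2 - 1) /
          ((n : ℝ) ^ 2 * ((n : ℝ) - 1) ^ 2 * ((n : ℝ) + 1) ^ 2) := by
        field_simp
        ring
      have h6 : 0 ≤ (3 * (n : ℝ) ^ 2 - 1) /
          ((n : ℝ) ^ 2 * ((n : ℝ) - 1) ^ 2 * ((n : ℝ) + 1) ^ 2) := by
        apply div_nonneg _ (by (clear * - hn hn1; positivity))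
        linarith only [mul_nonneg_of_nonpos_of_nonpos (Mathlib.Tactic.Linarith.sub_nonpos_of_le (Mathlib.Tactic.Linarith.natCast_nonneg ℝ n)) (Mathlib.Tactic.Linarith.sub_nonpos_of_le hkn), mul_nonneg_of_nonpos_of_nonpos (Mathlib.Tactic.Linarith.sub_nonpos_of_le (Mathlib.Tactic.Linarith.natCast_nonneg ℝ k)) (Mathlib.Tactic.Linarith.sub_nonpos_of_le (Mathlib.Tactic.Linarith.natCast_nonneg ℝ n)), hkn, Mathlib.Tactic.Linarith.natCast_nonneg ℝ k]
      linarith only [h5, h6]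
    linarith only [h3, h4]
  · intro b hb
    have h1 := hop b hb
    unfold eb
    rw [h1]
  · unfold eo
    linarith only []

end Vale.Agent.P370.NB
end

section

/-!
Singular parts of Coulomb potentials, one-body estimates.
-/

namespace Vale.Agent.P370.NB

open MeasureTheory Function ComplexConjugate Finset Vale.Agent.P370.Q

/-- singular part of `1 / t` -/
noncomputable def sr (r t : ℝ) : ℝ := max (1 / t - 1 / r) 0

theorem sr_nonneg (r t : ℝ) : 0 ≤ sr r t := le_max_right _ _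

theorem sr_le_inv {r t : ℝ} (hr : 0 < r) (ht : 0 ≤ t) : sr r t ≤ 1 / t := by
  unfold sr
  apply max_le
  · have : 0 < 1 / r := by (clear * - hr; positivity)
    linarith only [this]
  · (clear * - ht; positivity)

theorem sr_le_sq {r t : ℝ} (hr : 0 < r) (ht : 0 ≤ t) : sr r t ≤ r / 4 * (1 / t ^ 2) := by
  unfold sr
  apply max_le
  · rcases ht.eq_or_lt with h | h
    · rw [← h]
      norm_num
      exact hr.le
    · have h1 : 0 ≤ (r - 2 * t) ^ 2 / (4 * t ^ 2 * r) := by (clear * - h hr; positivity)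
      have h2 : (r - 2 * t) ^ 2 / (4 * t ^ 2 * r) = r / 4 * (1 / t ^ 2) - (1 / t - 1 / r) := by
        field_simp
        ring
      linarith only [h1, h2]
  · (clear * - hr; positivity)

theorem sr_eq {r t : ℝ} (hr : 0 < r) (ht : 0 ≤ t) :
    0 ≤ 1 / t - sr r t ∧ 1 / t - sr r t ≤ 1 / r := by
  unfold sr
  constructor
  · have := sr_le_inv hr ht
    unfold sr at this
    (clear * - this; linarith)
  · have := le_max_left (1 / t - 1 / r) 0
    linarith only [this]

theorem sr_measurable (r : ℝ) : Measurable (sr r) := by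
  unfold sr
  exact ((measurable_id.const_div 1).sub_const _).max measurable_const

/-- singular part of a Coulomb potential, real one-body functions -/
theorem sr_nice {u : R3 → ℝ} (hu : Nice u) (y : R3) {r : ℝ} (hr : 0 < r) :
    Integrable (fun x => u x ^ 2 * sr r (dist x y)) ∧
    ∫ x, u x ^ 2 * sr r (dist x y) ≤ 4 * r * ((1 / 2) * dir u u - rinv u u + ov u u) := by
  obtain ⟨h1, h2⟩ := hardy_nice hu y
  have hb : ∀ x, u x ^ 2 * sr r (dist x y) ≤ r / 4 * (u x ^ 2 / dist x y ^ 2) := by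
    intro x
    have := mul_le_mul_of_nonneg_left (sr_le_sq hr (dist_nonneg (x := x) (y := y)))
      (sq_nonneg (u x))
    calc _ ≤ _ := this
      _ = _ := by ring
  have hm : Measurable (fun x => u x ^ 2 * sr r (dist x y)) :=
    (hu.cont.measurable.pow_const 2).mul ((sr_measurable r).comp (bd_dist_meas y))
  have hi : Integrable (fun x => u x ^ 2 * sr r (dist x y)) := by
    refine (h1.const_mul (r / 4)).mono' hm.aestronglyMeasurable
      (Filter.Eventually.of_forall fun x => ?_)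
    rw [Real.norm_eq_abs, abs_of_nonneg (mul_nonneg (sq_nonneg _) (sr_nonneg _ _))]
    exact hb x
  refine ⟨hi, ?_⟩
  have h3 : ∫ x, u x ^ 2 * sr r (dist x y) ≤ ∫ x, r / 4 * (u x ^ 2 / dist x y ^ 2) :=
    integral_mono hi (h1.const_mul _) hb
  rw [integral_const_mul] at h3
  have h4 := bd_ground hu 2
  have h5 : r / 4 * ∫ x, u x ^ 2 / dist x y ^ 2 ≤ r / 4 * (4 * dir u u) :=
    mul_le_mul_of_nonneg_left h2 (by (clear * - hr; positivity))
  have h6 : r * (4 * rinv u u) ≤ r * (dir u u + 4 * ov u u) := by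
    apply mul_le_mul_of_nonneg_left _ hr.le
    linarith only [h4]
  linarith only [h3, h5, h6]

/-- real and imaginary parts of a test function -/
theorem re_im_nice {u : R3 → ℂ} (hu : ContDiff ℝ (⊤ : ℕ∞) u) (hc : HasCompactSupport u) :
    Nice (fun x => (u x).re) ∧ Nice (fun x => (u x).im) := by
  constructor
  · refine nice_test (Complex.reCLM.contDiff.comp hu) ?_
    exact hc.comp_left (g := Complex.re) rfl
  · refine nice_test (Complex.imCLM.contDiff.comp hu) ?_
    exact hc.comp_left (g := Complex.im) rfl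

theorem norm_sq_re_im (z : ℂ) : ‖z‖ ^ 2 = z.re ^ 2 + z.im ^ 2 := by
  rw [← Complex.normSq_eq_norm_sq, Complex.normSq_apply]
  ring

theorem fderiv_re_im {u : R3 → ℂ} (hu : ContDiff ℝ (⊤ : ℕ∞) u) (x : R3) (k : Fin 3) :
    ‖fderiv ℝ u x (EuclideanSpace.single k 1)‖ ^ 2 =
      pd k (fun x => (u x).re) x * pd k (fun x => (u x).re) x +
      pd k (fun x => (u x).im) x * pd k (fun x => (u x).im) x := by
  have hd : HasFDerivAt u (fderiv ℝ u x) x := (hu.differentiable (by simp only [ne_eq, WithTop.coe_eq_zero, ENat.top_ne_zero, not_false_eq_true]) x).hasFDerivAt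
  have h1 : HasFDerivAt (fun x => (u x).re) (Complex.reCLM.comp (fderiv ℝ u x)) x :=
    Complex.reCLM.hasFDerivAt.comp x hd
  have h2 : HasFDerivAt (fun x => (u x).im) (Complex.imCLM.comp (fderiv ℝ u x)) x :=
    Complex.imCLM.hasFDerivAt.comp x hd
  unfold pd
  rw [h1.fderiv, h2.fderiv, norm_sq_re_im]
  simp only [ContinuousLinearMap.comp_apply, Complex.reCLM_apply, Complex.imCLM_apply]
  ring

/-- singular part of a Coulomb potential, complex test functions -/
theorem sr_test {u : R3 → ℂ} (hu : ContDiff ℝ (⊤ : ℕ∞) u) (hc : HasCompactSupport u) (y : R3)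
    {r : ℝ} (hr : 0 < r) :
    Integrable (fun x => ‖u x‖ ^ 2 * sr r (dist x y)) ∧
    ∫ x, ‖u x‖ ^ 2 * sr r (dist x y) ≤ 4 * r *
      ((1 / 2) * (∫ x, ∑ k, ‖fderiv ℝ u x (EuclideanSpace.single k 1)‖ ^ 2) -
        (∫ x, ‖u x‖ ^ 2 / ‖x‖) + ∫ x, ‖u x‖ ^ 2) := by
  obtain ⟨hr1, hi1⟩ := re_im_nice hu hc
  obtain ⟨a1, a2⟩ := sr_nice hr1 y hr
  obtain ⟨b1, b2⟩ := sr_nice hi1 y hr
  have e1 : ∀ x, ‖u x‖ ^ 2 * sr r (dist x y) =
      (u x).re ^ 2 * sr r (dist x y) + (u x).im ^ 2 * sr r (dist x y) := by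
    intro x
    rw [norm_sq_re_im]
    ring
  have e2 : ∫ x, ∑ k, ‖fderiv ℝ u x (EuclideanSpace.single k 1)‖ ^ 2 =
      dir (fun x => (u x).re) (fun x => (u x).re) + dir (fun x => (u x).im) (fun x => (u x).im) := by
    unfold dir
    rw [← integral_add]
    · refine integral_congr_ae (Filter.Eventually.of_forall fun x => ?_)
      simp only
      rw [← Finset.sum_add_distrib]
      exact Finset.sum_congr rfl fun k _ => fderiv_re_im hu x k
    · exact integrable_finsetSum _ fun k _ => nice_integrable_dir hr1 hr1 k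
    · exact integrable_finsetSum _ fun k _ => nice_integrable_dir hi1 hi1 k
  have e3 : ∫ x, ‖u x‖ ^ 2 / ‖x‖ =
      rinv (fun x => (u x).re) (fun x => (u x).re) +
        rinv (fun x => (u x).im) (fun x => (u x).im) := by
    unfold rinv
    rw [← integral_add (nice_integrable_rinv hr1 hr1).1 (nice_integrable_rinv hi1 hi1).1]
    refine integral_congr_ae (Filter.Eventually.of_forall fun x => ?_)
    simp only
    rw [norm_sq_re_im]
    ring
  have e4 : ∫ x, ‖u x‖ ^ 2 =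
      ov (fun x => (u x).re) (fun x => (u x).re) +
        ov (fun x => (u x).im) (fun x => (u x).im) := by
    unfold ov
    rw [← integral_add (nice_integrable_rinv hr1 hr1).2 (nice_integrable_rinv hi1 hi1).2]
    refine integral_congr_ae (Filter.Eventually.of_forall fun x => ?_)
    simp only
    rw [norm_sq_re_im]
    ring
  simp only [e1]
  refine ⟨a1.add b1, ?_⟩
  rw [integral_add a1 b1, e2, e3, e4]
  linarith only [a2, b2]

section shell

variable {n : ℕ} {A : Type} [Fintype A] [DecidableEq A] (B : ShellBasis n A)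

/-- bilinearity of the energy form -/
theorem form_sum_le (c : A → ℝ) :
    (1 / 2) * dir (fun x => ∑ a, c a * B.χ a x) (fun x => ∑ a, c a * B.χ a x) -
      rinv (fun x => ∑ a, c a * B.χ a x) (fun x => ∑ a, c a * B.χ a x) ≤ 0 := by
  have hN : ∀ a, Nice (B.χ a) := fun a => bd_shell_nice (B.lev_pos a) (B.mem a)
  have hS : Nice (fun x => ∑ a, c a * B.χ a x) := bd_nice_sum _ c hN
  have e1 : dir (fun x => ∑ a, c a * B.χ a x) (fun x => ∑ a, c a * B.χ a x) =
      ∑ a, c a * dir (B.χ a) (fun x => ∑ a, c a * B.χ a x) := by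
    unfold dir
    have hi : ∀ a, Integrable (fun x => ∑ k, pd k (B.χ a) x *
        pd k (fun x => ∑ a, c a * B.χ a x) x) := fun a =>
      integrable_finsetSum _ fun k _ => nice_integrable_dir (hN a) hS k
    simp only [← integral_const_mul]
    rw [← integral_finsetSum _ fun a _ => (hi a).const_mul _]
    refine integral_congr_ae ?_
    filter_upwards [bd_ae_ne 0] with x hx
    simp only [Finset.mul_sum]
    rw [Finset.sum_comm]
    refine Finset.sum_congr rfl fun k _ => ?_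
    conv_lhs => rw [bd_pd_sum univ c hN k hx]
    rw [bd_pd_sum univ c hN k hx, Finset.sum_mul]
    refine Finset.sum_congr rfl fun a _ => ?_
    ring
  have e2 : rinv (fun x => ∑ a, c a * B.χ a x) (fun x => ∑ a, c a * B.χ a x) =
      ∑ a, c a * rinv (B.χ a) (fun x => ∑ a, c a * B.χ a x) := by
    unfold rinv
    have hi : ∀ a, Integrable (fun x => B.χ a x * (∑ a, c a * B.χ a x) / ‖x‖) := fun a =>
      (nice_integrable_rinv (hN a) hS).1
    simp only [← integral_const_mul]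
    rw [← integral_finsetSum _ fun a _ => (hi a).const_mul _]
    refine integral_congr_ae (Filter.Eventually.of_forall fun x => ?_)
    simp only
    rw [mul_div_assoc, Finset.sum_mul]
    refine Finset.sum_congr rfl fun a _ => ?_
    ring
  have e3 : ∀ a, ov (B.χ a) (fun x => ∑ a, c a * B.χ a x) = c a := by
    intro a
    rw [m1_ov_comm, m1_ov_sum_left univ c (fun i _ => hN i) (hN a)]
    rw [Finset.sum_eq_single a]
    · rw [B.ortho, if_pos rfl, mul_one]
    · intro b _ hb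
      rw [B.ortho, if_neg hb, mul_zero]
    · simp only [mem_univ, not_true_eq_false, mul_eq_zero, IsEmpty.forall_iff]
  rw [e1, e2, Finset.mul_sum, ← Finset.sum_sub_distrib]
  refine Finset.sum_nonpos fun a _ => ?_
  have h := shell_form (B.lev_pos a) (B.mem a) hS
  rw [e3] at h
  have h2 : 1 / 2 * (c a * dir (B.χ a) (fun x => ∑ a, c a * B.χ a x)) -
      c a * rinv (B.χ a) (fun x => ∑ a, c a * B.χ a x) =
      c a * (-(1 / (2 * (B.lev a : ℝ) ^ 2)) * c a) := by
    rw [← h]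
    ring
  rw [h2]
  have h3 : 0 ≤ 1 / (2 * (B.lev a : ℝ) ^ 2) * (c a * c a) :=
    mul_nonneg (by (clear * -; positivity)) (mul_self_nonneg _)
  linarith only [h3]

/-- singular part of a Coulomb potential, complex combinations of shell functions -/
theorem sr_shell (d : A → ℂ) (y : R3) {r : ℝ} (hr : 0 < r) :
    Integrable (fun x => ‖∑ a, d a * (B.χ a x : ℂ)‖ ^ 2 * sr r (dist x y)) ∧
    Integrable (fun x => ‖∑ a, d a * (B.χ a x : ℂ)‖ ^ 2) ∧
    ∫ x, ‖∑ a, d a * (B.χ a x : ℂ)‖ ^ 2 * sr r (dist x y) ≤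
      4 * r * ∫ x, ‖∑ a, d a * (B.χ a x : ℂ)‖ ^ 2 := by
  have hN : ∀ a, Nice (B.χ a) := fun a => bd_shell_nice (B.lev_pos a) (B.mem a)
  have h1 : Nice (fun x => ∑ a, (d a).re * B.χ a x) := bd_nice_sum _ _ hN
  have h2 : Nice (fun x => ∑ a, (d a).im * B.χ a x) := bd_nice_sum _ _ hN
  obtain ⟨a1, a2⟩ := sr_nice h1 y hr
  obtain ⟨b1, b2⟩ := sr_nice h2 y hr
  have a3 := form_sum_le B (fun a => (d a).re)
  have b3 := form_sum_le B (fun a => (d a).im)
  have e0 : ∀ x, ‖∑ a, d a * (B.χ a x : ℂ)‖ ^ 2 =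
      (∑ a, (d a).re * B.χ a x) ^ 2 + (∑ a, (d a).im * B.χ a x) ^ 2 := by
    intro x
    rw [norm_sq_re_im, Complex.re_sum, Complex.im_sum]
    simp only [Complex.re_mul_ofReal, Complex.im_mul_ofReal]
  have i1 := bd_sq_int h1
  have i2 := bd_sq_int h2
  simp only [e0, add_mul]
  refine ⟨a1.add b1, i1.add i2, ?_⟩
  rw [integral_add a1 b1, integral_add i1 i2, bd_ov_eq, bd_ov_eq]
  have h4 : 4 * r * ((1 / 2) * dir (fun x => ∑ a, (d a).re * B.χ a x)
      (fun x => ∑ a, (d a).re * B.χ a x) - rinv (fun x => ∑ a, (d a).re * B.χ a x)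
      (fun x => ∑ a, (d a).re * B.χ a x)) ≤ 0 :=
    mul_nonpos_of_nonneg_of_nonpos (by (clear * - hr; positivity)) a3
  have h5 : 4 * r * ((1 / 2) * dir (fun x => ∑ a, (d a).im * B.χ a x)
      (fun x => ∑ a, (d a).im * B.χ a x) - rinv (fun x => ∑ a, (d a).im * B.χ a x)
      (fun x => ∑ a, (d a).im * B.χ a x)) ≤ 0 :=
    mul_nonpos_of_nonneg_of_nonpos (by positivity) b3
  linarith only [a2, b2, h4, h5]

end shell

end Vale.Agent.P370.NB
end

section

/-!
Matrix elements between combinations of shell orbitals.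
-/

namespace Vale.Agent.P370.NB

open MeasureTheory Function ComplexConjugate Finset Vale.Agent.P370.Q

variable {N : ℕ} {n : ℕ} {A : Type} [Fintype A] [DecidableEq A] (B : ShellBasis n A)
  {κ : ℝ} (hκ : 0 < κ) (hB : ∀ a, ∃ C : ℝ, 0 ≤ C ∧ ∀ x, |B.χ a x| ≤ C * Real.exp (-κ * ‖x‖))

theorem so_meas (b : A × Fin 2) : Measurable (so B.χ b) :=
  so_measurable (fun a => (SB_nice B a).cont) b

theorem so_ortho (p q : A × Fin 2) :
    Integrable (fun y => so B.χ p y * so B.χ q y) μY ∧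
    ∫ y, so B.χ p y * so B.χ q y ∂μY = if p = q then 1 else 0 := by
  obtain ⟨κ, hκ, hB⟩ := SB_exists_kappa B
  exact ⟨(((SBFam B hκ hB).orb p).mul ((SBFam B hκ hB).orb q)).integrable,
    (SBFam B hκ hB).ortho p q⟩

theorem lc_measurable (c : (Fin N → A × Fin 2) → ℂ) :
    Measurable (lc (fun _ => so B.χ) c : (Fin N → YS) → ℂ) := by
  unfold lc pf
  refine Finset.measurable_fun_sum _ fun I _ => ?_
  refine measurable_const.mul (Complex.measurable_ofReal.comp ?_)
  exact Finset.measurable_fun_prod _ fun l _ => (so_meas B _).comp (measurable_pi_apply l)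

theorem lc_norm_sq (c : (Fin N → A × Fin 2) → ℂ) :
    Integrable (fun w => ‖lc (fun _ => so B.χ) c w‖ ^ 2) (pm (Fin N) μY) ∧
    ∫ w, ‖lc (fun _ => so B.χ) c w‖ ^ 2 ∂(pm (Fin N) μY) = nsq c := by
  obtain ⟨h1, h2⟩ := integral_lc_zero μY (Θ := fun _ => so B.χ)
    (fun l a b => (so_ortho B a b).1) c
  refine ⟨h1, h2.trans ?_⟩
  unfold nsq
  refine Finset.sum_congr rfl fun I _ => ?_
  simp only [(so_ortho B _ _).2]
  rw [Finset.sum_eq_single I]
  · simp only [if_true, Finset.prod_const_one, mul_one]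
    rw [Complex.conj_mul']
    norm_cast
  · intro J _ hJ
    obtain ⟨l, hl⟩ := Function.ne_iff.1 hJ.symm
    rw [Finset.prod_eq_zero (Finset.mem_univ l) (if_neg hl), mul_zero]
  · simp only [mem_univ, not_true_eq_false, Complex.mul_re, Complex.conj_re, Complex.conj_im, neg_mul, sub_neg_eq_add, ↓reduceIte, prod_const_one, mul_one, IsEmpty.forall_iff]

/-- one-body matrix elements -/
theorem lc_one (c : (Fin N → A × Fin 2) → ℂ) (i : Fin N) {v : R3 → ℝ} (hv : Measurable v)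
    (hi : ∀ a b, Integrable (fun x => B.χ a x * B.χ b x * v x)) :
    Integrable (fun w => ‖lc (fun _ => so B.χ) c w‖ ^ 2 * v (w i).1) (pm (Fin N) μY) ∧
    ∫ w, ‖lc (fun _ => so B.χ) c w‖ ^ 2 * v (w i).1 ∂(pm (Fin N) μY) =
      ∑ I, ∑ b, spin1 (fun a b => ∫ x, B.χ a x * B.χ b x * v x) (I i) b *
        (conj (c I) * c (update I i b)).re := by
  have hso := fun p q : A × Fin 2 => integral_so_so (fun a => (SB_nice B a).cont) v hv p q
    (hi p.1 q.1)
  obtain ⟨h1, h2⟩ := integral_lc_one μY (θ := so B.χ) (fun a b => (so_ortho B a b).1) c i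
    (v := fun y => v y.1) (fun p q => (hso p q).1)
  refine ⟨h1, h2.trans ?_⟩
  refine Finset.sum_congr rfl fun I _ => ?_
  simp only [(so_ortho B _ _).2]
  have h3 := sum_delta_one (fun J => (conj (c I) * c J).re *
    ∫ y, so B.χ (I i) y * so B.χ (J i) y * v y.1 ∂μY) I i
  refine Eq.trans (Finset.sum_congr rfl fun J _ => ?_) (h3.trans ?_)
  · ring
  · refine Finset.sum_congr rfl fun b _ => ?_
    rw [update_self, (hso (I i) b).2, mul_comm]
    unfold spin1
    rfl

theorem measurable_nuc {f g : R3 → ℝ} (hf : Continuous f) (hg : Continuous g) :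
    Measurable (fun y => nuc y f g) := by
  have h1 : Measurable (fun p : R3 × R3 => f p.2 * g p.2 / dist p.2 p.1) :=
    ((hf.comp continuous_snd).mul (hg.comp continuous_snd)).measurable.div
      ((by (clear * -; fun_prop) : Continuous fun p : R3 × R3 => dist p.2 p.1).measurable)
  exact (h1.stronglyMeasurable.integral_prod_right).measurable

theorem kern_meas : Measurable (fun p : YS × YS => 1 / dist p.1.1 p.2.1) := by
  have h : Measurable (fun p : YS × YS => dist p.1.1 p.2.1) :=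
    (measurable_fst.comp measurable_fst).dist (measurable_fst.comp measurable_snd)
  exact h.const_div 1

/-- inner integral of the Coulomb kernel -/
theorem inner_kern (p a : A × Fin 2) (y : R3) :
    Integrable (fun z => so B.χ p z * so B.χ a z * (1 / dist z.1 y)) μY ∧
    ∫ z, so B.χ p z * so B.χ a z * (1 / dist z.1 y) ∂μY =
      if p.2 = a.2 then nuc y (B.χ p.1) (B.χ a.1) else 0 := by
  have h := integral_so_so (fun a => (SB_nice B a).cont) (fun x => 1 / dist x y)
    ((bd_dist_meas y).const_div 1) p a (by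
      refine (nice_integrable_nuc (SB_nice B p.1) (SB_nice B a.1) y).congr
        (Filter.Eventually.of_forall fun x => ?_)
      simp only
      ring)
  refine ⟨h.1, h.2.trans ?_⟩
  split_ifs
  · unfold nuc
    refine integral_congr_ae (Filter.Eventually.of_forall fun x => ?_)
    simp only
    ring
  · rfl

theorem kern_integrable (p a q b : A × Fin 2) :
    Integrable (fun y : YS × YS => (so B.χ p y.1 * so B.χ a y.1) * (so B.χ q y.2 * so B.χ b y.2) *
      (1 / dist y.1.1 y.2.1)) (μY.prod μY) := by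
  have hm : Measurable (fun y : YS × YS => (so B.χ p y.1 * so B.χ a y.1) *
      (so B.χ q y.2 * so B.χ b y.2) * (1 / dist y.1.1 y.2.1)) :=
    ((((so_meas B p).comp measurable_fst).mul ((so_meas B a).comp measurable_fst)).mul
      (((so_meas B q).comp measurable_snd).mul ((so_meas B b).comp measurable_snd))).mul kern_meas
  rw [integrable_prod_iff' hm.aestronglyMeasurable]
  constructor
  · refine Filter.Eventually.of_forall fun z => ?_
    refine ((inner_kern B p a z.1).1.const_mul (so B.χ q z * so B.χ b z)).congr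
      (Filter.Eventually.of_forall fun y => ?_)
    simp only
    ring
  · set C := 2 * Real.sqrt (dir (B.χ p.1) (B.χ p.1)) * Real.sqrt (ov (B.χ a.1) (B.χ a.1)) with hC
    have hb : ∀ z : YS, ∫ y, ‖(so B.χ p y * so B.χ a y) * (so B.χ q z * so B.χ b z) *
        (1 / dist y.1 z.1)‖ ∂μY ≤ C * |so B.χ q z * so B.χ b z| := by
      intro z
      have e1 : ∀ y : YS, ‖(so B.χ p y * so B.χ a y) * (so B.χ q z * so B.χ b z) *
          (1 / dist y.1 z.1)‖ = |so B.χ q z * so B.χ b z| *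
          |so B.χ p y * so B.χ a y * (1 / dist y.1 z.1)| := by
        intro y
        rw [Real.norm_eq_abs, ← abs_mul]
        congr 1
        ring
      simp only [e1]
      rw [integral_const_mul, mul_comm C]
      refine mul_le_mul_of_nonneg_left ?_ (abs_nonneg _)
      have h1 := (inner_kern B p a z.1).1.abs
      rw [integral_Y h1]
      obtain ⟨h2, h3⟩ := bd_nuc_abs (SB_nice B p.1) (SB_nice B a.1) z.1
      have h4 : ∀ τ, ∫ x, |so B.χ p (x, τ) * so B.χ a (x, τ) * (1 / dist x z.1)| ≤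
          if τ = p.2 then C else 0 := by
        intro τ
        split_ifs with h
        · refine le_trans (integral_mono_of_nonneg (Filter.Eventually.of_forall fun x =>
            abs_nonneg _) h2.abs (Filter.Eventually.of_forall fun x => ?_)) h3
          simp only
          unfold so
          rw [if_pos h]
          by_cases h' : τ = a.2
          · rw [if_pos h']
            apply le_of_eq
            congr 1
            ring
          · rw [if_neg h', mul_zero, zero_mul, abs_zero]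
            exact abs_nonneg _
        · have : ∀ x, |so B.χ p (x, τ) * so B.χ a (x, τ) * (1 / dist x z.1)| = 0 := by
            intro x
            unfold so
            rw [if_neg h, zero_mul, zero_mul, abs_zero]
          simp only [this, integral_zero, le_refl]
      refine (Finset.sum_le_sum fun τ _ => h4 τ).trans ?_
      rw [Finset.sum_ite_eq' univ p.2]
      simp
    refine ((so_ortho B q b).1.abs.const_mul C).mono' ?_ (Filter.Eventually.of_forall fun z => ?_)
    · exact (hm.norm.stronglyMeasurable.integral_prod_left').aestronglyMeasurable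
    · rw [Real.norm_eq_abs, abs_of_nonneg (integral_nonneg fun _ => norm_nonneg _)]
      exact hb z

theorem kern_value (p a q b : A × Fin 2) :
    ∫ y, (∫ z, so B.χ p z * so B.χ a z * (1 / dist z.1 y.1) ∂μY) *
      (so B.χ q y * so B.χ b y) ∂μY = spin2 (coulM B.χ) p a q b := by
  have h1 : ∀ y : YS, (∫ z, so B.χ p z * so B.χ a z * (1 / dist z.1 y.1) ∂μY) *
      (so B.χ q y * so B.χ b y) =
      (if p.2 = a.2 then 1 else 0) * (so B.χ q y * so B.χ b y *
        nuc y.1 (B.χ p.1) (B.χ a.1)) := by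
    intro y
    rw [(inner_kern B p a y.1).2]
    split_ifs
    · ring
    · ring
  simp only [h1]
  rw [integral_const_mul]
  have h2 := integral_so_so (fun a => (SB_nice B a).cont)
    (fun y => nuc y (B.χ p.1) (B.χ a.1))
    (measurable_nuc (SB_nice B p.1).cont (SB_nice B a.1).cont) q b (by
      refine (bd_coul_int (SB_nice B p.1) (SB_nice B a.1) (SB_nice B q.1)
        (SB_nice B b.1)).congr (Filter.Eventually.of_forall fun x => ?_)
      simp only
      ring)
  rw [h2.2]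
  unfold spin2 coulM coul
  by_cases h3 : p.2 = a.2
  · by_cases h4 : q.2 = b.2
    · rw [if_pos h3, if_pos h4, if_pos ⟨h3, h4⟩, one_mul]
      refine integral_congr_ae (Filter.Eventually.of_forall fun x => ?_)
      simp only
      ring
    · have h5 : ¬ (p.2 = a.2 ∧ q.2 = b.2) := fun h => h4 h.2
      rw [if_neg h4, if_neg h5, mul_zero]
  · have h5 : ¬ (p.2 = a.2 ∧ q.2 = b.2) := fun h => h3 h.1
    rw [if_neg h3, if_neg h5, zero_mul]

/-- two-body matrix elements -/
theorem lc_two (hn : 1 ≤ n) (c : (Fin N → A × Fin 2) → ℂ) {i j : Fin N} (hij : i ≠ j) :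
    Integrable (fun w => ‖lc (fun _ => so B.χ) c w‖ ^ 2 * (1 / dist (w i).1 (w j).1))
      (pm (Fin N) μY) ∧
    ∫ w, ‖lc (fun _ => so B.χ) c w‖ ^ 2 * (1 / dist (w i).1 (w j).1) ∂(pm (Fin N) μY) =
      ∑ I, ∑ a, ∑ b, spin2 (coulM B.χ) (I i) a (I j) b *
        (conj (c I) * c (update (update I i a) j b)).re := by
  obtain ⟨a₀⟩ := SB_nonempty B hn
  obtain ⟨h1, h2⟩ := integral_lc_two μY (θ := so B.χ) (so_meas B)
    (fun a b => (so_ortho B a b).1) c hij (k := fun y z => 1 / dist y.1 z.1) kern_meas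
    (kern_integrable B) (h := fun y => so B.χ (a₀, 0) y * so B.χ (a₀, 0) y)
    ((so_meas B _).mul (so_meas B _)) (so_ortho B _ _).1 ((so_ortho B _ _).2.trans (if_pos rfl))
  refine ⟨h1, h2.trans ?_⟩
  refine Finset.sum_congr rfl fun I _ => ?_
  simp only [(so_ortho B _ _).2, kern_value]
  have h3 := sum_delta_two (fun J => (conj (c I) * c J).re *
    spin2 (coulM B.χ) (I i) (J i) (I j) (J j)) I hij
  refine Eq.trans (Finset.sum_congr rfl fun J _ => ?_) (h3.trans ?_)
  · ring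
  · refine Finset.sum_congr rfl fun a _ => Finset.sum_congr rfl fun b _ => ?_
    rw [update_self, update_of_ne hij, update_self, mul_comm]

/-! ### the perturbation -/

/-- electron repulsion plus light nuclei (scaled) -/
noncomputable def Wp {m : ℕ} (wt : Fin m → ℝ) (y : Fin m → R3) (w : Fin N → YS) : ℝ :=
  (∑ i, ∑ j ∈ Ioi i, 1 / dist (w i).1 (w j).1) +
    ∑ i, ∑ b, wt b * (1 / ‖(w i).1‖ - 1 / dist (w i).1 (y b))

theorem oneE_real {ι : Type} [Fintype ι] [DecidableEq ι] (h : ι → ι → ℝ)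
    (c : Tens N ι) : oneE h c = ∑ i, ∑ I : Fin N → ι, ∑ a, h (I i) a *
      (conj (c I) * c (update I i a)).re := by
  unfold oneE
  rw [Complex.re_sum, Finset.sum_comm]
  refine Finset.sum_congr rfl fun I _ => ?_
  rw [Complex.re_sum]
  refine Finset.sum_congr rfl fun i _ => ?_
  rw [Complex.re_sum]
  refine Finset.sum_congr rfl fun a _ => ?_
  rw [Complex.re_ofReal_mul]

theorem twoE_real {ι : Type} [Fintype ι] [DecidableEq ι] (v : ι → ι → ι → ι → ℝ)
    (c : Tens N ι) : twoE v c = ∑ i, ∑ j ∈ Ioi i, ∑ I : Fin N → ι, ∑ a, ∑ b,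
      v (I i) a (I j) b * (conj (c I) * c (update (update I i a) j b)).re := by
  unfold twoE
  rw [Complex.re_sum]
  have e : ∑ i, ∑ j ∈ Ioi i, ∑ I : Fin N → ι, ∑ a, ∑ b,
      v (I i) a (I j) b * (conj (c I) * c (update (update I i a) j b)).re =
      ∑ I : Fin N → ι, ∑ i, ∑ j ∈ Ioi i, ∑ a, ∑ b,
      v (I i) a (I j) b * (conj (c I) * c (update (update I i a) j b)).re := by
    rw [Finset.sum_comm]
    refine Finset.sum_congr rfl fun i _ => ?_
    rw [Finset.sum_comm]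
  rw [e]
  refine Finset.sum_congr rfl fun I _ => ?_
  rw [Complex.re_sum]
  refine Finset.sum_congr rfl fun i _ => ?_
  rw [Complex.re_sum]
  refine Finset.sum_congr rfl fun j _ => ?_
  rw [Complex.re_sum]
  refine Finset.sum_congr rfl fun a _ => ?_
  rw [Complex.re_sum]
  refine Finset.sum_congr rfl fun b _ => ?_
  rw [Complex.re_ofReal_mul]

/-- the perturbation in a combination of shell orbitals -/
theorem lc_W (hn : 1 ≤ n) {m : ℕ} (wt : Fin m → ℝ) (y : Fin m → R3)
    (c : (Fin N → A × Fin 2) → ℂ) :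
    Integrable (fun w => ‖lc (fun _ => so B.χ) c w‖ ^ 2 * Wp wt y w) (pm (Fin N) μY) ∧
    ∫ w, ‖lc (fun _ => so B.χ) c w‖ ^ 2 * Wp wt y w ∂(pm (Fin N) μY) =
      enT (nucM B.χ wt y) (coulM B.χ) c := by
  have hv : Measurable (fun x : R3 => ∑ b, wt b * (1 / ‖x‖ - 1 / dist x (y b))) :=
    Finset.measurable_fun_sum _ fun b _ =>
      ((measurable_norm.const_div 1).sub ((bd_dist_meas (y b)).const_div 1)).const_mul _
  have hi0 : ∀ a b β, Integrable (fun x => B.χ a x * B.χ b x *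
      (wt β * (1 / ‖x‖ - 1 / dist x (y β)))) := by
    intro a b β
    refine ((integrable_gm (SB_nice B a) (SB_nice B b) (y β)).const_mul (wt β)).congr
      (Filter.Eventually.of_forall fun x => ?_)
    simp only
    ring
  have hi : ∀ a b, Integrable (fun x => B.χ a x * B.χ b x *
      ∑ b, wt b * (1 / ‖x‖ - 1 / dist x (y b))) := by
    intro a b
    simp only [Finset.mul_sum]
    exact integrable_finsetSum _ fun β _ => hi0 a b β
  have hval : ∀ a b, ∫ x, B.χ a x * B.χ b x * ∑ b, wt b * (1 / ‖x‖ - 1 / dist x (y b)) =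
      nucM B.χ wt y a b := by
    intro a b
    unfold nucM gm
    simp only [Finset.mul_sum]
    rw [integral_finsetSum _ fun β _ => hi0 a b β]
    refine Finset.sum_congr rfl fun β _ => ?_
    rw [← integral_const_mul]
    refine integral_congr_ae (Filter.Eventually.of_forall fun x => ?_)
    simp only
    ring
  have h1 := fun i => lc_one B c i hv hi
  have h2 := fun (i j : Fin N) (hj : j ∈ Ioi i) => lc_two B hn c (i := i) (j := j)
    (Finset.mem_Ioi.1 hj).ne
  have e : ∀ w : Fin N → YS, ‖lc (fun _ => so B.χ) c w‖ ^ 2 * Wp wt y w =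
      (∑ i, ∑ j ∈ Ioi i, ‖lc (fun _ => so B.χ) c w‖ ^ 2 * (1 / dist (w i).1 (w j).1)) +
      ∑ i, ‖lc (fun _ => so B.χ) c w‖ ^ 2 *
        ∑ b, wt b * (1 / ‖(w i).1‖ - 1 / dist (w i).1 (y b)) := by
    intro w
    unfold Wp
    rw [mul_add, Finset.mul_sum, Finset.mul_sum]
    congr 1
    refine Finset.sum_congr rfl fun i _ => ?_
    rw [Finset.mul_sum]
  have i1 := integrable_finsetSum (univ : Finset (Fin N)) fun i _ =>
    integrable_finsetSum (Ioi i) fun j hj => (h2 i j hj).1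
  have i2 := integrable_finsetSum (univ : Finset (Fin N)) fun i _ => (h1 i).1
  simp only [e]
  refine ⟨i1.add i2, ?_⟩
  rw [integral_add i1 i2, integral_finsetSum _ fun i _ =>
    integrable_finsetSum (Ioi i) fun j hj => (h2 i j hj).1, integral_finsetSum _ fun i _ =>
    (h1 i).1]
  unfold enT
  rw [oneE_real, twoE_real, add_comm]
  congr 1
  · refine Finset.sum_congr rfl fun i _ => ?_
    rw [(h1 i).2]
    simp only [hval]
  · refine Finset.sum_congr rfl fun i _ => ?_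
    rw [integral_finsetSum _ fun j hj => (h2 i j hj).1]
    refine Finset.sum_congr rfl fun j hj => ?_
    rw [(h2 i j hj).2]

end Vale.Agent.P370.NB
end

section

/-!
Ingredients for the lower bound.
-/

namespace Vale.Agent.P370.NB

open MeasureTheory Function ComplexConjugate Finset Vale.Agent.P370.Q

variable {N : ℕ}

/-! ### permutations -/

theorem mp_perm (μ : Measure YS) [SigmaFinite μ] (π : Equiv.Perm (Fin N)) :
    MeasurePreserving (fun w : Fin N → YS => w ∘ π) (pm (Fin N) μ) (pm (Fin N) μ) := by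
  have h := measurePreserving_piCongrLeft (fun _ : Fin N => μ) (π.symm)
  have e : (MeasurableEquiv.piCongrLeft (fun _ : Fin N => YS) π.symm : (Fin N → YS) → (Fin N → YS)) =
      fun w => w ∘ π := by
    funext w l
    have := Equiv.piCongrLeft_apply_apply (P := fun _ : Fin N => YS) π.symm w (π l)
    rw [Equiv.symm_apply_apply] at this
    exact this
  rw [e] at h
  exact h

theorem toY_perm {ψ : Wave N} (hψ : IsTestState ψ) (π : Equiv.Perm (Fin N)) (w : Fin N → YS) :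
    toY ψ (w ∘ π) = ((Equiv.Perm.sign π : ℤ) : ℂ) * toY ψ w :=
  hψ.antisymm π (fun i => (w i).1) (fun i => (w i).2)

section
variable {A : Type} [DecidableEq A] {D : WSp YS} (F : Fam D (A × Fin 2))

theorem coef_perm {ψ : Wave N} (hψ : IsTestState ψ) (π : Equiv.Perm (Fin N))
    (I : Fin N → A × Fin 2) :
    F.coef (fun i => I (π i)) (toY ψ) = ((Equiv.Perm.sign π : ℤ) : ℂ) * F.coef I (toY ψ) := by
  unfold Fam.coef
  have h := mp_perm D.μ π
  have hemb : MeasurableEmbedding (fun w : Fin N → YS => w ∘ π) := by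
    have := (MeasurableEquiv.piCongrLeft (fun _ : Fin N => YS) π.symm).measurableEmbedding
    have e : (MeasurableEquiv.piCongrLeft (fun _ : Fin N => YS) π.symm :
        (Fin N → YS) → (Fin N → YS)) = fun w => w ∘ π := by
      funext w l
      have := Equiv.piCongrLeft_apply_apply (P := fun _ : Fin N => YS) π.symm w (π l)
      rw [Equiv.symm_apply_apply] at this
      exact this
    rwa [e] at this
  rw [← h.integral_comp hemb, ← integral_const_mul]
  refine integral_congr_ae (Filter.Eventually.of_forall fun w => ?_)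
  simp only
  rw [toY_perm hψ]
  have e : F.po (fun i => I (π i)) (w ∘ π) = F.po I w := by
    unfold Fam.po
    exact Equiv.prod_comp π (fun l => F.θ (I l) (w l))
  rw [e]
  ring

end

/-! ### the reference energy -/

section ref

variable {n : ℕ} {C O : Type} [Fintype C] [DecidableEq C] [Fintype O] [DecidableEq O]
  (B : ShellBasis n (C ⊕ O)) (hC : ∀ c, B.lev (Sum.inl c) < n) (hO : ∀ o, B.lev (Sum.inr o) = n)

include hO in
theorem closed_card {k : ℕ} (hk : 1 ≤ k) (hkn : k < n) :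
    (univ.filter (fun c : C => B.lev (Sum.inl c) = k)).card = k ^ 2 := by
  rw [← B.card k hk hkn.le]
  refine Finset.card_bij (fun c _ => Sum.inl c) ?_ ?_ ?_
  · intro c hc
    simpa only [mem_filter, mem_univ, true_and] using hc
  · intro c _ c' _ h
    exact Sum.inl_injective h
  · intro a ha
    simp only [Finset.mem_filter, Finset.mem_univ, true_and] at ha
    cases a with
    | inl c => exact ⟨c, by simpa only [mem_filter, mem_univ, true_and] using ha, rfl⟩
    | inr o =>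
      have := hO o
      omega

include hC hO in
theorem closed_sum (hn : 1 ≤ n) :
    ∑ c : C, 1 / (B.lev (Sum.inl c) : ℝ) ^ 2 = (n : ℝ) - 1 := by
  have h1 : ∀ c ∈ (univ : Finset C), B.lev (Sum.inl c) ∈ Finset.Icc 1 (n - 1) := by
    intro c _
    have h1 := B.lev_pos (Sum.inl c)
    have h2 := hC c
    rw [Finset.mem_Icc]
    (clear * - hn h1 h2; omega)
  rw [← Finset.sum_fiberwise_of_maps_to h1]
  have h2 : ∀ k ∈ Finset.Icc 1 (n - 1), ∑ c ∈ univ.filter (fun c : C => B.lev (Sum.inl c) = k),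
      1 / (B.lev (Sum.inl c) : ℝ) ^ 2 = 1 := by
    intro k hk
    rw [Finset.mem_Icc] at hk
    have h3 : ∑ c ∈ univ.filter (fun c : C => B.lev (Sum.inl c) = k),
        1 / (B.lev (Sum.inl c) : ℝ) ^ 2 =
        ∑ c ∈ univ.filter (fun c : C => B.lev (Sum.inl c) = k), 1 / (k : ℝ) ^ 2 := by
      refine Finset.sum_congr rfl fun c hc => ?_
      rw [Finset.mem_filter] at hc
      rw [hc.2]
    rw [h3, Finset.sum_const, closed_card B hO hk.1 (by omega), nsmul_eq_mul]
    have : (k : ℝ) ≠ 0 := by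
      have := hk.1
      (clear * - this; positivity)
    push_cast
    field_simp
  rw [Finset.sum_congr rfl h2]
  simp only [Finset.sum_const, Nat.card_Icc, nsmul_eq_mul, mul_one]
  rw [show n - 1 + 1 - 1 = n - 1 by omega, Nat.cast_sub hn, Nat.cast_one]

/-- closed spin orbitals -/
def ClS (C O : Type) [Fintype C] [DecidableEq C] [DecidableEq O] : Finset ((C ⊕ O) × Fin 2) :=
  (univ : Finset (C × Fin 2)).map ⟨fun p => (Sum.inl p.1, p.2), by
    intro p q h
    simp only [Prod.mk.injEq, Sum.inl.injEq] at h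
    exact Prod.ext h.1 h.2⟩

omit [Fintype O] in
theorem mem_ClS (b : (C ⊕ O) × Fin 2) : b ∈ ClS C O ↔ ∃ c, b.1 = Sum.inl c := by
  unfold ClS
  simp only [mem_map, mem_univ, true_and, Prod.exists]
  constructor
  · rintro ⟨c, σ, rfl⟩
    exact ⟨c, rfl⟩
  · rintro ⟨c, h⟩
    exact ⟨c, b.2, Prod.ext h.symm rfl⟩

omit [Fintype O] in
theorem card_ClS : (ClS C O).card = 2 * Fintype.card C := by
  unfold ClS
  rw [Finset.card_map, Finset.card_univ, Fintype.card_prod, Fintype.card_fin, mul_comm]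

include hC hO in
theorem sum_eb_ClS (hn : 1 ≤ n) : ∑ b ∈ ClS C O, eb B b = -((n : ℝ) - 1) := by
  unfold ClS
  rw [Finset.sum_map, Fintype.sum_prod_type]
  rw [← closed_sum B hC hO hn, ← Finset.sum_neg_distrib]
  refine Finset.sum_congr rfl fun c _ => ?_
  rw [Fin.sum_univ_two]
  show -(1 / (2 * (B.lev (Sum.inl c) : ℝ) ^ 2)) + -(1 / (2 * (B.lev (Sum.inl c) : ℝ) ^ 2)) =
    -(1 / (B.lev (Sum.inl c) : ℝ) ^ 2)
  have : (B.lev (Sum.inl c) : ℝ) ≠ 0 := by
    have := B.lev_pos (Sum.inl c)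
    positivity
  field_simp
  ring

end ref

/-! ### the energy functional -/

section energy

variable {m : ℕ} (wt : Fin m → ℝ) (y : Fin m → R3)

theorem Wp_test_integrable {ψ : Wave N} (hψ : IsTestState ψ) (s : Fin N → Fin 2) :
    Integrable (fun x : Fin N → R3 => ‖ψ x s‖ ^ 2 * Wp wt y (jn x s)) ∧
    Measurable (fun x : Fin N → R3 => ‖ψ x s‖ ^ 2 * Wp wt y (jn x s)) := by
  have hs1 := (hψ.smooth s).of_le (m := 1) (by exact_mod_cast le_top)
  have hc := hψ.compactSupport s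
  have h1 : ∀ i (c : R3), Integrable (fun x : Fin N → R3 => ‖ψ x s‖ ^ 2 * (1 / dist (x i) c)) := by
    intro i c
    refine (integrable_nuc (fun x => ψ x s) hs1 hc i c).congr
      (Filter.Eventually.of_forall fun x => ?_)
    simp only
    ring
  have h2 : ∀ i j : Fin N, i ≠ j →
      Integrable (fun x : Fin N → R3 => ‖ψ x s‖ ^ 2 * (1 / dist (x i) (x j))) := by
    intro i j hij
    refine (integrable_ee (fun x => ψ x s) hs1 hc i j hij).congr
      (Filter.Eventually.of_forall fun x => ?_)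
    simp only
    ring
  have e : ∀ x : Fin N → R3, ‖ψ x s‖ ^ 2 * Wp wt y (jn x s) =
      (∑ i, ∑ j ∈ Ioi i, ‖ψ x s‖ ^ 2 * (1 / dist (x i) (x j))) +
      ∑ i, ∑ b, wt b * (‖ψ x s‖ ^ 2 * (1 / dist (x i) 0) - ‖ψ x s‖ ^ 2 * (1 / dist (x i) (y b))) := by
    intro x
    unfold Wp jn
    rw [mul_add, Finset.mul_sum, Finset.mul_sum]
    congr 1
    · refine Finset.sum_congr rfl fun i _ => ?_
      rw [Finset.mul_sum]
    · refine Finset.sum_congr rfl fun i _ => ?_
      rw [Finset.mul_sum]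
      refine Finset.sum_congr rfl fun b _ => ?_
      simp only [dist_zero_right]
      ring
  simp only [e]
  constructor
  · refine (integrable_finsetSum _ fun i _ => integrable_finsetSum _ fun j hj =>
      h2 i j (Finset.mem_Ioi.1 hj).ne).add ?_
    exact integrable_finsetSum _ fun i _ => integrable_finsetSum _ fun b _ =>
      ((h1 i 0).sub (h1 i (y b))).const_mul _
  · have hm : Measurable (fun x : Fin N → R3 => ‖ψ x s‖ ^ 2) :=
      (hψ.smooth s).continuous.measurable.norm.pow_const 2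
    refine Measurable.add ?_ ?_
    · refine Finset.measurable_fun_sum _ fun i _ => Finset.measurable_fun_sum _ fun j _ => ?_
      exact hm.mul (((measurable_pi_apply i).dist (measurable_pi_apply j)).const_div 1)
    · refine Finset.measurable_fun_sum _ fun i _ => Finset.measurable_fun_sum _ fun b _ => ?_
      refine Measurable.const_mul ?_ _
      refine (hm.mul ?_).sub (hm.mul ?_)
      · exact ((bd_dist_meas 0).comp (measurable_pi_apply i)).const_div 1
      · exact ((bd_dist_meas (y b)).comp (measurable_pi_apply i)).const_div 1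

theorem Wp_int {ψ : Wave N} (hψ : IsTestState ψ) :
    Integrable (fun w => ‖toY ψ w‖ ^ 2 * Wp wt y w) (pm (Fin N) μY) :=
  integrable_pow (F := fun w => ‖toY ψ w‖ ^ 2 * Wp wt y w)
    (fun s => (Wp_test_integrable wt y hψ s).2) fun s => (Wp_test_integrable wt y hψ s).1

theorem scaledE_eq (lam : ℝ) {ψ : Wave N} (hψ : IsTestState ψ) :
    scaledE lam wt y ψ = H0 ψ + lam * ∫ w, ‖toY ψ w‖ ^ 2 * Wp wt y w ∂(pm (Fin N) μY) := by
  have h1 : ∀ i : Fin N, ∀ s, Integrable (fun x : Fin N → R3 => ‖ψ x s‖ ^ 2 / ‖x i‖) := by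
    intro i s
    have h := integrable_nuc (fun x => ψ x s) ((hψ.smooth s).of_le (by exact_mod_cast le_top))
      (hψ.compactSupport s) i 0
    simpa only [dist_zero_right] using h
  have hk : ∀ i s, ∫ x, kd ψ i x s = ∑ k : Fin 3,
      ∫ x, ‖fderiv ℝ (fun y => ψ y s) x (Pi.single i (EuclideanSpace.single k 1))‖ ^ 2 := by
    intro i s
    unfold kd
    refine integral_finsetSum _ fun k _ => ?_
    refine Continuous.integrable_of_hasCompactSupport ?_ ?_
    · have h : Continuous (fderiv ℝ (fun y => ψ y s)) := (hψ.smooth s).continuous_fderiv (by simp)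
      exact ((h.clm_apply continuous_const).norm).pow 2
    · refine ((hψ.compactSupport s).fderiv (𝕜 := ℝ)).mono fun x hx => ?_
      rw [Function.mem_support] at hx ⊢
      intro h0
      apply hx
      rw [h0]
      simp only [zero_apply, norm_zero, ne_eq, OfNat.ofNat_ne_zero, not_false_eq_true, zero_pow]
  have hH : H0 ψ = kinetic ψ - ∑ s, ∑ i, ∫ x, ‖ψ x s‖ ^ 2 / ‖x i‖ := by
    unfold H0 kinetic
    have e1 : ∀ i, ∫ w, ofS (hd ψ i) w ∂(pm (Fin N) μY) =
        ∑ s, ((1 / 2) * (∑ k : Fin 3,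
      ∫ x, ‖fderiv ℝ (fun y => ψ y s) x (Pi.single i (EuclideanSpace.single k 1))‖ ^ 2) -
        ∫ x, ‖ψ x s‖ ^ 2 / ‖x i‖) := by
      intro i
      rw [integral_ofS (ofS_hd_integrable hψ i)]
      refine Finset.sum_congr rfl fun s _ => ?_
      unfold hd
      rw [integral_sub ((kd_integrable hψ i s).const_mul _) (h1 i s), integral_const_mul, hk]
    simp only [e1]
    rw [Finset.sum_comm, Finset.mul_sum, ← Finset.sum_sub_distrib]
    refine Finset.sum_congr rfl fun s _ => ?_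
    rw [Finset.sum_sub_distrib, Finset.mul_sum]
  unfold scaledE
  rw [hH, integral_pow (Wp_int wt y hψ), Finset.mul_sum, sub_add, ← Finset.sum_sub_distrib]
  rw [sub_eq_add_neg, ← Finset.sum_neg_distrib]
  congr 1
  refine Finset.sum_congr rfl fun s _ => ?_
  simp only [toY_jn]
  rw [neg_sub, ← integral_finsetSum _ fun i _ => h1 i s, ← integral_const_mul,
    ← integral_sub ((Wp_test_integrable wt y hψ s).1.const_mul _)
      (integrable_finsetSum _ fun i _ => h1 i s)]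
  refine integral_congr_ae (Filter.Eventually.of_forall fun x => ?_)
  simp only
  unfold scaledV Wp jn
  simp only
  have e3 : ∑ i, ‖ψ x s‖ ^ 2 / ‖x i‖ = ‖ψ x s‖ ^ 2 * ∑ i, 1 / ‖x i‖ := by
    rw [Finset.mul_sum]
    exact Finset.sum_congr rfl fun i _ => by ring
  rw [e3]
  ring

end energy

/-! ### truncated perturbation -/

section trunc

variable {m : ℕ} (wt : Fin m → ℝ) (y : Fin m → R3) (r : ℝ)

/-- truncated inverse distance -/
noncomputable def mr (r t : ℝ) : ℝ := 1 / t - sr r t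

noncomputable def Wr (w : Fin N → YS) : ℝ :=
  (∑ i, ∑ j ∈ Ioi i, mr r (dist (w i).1 (w j).1)) +
    ∑ i, ∑ b, wt b * (mr r (dist (w i).1 0) - mr r (dist (w i).1 (y b)))

theorem mr_measurable : Measurable (mr r) :=
  (measurable_id.const_div 1).sub (sr_measurable r)

theorem Wr_measurable : Measurable (Wr wt y r : (Fin N → YS) → ℝ) := by
  unfold Wr
  refine Measurable.add ?_ ?_
  · refine Finset.measurable_fun_sum _ fun i _ => Finset.measurable_fun_sum _ fun j _ => ?_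
    exact (mr_measurable r).comp ((measurable_fst.comp (measurable_pi_apply i)).dist
      (measurable_fst.comp (measurable_pi_apply j)))
  · refine Finset.measurable_fun_sum _ fun i _ => Finset.measurable_fun_sum _ fun b _ => ?_
    refine Measurable.const_mul (Measurable.sub ?_ ?_) _
    · exact (mr_measurable r).comp ((bd_dist_meas 0).comp
        (measurable_fst.comp (measurable_pi_apply i)))
    · exact (mr_measurable r).comp ((bd_dist_meas (y b)).comp
        (measurable_fst.comp (measurable_pi_apply i)))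

variable {r} (hr : 0 < r) (hwt : ∀ b, 0 ≤ wt b)

theorem mr_bounds (hr : 0 < r) {t : ℝ} (ht : 0 ≤ t) : 0 ≤ mr r t ∧ mr r t ≤ 1 / r := sr_eq hr ht

include hr hwt in
theorem Wr_bound (w : Fin N → YS) :
    |Wr wt y r w| ≤ (N : ℝ) * (N + ∑ b, wt b) / r := by
  unfold Wr
  have h1 : |∑ i, ∑ j ∈ Ioi i, mr r (dist (w i).1 (w j).1)| ≤ N * (N * (1 / r)) := by
    refine (Finset.abs_sum_le_sum_abs _ _).trans ?_
    have h2 : ∀ i ∈ (univ : Finset (Fin N)), |∑ j ∈ Ioi i, mr r (dist (w i).1 (w j).1)| ≤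
        N * (1 / r) := by
      intro i _
      refine (Finset.abs_sum_le_sum_abs _ _).trans ?_
      have h3 : ∀ j ∈ Ioi i, |mr r (dist (w i).1 (w j).1)| ≤ 1 / r := by
        intro j _
        have := mr_bounds hr (dist_nonneg (x := (w i).1) (y := (w j).1))
        rw [abs_of_nonneg this.1]
        exact this.2
      refine (Finset.sum_le_sum h3).trans ?_
      rw [Finset.sum_const, nsmul_eq_mul]
      have h4 : ((Ioi i).card : ℝ) ≤ N := by
        have := Finset.card_le_univ (Ioi i)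
        rw [Fintype.card_fin] at this
        exact_mod_cast this
      have : 0 ≤ 1 / r := by (clear * - hr; positivity)
      gcongr
    refine (Finset.sum_le_sum h2).trans ?_
    rw [Finset.sum_const, Finset.card_univ, Fintype.card_fin, nsmul_eq_mul]
  have h2 : |∑ i, ∑ b, wt b * (mr r (dist (w i).1 0) - mr r (dist (w i).1 (y b)))| ≤
      N * ((∑ b, wt b) * (1 / r)) := by
    refine (Finset.abs_sum_le_sum_abs _ _).trans ?_
    have h2 : ∀ i ∈ (univ : Finset (Fin N)), |∑ b, wt b *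
        (mr r (dist (w i).1 0) - mr r (dist (w i).1 (y b)))| ≤ (∑ b, wt b) * (1 / r) := by
      intro i _
      refine (Finset.abs_sum_le_sum_abs _ _).trans ?_
      rw [Finset.sum_mul]
      refine Finset.sum_le_sum fun b _ => ?_
      rw [abs_mul, abs_of_nonneg (hwt b)]
      refine mul_le_mul_of_nonneg_left ?_ (hwt b)
      have h3 := mr_bounds hr (dist_nonneg (x := (w i).1) (y := 0))
      have h4 := mr_bounds hr (dist_nonneg (x := (w i).1) (y := y b))
      rw [abs_le]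
      constructor <;> linarith [h3.1, h3.2, h4.1, h4.2]
    refine (Finset.sum_le_sum h2).trans ?_
    rw [Finset.sum_const, Finset.card_univ, Fintype.card_fin, nsmul_eq_mul]
  refine (abs_add_le _ _).trans ((add_le_add h1 h2).trans (le_of_eq ?_))
  field_simp

include hwt in
/-- lower bound by the truncated perturbation -/
theorem Wp_ge (w : Fin N → YS) :
    Wr wt y r w - ∑ i, ∑ b, wt b * sr r (dist (w i).1 (y b)) ≤ Wp wt y w := by
  unfold Wr Wp
  have h1 : ∑ i, ∑ j ∈ Ioi i, mr r (dist (w i).1 (w j).1) ≤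
      ∑ i, ∑ j ∈ Ioi i, 1 / dist (w i).1 (w j).1 := by
    refine Finset.sum_le_sum fun i _ => Finset.sum_le_sum fun j _ => ?_
    unfold mr
    linarith only [sr_nonneg r (dist (w i).1 (w j).1)]
  have h2 : ∑ i, ∑ b, wt b * (mr r (dist (w i).1 0) - mr r (dist (w i).1 (y b))) -
      ∑ i, ∑ b, wt b * sr r (dist (w i).1 (y b)) ≤
      ∑ i, ∑ b, wt b * (1 / ‖(w i).1‖ - 1 / dist (w i).1 (y b)) := by
    rw [← Finset.sum_sub_distrib]
    refine Finset.sum_le_sum fun i _ => ?_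
    rw [← Finset.sum_sub_distrib]
    refine Finset.sum_le_sum fun b _ => ?_
    rw [← mul_sub]
    refine mul_le_mul_of_nonneg_left ?_ (hwt b)
    unfold mr
    rw [dist_zero_right]
    (clear * -; linarith [sr_nonneg r ‖(w i).1‖])
  linarith only [h1, h2]

include hwt in
/-- upper bound of the perturbation by the truncated one -/
theorem Wr_ge (w : Fin N → YS) :
    Wp wt y w - ((∑ i, ∑ j ∈ Ioi i, sr r (dist (w i).1 (w j).1)) +
      ∑ i, ∑ b, wt b * sr r (dist (w i).1 0)) ≤ Wr wt y r w := by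
  unfold Wr Wp
  have h1 : ∑ i, ∑ j ∈ Ioi i, mr r (dist (w i).1 (w j).1) =
      ∑ i, ∑ j ∈ Ioi i, 1 / dist (w i).1 (w j).1 -
      ∑ i, ∑ j ∈ Ioi i, sr r (dist (w i).1 (w j).1) := by
    rw [← Finset.sum_sub_distrib]
    refine Finset.sum_congr rfl fun i _ => ?_
    rw [← Finset.sum_sub_distrib]
    rfl
  have h2 : ∑ i, ∑ b, wt b * (1 / ‖(w i).1‖ - 1 / dist (w i).1 (y b)) -
      ∑ i, ∑ b, wt b * sr r (dist (w i).1 0) ≤
      ∑ i, ∑ b, wt b * (mr r (dist (w i).1 0) - mr r (dist (w i).1 (y b))) := by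
    rw [← Finset.sum_sub_distrib]
    refine Finset.sum_le_sum fun i _ => ?_
    rw [← Finset.sum_sub_distrib]
    refine Finset.sum_le_sum fun b _ => ?_
    rw [← mul_sub]
    refine mul_le_mul_of_nonneg_left ?_ (hwt b)
    unfold mr
    rw [dist_zero_right]
    linarith only [sr_nonneg r (dist (w i).1 (y b))]
  linarith only [h1, h2]

end trunc

end Vale.Agent.P370.NB
end

section

/-!
Correctness of the numerical part of the instance builder: charges and positions.
(The statements about the trigonometric table are hypotheses here.)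
-/

namespace Vale.Agent.P370.Q.Alg.N2

open MeasureTheory Finset Vale.Agent.P370 Vale.Agent.P370.Q Vale.Agent.P370.Q.Alg

/-! ### elementary facts -/

theorem idiv_err (x y : ℤ) (hy : 0 < y) : |((x / y : ℤ) : ℝ) - (x : ℝ) / (y : ℝ)| ≤ 1 := by
  have h1 := Int.emod_nonneg x hy.ne'
  have h2 := Int.emod_lt_of_pos x hy
  have h3 := Int.mul_ediv_add_emod x y
  have hy' : (0 : ℝ) < y := by exact_mod_cast hy
  have h4 : (x : ℝ) = y * ((x / y : ℤ) : ℝ) + ((x % y : ℤ) : ℝ) := by exact_mod_cast h3.symm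
  have h5 : (x : ℝ) / y = ((x / y : ℤ) : ℝ) + ((x % y : ℤ) : ℝ) / y := by
    rw [h4]
    (clear * - hy; field_simp)
  rw [h5]
  have h6 : (0 : ℝ) ≤ ((x % y : ℤ) : ℝ) / y := by
    have : (0 : ℝ) ≤ ((x % y : ℤ) : ℝ) := by exact_mod_cast h1
    (clear * - h1 hy; (clear * - h1 hy; positivity))
  have h7 : ((x % y : ℤ) : ℝ) / y ≤ 1 := by
    rw [div_le_one hy']
    exact_mod_cast h2.le
  rw [abs_le]
  constructor <;> linarith only [h6, h7]

theorem an_ge {k : ℕ} (hk : 1 ≤ k) : 2 ^ 20 ≤ an k := by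
  unfold an
  exact Nat.pow_le_pow_right (by norm_num) (by omega)

theorem an_pos (k : ℕ) : 0 < an k := by unfold an; positivity

theorem two_dvd_an {k : ℕ} (hk : 1 ≤ k) : 2 ∣ an k := by
  unfold an
  exact dvd_pow_self 2 (by omega)

theorem aK_sq_le (k : ℕ) : aK k ^ 2 * 2 ^ (2046 * k) = an k := by
  unfold aK an
  rw [← pow_mul, ← pow_add]
  congr 1
  ring

theorem aXu_eq (k N : ℕ) (hk : 1 ≤ k) (_hN : N ≤ 2 * an k - 1) :
    (aXu k N : ℝ) = Xu (pn k) N (pρ k) := by
  have e1 : pn k = an k := rfl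
  unfold aXu Xu pρ
  rw [e1]
  have h1 : ((2 * an k - 1 - N).factorial) ∣ (2 * an k).factorial :=
    Nat.factorial_dvd_factorial (by omega)
  have h2 : (((2 * an k - 1 - N).factorial : ℕ) : ℝ) ≠ 0 := by (clear * -; positivity)
  push_cast
  rw [Nat.cast_div h1 h2, Nat.cast_div (two_dvd_an hk) (by (clear * -; norm_num))]
  rw [one_div_one_div, ← pow_mul]
  push_cast
  ring

theorem aXu_le (k N : ℕ) (hk : 1 ≤ k) (hN : N ≤ 2 * an k - 1) :
    aXu k N ≤ 2 ^ (40 * an k ^ 3) := by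
  have hn := an_ge hk
  unfold aXu
  generalize an k = n at *
  have hn2 : 2 ≤ n := le_trans (by norm_num) hn
  have b1 : 2 ^ (16 * n ^ 2 * N) ≤ 2 ^ (32 * n ^ 3) := by
    refine Nat.pow_le_pow_right (by norm_num) ?_
    calc 16 * n ^ 2 * N ≤ 16 * n ^ 2 * (2 * n) := Nat.mul_le_mul_left _ (by omega)
      _ = 32 * n ^ 3 := by ring
  have b2 : 2 * N + 1 ≤ 2 ^ (4 * n) := by
    have : 4 * n < 2 ^ (4 * n) := Nat.lt_two_pow_self
    omega
  have b3 : (2 * n).factorial / (2 * n - 1 - N).factorial ≤ 2 ^ (4 * n ^ 2) := by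
    calc (2 * n).factorial / (2 * n - 1 - N).factorial ≤ (2 * n).factorial := Nat.div_le_self _ _
      _ ≤ (2 * n) ^ (2 * n) := Nat.factorial_le_pow _
      _ ≤ (2 ^ (2 * n)) ^ (2 * n) := Nat.pow_le_pow_left Nat.lt_two_pow_self.le _
      _ = 2 ^ (4 * n ^ 2) := by rw [← pow_mul]; congr 1; ring
  have b4 : (n / 2) ^ (N + 1) ≤ 2 ^ (2 * n ^ 2) := by
    calc (n / 2) ^ (N + 1) ≤ (2 ^ n) ^ (N + 1) :=
          Nat.pow_le_pow_left ((Nat.div_le_self _ _).trans Nat.lt_two_pow_self.le) _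
      _ ≤ (2 ^ n) ^ (2 * n) := Nat.pow_le_pow_right (by positivity) (by (clear * - hN hn; omega))
      _ = 2 ^ (2 * n ^ 2) := by rw [← pow_mul]; congr 1; ring
  calc _ ≤ 2 ^ (32 * n ^ 3) * 2 ^ (4 * n) * 2 ^ (4 * n ^ 2) * 2 ^ (2 * n ^ 2) :=
        Nat.mul_le_mul (Nat.mul_le_mul (Nat.mul_le_mul b1 b2) b3) b4
    _ = 2 ^ (32 * n ^ 3 + 4 * n + 4 * n ^ 2 + 2 * n ^ 2) := by rw [← pow_add, ← pow_add, ← pow_add]
    _ ≤ 2 ^ (40 * n ^ 3) := by
        refine Nat.pow_le_pow_right (by norm_num) ?_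
        have h1 : 2 * n ^ 2 ≤ n ^ 3 := by
          calc 2 * n ^ 2 ≤ n * n ^ 2 := Nat.mul_le_mul_right _ hn2
            _ = n ^ 3 := by ring
        have h2 : 2 * n ≤ n ^ 2 := by
          calc 2 * n ≤ n * n := Nat.mul_le_mul_right _ hn2
            _ = n ^ 2 := by ring
        omega

/-! ### powers -/

theorem gp_eq (c s : ℤ) (j : ℕ) :
    (((gp c s j).1 : ℂ) + ((gp c s j).2 : ℂ) * Complex.I) =
      ((c : ℂ) + (s : ℂ) * Complex.I) ^ j := by
  induction j with
  | zero => simp only [gp_zero, Int.cast_one, Int.cast_zero, zero_mul, add_zero, pow_zero]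
  | succ j ih =>
    rw [pow_succ, ← ih]
    simp only [gp_succ]
    push_cast
    linear_combination (-((gp c s j).2 : ℂ) * (s : ℂ)) * Complex.I_sq

theorem gp_re (c s : ℤ) (j : ℕ) :
    ((gp c s j).1 : ℝ) = (((c : ℂ) + (s : ℂ) * Complex.I) ^ j).re := by
  rw [← gp_eq]
  simp only [Complex.add_re, Complex.intCast_re, Complex.mul_re, Complex.I_re, mul_zero, Complex.intCast_im, Complex.I_im, mul_one, sub_self, add_zero]

theorem pow_err (z w : ℂ) (ε : ℝ) (hz : ‖z‖ ≤ 1) (h : ‖w - z‖ ≤ ε) (N : ℕ) :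
    ‖w ^ N - z ^ N‖ ≤ N * ε * (1 + ε) ^ N := by
  have hε : 0 ≤ ε := (norm_nonneg _).trans h
  have hw : ‖w‖ ≤ 1 + ε := by
    calc ‖w‖ = ‖z + (w - z)‖ := by congr 1; ring
      _ ≤ ‖z‖ + ‖w - z‖ := norm_add_le _ _
      _ ≤ 1 + ε := add_le_add hz h
  induction N with
  | zero => simp only [pow_zero, sub_self, norm_zero, CharP.cast_eq_zero, zero_mul, mul_one, Std.le_refl]
  | succ N ih =>
    have e : w ^ (N + 1) - z ^ (N + 1) = w * (w ^ N - z ^ N) + (w - z) * z ^ N := by ring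
    rw [e]
    have h1 : ‖z ^ N‖ ≤ 1 := by rw [norm_pow]; exact pow_le_one₀ (norm_nonneg _) hz
    have h2 : 1 ≤ (1 + ε) ^ (N + 1) := one_le_pow₀ (by linarith only [hε])
    calc ‖w * (w ^ N - z ^ N) + (w - z) * z ^ N‖
        ≤ ‖w * (w ^ N - z ^ N)‖ + ‖(w - z) * z ^ N‖ := norm_add_le _ _
      _ = ‖w‖ * ‖w ^ N - z ^ N‖ + ‖w - z‖ * ‖z ^ N‖ := by rw [norm_mul, norm_mul]
      _ ≤ (1 + ε) * (N * ε * (1 + ε) ^ N) + ε * 1 := by
          refine add_le_add (mul_le_mul hw ih (norm_nonneg _) (by linarith only [hε])) ?_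
          exact mul_le_mul h h1 (norm_nonneg _) hε
      _ ≤ (1 + ε) * (N * ε * (1 + ε) ^ N) + ε * (1 + ε) ^ (N + 1) := by
          have := mul_le_mul_of_nonneg_left h2 hε
          linarith only [this]
      _ = ((N + 1 : ℕ) : ℝ) * ε * (1 + ε) ^ (N + 1) := by push_cast; ring

theorem pow_le_two (ε : ℝ) (hε : 0 ≤ ε) (N : ℕ) (h : N * ε ≤ 1 / 2) (hε1 : ε ≤ 1 / 2) :
    (1 + ε) ^ N ≤ 2 := by
  have h1 : 1 + (N : ℝ) * (-ε) ≤ (1 + -ε) ^ N := one_add_mul_le_pow (by linarith only [hε1]) N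
  have h2 : (1 + ε) ^ N * (1 + -ε) ^ N ≤ 1 := by
    rw [← mul_pow]
    refine pow_le_one₀ (by nlinarith only [hε1, hε]) (by nlinarith only [hε])
  have h3 : 0 ≤ (1 + ε) ^ N := by (clear * - hε; positivity)
  exact le_of_not_gt fun hng => by linarith only [hng, mul_nonneg_of_nonpos_of_nonpos (le_of_lt (Mathlib.Tactic.Linarith.sub_neg_of_lt hng)) (Mathlib.Tactic.Linarith.sub_nonpos_of_le h1), mul_nonneg_of_nonpos_of_nonpos (le_of_lt (Mathlib.Tactic.Linarith.sub_neg_of_lt hng)) (Mathlib.Tactic.Linarith.sub_nonpos_of_le h), h1, h, h2]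

theorem two_pow_big {k : ℕ} (e : ℕ) (he : e + 64 ≤ 512 * an k ^ 3) :
    (2 : ℝ) ^ e * 2 ^ 64 ≤ 2 ^ aQ k := by
  rw [← pow_add]
  exact pow_le_pow_right₀ (by norm_num) (by unfold aQ; omega)

/-- the complex number of a node -/
theorem cdot_node (α : ℝ) (D a b : ℕ) :
    cdot (av α) (node D a b) =
      ((Real.cos (Real.pi * (2 * a + 1) / (2 * D)) : ℝ) : ℂ) +
      ((Real.sin (Real.pi * (2 * a + 1) / (2 * D)) *
        Real.cos (2 * Real.pi * b / D - α) : ℝ) : ℂ) * Complex.I := by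
  unfold cdot av node sp
  rw [Fin.sum_univ_three, Real.cos_sub]
  simp only [Complex.ofReal_cos, Complex.ofReal_sin, Fin.isValue, Matrix.cons_val_zero, Complex.ofReal_mul, Complex.ofReal_div, Complex.ofReal_add, Complex.ofReal_ofNat, Complex.ofReal_natCast, Complex.ofReal_one, Matrix.cons_val_one, Matrix.cons_val, one_mul]
  ring

theorem cdot_node_norm (α : ℝ) (D a b : ℕ) : ‖cdot (av α) (node D a b)‖ ≤ 1 := by
  rw [cdot_node]
  set θ := Real.pi * (2 * a + 1) / (2 * D)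
  set ψ := 2 * Real.pi * b / D - α
  have h1 : ‖((Real.cos θ : ℝ) : ℂ) + ((Real.sin θ * Real.cos ψ : ℝ) : ℂ) * Complex.I‖ ^ 2 ≤ 1 := by
    rw [← Complex.normSq_eq_norm_sq, Complex.normSq_add_mul_I]
    have h2 := Real.sin_sq_add_cos_sq θ
    have h3 := Real.cos_sq_le_one ψ
    have h4 := sq_nonneg (Real.sin θ)
    linarith only [mul_nonneg_of_nonpos_of_nonpos (Mathlib.Tactic.Linarith.sub_nonpos_of_le (sq_nonneg (Real.sin θ))) (Mathlib.Tactic.Linarith.sub_nonpos_of_le h3), h2]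
  have h2 := norm_nonneg (((Real.cos θ : ℝ) : ℂ) + ((Real.sin θ * Real.cos ψ : ℝ) : ℂ) * Complex.I)
  nlinarith only [h1]

/-- error of the cosine table -/
def HCs (k : ℕ) : Prop := ∀ j, j ≤ 4 * aD k ^ 2 →
  |(cs k j : ℝ) - 2 ^ aQ k * Real.cos (Real.pi * j / (2 * aD k))| ≤ 2

/-- error of the sine table -/
def HSn (k : ℕ) : Prop := ∀ j, j ≤ 4 * aD k ^ 2 →
  |(sn k j : ℝ) - 2 ^ aQ k * Real.sin (Real.pi * j / (2 * aD k))| ≤ 2

theorem aD_pos (k : ℕ) : 0 < aD k := by unfold aD an; positivity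

theorem le_aD (k : ℕ) : 16 ≤ aD k := by
  unfold aD
  have := an_pos k
  omega

theorem S_big {k : ℕ} (hk : 1 ≤ k) : (an k : ℝ) * 2 ^ 64 ≤ 2 ^ aQ k := by
  have hn := an_pos k
  have h1 : an k + 64 ≤ 512 * an k ^ 3 := by
    have h2 := an_ge hk
    have h3 : an k ≤ an k ^ 3 := Nat.le_self_pow (by norm_num) _
    (clear * - h2 h3; omega)
  refine le_trans ?_ (two_pow_big (an k) h1)
  have : (an k : ℝ) ≤ 2 ^ an k := by exact_mod_cast Nat.lt_two_pow_self.le
  gcongr

/-- product of two table values -/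
theorem prod_err (x y : ℤ) (Q : ℕ) (u v : ℝ) (hu : |u| ≤ 1) (hv : |v| ≤ 1)
    (hx : |(x : ℝ) - 2 ^ Q * u| ≤ 2) (hy : |(y : ℝ) - 2 ^ Q * v| ≤ 2)
    (hS : (4 : ℝ) ≤ 2 ^ Q) : |((x * y / 2 ^ Q : ℤ) : ℝ) - 2 ^ Q * (u * v)| ≤ 6 := by
  have h1 := idiv_err (x * y) (2 ^ Q) (by positivity)
  push_cast at h1
  set S : ℝ := 2 ^ Q with hSd
  have hS0 : 0 < S := by positivity
  have h2 : |(x : ℝ) * y / S - S * (u * v)| ≤ 5 := by
    have e : (x : ℝ) * y / S - S * (u * v) = ((x - S * u) * y + S * u * (y - S * v)) / S := by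
      field_simp
      ring
    rw [e, abs_div, abs_of_pos hS0, div_le_iff₀ hS0]
    have h3 : |(y : ℝ)| ≤ S + 2 := by
      have h4 : |S * v| ≤ S := by
        rw [abs_mul, abs_of_pos hS0]
        nlinarith only [hv, hS]
      have h5 : (y : ℝ) = (y - S * v) + S * v := by ring
      rw [h5]
      refine (abs_add_le _ _).trans ?_
      linarith only [hy, h4]
    calc |(x - S * u) * (y : ℝ) + S * u * (y - S * v)|
        ≤ |(x - S * u) * (y : ℝ)| + |S * u * (y - S * v)| := abs_add_le _ _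
      _ = |x - S * u| * |(y : ℝ)| + S * |u| * |y - S * v| := by
          rw [abs_mul, abs_mul, abs_mul, abs_of_pos hS0]
      _ ≤ 2 * (S + 2) + S * 1 * 2 := by
          refine add_le_add (mul_le_mul hx h3 (abs_nonneg _) (by norm_num)) ?_
          refine mul_le_mul (mul_le_mul_of_nonneg_left hu hS0.le) hy (abs_nonneg _) (by positivity)
      _ ≤ 5 * S := by linarith only [hS]
  calc |((x * y / 2 ^ Q : ℤ) : ℝ) - S * (u * v)|
      = |(((x * y / 2 ^ Q : ℤ) : ℝ) - (x : ℝ) * y / S) + ((x : ℝ) * y / S - S * (u * v))| := by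
        congr 1; ring
    _ ≤ _ := abs_add_le _ _
    _ ≤ 1 + 5 := add_le_add h1 h2
    _ = 6 := by norm_num

theorem gre_err (k a b g N : ℕ) (hk : 1 ≤ k) (hcs : HCs k) (hsn : HSn k) (ha : a < aD k)
    (hb : b < aD k) (hg : g ≤ 4 * aD k) (hN : N ≤ 2 * an k) :
    |(gre k a b g N : ℝ) / 2 ^ (aQ k * N) -
      (cdot (av (Real.pi * g / (2 * aD k))) (node (pD k) a b) ^ N).re| ≤ 16 * N / 2 ^ aQ k := by
  have eD : pD k = aD k := rfl
  rw [eD]
  have hDpos := aD_pos k
  have hD16 := le_aD k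
  have hDr : (0 : ℝ) < aD k := by exact_mod_cast hDpos
  have hS := S_big hk
  have hn1 : (1 : ℝ) ≤ an k := by exact_mod_cast an_pos k
  set S : ℝ := 2 ^ aQ k with hSd
  have hS64 : (2 : ℝ) ^ 64 ≤ S := by
    refine le_trans ?_ hS
    linarith only [hn1]
  have hS0 : 0 < S := by positivity
  have j1 : 2 * a + 1 ≤ 4 * aD k ^ 2 := by nlinarith only [ha]
  have j2 : 4 * b + 4 * aD k - g ≤ 4 * aD k ^ 2 := by
    have : 4 * b + 4 * aD k - g ≤ 8 * aD k := by omega
    nlinarith only [hD16, this]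
  have h1 := hcs _ j1
  have h2 := hsn _ j1
  have h3 := hcs _ j2
  set θ := Real.pi * (2 * a + 1) / (2 * aD k) with hθ
  set ψ := 2 * Real.pi * b / aD k - Real.pi * g / (2 * aD k) with hψ
  have e1 : Real.pi * ((2 * a + 1 : ℕ) : ℝ) / (2 * aD k) = θ := by rw [hθ]; push_cast; ring
  have e2 : Real.cos (Real.pi * ((4 * b + 4 * aD k - g : ℕ) : ℝ) / (2 * aD k)) = Real.cos ψ := by
    have : Real.pi * ((4 * b + 4 * aD k - g : ℕ) : ℝ) / (2 * aD k) = ψ + 2 * Real.pi := by
      rw [Nat.cast_sub (by omega), hψ]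
      push_cast
      field_simp
      ring
    rw [this, Real.cos_add_two_pi]
  rw [e1] at h1 h2
  rw [e2] at h3
  set c' := cs k (2 * a + 1) with hc'
  set s1 := sn k (2 * a + 1)
  set c2 := cs k (4 * b + 4 * aD k - g)
  have h4 := prod_err s1 c2 (aQ k) (Real.sin θ) (Real.cos ψ) (Real.abs_sin_le_one _)
    (Real.abs_cos_le_one _) h2 h3 (le_trans (by norm_num) hS64)
  set s' := s1 * c2 / 2 ^ aQ k with hs'
  have e3 : (gre k a b g N : ℝ) = (((c' : ℂ) + (s' : ℂ) * Complex.I) ^ N).re := by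
    rw [← gp_re]
    rfl
  set z : ℂ := ((Real.cos θ : ℝ) : ℂ) + ((Real.sin θ * Real.cos ψ : ℝ) : ℂ) * Complex.I with hz
  set w : ℂ := ((c' : ℂ) + (s' : ℂ) * Complex.I) / (S : ℂ) with hw
  have e4 : (gre k a b g N : ℝ) / 2 ^ (aQ k * N) = (w ^ N).re := by
    rw [e3, hw, div_pow, pow_mul, ← hSd, ← Complex.ofReal_pow, Complex.div_ofReal_re]
  have e5 : cdot (av (Real.pi * g / (2 * aD k))) (node (aD k) a b) = z := by
    rw [cdot_node]
  rw [e4, e5, ← Complex.sub_re]
  have hz1 : ‖z‖ ≤ 1 := by rw [← e5]; exact cdot_node_norm _ _ _ _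
  have hwz : ‖w - z‖ ≤ 8 / S := by
    have e6 : w - z = (((c' : ℝ) - S * Real.cos θ : ℝ) : ℂ) / S +
        (((s' : ℝ) - S * (Real.sin θ * Real.cos ψ) : ℝ) : ℂ) / S * Complex.I := by
      rw [hw, hz]
      have : (S : ℂ) ≠ 0 := by exact_mod_cast hS0.ne'
      push_cast
      field_simp
      ring
    rw [e6]
    refine (norm_add_le _ _).trans ?_
    rw [norm_mul, Complex.norm_I, mul_one, norm_div, norm_div, Complex.norm_real,
      Complex.norm_real, Complex.norm_real, Real.norm_eq_abs, Real.norm_eq_abs, Real.norm_eq_abs,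
      abs_of_pos hS0, ← add_div]
    gcongr
    linarith only [h1, h4]
  have hNn : (N : ℝ) ≤ 2 * an k := by exact_mod_cast hN
  have hε1 : 8 / S ≤ 1 / 2 := by
    rw [div_le_div_iff₀ hS0 (by norm_num)]
    linarith only [hn1, hS]
  have hε2 : (N : ℝ) * (8 / S) ≤ 1 / 2 := by
    rw [mul_div_assoc', div_le_div_iff₀ hS0 (by norm_num)]
    linarith only [hS, hNn]
  calc |(w ^ N - z ^ N).re| ≤ ‖w ^ N - z ^ N‖ := Complex.abs_re_le_norm _
    _ ≤ N * (8 / S) * (1 + 8 / S) ^ N := pow_err z w _ hz1 hwz N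
    _ ≤ N * (8 / S) * 2 := by
        refine mul_le_mul_of_nonneg_left (pow_le_two _ (by (clear * -; positivity)) N hε2 hε1) (by (clear * -; (clear * -; positivity)))
    _ = 16 * N / S := by ring

/-! ### devices -/

theorem list_sum (f : ℕ → ℤ) (n : ℕ) : ((List.range n).map f).sum = ∑ i ∈ range n, f i := by
  induction n with
  | zero => simp
  | succ n ih => rw [List.range_succ, List.map_append, List.sum_append, ih, Finset.sum_range_succ]; simp

theorem re_le_one (α : ℝ) (D a b N : ℕ) : |(cdot (av α) (node D a b) ^ N).re| ≤ 1 := by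
  refine (Complex.abs_re_le_norm _).trans ?_
  rw [norm_pow]
  exact pow_le_one₀ (norm_nonneg _) (cdot_node_norm _ _ _ _)

theorem dterm_err (k a b g N amp : ℕ) (hk : 1 ≤ k) (hcs : HCs k) (hsn : HSn k) (ha : a < aD k)
    (hb : b < aD k) (hg : g ≤ 4 * aD k) (hN : N ≤ 2 * an k) (hamp : amp ≤ 2 ^ (50 * an k ^ 3)) :
    |(dterm k a b g N amp : ℝ) -
      amp * (cdot (av (Real.pi * g / (2 * aD k))) (node (pD k) a b) ^ N).re| ≤ 2 := by
  have h1 := idiv_err ((amp : ℤ) * gre k a b g N) (2 ^ (aQ k * N)) (by (clear * -; positivity))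
  have h2 := gre_err k a b g N hk hcs hsn ha hb hg hN
  push_cast at h1
  have hn := an_ge hk
  have h3 : (2 : ℝ) ^ (50 * an k ^ 3 + an k) * 2 ^ 64 ≤ 2 ^ aQ k := by
    refine two_pow_big _ ?_
    have h3 : an k ≤ an k ^ 3 := Nat.le_self_pow (by norm_num) _
    omega
  set S : ℝ := 2 ^ aQ k with hSd
  have hS0 : 0 < S := by positivity
  have hampr : (amp : ℝ) ≤ 2 ^ (50 * an k ^ 3) := by exact_mod_cast hamp
  have hNn : (N : ℝ) ≤ 2 * an k := by exact_mod_cast hN
  have hnn : (an k : ℝ) ≤ 2 ^ an k := by exact_mod_cast Nat.lt_two_pow_self.le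
  have h4 : (amp : ℝ) * (16 * N / S) ≤ 1 := by
    rw [mul_div_assoc', div_le_one hS0]
    calc (amp : ℝ) * (16 * N) ≤ 2 ^ (50 * an k ^ 3) * (16 * (2 * 2 ^ an k)) := by
          gcongr
          linarith only [hNn, hnn]
      _ = 2 ^ (50 * an k ^ 3 + an k) * 32 := by rw [pow_add]; ring
      _ ≤ 2 ^ (50 * an k ^ 3 + an k) * 2 ^ 64 := by gcongr; norm_num
      _ ≤ S := h3
  set r := (cdot (av (Real.pi * g / (2 * aD k))) (node (pD k) a b) ^ N).re with hr
  have h5 : |(amp : ℝ) * gre k a b g N / 2 ^ (aQ k * N) - amp * r| ≤ 1 := by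
    rw [mul_div_assoc, ← mul_sub, abs_mul, abs_of_nonneg (Nat.cast_nonneg amp)]
    refine le_trans (mul_le_mul_of_nonneg_left h2 (Nat.cast_nonneg amp)) h4
  have e : (dterm k a b g N amp : ℝ) - amp * r =
      ((dterm k a b g N amp : ℝ) - (amp : ℝ) * gre k a b g N / 2 ^ (aQ k * N)) +
      ((amp : ℝ) * gre k a b g N / 2 ^ (aQ k * N) - amp * r) := by ring
  rw [e]
  refine (abs_add_le _ _).trans ?_
  have h6 : |(dterm k a b g N amp : ℝ) - (amp : ℝ) * gre k a b g N / 2 ^ (aQ k * N)| ≤ 1 := h1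
  linarith only [h5, h6]

/-- sums with termwise errors -/
theorem sum_err (m : ℕ) (f g : ℕ → ℝ) (c : ℝ) (h : ∀ i < m, |f i - g i| ≤ c) :
    |∑ i ∈ range m, f i - ∑ i ∈ range m, g i| ≤ m * c := by
  rw [← Finset.sum_sub_distrib]
  refine (Finset.abs_sum_le_sum_abs _ _).trans ?_
  calc ∑ i ∈ range m, |f i - g i| ≤ ∑ i ∈ range m, c :=
        Finset.sum_le_sum fun i hi => h i (Finset.mem_range.1 hi)
    _ = m * c := by rw [Finset.sum_const, Finset.card_range, nsmul_eq_mul]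

theorem sum_abs_le (m : ℕ) (f : ℕ → ℝ) (c : ℝ) (h : ∀ i < m, |f i| ≤ c) :
    |∑ i ∈ range m, f i| ≤ m * c := by
  have := sum_err m f (fun _ => 0) c (by simpa only [sub_zero] using h)
  simpa only [ge_iff_le, sum_const_zero, sub_zero] using this

/-- top devices, exact -/
noncomputable def topR (k a b : ℕ) : ℝ :=
  ∑ i ∈ range (pK k), pL k * Xu (pn k) (2 * (pn k - 1)) (pρ k) *
      (cdot (av (pα k i)) (node (pD k) a b) ^ (2 * (pn k - 1))).re

/-- hopping devices, exact -/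
noncomputable def hopR (k : ℕ) (q : ℕ → ℕ) (s : ℕ → ℕ → ℕ) (a b : ℕ) : ℝ :=
  ∑ j ∈ range (pK k), ∑ i ∈ range j, (s i j : ℝ) * pη k * Xu (pn k) (2 * q (j - i)) (pρ k) *
      (cdot (av ((pα k i + pα k j) / 2)) (node (pD k) a b) ^ (2 * q (j - i))).re

theorem amp_top_eq (k : ℕ) (hk : 1 ≤ k) :
    ((2 ^ (an k / (4 * aK k ^ 2)) * aXu k (2 * (an k - 1)) : ℕ) : ℝ) =
      pL k * Xu (pn k) (2 * (pn k - 1)) (pρ k) := by
  have e1 : pn k = an k := rfl
  have e2 : pK k = aK k := rfl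
  push_cast
  rw [aXu_eq k _ hk (by omega)]
  unfold pL
  rw [e1, e2]

theorem amp_top_le (k : ℕ) (hk : 1 ≤ k) :
    2 ^ (an k / (4 * aK k ^ 2)) * aXu k (2 * (an k - 1)) ≤ 2 ^ (50 * an k ^ 3) := by
  have h1 := aXu_le k (2 * (an k - 1)) hk (by (clear * -; omega))
  have hn := an_ge hk
  have h3 : an k ≤ an k ^ 3 := Nat.le_self_pow (by norm_num) _
  calc 2 ^ (an k / (4 * aK k ^ 2)) * aXu k (2 * (an k - 1))
      ≤ 2 ^ an k * 2 ^ (40 * an k ^ 3) :=
        Nat.mul_le_mul (Nat.pow_le_pow_right (by norm_num) (Nat.div_le_self _ _)) h1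
    _ = 2 ^ (an k + 40 * an k ^ 3) := by rw [pow_add]
    _ ≤ 2 ^ (50 * an k ^ 3) := Nat.pow_le_pow_right (by norm_num) (by omega)

theorem topSum_err (k a b : ℕ) (hk : 1 ≤ k) (hcs : HCs k) (hsn : HSn k) (ha : a < aD k)
    (hb : b < aD k) :
    |(topSum k a b : ℝ) - topR k a b| ≤ aK k * 2 ∧
      |topR k a b| ≤ aK k * 2 ^ (50 * an k ^ 3) := by
  have hKr : (aK k : ℝ) ≠ 0 := by unfold aK; (clear * -; positivity)
  constructor
  · unfold topSum topR
    rw [list_sum]
    push_cast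
    have e2 : pK k = aK k := rfl
    rw [e2]
    refine sum_err _ _ _ _ fun i hi => ?_
    have hg : i * 2 ^ (2047 * k + 5) ≤ 4 * aD k := by
      have h1 : i * 2 ^ (2047 * k + 5) ≤ 2 ^ k * 2 ^ (2047 * k + 5) :=
        Nat.mul_le_mul_right _ (by unfold aK at hi; (clear * - hi; omega))
      have h2 : 2 ^ k * 2 ^ (2047 * k + 5) = 2 * aD k := by
        unfold aD an
        rw [← pow_add, show k + (2047 * k + 5) = 2048 * k + 5 by ring, pow_add]
        ring
      omega
    have h1 := dterm_err k a b (i * 2 ^ (2047 * k + 5)) (2 * (an k - 1))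
      (2 ^ (an k / (4 * aK k ^ 2)) * aXu k (2 * (an k - 1))) hk hcs hsn ha hb hg (by (clear * -; omega))
      (amp_top_le k hk)
    rw [amp_top_eq k hk] at h1
    have e3 : Real.pi * ((i * 2 ^ (2047 * k + 5) : ℕ) : ℝ) / (2 * aD k) = pα k i := by
      unfold pα pK aD an
      push_cast
      rw [show 2047 * k + 5 = 2047 * k + 4 + 1 by ring, show 2048 * k = k + 2047 * k by ring,
        pow_add, pow_add, pow_add]
      have : (2 : ℝ) ^ k ≠ 0 := by positivity
      have : (2 : ℝ) ^ (2047 * k) ≠ 0 := by positivity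
      field_simp
      norm_num
    rw [e3] at h1
    exact h1
  · unfold topR
    refine sum_abs_le _ _ _ fun i _ => ?_
    rw [← amp_top_eq k hk, abs_mul, abs_of_nonneg (Nat.cast_nonneg _)]
    have h1 : ((2 ^ (an k / (4 * aK k ^ 2)) * aXu k (2 * (an k - 1)) : ℕ) : ℝ) ≤
        2 ^ (50 * an k ^ 3) := by exact_mod_cast amp_top_le k hk
    calc _ ≤ ((2 : ℝ) ^ (50 * an k ^ 3)) * 1 :=
          mul_le_mul h1 (re_le_one _ _ _ _ _) (abs_nonneg _) (by positivity)
      _ = _ := mul_one _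

theorem q_range (k : ℕ) (hk : 1 ≤ k) (q : ℕ → ℕ) (hq : GoodQ k q) (d : ℕ) (h1 : 1 ≤ d)
    (h2 : d < aK k) : 1 ≤ q d ∧ q d ≤ an k - 1 := by
  have h3 := hq d h1 h2
  have e1 : pn k = an k := rfl
  have e2 : pK k = aK k := rfl
  rw [e1, e2] at h3
  have hK : (0 : ℝ) < aK k := by unfold aK; (clear * -; positivity)
  have hd : (0 : ℝ) < d := by exact_mod_cast h1
  have hdK : (d : ℝ) + 1 ≤ aK k := by exact_mod_cast h2
  have hn : (2 * aK k + 2 : ℝ) ≤ an k := by
    have h5 := aK_sq_le k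
    have h6 : 2 ≤ aK k := by
      unfold aK
      calc 2 = 2 ^ 1 := by norm_num
        _ ≤ 2 ^ k := Nat.pow_le_pow_right (by norm_num) hk
    have h7 : 4 ≤ 2 ^ (2046 * k) := by
      calc 4 = 2 ^ 2 := by norm_num
        _ ≤ 2 ^ (2046 * k) := Nat.pow_le_pow_right (by norm_num) (by (clear * - hk; omega))
    have h8 : 2 * aK k + 2 ≤ an k := by
      rw [← h5]
      calc 2 * aK k + 2 ≤ aK k ^ 2 * 4 := by nlinarith only [h2]
        _ ≤ aK k ^ 2 * 2 ^ (2046 * k) := Nat.mul_le_mul_left _ h7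
    exact_mod_cast h8
  have hx0 : 0 < Real.pi * d / (2 * aK k) := by (clear * - h1 hK; positivity)
  have hx1 : Real.pi * d / (2 * aK k) ≤ Real.pi / 2 := by
    rw [div_le_div_iff₀ (by (clear * - hK; positivity)) (by norm_num)]
    linarith only [mul_nonneg_of_nonpos_of_nonpos (Mathlib.Tactic.Linarith.sub_nonpos_of_le hdK) (le_of_lt (Mathlib.Tactic.Linarith.sub_neg_of_lt Real.pi_pos)), Real.pi_pos]
  have hc1 : Real.cos (Real.pi * d / (2 * aK k)) < 1 := by
    have := Real.cos_lt_cos_of_nonneg_of_le_pi_div_two le_rfl hx1 hx0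
    rwa [Real.cos_zero] at this
  have hc2 := Real.one_sub_mul_le_cos hx0.le hx1
  have hc3 : 1 / (aK k : ℝ) ≤ Real.cos (Real.pi * d / (2 * aK k)) := by
    refine le_trans ?_ hc2
    have : 1 - 2 / Real.pi * (Real.pi * d / (2 * aK k)) = (aK k - d) / aK k := by
      (clear * - hK; field_simp)
    rw [this]
    gcongr
    linarith only [hdK]
  rw [abs_le] at h3
  have h4 : (0 : ℝ) < q d := by
    have h5 : 1 < ((an k : ℝ) - 1) * (1 / aK k) := by
      rw [mul_one_div, lt_div_iff₀ hK]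
      linarith only [hn]
    have h6 : ((an k : ℝ) - 1) * (1 / aK k) ≤ ((an k : ℝ) - 1) * Real.cos (Real.pi * d / (2 * aK k)) :=
      mul_le_mul_of_nonneg_left hc3 (by linarith only [hn])
    linarith only [h5, h6, h3.1]
  have h5 : (q d : ℝ) < an k := by
    have h6 : ((an k : ℝ) - 1) * Real.cos (Real.pi * d / (2 * aK k)) < ((an k : ℝ) - 1) * 1 :=
      mul_lt_mul_of_pos_left hc1 (by linarith only [hn])
    linarith only [h6, h3.2]
  have h6 : 0 < q d := by exact_mod_cast h4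
  have h7 : q d < an k := by exact_mod_cast h5
  (clear * - e1 h6 h7; omega)

theorem amp_hop (k s q : ℕ) (hk : 1 ≤ k) (hq1 : 1 ≤ q) (hq2 : q ≤ an k - 1)
    (hs : s ≤ 2 ^ (4 * an k)) :
    s * (aXu k (2 * q) / 2 ^ an k) ≤ 2 ^ (50 * an k ^ 3) ∧
    ((s * (aXu k (2 * q) / 2 ^ an k) : ℕ) : ℝ) = s * pη k * Xu (pn k) (2 * q) (pρ k) := by
  have hn := an_ge hk
  have h3 : an k ≤ an k ^ 3 := Nat.le_self_pow (by norm_num) _
  constructor
  · calc s * (aXu k (2 * q) / 2 ^ an k) ≤ 2 ^ (4 * an k) * 2 ^ (40 * an k ^ 3) :=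
          Nat.mul_le_mul hs ((Nat.div_le_self _ _).trans (aXu_le k _ hk (by omega)))
      _ = 2 ^ (4 * an k + 40 * an k ^ 3) := by rw [pow_add]
      _ ≤ 2 ^ (50 * an k ^ 3) := Nat.pow_le_pow_right (by norm_num) (by (clear * - hn h3; omega))
  · have hdvd : 2 ^ an k ∣ aXu k (2 * q) := by
      unfold aXu
      refine Dvd.dvd.mul_right (Dvd.dvd.mul_right (Dvd.dvd.mul_right ?_ _) _) _
      refine pow_dvd_pow 2 ?_
      calc an k ≤ an k ^ 2 := Nat.le_self_pow (by norm_num) _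
        _ ≤ 16 * an k ^ 2 * (2 * q) := by nlinarith only [hq1]
    rw [Nat.cast_mul, Nat.cast_div hdvd (by (clear * -; positivity)), aXu_eq k _ hk (by (clear * - hq2 hn; omega))]
    have e1 : pn k = an k := rfl
    unfold pη
    rw [e1]
    push_cast
    ring

theorem hopSum_err (k : ℕ) (s : List ℕ) (a b : ℕ) (hk : 1 ≤ k) (hcs : HCs k) (hsn : HSn k)
    (hq : GoodQ k (aq k)) (hs : ∀ i j, i < j → j < aK k → sget k s i j ≤ 2 ^ (4 * an k))
    (ha : a < aD k) (hb : b < aD k) :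
    |(hopSum k s a b : ℝ) - hopR k (aq k) (sget k s) a b| ≤ aK k * (aK k * 2) ∧
      |hopR k (aq k) (sget k s) a b| ≤ aK k * (aK k * 2 ^ (50 * an k ^ 3)) := by
  have e2 : pK k = aK k := rfl
  have e1 : pn k = an k := rfl
  constructor
  · unfold hopSum hopR
    simp only [list_sum]
    push_cast
    rw [e2]
    refine sum_err _ _ _ _ fun j hj => ?_
    refine le_trans (sum_err _ _ _ 2 fun i hi => ?_) ?_
    · obtain ⟨hq1, hq2⟩ := q_range k hk (aq k) hq (j - i) (by omega) (by omega)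
      obtain ⟨ha1, ha2⟩ := amp_hop k (sget k s i j) (aq k (j - i)) hk hq1 hq2 (hs i j hi hj)
      have hg : (i + j) * 2 ^ (2047 * k + 4) ≤ 4 * aD k := by
        have h1 : (i + j) * 2 ^ (2047 * k + 4) ≤ (2 * 2 ^ k) * 2 ^ (2047 * k + 4) :=
          Nat.mul_le_mul_right _ (by unfold aK at hj; omega)
        have h2 : (2 * 2 ^ k) * 2 ^ (2047 * k + 4) = 2 * aD k := by
          unfold aD an
          rw [mul_assoc, ← pow_add, show k + (2047 * k + 4) = 2048 * k + 4 by ring, pow_add]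
          ring
        (clear * - h1 h2; omega)
      have h1 := dterm_err k a b ((i + j) * 2 ^ (2047 * k + 4)) (2 * aq k (j - i))
        (sget k s i j * (aXu k (2 * aq k (j - i)) / 2 ^ an k)) hk hcs hsn ha hb hg (by (clear * - hq1 hq2; omega)) ha1
      rw [ha2] at h1
      have e3 : Real.pi * (((i + j) * 2 ^ (2047 * k + 4) : ℕ) : ℝ) / (2 * aD k) =
          (pα k i + pα k j) / 2 := by
        unfold pα pK aD an
        push_cast
        rw [show 2048 * k = k + 2047 * k by ring, pow_add, pow_add]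
        have : (2 : ℝ) ^ k ≠ 0 := by positivity
        have : (2 : ℝ) ^ (2047 * k) ≠ 0 := by positivity
        field_simp
        norm_num
      rw [e3] at h1
      exact h1
    · have : (j : ℝ) ≤ aK k := by exact_mod_cast hj.le
      linarith only [this]
  · unfold hopR
    rw [e2]
    refine sum_abs_le _ _ _ fun j hj => ?_
    refine le_trans (sum_abs_le _ _ (2 ^ (50 * an k ^ 3)) fun i hi => ?_) ?_
    · obtain ⟨hq1, hq2⟩ := q_range k hk (aq k) hq (j - i) (by omega) (by omega)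
      obtain ⟨ha1, ha2⟩ := amp_hop k (sget k s i j) (aq k (j - i)) hk hq1 hq2 (hs i j hi hj)
      rw [← ha2, abs_mul, abs_of_nonneg (Nat.cast_nonneg _)]
      have h1 : ((sget k s i j * (aXu k (2 * aq k (j - i)) / 2 ^ an k) : ℕ) : ℝ) ≤
          2 ^ (50 * an k ^ 3) := by exact_mod_cast ha1
      calc _ ≤ ((2 : ℝ) ^ (50 * an k ^ 3)) * 1 :=
            mul_le_mul h1 (re_le_one _ _ _ _ _) (abs_nonneg _) (by positivity)
        _ = _ := mul_one _
    · have : (j : ℝ) ≤ aK k := by exact_mod_cast hj.le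
      gcongr

/-! ### Fejér weights -/

theorem sum_Icc_shift (f : ℕ → ℝ) (m : ℕ) : ∑ j ∈ Icc 1 m, f j = ∑ j ∈ range m, f (j + 1) := by
  induction m with
  | zero => simp only [Order.lt_one_iff, Icc_eq_empty_of_lt, sum_empty, range_zero]
  | succ m ih => rw [Finset.sum_Icc_succ_top (by omega), ih, Finset.sum_range_succ]

theorem fejA_err (k a : ℕ) (hcs : HCs k) (ha : a < aD k) :
    |(fejA k a : ℝ) - 2 ^ aQ k * (aD k * fej (aD k) a)| ≤ 2 * aD k := by
  have hD0 := aD_pos k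
  have hDr : (0 : ℝ) < aD k := by exact_mod_cast hD0
  set D := aD k with hD
  set S : ℝ := 2 ^ aQ k with hS
  have e1 : (D : ℝ) * fej D a = 1 - 2 * ∑ j ∈ range (D / 2),
      Real.cos (2 * ((j : ℝ) + 1) * (Real.pi * (2 * a + 1) / (2 * D))) /
        (4 * ((j : ℝ) + 1) ^ 2 - 1) := by
    unfold fej
    rw [sum_Icc_shift, ← mul_assoc, mul_one_div_cancel hDr.ne', one_mul]
    push_cast
    rfl
  have e2 : (fejA k a : ℝ) = S - 2 * ∑ j ∈ range (D / 2),
      ((cs k (2 * (j + 1) * (2 * a + 1)) / (4 * ((j : ℤ) + 1) ^ 2 - 1) : ℤ) : ℝ) := by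
    unfold fejA
    rw [list_sum]
    push_cast
    rfl
  have e3 : (fejA k a : ℝ) - S * (D * fej D a) = -2 * (∑ j ∈ range (D / 2),
      ((cs k (2 * (j + 1) * (2 * a + 1)) / (4 * ((j : ℤ) + 1) ^ 2 - 1) : ℤ) : ℝ) -
      ∑ j ∈ range (D / 2), S * (Real.cos (2 * ((j : ℝ) + 1) * (Real.pi * (2 * a + 1) / (2 * D))) /
        (4 * ((j : ℝ) + 1) ^ 2 - 1))) := by
    rw [e1, e2, ← Finset.mul_sum]
    ring
  have h1 := sum_err (D / 2)
    (fun j => ((cs k (2 * (j + 1) * (2 * a + 1)) / (4 * ((j : ℤ) + 1) ^ 2 - 1) : ℤ) : ℝ))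
    (fun j => S * (Real.cos (2 * ((j : ℝ) + 1) * (Real.pi * (2 * a + 1) / (2 * D))) /
        (4 * ((j : ℝ) + 1) ^ 2 - 1))) 2 (fun j hj => by
      have hpos : (0 : ℤ) < 4 * ((j : ℤ) + 1) ^ 2 - 1 := by
        have : (0 : ℤ) ≤ j := by (clear * -; (clear * -; positivity))
        nlinarith
      have h2 := idiv_err (cs k (2 * (j + 1) * (2 * a + 1))) _ hpos
      have hj' : 2 * (j + 1) * (2 * a + 1) ≤ 4 * D ^ 2 := by
        have h3 : 2 * (j + 1) ≤ D := by omega
        have h4 : 2 * a + 1 ≤ 2 * D := by (clear * - ha; omega)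
        calc 2 * (j + 1) * (2 * a + 1) ≤ D * (2 * D) := Nat.mul_le_mul h3 h4
          _ ≤ 4 * D ^ 2 := by nlinarith only []
      have h3 := hcs _ hj'
      have e4 : Real.pi * ((2 * (j + 1) * (2 * a + 1) : ℕ) : ℝ) / (2 * D) =
          2 * ((j : ℝ) + 1) * (Real.pi * (2 * a + 1) / (2 * D)) := by push_cast; ring
      rw [e4] at h3
      set C := Real.cos (2 * ((j : ℝ) + 1) * (Real.pi * (2 * a + 1) / (2 * D)))
      set x := cs k (2 * (j + 1) * (2 * a + 1))
      push_cast at h2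
      have hm : (3 : ℝ) ≤ 4 * ((j : ℝ) + 1) ^ 2 - 1 := by
        have : (0 : ℝ) ≤ j := by (clear * -; (clear * -; positivity))
        nlinarith
      set m : ℝ := 4 * ((j : ℝ) + 1) ^ 2 - 1 with hmd
      have h4 : |(x : ℝ) / m - S * (C / m)| ≤ 1 := by
        have e5 : (x : ℝ) / m - S * (C / m) = (x - S * C) / m := by ring
        rw [e5, abs_div, abs_of_pos (by linarith only [hm] : (0 : ℝ) < m), div_le_one (by linarith only [hm])]
        exact h3.trans (by linarith only [hm])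
      have e6 : ((x / (4 * ((j : ℤ) + 1) ^ 2 - 1) : ℤ) : ℝ) - S * (C / m) =
          (((x / (4 * ((j : ℤ) + 1) ^ 2 - 1) : ℤ) : ℝ) - x / m) + (x / m - S * (C / m)) := by
        ring
      rw [e6]
      refine (abs_add_le _ _).trans ?_
      linarith only [h2, h4])
  rw [e3, abs_mul]
  have h2 : ((D / 2 : ℕ) : ℝ) ≤ D / 2 := Nat.cast_div_le
  have h3 : |(-2 : ℝ)| = 2 := by norm_num
  rw [h3]
  calc (2 : ℝ) * _ ≤ 2 * (((D / 2 : ℕ) : ℝ) * 2) := mul_le_mul_of_nonneg_left h1 (by norm_num)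
    _ ≤ 2 * D := by linarith only [h2]

theorem even_aD (k : ℕ) : Even (aD k) := by
  unfold aD
  exact ⟨8 * an k, by ring⟩

theorem fej_le_one (k a : ℕ) (ha : a < aD k) : fej (aD k) a ≤ 1 := by
  have h16 := le_aD k
  rw [← fej_sum (aD k) (by omega) (even_aD k)]
  refine Finset.single_le_sum (f := fun i => fej (aD k) i) (fun i hi => ?_) (Finset.mem_range.2 ha)
  refine le_trans ?_ (fej_pos (aD k) (by omega) (even_aD k) i (Finset.mem_range.1 hi))
  (clear * - h16; positivity)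

/-! ### charges -/

theorem wex_eq (k : ℕ) (q : ℕ → ℕ) (s : ℕ → ℕ → ℕ) (a b : ℕ) :
    wex k q s a b = qw (aD k) a * (2 ^ (128 * an k ^ 3) + topR k a b + hopR k q s a b) := rfl

/-- real arithmetic of the charge -/
theorem chg_arith (F f M M' S D K P : ℝ) (hD : 16 ≤ D) (hS : 0 < S)
    (hP : 0 < P) (hf0 : 1 / D ^ 2 ≤ f) (hf1 : f ≤ D)
    (hF : |F - S * f| ≤ 2 * D) (hM : |M - M'| ≤ 4 * K ^ 2) (hM'1 : |M'| ≤ 2 * P)
    (hM'2 : P / 2 ≤ M') (hKD : 16 * K ^ 2 ≤ D) (hSP : 64 * (P + K ^ 2) ≤ S)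
    (hPD : 8 * D ^ 4 ≤ P) :
    |F * M / (S * D ^ 2) - f / D ^ 2 * M'| ≤ 1 ∧ 4 ≤ f / D ^ 2 * M' := by
  have hD0 : 0 < D := by linarith only [hD]
  have hf : 0 < f := lt_of_lt_of_le (by (clear * - hD; positivity)) hf0
  constructor
  · have e : F * M / (S * D ^ 2) - f / D ^ 2 * M' =
        ((F - S * f) * M / S + f * (M - M')) / D ^ 2 := by
      field_simp
      ring
    rw [e, abs_div, abs_of_pos (by positivity : 0 < D ^ 2), div_le_one (by positivity)]
    refine (abs_add_le _ _).trans ?_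
    have hMa : |M| ≤ 2 * P + 4 * K ^ 2 := by
      have : M = (M - M') + M' := by ring
      rw [this]
      refine (abs_add_le _ _).trans ?_
      linarith only [hM, hM'1]
    have h1 : |(F - S * f) * M / S| ≤ 2 * D * (2 * P + 4 * K ^ 2) / S := by
      rw [abs_div, abs_mul, abs_of_pos hS]
      gcongr
    have h2 : 2 * D * (2 * P + 4 * K ^ 2) / S ≤ D := by
      rw [div_le_iff₀ hS]
      nlinarith only [hP, hSP, hD]
    have h3 : |f * (M - M')| ≤ D * (4 * K ^ 2) := by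
      rw [abs_mul, abs_of_pos hf]
      gcongr
    linarith only [hD, hKD, h3, h2, h1, mul_nonneg_of_nonpos_of_nonpos (Mathlib.Tactic.Linarith.sub_nonpos_of_le hD) (Mathlib.Tactic.Linarith.sub_nonpos_of_le hKD), mul_nonneg_of_nonpos_of_nonpos (Mathlib.Tactic.Linarith.sub_nonpos_of_le hD) (Mathlib.Tactic.Linarith.sub_nonpos_of_le hD)]
  · have h1 : f / D ^ 2 * M' ≥ (1 / D ^ 2) / D ^ 2 * (P / 2) := by
      have : 0 ≤ P / 2 := by (clear * - hP; positivity)
      (clear * - hf0 hD hM'2 hP hf; gcongr)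
    have h2 : (1 / D ^ 2) / D ^ 2 * (P / 2) = P / (2 * D ^ 4) := by
      field_simp
    have h3 : 4 ≤ P / (2 * D ^ 4) := by
      rw [le_div_iff₀ (by (clear * - hD; positivity))]
      linarith only [hPD]
    linarith only [h1, h2, h3]

theorem K_facts (k : ℕ) : 16 * aK k ^ 2 ≤ aD k ∧ 1 ≤ aK k ∧ aK k ≤ an k := by
  have h5 := aK_sq_le k
  have h6 : 1 ≤ 2 ^ (2046 * k) := Nat.one_le_two_pow
  have h7 : aK k ^ 2 ≤ an k := by
    rw [← h5]
    exact Nat.le_mul_of_pos_right _ (by omega)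
  refine ⟨by unfold aD; omega, by unfold aK; exact Nat.one_le_two_pow, ?_⟩
  exact (Nat.le_self_pow (by norm_num) _).trans h7

/-- **Charges.** -/
theorem chg_err (k : ℕ) (hk : 1 ≤ k) (hcs : HCs k) (hsn : HSn k) (hq : GoodQ k (aq k))
    (s : List ℕ) (hs : ∀ i j, i < j → j < aK k → sget k s i j ≤ 2 ^ (4 * an k)) (a b : ℕ)
    (ha : a < aD k) (hb : b < aD k) :
    |(chg k s a b : ℝ) - wex k (aq k) (sget k s) a b| ≤ 2 ∧ 1 ≤ chg k s a b := by
  obtain ⟨t1, t2⟩ := topSum_err k a b hk hcs hsn ha hb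
  obtain ⟨u1, u2⟩ := hopSum_err k s a b hk hcs hsn hq hs ha hb
  obtain ⟨K1, K2, K3⟩ := K_facts k
  have hF := fejA_err k a hcs ha
  have hn := an_ge hk
  have h16 := le_aD k
  have hn3 : an k ≤ an k ^ 3 := Nat.le_self_pow (by norm_num) _
  have hDn : aD k = 16 * an k := rfl
  have hnn : (an k : ℝ) ≤ 2 ^ an k := by exact_mod_cast Nat.lt_two_pow_self.le
  have hKr1 : (1 : ℝ) ≤ aK k := by exact_mod_cast K2
  have hKr : (aK k : ℝ) ≤ 2 ^ an k := by
    have : (aK k : ℝ) ≤ an k := by exact_mod_cast K3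
    linarith only [hnn, this]
  set R1 : ℝ := topR k a b
  set R2 : ℝ := hopR k (aq k) (sget k s) a b
  set P : ℝ := 2 ^ (128 * an k ^ 3) with hP
  have hP0 : 0 < P := by positivity
  have hK2 : (aK k : ℝ) ≤ (aK k : ℝ) ^ 2 := by nlinarith only [hKr1]
  have hbig : (aK k : ℝ) ^ 2 * 2 ^ (50 * an k ^ 3) * 4 ≤ P := by
    calc (aK k : ℝ) ^ 2 * 2 ^ (50 * an k ^ 3) * 4
        ≤ (2 ^ an k) ^ 2 * 2 ^ (50 * an k ^ 3) * 2 ^ 2 := by gcongr; norm_num
      _ = 2 ^ (an k * 2 + 50 * an k ^ 3 + 2) := by rw [← pow_mul, ← pow_add, ← pow_add]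
      _ ≤ P := pow_le_pow_right₀ (by norm_num) (by (clear * - hn hn3; omega))
  have hc50 : (0 : ℝ) < 2 ^ (50 * an k ^ 3) := by positivity
  have hR1 : |R1| ≤ P / 4 := by
    refine t2.trans ?_
    nlinarith only [hbig, hKr1, hP0]
  have hR2 : |R2| ≤ P / 4 := by
    refine u2.trans ?_
    linarith only [hbig]
  have hR1' := abs_le.1 hR1
  have hR2' := abs_le.1 hR2
  have hmain := chg_arith (fejA k a : ℝ) (aD k * fej (aD k) a)
    (P + (topSum k a b : ℝ) + (hopSum k s a b : ℝ)) (P + R1 + R2) (2 ^ aQ k) (aD k) (aK k) P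
    (by exact_mod_cast h16) (by positivity) hP0 (by
      have hf := fej_pos (aD k) (by omega) (even_aD k) a ha
      have hDr : (0 : ℝ) < aD k := by exact_mod_cast aD_pos k
      calc (1 : ℝ) / (aD k : ℝ) ^ 2 = aD k * (1 / (aD k : ℝ) ^ 3) := by field_simp
        _ ≤ _ := mul_le_mul_of_nonneg_left hf hDr.le)
    (by
      have hf := fej_le_one k a ha
      have hDr : (0 : ℝ) < aD k := by exact_mod_cast aD_pos k
      calc (aD k : ℝ) * fej (aD k) a ≤ aD k * 1 := mul_le_mul_of_nonneg_left hf hDr.le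
        _ = aD k := mul_one _)
    hF (by
      have e : P + (topSum k a b : ℝ) + (hopSum k s a b : ℝ) - (P + R1 + R2) =
          ((topSum k a b : ℝ) - R1) + ((hopSum k s a b : ℝ) - R2) := by ring
      rw [e]
      refine (abs_add_le _ _).trans ?_
      linarith only [t1, u1, hK2])
    (by rw [abs_le]; constructor <;> linarith only [hR1', hR2'])
    (by linarith only [hR1'.1, hR2'.1])
    (by exact_mod_cast K1)
    (by
      have h1 : (aK k : ℝ) ^ 2 ≤ P := by nlinarith only [hbig, one_le_pow₀ (n := 50 * an k ^ 3) (by norm_num : (1 : ℝ) ≤ 2)]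
      calc 64 * (P + (aK k : ℝ) ^ 2) ≤ 64 * (P + P) := by (clear * - h1; gcongr)
        _ = 2 ^ (7 + 128 * an k ^ 3) := by rw [hP, pow_add]; ring
        _ ≤ 2 ^ aQ k := pow_le_pow_right₀ (by norm_num) (by unfold aQ; (clear * - hn hn3; (clear * - hn hn3; omega))))
    (by
      rw [hDn]
      push_cast
      calc 8 * (16 * (an k : ℝ)) ^ 4 ≤ 8 * (16 * 2 ^ an k) ^ 4 := by (clear * - hn hnn; gcongr)
        _ = 2 ^ (19 + an k * 4) := by rw [pow_add, pow_mul]; ring
        _ ≤ P := pow_le_pow_right₀ (by norm_num) (by (clear * - hn hn3; omega)))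
  obtain ⟨m1, m2⟩ := hmain
  have hwex : wex k (aq k) (sget k s) a b =
      aD k * fej (aD k) a / (aD k : ℝ) ^ 2 * (P + R1 + R2) := by
    rw [wex_eq]
    have hDr : (0 : ℝ) < aD k := by exact_mod_cast aD_pos k
    unfold qw
    have : (aD k : ℝ) * fej (aD k) a / (aD k : ℝ) ^ 2 = fej (aD k) a / aD k := by
      (clear * - h16; field_simp)
    rw [this]
  rw [← hwex] at m1 m2
  have hfl := idiv_err (fejA k a * (2 ^ (128 * an k ^ 3) + topSum k a b + hopSum k s a b))
    (2 ^ aQ k * (aD k : ℤ) ^ 2) (by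
      have : (0 : ℤ) < aD k := by exact_mod_cast aD_pos k
      (clear * - h16; positivity))
  push_cast at hfl
  set Z : ℤ := fejA k a * (2 ^ (128 * an k ^ 3) + topSum k a b + hopSum k s a b) /
    (2 ^ aQ k * (aD k : ℤ) ^ 2) with hZ
  have hZerr : |(Z : ℝ) - wex k (aq k) (sget k s) a b| ≤ 2 := by
    have e : (Z : ℝ) - wex k (aq k) (sget k s) a b =
        ((Z : ℝ) - (fejA k a : ℝ) * (2 ^ (128 * an k ^ 3) + (topSum k a b : ℝ) +
          (hopSum k s a b : ℝ)) / (2 ^ aQ k * (aD k : ℝ) ^ 2)) +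
        ((fejA k a : ℝ) * (2 ^ (128 * an k ^ 3) + (topSum k a b : ℝ) +
          (hopSum k s a b : ℝ)) / (2 ^ aQ k * (aD k : ℝ) ^ 2) -
          wex k (aq k) (sget k s) a b) := by ring
    rw [e]
    refine (abs_add_le _ _).trans ?_
    linarith only [m1, hfl]
  have hZ1 : (1 : ℝ) ≤ Z := by
    have := (abs_le.1 hZerr).1
    linarith only [m2, this]
  have hZ2 : (1 : ℤ) ≤ Z := by exact_mod_cast hZ1
  have hchg : chg k s a b = Z.toNat := rfl
  have hcast : ((Z.toNat : ℕ) : ℤ) = Z := Int.toNat_of_nonneg (by omega)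
  refine ⟨?_, ?_⟩
  · rw [hchg]
    have : ((Z.toNat : ℕ) : ℝ) = (Z : ℝ) := by exact_mod_cast congrArg (fun z : ℤ => (z : ℝ)) hcast
    rw [this]
    exact hZerr
  · rw [hchg]
    omega

/-! ### positions -/

theorem norm_le_of_coord (x : R3) (c : ℝ) (h : ∀ i, |x i| ≤ c) : ‖x‖ ≤ 2 * c := by
  have hc : 0 ≤ c := (abs_nonneg _).trans (h 0)
  rw [EuclideanSpace.norm_eq, Real.sqrt_le_left (by (clear * - hc; positivity)), Fin.sum_univ_three]
  have h0 := sq_le_sq' (abs_le.1 (h 0)).1 (abs_le.1 (h 0)).2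
  have h1 := sq_le_sq' (abs_le.1 (h 1)).1 (abs_le.1 (h 1)).2
  have h2 := sq_le_sq' (abs_le.1 (h 2)).1 (abs_le.1 (h 2)).2
  simp only [Real.norm_eq_abs, sq_abs]
  linarith only [h2, h1, h0, sq_nonneg c]

theorem bexp_eq (k : ℕ) : (2 : ℝ) ^ bexp k = 2 * (aD k : ℝ) ^ 2 * 2 ^ aQ k * (1 / pρ k) * pT k := by
  have e1 : (aD k : ℝ) = 2 ^ (2048 * k + 4) := by
    unfold aD an
    push_cast
    rw [pow_add]
    norm_num
    ring
  have e2 : pn k = an k := rfl
  rw [e1]
  unfold bexp pρ pT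
  rw [e2, one_div_one_div]
  push_cast
  rw [← pow_mul, pow_add, pow_add, pow_add, pow_add, pow_one]
  ring

theorem crd_err (k a b : ℕ) (hk : 1 ≤ k) (hcs : HCs k) (hsn : HSn k) (ha : a < aD k)
    (hb : b < aD k) (c : Fin 3) :
    |(crd k a b c : ℝ) - 2 ^ aQ k * node (pD k) a b c| ≤ 6 := by
  have eD : pD k = aD k := rfl
  rw [eD]
  have hD16 := le_aD k
  have hDr : (0 : ℝ) < aD k := by exact_mod_cast aD_pos k
  have hS := S_big hk
  have hn1 : (1 : ℝ) ≤ an k := by exact_mod_cast an_pos k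
  have hS4 : (4 : ℝ) ≤ 2 ^ aQ k := by
    refine le_trans ?_ hS
    linarith only [hn1]
  have j1 : 2 * a + 1 ≤ 4 * aD k ^ 2 := by exact le_of_not_gt fun hng => by linarith only [hng, mul_nonneg_of_nonpos_of_nonpos (Mathlib.Tactic.Linarith.sub_nonpos_of_le (Mathlib.Tactic.Linarith.natCast_nonneg ℤ (Vale.Agent.P370.Q.Alg.aD k))) (Mathlib.Tactic.Linarith.sub_nonpos_of_le (Int.add_one_le_iff.mpr (id (Eq.mp Int.ofNat_lt._simp_2 ha)))), mul_nonneg_of_nonpos_of_nonpos (Mathlib.Tactic.Linarith.sub_nonpos_of_le (Mathlib.Tactic.Linarith.natCast_nonneg ℤ a)) (Mathlib.Tactic.Linarith.sub_nonpos_of_le (Mathlib.Tactic.Linarith.natCast_nonneg ℤ (Vale.Agent.P370.Q.Alg.aD k))), Int.add_one_le_iff.mpr (id (Eq.mp Int.ofNat_lt._simp_2 ha))]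
  have j2 : 4 * b ≤ 4 * aD k ^ 2 := by nlinarith only [hb]
  have h1 := hcs _ j1
  have h2 := hsn _ j1
  have h3 := hcs _ j2
  have h4 := hsn _ j2
  have e1 : Real.pi * ((2 * a + 1 : ℕ) : ℝ) / (2 * aD k) = Real.pi * (2 * a + 1) / (2 * aD k) := by
    push_cast; ring
  have e2 : Real.pi * ((4 * b : ℕ) : ℝ) / (2 * aD k) = 2 * Real.pi * b / aD k := by
    push_cast
    field_simp
    ring
  rw [e1] at h1 h2
  rw [e2] at h3 h4
  fin_cases c
  · exact prod_err _ _ (aQ k) _ _ (Real.abs_sin_le_one _) (Real.abs_cos_le_one _) h2 h3 hS4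
  · exact prod_err _ _ (aQ k) _ _ (Real.abs_sin_le_one _) (Real.abs_sin_le_one _) h2 h4 hS4
  · exact h1.trans (by norm_num)

theorem pos_err (k : ℕ) (hk : 1 ≤ k) (hcs : HCs k) (hsn : HSn k) (β : ℕ)
    (hβ : β < aD k * aD k) :
    ‖(WithLp.toLp 2 (fun c : Fin 3 =>
      (pT k : ℝ) * ((numer k (β / aD k) (β % aD k) c : ℝ) / 2 ^ bexp k)) : R3) -
        pρ k • node (pD k) (β / pD k) (β % pD k)‖ ≤ 1 / 2 ^ (200 * pn k ^ 3) := by
  have eD : pD k = aD k := rfl
  have en : pn k = an k := rfl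
  rw [eD, en]
  have hD0 := aD_pos k
  have hDr : (0 : ℝ) < aD k := by exact_mod_cast hD0
  have ha : β / aD k < aD k := Nat.div_lt_of_lt_mul hβ
  have hb : β % aD k < aD k := Nat.mod_lt _ hD0
  have hab : (β / aD k) * aD k + β % aD k = β := Nat.div_add_mod' β (aD k)
  set a := β / aD k
  set b := β % aD k
  have hS0 : (0 : ℝ) < 2 ^ aQ k := by (clear * -; positivity)
  have hρ0 : 0 < pρ k := by unfold pρ; (clear * -; positivity)
  have hρ1 : pρ k ≤ 1 := by
    unfold pρ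
    rw [div_le_one (by positivity)]
    exact one_le_pow₀ (by norm_num)
  have hT0 : (0 : ℝ) < pT k := by unfold pT; (clear * -; positivity)
  have key : ∀ c : Fin 3, |((WithLp.toLp 2 (fun c : Fin 3 =>
      (pT k : ℝ) * ((numer k a b c : ℝ) / 2 ^ bexp k)) : R3) - pρ k • node (aD k) a b) c| ≤
      7 / 2 ^ aQ k := by
    intro c
    have h1 := crd_err k a b hk hcs hsn ha hb c
    rw [eD] at h1
    rw [PiLp.sub_apply, PiLp.smul_apply, smul_eq_mul]
    change |(pT k : ℝ) * ((numer k a b c : ℝ) / 2 ^ bexp k) - pρ k * node (aD k) a b c| ≤ _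
    rw [bexp_eq]
    set S : ℝ := 2 ^ aQ k with hS
    set ν := node (aD k) a b c
    have e1 : (pT k : ℝ) * ((numer k a b c : ℝ) /
        (2 * (aD k : ℝ) ^ 2 * S * (1 / pρ k) * pT k)) - pρ k * ν =
        pρ k * (((crd k a b c : ℝ) - S * ν) / S +
          (2 * β + 1) / (2 * (aD k : ℝ) ^ 2) / S) := by
      have e2 : (numer k a b c : ℝ) =
          2 * ((crd k a b c : ℝ) * (aD k : ℝ) ^ 2 + β) + 1 := by
        unfold numer
        push_cast
        have : (a : ℝ) * aD k + b = β := by exact_mod_cast hab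
        rw [this]
      simp only [e2]
      field_simp
      ring
    rw [e1, abs_mul, abs_of_pos hρ0]
    have h2 : |((crd k a b c : ℝ) - S * ν) / S + (2 * β + 1) / (2 * (aD k : ℝ) ^ 2) / S| ≤
        7 / S := by
      refine (abs_add_le _ _).trans ?_
      have h3 : |((crd k a b c : ℝ) - S * ν) / S| ≤ 6 / S := by
        rw [abs_div, abs_of_pos hS0]
        gcongr
      have h4 : |(2 * (β : ℝ) + 1) / (2 * (aD k : ℝ) ^ 2) / S| ≤ 1 / S := by
        rw [abs_of_pos (by (clear * - hD0; (clear * - hD0; positivity)))]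
        have h5 : (2 * (β : ℝ) + 1) / (2 * (aD k : ℝ) ^ 2) ≤ 1 := by
          rw [div_le_one (by (clear * - hD0; positivity))]
          have h6 : (β : ℝ) + 1 ≤ aD k * aD k := by exact_mod_cast hβ
          linarith only [h6]
        (clear * - h5; gcongr)
      have h5 : 7 / S = 6 / S + 1 / S := by ring
      rw [h5]
      exact add_le_add h3 h4
    calc pρ k * _ ≤ 1 * (7 / S) := mul_le_mul hρ1 h2 (abs_nonneg _) (by norm_num)
      _ = 7 / S := one_mul _
  refine (norm_le_of_coord _ _ key).trans ?_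
  have h5 : (2 : ℝ) ^ (200 * an k ^ 3) * 2 ^ 64 ≤ 2 ^ aQ k := by
    refine two_pow_big _ ?_
    have hn := an_ge hk
    have h3 : an k ≤ an k ^ 3 := Nat.le_self_pow (by norm_num) _
    (clear * - hn h3; omega)
  have h6 : (0 : ℝ) < 2 ^ (200 * an k ^ 3) := by positivity
  rw [mul_div_assoc', div_le_div_iff₀ hS0 h6]
  linarith only [h5, h6]

end Vale.Agent.P370.Q.Alg.N2
end

section

/-!
Correctness of the numerical part of the instance builder.
-/

namespace Vale.Agent.P370.Q.Alg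

open MeasureTheory Finset

theorem an_eq (k : ℕ) : an k = pn k := rfl
theorem aK_eq (k : ℕ) : aK k = pK k := rfl
theorem aD_eq (k : ℕ) : aD k = pD k := rfl
theorem aT_eq (k : ℕ) : aT k = pT k := rfl

/-! `aN_eq`, `ch_le`, `ch_err`, `sh_err`, `gp_eq`, `cs_err`, `sn_err`, `goodQ`: file `Num1.lean`. -/

theorem aXu_eq (k N : ℕ) (hk : 1 ≤ k) (hN : N ≤ 2 * an k - 1) :
    (aXu k N : ℝ) = Xu (pn k) N (pρ k) :=
  N2.aXu_eq k N hk hN

theorem aXu_le (k N : ℕ) (hk : 1 ≤ k) (hN : N ≤ 2 * an k - 1) :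
    aXu k N ≤ 2 ^ (40 * an k ^ 3) :=
  N2.aXu_le k N hk hN

/-- the number in `dterm` is a multipole of the node -/
theorem gre_err (k a b g N : ℕ) (hk : 1 ≤ k) (ha : a < aD k) (hb : b < aD k)
    (hg : g ≤ 4 * aD k) (hN : N ≤ 2 * an k) :
    |(gre k a b g N : ℝ) / 2 ^ (aQ k * N) -
      (cdot (av (Real.pi * g / (2 * aD k))) (node (pD k) a b) ^ N).re| ≤ 16 * N / 2 ^ aQ k :=
  N2.gre_err k a b g N hk (fun j => cs_err k j hk) (fun j => sn_err k j hk) ha hb hg hN

/-- **Charges.** -/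
theorem chg_err (k : ℕ) (hk : 10 ≤ k) (s : List ℕ)
    (hs : ∀ i j, i < j → j < aK k → sget k s i j ≤ 2 ^ (4 * an k)) (a b : ℕ) (ha : a < aD k)
    (hb : b < aD k) :
    |(chg k s a b : ℝ) - wex k (aq k) (sget k s) a b| ≤ 2 ∧ 1 ≤ chg k s a b :=
  have hk1 : 1 ≤ k := by omega
  N2.chg_err k hk1 (fun j => cs_err k j hk1) (fun j => sn_err k j hk1) (goodQ k hk1) s hs a b
    ha hb

/-- scaled position of the node `β` -/
noncomputable def ypos (k β : ℕ) : R3 :=
  WithLp.toLp 2 (fun c : Fin 3 =>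
    (pT k : ℝ) * ((numer k (β / aD k) (β % aD k) c : ℝ) / 2 ^ bexp k))

theorem pos_err (k : ℕ) (hk : 10 ≤ k) (β : ℕ) (hβ : β < aD k * aD k) :
    ‖ypos k β - pρ k • node (pD k) (β / pD k) (β % pD k)‖ ≤ 1 / 2 ^ (200 * pn k ^ 3) :=
  have hk1 : 1 ≤ k := by omega
  N2.pos_err k hk1 (fun j => cs_err k j hk1) (fun j => sn_err k j hk1) β hβ

theorem approx_build (k : ℕ) (hk : 10 ≤ k) (s : List ℕ)
    (hs : ∀ i j, i < j → j < aK k → sget k s i j ≤ 2 ^ (4 * an k)) :
    Approx k (aq k) (sget k s) (fun β => chg k s (β / aD k) (β % aD k)) (fun β => ypos k β) := by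
  have hD : 0 < pD k := by unfold pD pn; (clear * -; positivity)
  refine ⟨fun β => ?_, fun β => ?_⟩
  · exact (chg_err k hk s hs _ _ (Nat.div_lt_of_lt_mul β.2) (Nat.mod_lt _ hD)).1
  · exact pos_err k hk β β.2

end Vale.Agent.P370.Q.Alg
end
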