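import Vale.Agent.P370.MathlibUsed
import Vale.Agent.P370.Bdl.B3
import Vale.Agent.P370.Bdl.B8
import Vale.Agent.P370.Bdl.B9
import Vale.Agent.P370.Bdl.B2
import Vale.Agent.P370.Bdl.B11
import Vale.Agent.P370.Bdl.B7

set_option linter.all false

section

/-!
Circuits as real circuits in rounds (H1).
-/

namespace Vale.Agent.P370.H

open Finset

/-! ### values of the operators -/

section vals

variable {n : ℕ}

theorem realC_pau2 {i : ℕ} (h : i < n) (v : RSt n) (x : Fin n → Bool) :
    pau 2 i v x = (if x ⟨i, h⟩ then -1 else 1) * v x := by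
  simp only [pau, h, ↓reduceDIte, OfNat.ofNat_ne_zero, ↓reduceIte, OfNat.ofNat_ne_one, ite_mul, neg_mul, one_mul]

theorem realC_pau1 {i : ℕ} (h : i < n) (v : RSt n) (x : Fin n → Bool) :
    pau 1 i v x = v (Function.update x ⟨i, h⟩ (!x ⟨i, h⟩)) := by
  simp only [pau, h, ↓reduceDIte, one_ne_zero, ↓reduceIte]

theorem realC_one {i : ℕ} (h : i < n) (v : RSt n) (x : Fin n → Bool) :
    one i v x = if x ⟨i, h⟩ then v x else 0 := by
  unfold one
  rw [Pi.smul_apply, Pi.sub_apply, realC_pau2 h]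
  by_cases hx : x ⟨i, h⟩ = true
  · simp only [one_div, hx, ↓reduceIte, neg_mul, one_mul, sub_neg_eq_add, smul_eq_mul]
    ring
  · simp [hx]

theorem realC_zer {i : ℕ} (h : i < n) (v : RSt n) (x : Fin n → Bool) :
    zer i v x = if x ⟨i, h⟩ then 0 else v x := by
  unfold zer
  rw [Pi.smul_apply, Pi.add_apply, realC_pau2 h]
  by_cases hx : x ⟨i, h⟩ = true
  · simp only [one_div, hx, ↓reduceIte, neg_mul, one_mul, add_neg_cancel, smul_eq_mul, mul_zero]
  · simp only [one_div, hx, Bool.false_eq_true, ↓reduceIte, one_mul, smul_eq_mul]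
    ring

theorem realC_czg {f s : ℕ} (hf : f < n) (hs : s < n) (v : RSt n) (x : Fin n → Bool) :
    czg f s v x = (if x ⟨f, hf⟩ = true ∧ x ⟨s, hs⟩ = true then -1 else 1) * v x := by
  unfold czg
  simp only [Pi.smul_apply, Pi.add_apply, Pi.sub_apply, realC_pau2 hf, realC_pau2 hs, smul_eq_mul]
  by_cases h1 : x ⟨f, hf⟩ = true <;> by_cases h2 : x ⟨s, hs⟩ = true <;> simp [h1, h2] <;> ring

theorem realC_czg_czg {f s : ℕ} (hf : f < n) (hs : s < n) (v : RSt n) :
    czg f s (czg f s v) = v := by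
  funext x
  rw [realC_czg hf hs, realC_czg hf hs]
  by_cases h : x ⟨f, hf⟩ = true ∧ x ⟨s, hs⟩ = true
  · rw [if_pos h]; ring
  · rw [if_neg h]; ring

theorem realC_refl {a q : ℕ} (ha : a ≠ 0) (hq : q < n) (v : RSt n) (x : Fin n → Bool) :
    refl a q v x = Real.cos (ang a) * ((if x ⟨q, hq⟩ then -1 else 1) * v x) +
      Real.sin (ang a) * v (Function.update x ⟨q, hq⟩ (!x ⟨q, hq⟩)) := by
  unfold refl
  rw [if_neg ha, Pi.add_apply, Pi.smul_apply, Pi.smul_apply, realC_pau2 hq, realC_pau1 hq]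
  rfl

theorem realC_refl0 {q : ℕ} (v : RSt n) : refl 0 q v = v := by
  unfold refl
  rw [if_pos rfl]

theorem rc_runR_nil (v : RSt n) : runR [] v = v := rfl

theorem rc_runR_cons (r : Rnd) (rs : List Rnd) (v : RSt n) :
    runR (r :: rs) v = runR rs (rndAct r v) := rfl

theorem rc_runR_append (rs rs' : List Rnd) (v : RSt n) :
    runR (rs ++ rs') v = runR rs' (runR rs v) := by
  unfold runR
  rw [List.foldl_append]

end vals

theorem comp_ok (n kind i j : ℕ) : ∀ r ∈ comp n kind i j, r.Ok (n + 1) := by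
  intro r hr
  unfold comp at hr
  split_ifs at hr with h1 h2 h3 h4
  all_goals simp only [List.mem_cons, List.not_mem_nil, or_false] at hr
  · rcases hr with rfl | rfl
    · exact ⟨by simp only; omega, by simp only; omega, by simp only; omega, by simp only; omega⟩
    · exact ⟨by simp only; omega, by simp only; omega, by simp only; omega, by simp only; omega⟩
  · rcases hr with rfl | rfl | rfl | rfl
    all_goals exact ⟨by simp only; omega, by simp only; omega, by simp only; omega,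
      by simp only; omega⟩
  · rcases hr with rfl | rfl | rfl
    all_goals exact ⟨by simp only; omega, by simp only; omega, by simp only; omega,
      by simp only; omega⟩

theorem rnds_ok (z : List Bool) : ∀ r ∈ rnds z, r.Ok (cQubits z + 1) := by
  intro r hr
  unfold rnds at hr
  rw [List.mem_flatMap] at hr
  obtain ⟨t, -, ht⟩ := hr
  exact comp_ok _ _ _ _ r ht

/-! ### the embedding -/

section embed

variable {n : ℕ}

/-- the coordinates without the last one -/
def ini (x : Fin (n + 1) → Bool) : Fin n → Bool := fun i => x i.castSucc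

theorem emb_apply (ψ : QState n) (x : Fin (n + 1) → Bool) :
    emb ψ x = if x (Fin.last n) then (ψ (ini x)).im else (ψ (ini x)).re := rfl

theorem ini_update (x : Fin (n + 1) → Bool) (i : Fin n) (b : Bool) :
    ini (Function.update x i.castSucc b) = Function.update (ini x) i b := by
  funext k
  unfold ini
  by_cases h : k = i
  · subst h
    simp
  · rw [Function.update_of_ne h, Function.update_of_ne]
    intro h'
    exact h (Fin.castSucc_injective _ h')

theorem last_update (x : Fin (n + 1) → Bool) (i : Fin n) (b : Bool) :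
    Function.update x i.castSucc b (Fin.last n) = x (Fin.last n) := by
  rw [Function.update_of_ne]
  exact (Fin.castSucc_ne_last i).symm

theorem ini_update_last (x : Fin (n + 1) → Bool) (b : Bool) :
    ini (Function.update x (Fin.last n) b) = ini x := by
  funext k
  unfold ini
  rw [Function.update_of_ne (Fin.castSucc_ne_last k)]

theorem realC_cos2 : Real.cos (ang 2) = √2 / 2 ∧ Real.sin (ang 2) = √2 / 2 := by
  unfold ang
  rw [if_neg (by norm_num)]
  exact ⟨Real.cos_pi_div_four, Real.sin_pi_div_four⟩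

/-- The gate `T` in the real embedding. -/
theorem realC_T (v : RSt (n + 1)) {i : ℕ} (hi : i < n) (x : Fin (n + 1) → Bool) :
    refl 1 n (czg i n (refl 1 n (czg i n v))) x =
      if x ⟨i, by omega⟩ then
        √2 / 2 * v x - √2 / 2 * ((if x (Fin.last n) then -1 else 1) *
          v (Function.update x (Fin.last n) (!x (Fin.last n))))
      else v x := by
  have hi' : i < n + 1 := by omega
  have hn' : n < n + 1 := by omega
  have hne : (⟨i, hi'⟩ : Fin (n + 1)) ≠ ⟨n, hn'⟩ := by
    intro h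
    have := congrArg Fin.val h
    simp only at this
    omega
  have hl : Fin.last n = ⟨n, hn'⟩ := rfl
  have hc : Real.cos (ang 1) ^ 2 - Real.sin (ang 1) ^ 2 = √2 / 2 := by
    unfold ang
    rw [if_pos rfl, ← Real.cos_two_mul', ← Real.cos_pi_div_four]
    congr 1
    ring
  have hs : 2 * Real.sin (ang 1) * Real.cos (ang 1) = √2 / 2 := by
    unfold ang
    rw [if_pos rfl, ← Real.sin_two_mul, ← Real.sin_pi_div_four]
    congr 1
    ring
  have h1 := Real.sin_sq_add_cos_sq (ang 1)
  rw [hl]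
  simp only [realC_refl one_ne_zero hn', realC_czg hi' hn', Function.update_self,
    Function.update_of_ne hne, Function.update_idem, Bool.not_not, Function.update_eq_self]
  generalize Real.cos (ang 1) = c at *
  generalize Real.sin (ang 1) = t at *
  generalize v (Function.update x ⟨n, hn'⟩ (!x ⟨n, hn'⟩)) = b
  generalize v x = a
  rw [← hc]
  cases h2 : x ⟨i, hi'⟩ <;> cases h3 : x ⟨n, hn'⟩ <;> simp
  · linear_combination a * h1
  · linear_combination a * h1
  · linear_combination (-b) * hs + b * hc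
  · linear_combination (b) * hs - b * hc

theorem realC_cnot (v : RSt n) {i j : ℕ} (hi : i < n) (hj : j < n) (hij : i ≠ j)
    (x : Fin n → Bool) :
    refl 2 j (czg i j (refl 2 j v)) x =
      if x ⟨i, hi⟩ then v (Function.update x ⟨j, hj⟩ (!x ⟨j, hj⟩)) else v x := by
  have hne : (⟨i, hi⟩ : Fin n) ≠ ⟨j, hj⟩ := by
    intro h
    exact hij (congrArg Fin.val h)
  have hs2 : (√2 : ℝ) ^ 2 = 2 := Real.sq_sqrt (by norm_num)
  obtain ⟨c1, c2⟩ := realC_cos2
  simp only [realC_refl two_ne_zero hj, realC_czg hi hj, Function.update_self,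
    Function.update_of_ne hne, Function.update_idem, Bool.not_not, Function.update_eq_self, c1, c2]
  generalize v (Function.update x ⟨j, hj⟩ (!x ⟨j, hj⟩)) = b
  generalize v x = a
  cases h2 : x ⟨i, hi⟩ <;> cases h3 : x ⟨j, hj⟩ <;> simp
  · linear_combination (a / 2) * hs2
  · linear_combination (a / 2) * hs2
  · linear_combination (b / 2) * hs2
  · linear_combination (b / 2) * hs2

theorem realC_emb_update (ψ : QState n) (x : Fin (n + 1) → Bool) {i : ℕ} (hi : i < n) (b : Bool) :
    emb ψ (Function.update x ⟨i, by omega⟩ b) =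
      if x (Fin.last n) then (ψ (Function.update (ini x) ⟨i, hi⟩ b)).im
      else (ψ (Function.update (ini x) ⟨i, hi⟩ b)).re := by
  have e : (⟨i, by omega⟩ : Fin (n + 1)) = (⟨i, hi⟩ : Fin n).castSucc := rfl
  rw [e, emb_apply, last_update, ini_update]

theorem realC_gate0 {i : ℕ} (j : ℕ) (hi : i < n) (ψ : QState n) :
    emb (gateAct 0 i j ψ) = refl 2 i (emb ψ) := by
  funext x
  have hi' : i < n + 1 := by omega
  obtain ⟨c1, c2⟩ := realC_cos2
  have hs2 : (√2 : ℝ) ^ 2 = 2 := Real.sq_sqrt (by norm_num)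
  have hs0 : (√2 : ℝ) ≠ 0 := by positivity
  have hdiv : ∀ a : ℝ, a / √2 = √2 / 2 * a := by
    intro a
    rw [div_eq_iff hs0]
    linear_combination (-a / 2) * hs2
  rw [realC_refl two_ne_zero hi', realC_emb_update ψ x hi, emb_apply, emb_apply, c1, c2]
  have hx : x ⟨i, hi'⟩ = ini x ⟨i, hi⟩ := rfl
  rw [hx]
  unfold gateAct
  rw [dif_pos hi, if_pos rfl]
  cases h2 : ini x ⟨i, hi⟩
  · have e : Function.update (ini x) ⟨i, hi⟩ false = ini x := by
      rw [← h2, Function.update_eq_self]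
    simp only [e, Complex.div_ofReal_im, hdiv, Complex.div_ofReal_re]
    cases x (Fin.last n) <;> simp <;> ring
  · have e : Function.update (ini x) ⟨i, hi⟩ true = ini x := by
      rw [← h2, Function.update_eq_self]
    simp only [e, Complex.div_ofReal_re, Complex.div_ofReal_im, hdiv]
    cases x (Fin.last n) <;> simp <;> ring

theorem realC_gate1 {i : ℕ} (j : ℕ) (hi : i < n) (ψ : QState n) :
    emb (gateAct 1 i j ψ) = refl 1 n (czg i n (refl 1 n (czg i n (emb ψ)))) := by
  funext x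
  have hi' : i < n + 1 := by omega
  rw [realC_T (emb ψ) hi x]
  have hx : x ⟨i, hi'⟩ = ini x ⟨i, hi⟩ := rfl
  rw [hx, emb_apply, emb_apply, emb_apply, ini_update_last, Function.update_self]
  unfold gateAct
  rw [dif_pos hi, if_neg one_ne_zero, if_pos rfl]
  have hexp : Complex.exp (Complex.I * (Real.pi / 4 : ℝ)) = (√2 / 2 : ℝ) + (√2 / 2 : ℝ) * Complex.I := by
    rw [mul_comm, Complex.exp_mul_I, ← Complex.ofReal_cos, ← Complex.ofReal_sin,
      Real.cos_pi_div_four, Real.sin_pi_div_four]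
  cases h2 : ini x ⟨i, hi⟩
  · cases x (Fin.last n) <;> simp
  · rw [hexp]
    cases x (Fin.last n) <;> simp

theorem realC_gate2 {i j : ℕ} {kind : ℕ} (h0 : kind ≠ 0) (h1 : kind ≠ 1) (hi : i < n) (hj : j < n)
    (hij : i ≠ j) (ψ : QState n) :
    emb (gateAct kind i j ψ) = refl 2 j (czg i j (refl 2 j (emb ψ))) := by
  funext x
  have hi' : i < n + 1 := by omega
  have hj' : j < n + 1 := by omega
  rw [realC_cnot (emb ψ) hi' hj' hij x, realC_emb_update ψ x hj, emb_apply, emb_apply]
  have hx : x ⟨i, hi'⟩ = ini x ⟨i, hi⟩ := rfl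
  have hy : x ⟨j, hj'⟩ = ini x ⟨j, hj⟩ := rfl
  rw [hx, hy]
  unfold gateAct
  rw [dif_pos hi, if_neg h0, if_neg h1, dif_pos hj, if_neg hij]
  cases h2 : ini x ⟨i, hi⟩ <;> simp

end embed

theorem emb_gateAct {n : ℕ} (kind i j : ℕ) (ψ : QState n) :
    emb (gateAct kind i j ψ) = runR (comp n kind i j) (emb ψ) := by
  by_cases hi : i < n
  · have hi' : i < n + 1 := by omega
    have hn' : n < n + 1 := by omega
    unfold comp
    rw [if_pos hi]
    by_cases h0 : kind = 0
    · rw [if_pos h0, h0, realC_gate0 j hi]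
      simp only [rc_runR_cons, rc_runR_nil, rndAct, realC_refl0, realC_czg_czg hi' hn']
    · rw [if_neg h0]
      by_cases h1 : kind = 1
      · rw [if_pos h1, h1, realC_gate1 j hi]
        simp only [rc_runR_cons, rc_runR_nil, rndAct, realC_refl0, realC_czg_czg hi' hn']
      · rw [if_neg h1]
        by_cases hj : j < n
        · have hj' : j < n + 1 := by omega
          by_cases hij : i = j
          · rw [if_neg (fun h => h.2 hij), rc_runR_nil]
            unfold gateAct
            rw [dif_pos hi, if_neg h0, if_neg h1, dif_pos hj, if_pos hij]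
          · rw [if_pos ⟨hj, hij⟩, realC_gate2 h0 h1 hi hj hij]
            simp only [rc_runR_cons, rc_runR_nil, rndAct, realC_refl0, realC_czg_czg hi' hj']
        · rw [if_neg (fun h => hj h.1), rc_runR_nil]
          unfold gateAct
          rw [dif_pos hi, if_neg h0, if_neg h1, dif_neg hj]
  · unfold comp gateAct
    rw [if_neg hi, rc_runR_nil, dif_neg hi]

theorem emb_runCircuit (z : List Bool) (ψ : QState (cQubits z)) :
    emb (runCircuit z ψ) = runR (rnds z) (emb ψ) := by
  unfold runCircuit rnds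
  generalize List.range (((blocks z).length - 2) / 3) = L
  induction L generalizing ψ with
  | nil => rfl
  | cons t L ih =>
    rw [List.foldl_cons, List.flatMap_cons, rc_runR_append, ← emb_gateAct, ih]

theorem exists_emb {n : ℕ} (φ : RSt (n + 1)) : ∃ ψ : QState n, emb ψ = φ := by
  refine ⟨fun y => ⟨φ (Fin.snoc (α := fun _ => Bool) y false),
    φ (Fin.snoc (α := fun _ => Bool) y true)⟩, ?_⟩
  funext x
  rw [emb_apply]
  have e : ∀ b, x (Fin.last n) = b → Fin.snoc (α := fun _ => Bool) (ini x) b = x := by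
    intro b hb
    rw [← hb]
    exact Fin.snoc_init_self x
  cases h : x (Fin.last n)
  · simp only [Bool.false_eq_true, if_false]
    rw [e false h]
  · simp only [if_true]
    rw [e true h]

theorem nrm2_emb {n : ℕ} (ψ : QState n) : nrm2 (emb ψ) = ∑ x, ‖ψ x‖ ^ 2 := by
  unfold nrm2 ip
  rw [← Equiv.sum_comp (Fin.snocEquiv (fun _ : Fin (n + 1) => Bool)), Fintype.sum_prod_type]
  rw [Fintype.sum_bool, ← Finset.sum_add_distrib]
  refine Finset.sum_congr rfl fun y _ => ?_
  have e : ∀ b : Bool, emb ψ (Fin.snocEquiv (fun _ : Fin (n + 1) => Bool) (b, y)) =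
      if b then (ψ y).im else (ψ y).re := by
    intro b
    rw [emb_apply]
    have h1 : Fin.snocEquiv (fun _ : Fin (n + 1) => Bool) (b, y) (Fin.last n) = b := by
      simp only [Fin.snocEquiv, Equiv.coe_fn_mk, Fin.snoc_last]
    have h2 : ini (Fin.snocEquiv (fun _ : Fin (n + 1) => Bool) (b, y)) = y := by
      funext k
      simp [ini, Fin.snocEquiv]
    rw [h1, h2]
  rw [e, e, Complex.sq_norm, Complex.normSq_apply]
  simp only [↓reduceIte, Bool.false_eq_true]
  ring

theorem validIn_emb {n : ℕ} (m : ℕ) (ψ : QState n) :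
    ValidIn m (emb ψ) ↔ ∀ x (i : Fin n), m ≤ (i : ℕ) → x i = true → ψ x = 0 := by
  unfold ValidIn
  constructor
  · intro h y i hi hy
    have h1 := h i hi (by have := i.2; omega)
    have hi' : (i : ℕ) < n + 1 := by have := i.2; omega
    have key : ∀ b : Bool, (if b then (ψ y).im else (ψ y).re) = 0 := by
      intro b
      have h2 := congrFun h1 (Fin.snoc (α := fun _ => Bool) y b)
      have e2 : ini (Fin.snoc (α := fun _ => Bool) y b) = y := by
        funext k
        simp [ini]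
      have e1 : (Fin.snoc (α := fun _ => Bool) y b : Fin (n + 1) → Bool) ⟨(i : ℕ), hi'⟩ = true := by
        have e3 : (Fin.snoc (α := fun _ => Bool) y b : Fin (n + 1) → Bool) ⟨(i : ℕ), hi'⟩
          = ini (Fin.snoc (α := fun _ => Bool) y b) i := rfl
        rw [e3, e2, hy]
      rw [realC_one hi', if_pos e1, emb_apply, e2, Fin.snoc_last] at h2
      exact h2
    have k1 := key true
    have k2 := key false
    simp only [if_true, Bool.false_eq_true, if_false] at k1 k2
    exact Complex.ext k2 k1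
  · intro h i hi hin
    have hi' : i < n + 1 := by omega
    have hin' : i < n := by omega
    funext x
    rw [realC_one hi']
    split_ifs with hx
    · rw [emb_apply, h (ini x) ⟨i, hin'⟩ hi hx]
      simp only [Complex.zero_im, Complex.zero_re, ite_self, Pi.zero_apply]
    · rfl

theorem realC_one_emb {n : ℕ} (hn : 0 < n) (φ : QState n) :
    one 0 (emb φ) = emb (fun y => if y ⟨0, hn⟩ then φ y else 0) := by
  funext x
  have h0 : 0 < n + 1 := by omega
  rw [realC_one h0, emb_apply, emb_apply]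
  have hx : x ⟨0, h0⟩ = ini x ⟨0, hn⟩ := rfl
  rw [hx]
  cases ini x ⟨0, hn⟩ <;> simp

theorem accProb_eq (z : List Bool) (ψ : QState (cQubits z)) :
    accProb z ψ = nrm2 (one 0 (runR (rnds z) (emb ψ))) := by
  rw [← emb_runCircuit, realC_one_emb (show 0 < cQubits z from Nat.succ_pos _), nrm2_emb]
  unfold accProb
  refine Finset.sum_congr rfl fun x _ => ?_
  split_ifs <;> simp

/-! ### norms -/

section norms

variable {n : ℕ}

theorem realC_nrm2_sum (v : RSt n) : nrm2 v = ∑ x, v x ^ 2 := by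
  unfold nrm2 ip
  exact Finset.sum_congr rfl fun x _ => by ring

theorem realC_nrm2_czg {f s : ℕ} (hf : f < n) (hs : s < n) (v : RSt n) :
    nrm2 (czg f s v) = nrm2 v := by
  rw [realC_nrm2_sum, realC_nrm2_sum]
  refine Finset.sum_congr rfl fun x _ => ?_
  rw [realC_czg hf hs]
  split_ifs <;> ring

/-- flipping a bit -/
def rcFlipE (i : Fin n) : (Fin n → Bool) ≃ (Fin n → Bool) where
  toFun x := Function.update x i (!x i)
  invFun x := Function.update x i (!x i)
  left_inv x := by simp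
  right_inv x := by simp

theorem flipE_apply (i : Fin n) (x : Fin n → Bool) :
    rcFlipE i x = Function.update x i (!x i) := rfl

theorem realC_nrm2_refl {a q : ℕ} (hq : q < n) (v : RSt n) : nrm2 (refl a q v) = nrm2 v := by
  by_cases ha : a = 0
  · rw [ha, realC_refl0]
  · rw [realC_nrm2_sum, realC_nrm2_sum]
    have hsum : ∀ g : (Fin n → Bool) → ℝ, ∑ x, g (rcFlipE ⟨q, hq⟩ x) = ∑ x, g x := fun g =>
      Equiv.sum_comp (rcFlipE ⟨q, hq⟩) g
    have h1 := Real.sin_sq_add_cos_sq (ang a)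
    generalize hc : Real.cos (ang a) = c at *
    generalize hs : Real.sin (ang a) = t at *
    have e : ∀ x, refl a q v x ^ 2 = c ^ 2 * v x ^ 2 + t ^ 2 * v (rcFlipE ⟨q, hq⟩ x) ^ 2 +
        2 * c * t * ((if x ⟨q, hq⟩ then -1 else 1) * v x * v (rcFlipE ⟨q, hq⟩ x)) := by
      intro x
      rw [realC_refl ha hq, hc, hs, flipE_apply]
      cases x ⟨q, hq⟩ <;> simp <;> ring
    have hcross : ∑ x, ((if x ⟨q, hq⟩ then -1 else 1) * v x * v (rcFlipE ⟨q, hq⟩ x)) = 0 := by
      have h2 := hsum (fun x => (if x ⟨q, hq⟩ then -1 else 1) * v x * v (rcFlipE ⟨q, hq⟩ x))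
      have h3 : ∑ x, ((if (rcFlipE ⟨q, hq⟩ x) ⟨q, hq⟩ then (-1 : ℝ) else 1) * v (rcFlipE ⟨q, hq⟩ x) *
          v (rcFlipE ⟨q, hq⟩ (rcFlipE ⟨q, hq⟩ x))) =
          -∑ x, ((if x ⟨q, hq⟩ then -1 else 1) * v x * v (rcFlipE ⟨q, hq⟩ x)) := by
        rw [← Finset.sum_neg_distrib]
        refine Finset.sum_congr rfl fun x _ => ?_
        have e1 : rcFlipE ⟨q, hq⟩ (rcFlipE ⟨q, hq⟩ x) = x := (rcFlipE ⟨q, hq⟩).left_inv x
        rw [e1]
        have e2 : (rcFlipE ⟨q, hq⟩ x) ⟨q, hq⟩ = !x ⟨q, hq⟩ := by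
          rw [flipE_apply, Function.update_self]
        rw [e2]
        cases x ⟨q, hq⟩ <;> simp <;> ring
      rw [h3] at h2
      linarith only [h2]
    rw [Finset.sum_congr rfl fun x _ => e x, Finset.sum_add_distrib, Finset.sum_add_distrib,
      ← Finset.mul_sum, ← Finset.mul_sum, ← Finset.mul_sum, hcross, hsum (fun x => v x ^ 2)]
    linear_combination (∑ x, v x ^ 2) * h1

end norms

/-- real rounds preserve the norm -/
theorem rc_nrm2_runR {n : ℕ} (rs : List Rnd) (hok : ∀ r ∈ rs, r.Ok n) (v : RSt n) :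
    nrm2 (runR rs v) = nrm2 v := by
  induction rs generalizing v with
  | nil => rfl
  | cons r rs ih =>
    obtain ⟨h1, h2, h3, -⟩ := hok r (List.mem_cons_self)
    rw [rc_runR_cons, ih (fun r' hr' => hok r' (List.mem_cons_of_mem _ hr'))]
    unfold rndAct
    rw [realC_nrm2_czg h2 h3, realC_nrm2_refl h1]

theorem nrm2_split {n : ℕ} (i : ℕ) (hi : i < n) (v : RSt n) :
    nrm2 (one i v) + nrm2 (zer i v) = nrm2 v := by
  rw [realC_nrm2_sum, realC_nrm2_sum, realC_nrm2_sum, ← Finset.sum_add_distrib]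
  refine Finset.sum_congr rfl fun x _ => ?_
  rw [realC_one hi, realC_zer hi]
  split_ifs <;> ring

/-- yes instances -/
theorem yes_real (z : List Bool) (h : ∃ ψ, IsInput z ψ ∧ 2 / 3 ≤ accProb z ψ) :
    ∃ φ : RSt (cQubits z + 1), nrm2 φ = 1 ∧ ValidIn (cWitness z) φ ∧
      nrm2 (zer 0 (runR (rnds z) φ)) ≤ 1 / 3 := by
  obtain ⟨ψ, ⟨h1, h2⟩, h3⟩ := h
  refine ⟨emb ψ, by rw [nrm2_emb, h1], (validIn_emb _ ψ).2 h2, ?_⟩
  rw [accProb_eq] at h3
  have h4 := nrm2_split 0 (Nat.succ_pos _) (runR (rnds z) (emb ψ))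
  rw [rc_nrm2_runR _ (rnds_ok z), nrm2_emb, h1] at h4
  linarith only [h3, h4]

/-! ### scaling -/

section scaling

variable {n : ℕ}

theorem realC_pau_smul (P i : ℕ) (c : ℝ) (v : RSt n) : pau P i (c • v) = c • pau P i v := by
  unfold pau
  split_ifs
  · rfl
  · rfl
  · funext x
    simp only [Pi.smul_apply, smul_eq_mul]
    ring
  · rfl

theorem realC_czg_smul (f s : ℕ) (c : ℝ) (v : RSt n) : czg f s (c • v) = c • czg f s v := by
  unfold czg
  rw [realC_pau_smul, realC_pau_smul, realC_pau_smul]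
  module

theorem realC_refl_smul (a q : ℕ) (c : ℝ) (v : RSt n) : refl a q (c • v) = c • refl a q v := by
  unfold refl
  rw [realC_pau_smul, realC_pau_smul]
  split_ifs
  · rfl
  · module

theorem realC_runR_smul (rs : List Rnd) (c : ℝ) (v : RSt n) : runR rs (c • v) = c • runR rs v := by
  induction rs generalizing v with
  | nil => rfl
  | cons r rs ih =>
    rw [rc_runR_cons, rc_runR_cons, ← ih]
    unfold rndAct
    rw [realC_refl_smul, realC_czg_smul]

theorem realC_one_smul (i : ℕ) (c : ℝ) (v : RSt n) : one i (c • v) = c • one i v := by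
  unfold one
  rw [realC_pau_smul]
  module

theorem realC_nrm2_smul (c : ℝ) (v : RSt n) : nrm2 (c • v) = c ^ 2 * nrm2 v := by
  rw [realC_nrm2_sum, realC_nrm2_sum, Finset.mul_sum]
  refine Finset.sum_congr rfl fun x _ => ?_
  simp only [Pi.smul_apply, smul_eq_mul]
  ring

theorem realC_nrm2_nonneg (v : RSt n) : 0 ≤ nrm2 v := by
  rw [realC_nrm2_sum]
  exact Finset.sum_nonneg fun x _ => sq_nonneg _

end scaling

/-- no instances -/
theorem no_real (z : List Bool) (h : ∀ ψ, IsInput z ψ → accProb z ψ ≤ 1 / 3) :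
    ∀ φ : RSt (cQubits z + 1), ValidIn (cWitness z) φ →
      2 / 3 * nrm2 φ ≤ nrm2 (zer 0 (runR (rnds z) φ)) := by
  intro φ hφ
  have hsplit := nrm2_split 0 (Nat.succ_pos _) (runR (rnds z) φ)
  rw [rc_nrm2_runR _ (rnds_ok z)] at hsplit
  rcases (realC_nrm2_nonneg φ).eq_or_lt with h0 | h0
  · rw [← h0, mul_zero]
    exact realC_nrm2_nonneg _
  · obtain ⟨c, hc⟩ : ∃ c, c = (√(nrm2 φ))⁻¹ := ⟨_, rfl⟩
    have hc2 : c ^ 2 * nrm2 φ = 1 := by
      rw [hc, inv_pow, Real.sq_sqrt h0.le, inv_mul_cancel₀ h0.ne']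
    obtain ⟨ψ, hψ⟩ := exists_emb (c • φ)
    have hin : IsInput z ψ := by
      refine ⟨?_, (validIn_emb _ ψ).1 ?_⟩
      · rw [← nrm2_emb, hψ, realC_nrm2_smul, hc2]
      · rw [hψ]
        intro i hi hin
        rw [realC_one_smul, hφ i hi hin, smul_zero]
    have h1 := h ψ hin
    rw [accProb_eq, hψ, realC_runR_smul, realC_one_smul, realC_nrm2_smul] at h1
    have h2 : c ^ 2 * nrm2 (one 0 (runR (rnds z) φ)) ≤ c ^ 2 * (1 / 3 * nrm2 φ) := by
      linarith only [hc2, h1]
    have hcpos : 0 < c ^ 2 := by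
      rw [hc]
      positivity
    have h3 := le_of_mul_le_mul_left h2 hcpos
    (clear * - hsplit h3; linarith)

end Vale.Agent.P370.H
end

section

/-!
KC10: hopping amplitudes and the radial factors of the devices.
-/

namespace Vale.Agent.P370.KC

open Finset MeasureTheory Vale.Agent.P370.Q

theorem amp_eq (k : ℕ) (q : ℕ → ℕ) (d : ℕ) (hq : q d ≤ pn k - 1) :
    amp k q d = hopx (pn k) (q d) (Real.cos (Real.pi * d / (2 * pK k))) := by
  have hn : 0 < pn k := by unfold pn; positivity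
  unfold amp hopx
  generalize Real.pi * d / (2 * pK k) = δ
  generalize q d = q at *
  generalize pn k = n at *
  obtain ⟨m, rfl⟩ : ∃ m, n = m + q + 1 := ⟨n - 1 - q, by omega⟩
  rw [hopA_form]
  have e1 : (0 + δ - (0 - δ)) / 2 = δ := by ring
  have e2 : (0 + δ + (0 - δ)) / 2 - 0 = (0 : ℝ) := by ring
  rw [e1, e2, Real.cos_zero, Real.sin_zero]
  have e3 : Real.sin δ ^ 2 = 1 - Real.cos δ ^ 2 := by
    have := Real.sin_sq_add_cos_sq δ
    linarith only [this]
  have e4 : (0 - Real.sin δ) ^ (2 * q) + (0 + Real.sin δ) ^ (2 * q) =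
      2 * (1 - Real.cos δ ^ 2) ^ q := by
    rw [zero_sub, zero_add, pow_mul, pow_mul, neg_sq, e3]
    ring
  rw [e4, e3]
  unfold c2Ch
  have f1 : 2 * (m + q + 1) - 1 = 2 * (m + q) + 1 := by (clear * - hn; omega)
  have f2 : m + q + 1 - 1 + q = m + q + q := by (clear * - hn; omega)
  have f3 : 2 * (m + q + 1) + 2 * q - 1 = 2 * (m + q) + 2 * q + 1 := by (clear * - f2; omega)
  have f4 : m + q + 1 - 1 - q = m := by (clear * - f2; omega)
  have f5 : m + q - q = m := by (clear * - f2 f4; omega)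
  rw [f1, f2, f3, f4, f5]

theorem hx_fac (a b c : ℕ) (h : a ≤ b) :
    (a + c).factorial * b.factorial ≤ (b + c).factorial * a.factorial := by
  rw [← Nat.add_choose_mul_factorial_mul_factorial a c,
    ← Nat.add_choose_mul_factorial_mul_factorial b c]
  have h1 : (a + c).choose c ≤ (b + c).choose c := Nat.choose_le_choose c (by omega)
  calc (a + c).choose c * a.factorial * c.factorial * b.factorial
      = (a + c).choose c * (a.factorial * c.factorial * b.factorial) := by ring
    _ ≤ (b + c).choose c * (a.factorial * c.factorial * b.factorial) :=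
        Nat.mul_le_mul_right _ h1
    _ = _ := by ring

theorem hx_const (n q : ℕ) (hn : 2 ≤ n) (hq : q ≤ n - 1) :
    1 / 2 * (((2 * n - 1).factorial : ℝ) * ((n - 1 + q).factorial : ℝ) *
    ((2 * q).factorial : ℝ)) /
    (((2 * n + 2 * q - 1).factorial : ℝ) * ((n - 1 - q).factorial : ℝ) * (q.factorial : ℝ) ^ 2) ≤
      1 / 2 * 4 ^ q := by
  obtain ⟨m, rfl⟩ : ∃ m, n = m + q + 1 := ⟨n - 1 - q, by omega⟩
  have f1 : 2 * (m + q + 1) - 1 = 2 * (m + q) + 1 := by omega
  have f2 : m + q + 1 - 1 + q = m + 2 * q := by (clear * - hn; omega)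
  have f3 : 2 * (m + q + 1) + 2 * q - 1 = 2 * (m + q) + 1 + 2 * q := by omega
  have f4 : m + q + 1 - 1 - q = m := by (clear * - f2; omega)
  rw [f1, f2, f3, f4]
  have h1 : ((m + 2 * q).factorial : ℝ) * ((2 * (m + q) + 1).factorial : ℝ) ≤
      ((2 * (m + q) + 1 + 2 * q).factorial : ℝ) * (m.factorial : ℝ) := by
    exact_mod_cast hx_fac m (2 * (m + q) + 1) (2 * q) (by omega)
  have h2 : ((2 * q).factorial : ℝ) ≤ 4 ^ q * (q.factorial : ℝ) ^ 2 := by
    have h3 : (2 * q).choose q * q.factorial * q.factorial = (2 * q).factorial := by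
      rw [two_mul]
      exact Nat.add_choose_mul_factorial_mul_factorial q q
    have h4 : (2 * q).choose q ≤ 4 ^ q := by
      rw [← Nat.centralBinom_eq_two_mul_choose]
      exact Nat.centralBinom_le_four_pow q
    have h5 : (2 * q).factorial ≤ 4 ^ q * q.factorial ^ 2 := by
      rw [← h3, mul_assoc, ← sq]
      exact Nat.mul_le_mul_right _ h4
    exact_mod_cast h5
  rw [div_le_iff₀ (by positivity)]
  have h6 := mul_le_mul h1 h2 (by positivity) (by positivity)
  linarith only [h6]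

theorem hx_pow (m : ℕ) (u v B : ℝ) (hB : 1 ≤ B) (hu : |u| ≤ B) (hv : |v| ≤ B) :
    |u ^ m - v ^ m| ≤ m * B ^ m * |u - v| := by
  have h1 := abs_pow_sub_pow_le u v m
  have h2 : max |u| |v| ^ (m - 1) ≤ B ^ m :=
    (pow_le_pow_left₀ (le_max_of_le_left (abs_nonneg _)) (max_le hu hv) _).trans
      (pow_le_pow_right₀ hB (by omega))
  calc |u ^ m - v ^ m| ≤ |u - v| * m * max |u| |v| ^ (m - 1) := h1
    _ ≤ |u - v| * m * B ^ m := mul_le_mul_of_nonneg_left h2 (by (clear * -; positivity))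
    _ = _ := by ring

theorem hx_mul {a b a' b' A B δ x y : ℝ} (ha : |a| ≤ A) (hb : |b'| ≤ B) (hx : |a - a'| ≤ x * δ)
    (hy : |b - b'| ≤ y * δ) (hA : 0 ≤ A) (hB : 0 ≤ B) :
    |a * b - a' * b'| ≤ (A * y + x * B) * δ := by
  have e : a * b - a' * b' = a * (b - b') + (a - a') * b' := by ring
  rw [e]
  refine (abs_add_le _ _).trans ?_
  rw [abs_mul, abs_mul]
  have h1 := mul_le_mul ha hy (abs_nonneg _) hA
  have h2 := mul_le_mul hx hb (abs_nonneg _) ((abs_nonneg _).trans hx)
  linarith only [h1, h2]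

/-- crude Lipschitz bound -/
theorem hopx_lip (n q : ℕ) (hn : 2 ≤ n) (hq : q ≤ n - 1) (s t : ℝ) (hs : s ∈ Set.Icc (0 : ℝ) 1)
    (ht : t ∈ Set.Icc (0 : ℝ) 1) : |hopx n q s - hopx n q t| ≤ 2 ^ (8 * n) * |s - t| := by
  have hC := hx_const n q hn hq
  unfold hopx
  set C : ℝ := 1 / 2 * (((2 * n - 1).factorial : ℝ) * ((n - 1 + q).factorial : ℝ) *
    ((2 * q).factorial : ℝ)) /
    (((2 * n + 2 * q - 1).factorial : ℝ) * ((n - 1 - q).factorial : ℝ) * (q.factorial : ℝ) ^ 2)
    with hCd
  have hC0 : 0 ≤ C := by rw [hCd]; positivity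
  clear_value C
  set a := n - 1 - q with ha
  set D := |s - t| with hD
  have hD0 : 0 ≤ D := abs_nonneg _
  obtain ⟨hs0, hs1⟩ := hs
  obtain ⟨ht0, ht1⟩ := ht
  -- squares
  have hsq : |s ^ 2 - t ^ 2| ≤ 2 * D := by
    rw [show s ^ 2 - t ^ 2 = (s + t) * (s - t) by ring, abs_mul, ← hD]
    refine mul_le_mul_of_nonneg_right ?_ hD0
    rw [abs_of_nonneg (by linarith only [hs0, ht0])]
    linarith only [hs1, ht1]
  have hs2 : 0 ≤ s ^ 2 ∧ s ^ 2 ≤ 1 := ⟨by (clear * -; positivity), by nlinarith only [hs1, hs0]⟩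
  have ht2 : 0 ≤ t ^ 2 ∧ t ^ 2 ≤ 1 := ⟨by (clear * -; positivity), by linarith only [mul_nonneg_of_nonpos_of_nonpos (Mathlib.Tactic.Linarith.sub_nonpos_of_le ht1) (Mathlib.Tactic.Linarith.sub_nonpos_of_le ht0), ht1]⟩
  have a1 : |1 - s ^ 2| ≤ 1 := by rw [abs_le]; constructor <;> linarith only [hs2]
  have a2 : |1 - t ^ 2| ≤ 1 := by rw [abs_le]; constructor <;> linarith only [ht2]
  have a3 : |s ^ 2| ≤ 1 := by rw [abs_le]; constructor <;> linarith only [hs2]
  have a4 : |t ^ 2| ≤ 1 := by rw [abs_le]; constructor <;> linarith only [ht2]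
  have hsq' : |(1 - s ^ 2) - (1 - t ^ 2)| ≤ 2 * D := by
    rw [show (1 - s ^ 2) - (1 - t ^ 2) = -(s ^ 2 - t ^ 2) by ring, abs_neg]
    exact hsq
  have one_pw : ∀ (u : ℝ) (m : ℕ), |u| ≤ 1 → |u ^ m| ≤ 1 := by
    intro u m hu
    rw [abs_pow]
    exact pow_le_one₀ (abs_nonneg _) hu
  have l1 : ∀ m : ℕ, |(1 - s ^ 2) ^ m - (1 - t ^ 2) ^ m| ≤ (2 * m) * D := by
    intro m
    have h := hx_pow m _ _ 1 le_rfl a1 a2
    rw [one_pow, mul_one] at h
    refine h.trans ?_
    calc (m : ℝ) * |1 - s ^ 2 - (1 - t ^ 2)| ≤ m * (2 * D) :=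
          mul_le_mul_of_nonneg_left hsq' (by positivity)
      _ = _ := by ring
  have l2 : ∀ m : ℕ, |(s ^ 2) ^ m - (t ^ 2) ^ m| ≤ (2 * m) * D := by
    intro m
    have h := hx_pow m _ _ 1 le_rfl a3 a4
    rw [one_pow, mul_one] at h
    refine h.trans ?_
    calc (m : ℝ) * |s ^ 2 - t ^ 2| ≤ m * (2 * D) :=
          mul_le_mul_of_nonneg_left hsq (by (clear * -; positivity))
      _ = _ := by ring
  have b1 : |s - 1| ≤ 1 := by rw [abs_le]; constructor <;> linarith only [hs0, hs1]
  have b2 : |t - 1| ≤ 1 := by rw [abs_le]; constructor <;> linarith only [ht0, ht1]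
  have b3 : |s + 1| ≤ 2 := by rw [abs_le]; constructor <;> linarith only [hs0, hs1]
  have b4 : |t + 1| ≤ 2 := by rw [abs_le]; constructor <;> linarith only [ht0, ht1]
  have l3 : |(s - 1) ^ (2 * q) - (t - 1) ^ (2 * q)| ≤ (2 * q) * D := by
    have h := hx_pow (2 * q) _ _ 1 le_rfl b1 b2
    rw [one_pow, mul_one, show s - 1 - (t - 1) = s - t by ring, ← hD] at h
    push_cast at h
    exact h
  have h4q : (2 : ℝ) ^ (2 * q) = 4 ^ q := by rw [pow_mul]; norm_num
  have l4 : |(s + 1) ^ (2 * q) - (t + 1) ^ (2 * q)| ≤ (2 * q * 4 ^ q) * D := by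
    have h := hx_pow (2 * q) _ _ 2 (by norm_num) b3 b4
    rw [show s + 1 - (t + 1) = s - t by ring, ← hD, h4q] at h
    push_cast at h
    exact h
  have c1 : |(t - 1) ^ (2 * q) + (t + 1) ^ (2 * q)| ≤ 1 + 4 ^ q := by
    refine (abs_add_le _ _).trans ?_
    have h1 := one_pw _ (2 * q) b2
    have h2 : |(t + 1) ^ (2 * q)| ≤ 4 ^ q := by
      rw [abs_pow, ← h4q]
      exact pow_le_pow_left₀ (abs_nonneg _) b4 _
    linarith only [h1, h2]
  have c2 : |((s - 1) ^ (2 * q) + (s + 1) ^ (2 * q)) - ((t - 1) ^ (2 * q) + (t + 1) ^ (2 * q))| ≤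
      (2 * q + 2 * q * 4 ^ q) * D := by
    rw [show ((s - 1) ^ (2 * q) + (s + 1) ^ (2 * q)) - ((t - 1) ^ (2 * q) + (t + 1) ^ (2 * q)) =
      ((s - 1) ^ (2 * q) - (t - 1) ^ (2 * q)) + ((s + 1) ^ (2 * q) - (t + 1) ^ (2 * q)) by ring]
    refine (abs_add_le _ _).trans ?_
    linarith only [l3, l4]
  have m1 := hx_mul (one_pw _ a a1) c1 (l1 a) c2 zero_le_one (by positivity)
  have c3 : |2 * (1 - t ^ 2) ^ q| ≤ 2 := by
    rw [abs_mul, abs_of_pos (two_pos)]
    have := one_pw _ q a2
    linarith only [this]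
  have c4 : |2 * (1 - s ^ 2) ^ q - 2 * (1 - t ^ 2) ^ q| ≤ (4 * q) * D := by
    rw [← mul_sub, abs_mul, abs_of_pos (two_pos)]
    have := l1 q
    linarith only [this]
  have m2 := hx_mul (one_pw _ a a3) c3 (l2 a) c4 zero_le_one (by positivity)
  have key : |((1 - s ^ 2) ^ a * ((s - 1) ^ (2 * q) + (s + 1) ^ (2 * q)) +
      (s ^ 2) ^ a * (2 * (1 - s ^ 2) ^ q)) - ((1 - t ^ 2) ^ a * ((t - 1) ^ (2 * q) +
      (t + 1) ^ (2 * q)) + (t ^ 2) ^ a * (2 * (1 - t ^ 2) ^ q))| ≤ 8 * n * 4 ^ q * D := by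
    rw [show ∀ x y z w : ℝ, (x + y) - (z + w) = (x - z) + (y - w) from fun x y z w => by ring]
    refine (abs_add_le _ _).trans ((add_le_add m1 m2).trans ?_)
    rw [← add_mul]
    refine mul_le_mul_of_nonneg_right ?_ hD0
    have h1 : (a : ℝ) + q ≤ n := by
      have : a + q ≤ n := by (clear * - hn hq; omega)
      exact_mod_cast this
    have h2 : (1 : ℝ) ≤ 4 ^ q := one_le_pow₀ (by norm_num)
    have h3 : (0 : ℝ) ≤ a := Nat.cast_nonneg a
    have h4 : (0 : ℝ) ≤ q := Nat.cast_nonneg q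
    have h5 : (a : ℝ) * 1 ≤ a * 4 ^ q := mul_le_mul_of_nonneg_left h2 h3
    have h6 : (q : ℝ) * 1 ≤ q * 4 ^ q := mul_le_mul_of_nonneg_left h2 h4
    have h7 : ((a : ℝ) + q) * 4 ^ q ≤ n * 4 ^ q := mul_le_mul_of_nonneg_right h1 (by positivity)
    linarith only [h5, h6, h7]
  rw [← mul_sub, abs_mul, abs_of_nonneg hC0]
  have h8 : (n : ℝ) ≤ 2 ^ n := by exact_mod_cast (Nat.lt_two_pow_self (n := n)).le
  have h9 : (4 : ℝ) ^ q * 4 ≤ 2 ^ (2 * n) := by
    rw [pow_mul, ← pow_succ]
    norm_num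
    exact pow_le_pow_right₀ (by norm_num) (by (clear * - hn hq; omega))
  have h10 : (2 : ℝ) ^ (8 * n) = 2 ^ (2 * n) * 2 ^ (2 * n) * 2 ^ n * 2 ^ (3 * n) := by
    rw [← pow_add, ← pow_add, ← pow_add]
    congr 1
    ring
  calc C * _ ≤ (1 / 2 * 4 ^ q) * (8 * n * 4 ^ q * D) := mul_le_mul hC key (abs_nonneg _) (by positivity)
    _ = (4 ^ q * 4) * (4 ^ q * 4) * (n / 4) * D := by ring
    _ ≤ 2 ^ (2 * n) * 2 ^ (2 * n) * 2 ^ n * D := by
        refine mul_le_mul_of_nonneg_right ?_ hD0
        refine mul_le_mul (mul_le_mul h9 h9 (by positivity) (by positivity)) ?_ (by positivity)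
          (by positivity)
        have : (0 : ℝ) ≤ n := Nat.cast_nonneg n
        linarith only [h8]
    _ ≤ 2 ^ (8 * n) * D := by
        refine mul_le_mul_of_nonneg_right ?_ hD0
        rw [h10]
        exact le_mul_of_one_le_right (by positivity) (one_le_pow₀ (by norm_num))

theorem RN_low (n N : ℕ) (hN2 : N ≤ 2 * n - 2) (hn : 2 ≤ n) (ρ : ℝ) (hρ : 0 < ρ)
    (hρ2 : ρ ≤ 1 / 2) :
    ρ ^ N / (2 * (N : ℝ) + 1) *
        ((∫ r in Set.Ioi (0 : ℝ), r ^ (2 * n - 1 - N) * Real.exp (-(2 / n * r))) - ρ) ≤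
      RN n N ρ := by
  have hn0 : (0 : ℝ) < n := by
    have : (2 : ℝ) ≤ n := by exact_mod_cast hn
    linarith only [this]
  obtain ⟨m, hm⟩ : ∃ m, 2 * n = m + (N + 1) := ⟨2 * n - 1 - N, by (clear * - hN2 hn; omega)⟩
  have hm' : 2 * n - 1 - N = m := by omega
  rw [hm']
  set g : ℝ → ℝ := fun r => r ^ (2 * n) * Real.exp (-(2 * r / n)) *
    (1 / (2 * (N : ℝ) + 1) * (min r ρ ^ N / max r ρ ^ (N + 1))) with hg
  set f : ℝ → ℝ := fun r => ρ ^ N / (2 * (N : ℝ) + 1) * (r ^ m * Real.exp (-(2 / n * r))) with hf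
  have hexp : ∀ r : ℝ, Real.exp (-(2 * r / n)) = Real.exp (-(2 / n * r)) := fun r => by
    congr 1
    ring
  have hfi : IntegrableOn f (Set.Ioi 0) :=
    (rad_integrable m (c := 2 / n) (by positivity)).const_mul _
  have hle : ∀ r, 0 < r → 0 ≤ g r ∧ g r ≤ f r := by
    intro r hr
    have hmin : 0 < min r ρ := lt_min hr hρ
    have hmax : 0 < max r ρ := lt_max_of_lt_left hr
    refine ⟨by simp only [hg]; (clear * - hr hρ; positivity), ?_⟩
    simp only [hg, hf, hexp]
    have h1 : r ^ (2 * n) * (min r ρ ^ N / max r ρ ^ (N + 1)) ≤ ρ ^ N * r ^ m := by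
      rw [hm, pow_add, mul_assoc, mul_comm (ρ ^ N)]
      refine mul_le_mul_of_nonneg_left ?_ (pow_nonneg hr.le _)
      rw [mul_div_assoc', div_le_iff₀ (pow_pos hmax _), mul_comm (r ^ (N + 1))]
      exact mul_le_mul (pow_le_pow_left₀ hmin.le (min_le_right _ _) _)
        (pow_le_pow_left₀ hr.le (le_max_left _ _) _) (pow_nonneg hr.le _) (pow_nonneg hρ.le _)
    calc r ^ (2 * n) * Real.exp (-(2 / n * r)) *
          (1 / (2 * (N : ℝ) + 1) * (min r ρ ^ N / max r ρ ^ (N + 1)))
        = (Real.exp (-(2 / n * r)) / (2 * (N : ℝ) + 1)) *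
          (r ^ (2 * n) * (min r ρ ^ N / max r ρ ^ (N + 1))) := by ring
      _ ≤ (Real.exp (-(2 / n * r)) / (2 * (N : ℝ) + 1)) * (ρ ^ N * r ^ m) :=
          mul_le_mul_of_nonneg_left h1 (by (clear * -; positivity))
      _ = ρ ^ N / (2 * (N : ℝ) + 1) * (r ^ m * Real.exp (-(2 / n * r))) := by ring
  have heq : ∀ r, ρ ≤ r → g r = f r := by
    intro r hr
    have hr0 : 0 < r := hρ.trans_le hr
    simp only [hg, hf, hexp]
    rw [min_eq_right hr, max_eq_left hr, hm, pow_add r m (N + 1)]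
    (clear * - hr0 hρ; field_simp)
  have hgm : AEStronglyMeasurable g (volume.restrict (Set.Ioi 0)) := by
    apply Measurable.aestronglyMeasurable
    simp only [hg]
    fun_prop
  have hgi : IntegrableOn g (Set.Ioi 0) := by
    refine Integrable.mono' hfi hgm ?_
    rw [ae_restrict_iff' measurableSet_Ioi]
    refine Filter.Eventually.of_forall fun r hr => ?_
    rw [Real.norm_of_nonneg (hle r hr).1]
    exact (hle r hr).2
  have hRN : RN n N ρ = ∫ r in Set.Ioi (0 : ℝ), g r := rfl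
  have hfint : ρ ^ N / (2 * (N : ℝ) + 1) *
      ∫ r in Set.Ioi (0 : ℝ), r ^ m * Real.exp (-(2 / n * r)) = ∫ r in Set.Ioi (0 : ℝ), f r := by
    rw [← integral_const_mul]
  rw [mul_sub, hfint, hRN]
  have hsplit : Set.Ioi (0 : ℝ) = Set.Ioc 0 ρ ∪ Set.Ioi ρ := (Set.Ioc_union_Ioi_eq_Ioi hρ.le).symm
  have h1 : ∫ r in Set.Ioi (0 : ℝ), f r =
      (∫ r in Set.Ioc 0 ρ, f r) + ∫ r in Set.Ioi ρ, f r := by
    rw [← setIntegral_union (Set.Ioc_disjoint_Ioi le_rfl) measurableSet_Ioi
      (hfi.mono_set (by rw [hsplit]; exact Set.subset_union_left))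
      (hfi.mono_set (by rw [hsplit]; exact Set.subset_union_right)), ← hsplit]
  have h2 : ∫ r in Set.Ioi ρ, f r = ∫ r in Set.Ioi ρ, g r :=
    setIntegral_congr_fun measurableSet_Ioi fun r hr => (heq r (le_of_lt hr)).symm
  have h3 : ∫ r in Set.Ioi ρ, g r ≤ ∫ r in Set.Ioi (0 : ℝ), g r := by
    refine setIntegral_mono_set hgi ?_ ?_
    · rw [Filter.EventuallyLE, ae_restrict_iff' measurableSet_Ioi]
      exact Filter.Eventually.of_forall fun r hr => (hle r hr).1
    · exact (Set.Ioi_subset_Ioi hρ.le).eventuallyLE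
  have h4 : ∫ r in Set.Ioc 0 ρ, f r ≤ ρ ^ N / (2 * (N : ℝ) + 1) * ρ := by
    have h5 : ∫ r in Set.Ioc 0 ρ, f r ≤ ∫ r in Set.Ioc 0 ρ, ρ ^ N / (2 * (N : ℝ) + 1) := by
      refine setIntegral_mono_on (hfi.mono_set (by rw [hsplit]; exact Set.subset_union_left))
        (integrableOn_const (by simp only [Real.volume_Ioc, sub_zero, ne_eq, ENNReal.ofReal_ne_top, not_false_eq_true])) measurableSet_Ioc fun r hr => ?_
      simp only [hf]
      have h6 : r ^ m ≤ 1 := pow_le_one₀ hr.1.le (hr.2.trans (hρ2.trans (by norm_num)))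
      have h7 : Real.exp (-(2 / n * r)) ≤ 1 := by
        rw [Real.exp_le_one_iff]
        have := hr.1
        have : 0 ≤ 2 / (n : ℝ) * r := by (clear * - hn this; positivity)
        linarith only [this]
      have h8 : r ^ m * Real.exp (-(2 / n * r)) ≤ 1 := by
        have := mul_le_mul h6 h7 (Real.exp_pos _).le zero_le_one
        rwa [one_mul] at this
      calc ρ ^ N / (2 * (N : ℝ) + 1) * (r ^ m * Real.exp (-(2 / n * r)))
          ≤ ρ ^ N / (2 * (N : ℝ) + 1) * 1 := mul_le_mul_of_nonneg_left h8 (by (clear * - hρ; positivity))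
        _ = _ := mul_one _
    refine h5.trans ?_
    rw [setIntegral_const, Real.volume_real_Ioc_of_le hρ.le, sub_zero, smul_eq_mul, mul_comm]
  linarith only [h1, h2, h3, h4]

/-- the radial factors are almost one -/
theorem zt_near (k N : ℕ) (hk : 10 ≤ k) (hN1 : 1 ≤ N) (hN : N ≤ 2 * pn k - 2) :
    |zt k N - 1| ≤ 1 / 2 ^ (16 * pn k ^ 2) := by
  have hn : 2 ≤ pn k := (pn_even k hk).2
  have hρ := St1_rho_pos k
  have hρe : pρ k = 1 / 2 ^ (16 * pn k ^ 2) := rfl
  rw [← hρe]
  unfold zt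
  have hρ3 : pρ k ≤ 1 / 2 := by
    rw [hρe]
    refine one_div_le_one_div_of_le (by norm_num) ?_
    calc (2 : ℝ) = 2 ^ 1 := (pow_one 2).symm
      _ ≤ 2 ^ (16 * pn k ^ 2) := pow_le_pow_right₀ (by norm_num) (by nlinarith only [hn])
  clear hρe
  generalize pρ k = ρ at *
  generalize pn k = n at *
  have hn0 : (0 : ℝ) < n := by
    have : (2 : ℝ) ≤ n := by exact_mod_cast hn
    linarith only [this]
  have hn1 : (1 : ℝ) ≤ (n : ℝ) / 2 := by
    have : (2 : ℝ) ≤ n := by exact_mod_cast hn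
    linarith only [this]
  have h1 := RN_low n N hN hn ρ hρ hρ3
  have h2 := (RN_aux n N hN hn ρ hρ hρ3).2
  rw [rad_integral _ (by positivity), one_div_div] at h1 h2
  obtain ⟨m, hm⟩ : ∃ m, 2 * n = m + (N + 1) := ⟨2 * n - 1 - N, by omega⟩
  have hm' : 2 * n - 1 - N = m := by omega
  rw [hm'] at h1 h2
  set F : ℝ := (m.factorial : ℝ) * ((n : ℝ) / 2) ^ (m + 1) with hF
  have hF1 : 1 ≤ F := by
    have h3 : (1 : ℝ) ≤ m.factorial := by exact_mod_cast Nat.one_le_iff_ne_zero.2 m.factorial_ne_zero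
    have h4 : (1 : ℝ) ≤ ((n : ℝ) / 2) ^ (m + 1) := one_le_pow₀ hn1
    nlinarith only [h3, h4]
  have hI : Xu n N ρ * (ρ ^ N / (2 * (N : ℝ) + 1) * F) = I0 n := by
    rw [I0_eq' n (by omega), Xu, hm', hF]
    have h5 : ((n : ℝ) / 2) ^ (2 * n + 1) = ((n : ℝ) / 2) ^ (N + 1) * ((n : ℝ) / 2) ^ (m + 1) := by
      rw [← pow_add]
      congr 1
      omega
    rw [h5]
    have h6 : (m.factorial : ℝ) ≠ 0 := by exact_mod_cast m.factorial_ne_zero
    have h7 : ρ ^ N ≠ 0 := pow_ne_zero _ hρ.ne'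
    have h8 : (2 * (N : ℝ) + 1) ≠ 0 := by positivity
    rw [one_div, inv_pow]
    field_simp
  have hX : 0 < Xu n N ρ := by
    unfold Xu
    positivity
  have hI0 : 0 < I0 n := by
    rw [← hI]
    positivity
  rw [abs_le]
  constructor
  · rw [neg_le_sub_iff_le_add, ← sub_le_iff_le_add, le_div_iff₀ hI0]
    calc (1 - ρ) * I0 n = Xu n N ρ * (ρ ^ N / (2 * (N : ℝ) + 1) * (F - ρ * F)) := by
          rw [← hI]; ring
      _ ≤ Xu n N ρ * (ρ ^ N / (2 * (N : ℝ) + 1) * (F - ρ)) := by
          refine mul_le_mul_of_nonneg_left ?_ hX.le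
          refine mul_le_mul_of_nonneg_left ?_ (by positivity)
          nlinarith only [hρ, hF1]
      _ ≤ Xu n N ρ * RN n N ρ := mul_le_mul_of_nonneg_left h1 hX.le
  · have : Xu n N ρ * RN n N ρ / I0 n ≤ 1 := by
      rw [div_le_one hI0]
      calc Xu n N ρ * RN n N ρ ≤ Xu n N ρ * (ρ ^ N / (2 * (N : ℝ) + 1) * F) :=
            mul_le_mul_of_nonneg_left h2 hX.le
        _ = I0 n := hI
    linarith only [hρ, this]

end Vale.Agent.P370.KC
end

section

/-!
Removal of one occupied label from an antisymmetric tensor.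
-/

set_option linter.unusedSectionVars false

namespace Vale.Agent.P370.Q.ClS

open Finset ComplexConjugate

variable {ι : Type} [Fintype ι] [DecidableEq ι]

/-- the label `x` is occupied in the support -/
def Occ {N : ℕ} (x : ι) (c : Tens N ι) : Prop := ∀ I, c I ≠ 0 → ∃ i, I i = x

/-- the label `x` is not occupied in the support -/
def Emp {N : ℕ} (x : ι) (c : Tens N ι) : Prop := ∀ I, c I ≠ 0 → ∀ i, I i ≠ x

omit [Fintype ι] [DecidableEq ι] in
theorem anti_swap {N : ℕ} {c : Tens N ι} (hc : IsAnti c) {i j : Fin N} (h : i ≠ j)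
    (I : Fin N → ι) : c (fun k => I (Equiv.swap i j k)) = - c I := by
  rw [hc, Equiv.Perm.sign_swap h]
  simp only [Units.val_neg, Units.val_one, Int.reduceNeg, Int.cast_neg, Int.cast_one, neg_mul, one_mul]

omit [Fintype ι] [DecidableEq ι] in
theorem anti_inj {N : ℕ} {c : Tens N ι} (hc : IsAnti c) {I : Fin N → ι} (hI : c I ≠ 0) :
    Function.Injective I := by
  intro i j hij
  by_contra hne
  have h := anti_swap hc hne I
  have h1 : (fun k => I (Equiv.swap i j k)) = I := by
    funext k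
    rcases eq_or_ne k i with rfl | h1
    · rw [Equiv.swap_apply_left, hij]
    rcases eq_or_ne k j with rfl | h2
    · rw [Equiv.swap_apply_right, hij]
    · rw [Equiv.swap_apply_of_ne_of_ne h1 h2]
  rw [h1] at h
  exact hI (self_eq_neg.1 h)

theorem sign_mul_self {N : ℕ} (π : Equiv.Perm (Fin N)) :
    ((Equiv.Perm.sign π : ℤ) : ℂ) * ((Equiv.Perm.sign π : ℤ) : ℂ) = 1 := by
  rw [← Int.cast_mul, ← Units.val_mul, Int.units_mul_self]
  simp

omit [Fintype ι] [DecidableEq ι] in
theorem update_perm {N : ℕ} (π : Equiv.Perm (Fin N)) (I : Fin N → ι) (i : Fin N) (a : ι) :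
    Function.update (fun k => I (π k)) i a = fun k => Function.update I (π i) a (π k) := by
  funext k
  rcases eq_or_ne k i with rfl | h
  · rw [Function.update_self, Function.update_self]
  · rw [Function.update_of_ne h, Function.update_of_ne (fun h' => h (π.injective h'))]

omit [Fintype ι] [DecidableEq ι] in
/-- two tensors values at permuted places -/
theorem conj_mul_perm {N : ℕ} {c : Tens N ι} (hc : IsAnti c) (π : Equiv.Perm (Fin N))
    (I J : Fin N → ι) : conj (c (fun k => I (π k))) * c (fun k => J (π k)) =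
      conj (c I) * c J := by
  rw [hc, hc, map_mul, map_intCast]
  linear_combination (conj (c I) * c J) * sign_mul_self π

/-- sum of a symmetric function over configurations containing `x` exactly once -/
theorem sum_eq_cons {n : ℕ} (x : ι) (F : (Fin (n + 1) → ι) → ℂ)
    (hF : ∀ (π : Equiv.Perm (Fin (n + 1))) (I : Fin (n + 1) → ι), F (fun i => I (π i)) = F I)
    (hx : ∀ I, F I ≠ 0 → ∃! i, I i = x) :
    ∑ I, F I = (n + 1 : ℂ) * ∑ T : Fin n → ι, F (Fin.cons x T) := by
  have h1 : ∀ I, F I = ∑ i, if I i = x then F I else 0 := by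
    intro I
    by_cases h : F I = 0
    · simp only [h, ite_self, sum_const_zero]
    · obtain ⟨i, hi, hi'⟩ := hx I h
      rw [Finset.sum_eq_single i]
      · rw [if_pos hi]
      · intro j _ hj
        rw [if_neg (fun h => hj (hi' j h))]
      · simp only [mem_univ, not_true_eq_false, ite_eq_right_iff, IsEmpty.forall_iff]
  have h2 : ∀ i : Fin (n + 1), ∑ I : Fin (n + 1) → ι, (if I i = x then F I else 0) =
      ∑ I : Fin (n + 1) → ι, (if I 0 = x then F I else 0) := by
    intro i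
    refine Fintype.sum_equiv ((Equiv.swap 0 i).arrowCongr (Equiv.refl ι)) _ _ ?_
    intro I
    have h3 : (Equiv.swap 0 i).arrowCongr (Equiv.refl ι) I = fun k => I (Equiv.swap 0 i k) := by
      funext k
      simp
    rw [h3, hF]
    simp only [Equiv.swap_apply_left]
  rw [Finset.sum_congr rfl (fun I _ => h1 I), Finset.sum_comm,
    Finset.sum_congr rfl (fun i _ => h2 i), Finset.sum_const, card_univ, Fintype.card_fin,
    nsmul_eq_mul, Nat.cast_add, Nat.cast_one]
  congr 1
  rw [← (Fin.consEquiv (fun _ : Fin (n + 1) => ι)).sum_comp, Fintype.sum_prod_type,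
    Finset.sum_comm]
  refine Finset.sum_congr rfl fun T _ => ?_
  simp only [Fin.consEquiv, Equiv.coe_fn_mk, Fin.cons_zero, sum_ite_eq', mem_univ, ↓reduceIte]

/-- symmetric sums over pairs -/
theorem sum_pairs {N : ℕ} (g : Fin N → Fin N → ℂ) (hg : ∀ i j, i ≠ j → g i j = g j i) :
    ∑ i, ∑ j, (if i = j then 0 else g i j) = 2 * ∑ i, ∑ j ∈ Ioi i, g i j := by
  have h1 : ∀ i, ∑ j, (if i = j then 0 else g i j) = ∑ j ∈ Ioi i, g i j + ∑ j ∈ Iio i, g i j := by
    intro i
    have h2 : ∀ j, (if i = j then 0 else g i j) =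
        (if j ∈ Ioi i then g i j else 0) + (if j ∈ Iio i then g i j else 0) := by
      intro j
      simp only [mem_Ioi, mem_Iio]
      rcases lt_trichotomy i j with h | h | h
      · rw [if_neg h.ne, if_pos h, if_neg h.le.not_gt, add_zero]
      · rw [if_pos h, if_neg h.not_lt, if_neg h.not_gt, add_zero]
      · rw [if_neg h.ne', if_neg h.le.not_gt, if_pos h, zero_add]
    rw [Finset.sum_congr rfl (fun j _ => h2 j), Finset.sum_add_distrib, Finset.sum_ite_mem,
      Finset.sum_ite_mem, Finset.univ_inter, Finset.univ_inter]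
  rw [Finset.sum_congr rfl (fun i _ => h1 i), Finset.sum_add_distrib, two_mul]
  congr 1
  rw [Finset.sum_comm' (s := univ) (t := fun i => Iio i) (t' := univ) (s' := fun j => Ioi j)
    (by simp only [mem_univ, mem_Iio, true_and, mem_Ioi, and_true, implies_true])]
  refine Finset.sum_congr rfl fun i _ => Finset.sum_congr rfl fun j hj => ?_
  exact hg _ _ (mem_Ioi.1 hj).ne'

/-- one-body density -/
noncomputable def dens1 {N : ℕ} (h : ι → ι → ℝ) (c : Tens N ι) (I : Fin N → ι) : ℂ :=
  ∑ i, ∑ a, (h (I i) a : ℂ) * (conj (c I) * c (Function.update I i a))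

/-- two-body density -/
noncomputable def dens2 {N : ℕ} (v : ι → ι → ι → ι → ℝ) (c : Tens N ι) (I : Fin N → ι) : ℂ :=
  ∑ i, ∑ j ∈ Ioi i, ∑ a, ∑ b, (v (I i) a (I j) b : ℂ) *
      (conj (c I) * c (Function.update (Function.update I i a) j b))

theorem oneE_eq {N : ℕ} (h : ι → ι → ℝ) (c : Tens N ι) : oneE h c = (∑ I, dens1 h c I).re := rfl

theorem twoE_eq {N : ℕ} (v : ι → ι → ι → ι → ℝ) (c : Tens N ι) :
    twoE v c = (∑ I, dens2 v c I).re := rfl

theorem dens1_perm {N : ℕ} (h : ι → ι → ℝ) {c : Tens N ι} (hc : IsAnti c)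
    (π : Equiv.Perm (Fin N)) (I : Fin N → ι) : dens1 h c (fun i => I (π i)) = dens1 h c I := by
  unfold dens1
  rw [← Equiv.sum_comp π (fun i => ∑ a, (h (I i) a : ℂ) * (conj (c I) * c (Function.update I i a)))]
  refine Finset.sum_congr rfl fun i _ => Finset.sum_congr rfl fun a _ => ?_
  rw [update_perm, conj_mul_perm hc π I (Function.update I (π i) a)]

theorem dens2_perm {N : ℕ} {v : ι → ι → ι → ι → ℝ} (hv : ∀ p a q b, v p a q b = v q b p a)
    {c : Tens N ι} (hc : IsAnti c) (π : Equiv.Perm (Fin N)) (I : Fin N → ι) :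
    dens2 v c (fun i => I (π i)) = dens2 v c I := by
  have hs : ∀ (I : Fin N → ι) (i j : Fin N), i ≠ j →
      (∑ a, ∑ b, (v (I i) a (I j) b : ℂ) *
        (conj (c I) * c (Function.update (Function.update I i a) j b))) =
      ∑ a, ∑ b, (v (I j) a (I i) b : ℂ) *
        (conj (c I) * c (Function.update (Function.update I j a) i b)) := by
    intro I i j hij
    rw [Finset.sum_comm]
    refine Finset.sum_congr rfl fun a _ => Finset.sum_congr rfl fun b _ => ?_
    rw [hv, Function.update_comm hij]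
  have h1 := sum_pairs (fun i j => ∑ a, ∑ b, (v (I i) a (I j) b : ℂ) *
        (conj (c I) * c (Function.update (Function.update I i a) j b))) (hs I)
  have h2 := sum_pairs (fun i j => ∑ a, ∑ b, (v (I (π i)) a (I (π j)) b : ℂ) *
        (conj (c (fun i => I (π i))) * c (Function.update (Function.update (fun i => I (π i)) i a) j b)))
        (hs (fun i => I (π i)))
  have h3 : (2 : ℂ) ≠ 0 := two_ne_zero
  apply mul_left_cancel₀ h3
  unfold dens2
  rw [← h1, ← h2, ← Equiv.sum_comp π (fun i => ∑ j, (if i = j then 0 else ∑ a, ∑ b,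
    (v (I i) a (I j) b : ℂ) * (conj (c I) * c (Function.update (Function.update I i a) j b))))]
  refine Finset.sum_congr rfl fun i _ => ?_
  rw [← Equiv.sum_comp π (fun j => (if π i = j then 0 else ∑ a, ∑ b,
    (v (I (π i)) a (I j) b : ℂ) *
      (conj (c I) * c (Function.update (Function.update I (π i) a) j b))))]
  refine Finset.sum_congr rfl fun j _ => ?_
  by_cases hij : i = j
  · rw [if_pos hij, if_pos (congrArg π hij)]
  · rw [if_neg hij, if_neg (fun h => hij (π.injective h))]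
    refine Finset.sum_congr rfl fun a _ => Finset.sum_congr rfl fun b _ => ?_
    rw [update_perm, update_perm, conj_mul_perm hc π I
      (Function.update (Function.update I (π i) a) (π j) b)]

/-- removal of the label `x` -/
noncomputable def dn {n : ℕ} (x : ι) (c : Tens (n + 1) ι) : Tens n ι :=
  fun T => (Real.sqrt (n + 1) : ℂ) * c (Fin.cons x T)

theorem sqrt_sq' (n : ℕ) : (Real.sqrt (n + 1) : ℂ) * (Real.sqrt (n + 1) : ℂ) = (n + 1 : ℂ) := by
  rw [← Complex.ofReal_mul, Real.mul_self_sqrt (by (clear * -; positivity))]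
  push_cast
  rfl

omit [Fintype ι] [DecidableEq ι] in
theorem dn_conj_mul {n : ℕ} (x : ι) (c : Tens (n + 1) ι) (S T : Fin n → ι) :
    conj (dn x c S) * dn x c T = (n + 1 : ℂ) * (conj (c (Fin.cons x S)) * c (Fin.cons x T)) := by
  unfold dn
  rw [map_mul, Complex.conj_ofReal]
  linear_combination (conj (c (Fin.cons x S)) * c (Fin.cons x T)) * sqrt_sq' n

omit [Fintype ι] [DecidableEq ι] in
theorem dn_ne {n : ℕ} {x : ι} {c : Tens (n + 1) ι} {T : Fin n → ι} (h : dn x c T ≠ 0) :
    c (Fin.cons x T) ≠ 0 := fun h' => h (by unfold dn; rw [h', mul_zero])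

omit [Fintype ι] [DecidableEq ι] in
theorem dn_anti {n : ℕ} (x : ι) {c : Tens (n + 1) ι} (hc : IsAnti c) : IsAnti (dn x c) := by
  intro π T
  have h1 := hc (Equiv.Perm.decomposeFin.symm (0, π)) (Fin.cons x T)
  have h2 : (fun i => (Fin.cons x T : Fin (n + 1) → ι)
      (Equiv.Perm.decomposeFin.symm (0, π) i)) = Fin.cons x (fun i => T (π i)) := by
    funext i
    refine Fin.cases ?_ (fun j => ?_) i
    · rw [Equiv.Perm.decomposeFin_symm_apply_zero, Fin.cons_zero, Fin.cons_zero]
    · rw [Equiv.Perm.decomposeFin_symm_apply_succ, Equiv.swap_self, Equiv.refl_apply,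
        Fin.cons_succ, Fin.cons_succ]
  rw [h2, Equiv.Perm.decomposeFin.symm_sign, if_pos rfl, one_mul] at h1
  unfold dn
  rw [h1]
  ring

omit [Fintype ι] [DecidableEq ι] in
theorem dn_emp {n : ℕ} (x : ι) {c : Tens (n + 1) ι} (hc : IsAnti c) : Emp x (dn x c) := by
  intro T hT i hi
  have h := anti_inj hc (dn_ne hT) (a₁ := 0) (a₂ := i.succ) (by
    rw [Fin.cons_zero, Fin.cons_succ, hi])
  exact (Fin.succ_ne_zero i) h.symm

omit [Fintype ι] [DecidableEq ι] in
theorem dn_emp' {n : ℕ} (x : ι) {y : ι} {c : Tens (n + 1) ι} (hc : Emp y c) :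
    Emp y (dn x c) := by
  intro T hT i hi
  exact hc _ (dn_ne hT) i.succ (by rw [Fin.cons_succ, hi])

omit [Fintype ι] [DecidableEq ι] in
theorem dn_occ {n : ℕ} {x y : ι} (hxy : x ≠ y) {c : Tens (n + 1) ι} (hc : Occ y c) :
    Occ y (dn x c) := by
  intro T hT
  obtain ⟨i, hi⟩ := hc _ (dn_ne hT)
  revert hi
  refine Fin.cases (fun hi => ?_) (fun j hj => ?_) i
  · rw [Fin.cons_zero] at hi
    exact absurd hi hxy
  · rw [Fin.cons_succ] at hj
    exact ⟨j, hj⟩

/-- the main sum formula -/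
theorem sum_cons {n : ℕ} {x : ι} {c : Tens (n + 1) ι} (hc : IsAnti c) (hx : Occ x c)
    (F : (Fin (n + 1) → ι) → ℂ)
    (hF : ∀ (π : Equiv.Perm (Fin (n + 1))) (I : Fin (n + 1) → ι), F (fun i => I (π i)) = F I)
    (h0 : ∀ I, c I = 0 → F I = 0) :
    ∑ I, F I = (n + 1 : ℂ) * ∑ T : Fin n → ι, F (Fin.cons x T) := by
  refine sum_eq_cons x F hF fun I hI => ?_
  have hcI : c I ≠ 0 := fun h => hI (h0 I h)
  obtain ⟨i, hi⟩ := hx I hcI
  exact ⟨i, hi, fun j hj => anti_inj hc hcI (hj.trans hi.symm)⟩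

theorem nsq_eq {N : ℕ} (c : Tens N ι) : (nsq c : ℂ) = ∑ I, conj (c I) * c I := by
  unfold nsq
  push_cast
  refine Finset.sum_congr rfl fun I _ => ?_
  rw [Complex.conj_mul']

theorem dn_nsq {n : ℕ} {x : ι} {c : Tens (n + 1) ι} (hc : IsAnti c) (hx : Occ x c) :
    nsq (dn x c) = nsq c := by
  have h : (nsq (dn x c) : ℂ) = nsq c := by
    rw [nsq_eq, nsq_eq, sum_cons hc hx (fun I => conj (c I) * c I)
      (fun π I => conj_mul_perm hc π I I) (fun I hI => by simp only [hI, map_zero, mul_zero]), Finset.mul_sum]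
    exact Finset.sum_congr rfl fun T _ => dn_conj_mul x c T T
  exact_mod_cast h

omit [Fintype ι] in
theorem update_cons_zero' {n : ℕ} (x a : ι) (T : Fin n → ι) :
    Function.update (Fin.cons x T : Fin (n + 1) → ι) 0 a = Fin.cons a T :=
  Fin.update_cons_zero _ _ _

omit [Fintype ι] in
theorem update_cons_succ' {n : ℕ} (x a : ι) (T : Fin n → ι) (i : Fin n) :
    Function.update (Fin.cons x T : Fin (n + 1) → ι) i.succ a =
      Fin.cons x (Function.update T i a) :=
  (Fin.cons_update _ _ _ _).symm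

/-- the removed particle must stay where it is -/
theorem cons_zero_of_ne {n : ℕ} {x a : ι} {c : Tens (n + 1) ι} (hc : IsAnti c) (hx : Occ x c)
    (h : a ≠ x) (T : Fin n → ι) : conj (c (Fin.cons x T)) * c (Fin.cons a T) = 0 := by
  by_contra hne
  have h1 : c (Fin.cons x T) ≠ 0 := by
    intro h'
    exact hne (by rw [h', map_zero, zero_mul])
  have h2 : c (Fin.cons a T) ≠ 0 := right_ne_zero_of_mul hne
  obtain ⟨i, hi⟩ := hx _ h2
  revert hi
  refine Fin.cases (fun hi => ?_) (fun j hj => ?_) i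
  · rw [Fin.cons_zero] at hi
    exact h hi
  · rw [Fin.cons_succ] at hj
    have h3 := anti_inj hc h1 (a₁ := 0) (a₂ := j.succ) (by
      rw [Fin.cons_zero, Fin.cons_succ, hj])
    exact (Fin.succ_ne_zero j) h3.symm

theorem dens1_cons {n : ℕ} (h : ι → ι → ℝ) {x : ι} {c : Tens (n + 1) ι} (hc : IsAnti c)
    (hx : Occ x c) (T : Fin n → ι) : (n + 1 : ℂ) * dens1 h c (Fin.cons x T) =
      (h x x : ℂ) * (conj (dn x c T) * dn x c T) + dens1 h (dn x c) T := by
  unfold dens1
  rw [Fin.sum_univ_succ, mul_add]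
  congr 1
  · rw [Finset.sum_eq_single x]
    · rw [Fin.cons_zero, update_cons_zero', dn_conj_mul]
      ring
    · intro a _ ha
      rw [update_cons_zero', cons_zero_of_ne hc hx ha, mul_zero]
    · simp only [mem_univ, not_true_eq_false, Fin.cons_zero, Fin.update_cons_zero, mul_eq_zero, Complex.ofReal_eq_zero, map_eq_zero, or_self, IsEmpty.forall_iff]
  · rw [Finset.mul_sum]
    refine Finset.sum_congr rfl fun i _ => ?_
    rw [Finset.mul_sum]
    refine Finset.sum_congr rfl fun a _ => ?_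
    rw [Fin.cons_succ, update_cons_succ', dn_conj_mul]
    ring

theorem dn_oneE {n : ℕ} (h : ι → ι → ℝ) {x : ι} {c : Tens (n + 1) ι} (hc : IsAnti c)
    (hx : Occ x c) : oneE h c = h x x * nsq (dn x c) + oneE h (dn x c) := by
  rw [oneE_eq, oneE_eq, sum_cons hc hx (dens1 h c) (dens1_perm h hc) ?_, Finset.mul_sum,
    Finset.sum_congr rfl (fun T _ => dens1_cons h hc hx T), Finset.sum_add_distrib,
    ← Finset.mul_sum, ← nsq_eq, Complex.add_re, ← Complex.ofReal_mul, Complex.ofReal_re]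
  intro I hI
  unfold dens1
  simp only [hI, map_zero, zero_mul, mul_zero, sum_const_zero]

theorem cons_swap {n : ℕ} {c : Tens (n + 1) ι} (hc : IsAnti c) (x a : ι) (T : Fin n → ι)
    (j : Fin n) : c (Fin.cons a (Function.update T j x)) =
      - c (Fin.cons x (Function.update T j a)) := by
  have h := anti_swap hc (Fin.succ_ne_zero j).symm (Fin.cons x (Function.update T j a))
  rw [← h]
  congr 1
  funext k
  refine Fin.cases ?_ (fun m => ?_) k
  · rw [Equiv.swap_apply_left, Fin.cons_zero, Fin.cons_succ, Function.update_self]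
  · rcases eq_or_ne m j with rfl | hm
    · rw [Equiv.swap_apply_right, Fin.cons_zero, Fin.cons_succ, Function.update_self]
    · rw [Equiv.swap_apply_of_ne_of_ne (Fin.succ_ne_zero m)
        (fun h => hm (Fin.succ_injective n h)), Fin.cons_succ, Fin.cons_succ,
        Function.update_of_ne hm, Function.update_of_ne hm]

theorem cons_self {n : ℕ} {c : Tens (n + 1) ι} (hc : IsAnti c) (x : ι) (T : Fin n → ι)
    (j : Fin n) : c (Fin.cons x (Function.update T j x)) = 0 :=
  self_eq_neg.1 (cons_swap hc x x T j)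

theorem cons_zero_of_ne2 {n : ℕ} {x a b : ι} {c : Tens (n + 1) ι} (hc : IsAnti c)
    (hx : Occ x c) (ha : a ≠ x) (hb : b ≠ x) (T : Fin n → ι) (j : Fin n) :
    conj (c (Fin.cons x T)) * c (Fin.cons a (Function.update T j b)) = 0 := by
  by_contra hne
  have h1 : c (Fin.cons x T) ≠ 0 := by
    intro h'
    exact hne (by rw [h', map_zero, zero_mul])
  have h2 : c (Fin.cons a (Function.update T j b)) ≠ 0 := right_ne_zero_of_mul hne
  obtain ⟨i, hi⟩ := hx _ h2
  revert hi
  refine Fin.cases (fun hi => ?_) (fun m hm => ?_) i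
  · rw [Fin.cons_zero] at hi
    exact ha hi
  · rw [Fin.cons_succ] at hm
    rcases eq_or_ne m j with rfl | hmj
    · rw [Function.update_self] at hm
      exact hb hm
    · rw [Function.update_of_ne hmj] at hm
      have h3 := anti_inj hc h1 (a₁ := 0) (a₂ := m.succ) (by
        rw [Fin.cons_zero, Fin.cons_succ, hm])
      exact (Fin.succ_ne_zero m) h3.symm

/-- interaction with the removed particle -/
def ker (v : ι → ι → ι → ι → ℝ) (x a b : ι) : ℝ := v a b x x - v a x x b

theorem pair_cons {n : ℕ} {v : ι → ι → ι → ι → ℝ} (hv : ∀ p a q b, v p a q b = v q b p a)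
    {x : ι} {c : Tens (n + 1) ι} (hc : IsAnti c) (hx : Occ x c) (T : Fin n → ι) (j : Fin n) :
    ∑ a, ∑ b, (v x a (T j) b : ℂ) *
      (conj (c (Fin.cons x T)) * c (Fin.cons a (Function.update T j b))) =
    ∑ b, (ker v x (T j) b : ℂ) *
      (conj (c (Fin.cons x T)) * c (Fin.cons x (Function.update T j b))) := by
  have h1 : ∀ a, ∑ b, (v x a (T j) b : ℂ) *
      (conj (c (Fin.cons x T)) * c (Fin.cons a (Function.update T j b))) =
      (if a = x then ∑ b, (v x x (T j) b : ℂ) *
        (conj (c (Fin.cons x T)) * c (Fin.cons x (Function.update T j b))) else 0) -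
      (v x a (T j) x : ℂ) *
        (conj (c (Fin.cons x T)) * c (Fin.cons x (Function.update T j a))) := by
    intro a
    by_cases ha : a = x
    · subst ha
      rw [if_pos rfl, cons_self hc, mul_zero, mul_zero, sub_zero]
    · rw [if_neg ha, zero_sub, Finset.sum_eq_single x]
      · rw [cons_swap hc]
        ring
      · intro b _ hb
        rw [cons_zero_of_ne2 hc hx ha hb, mul_zero]
      · simp only [mem_univ, not_true_eq_false, Fin.cons_update, mul_eq_zero, Complex.ofReal_eq_zero, map_eq_zero, IsEmpty.forall_iff]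
  rw [Finset.sum_congr rfl (fun a _ => h1 a), Finset.sum_sub_distrib, Finset.sum_ite_eq',
    if_pos (mem_univ x), ← Finset.sum_sub_distrib]
  refine Finset.sum_congr rfl fun b _ => ?_
  unfold ker
  rw [hv x x (T j) b, hv x b (T j) x]
  push_cast
  ring

theorem dens2_cons {n : ℕ} {v : ι → ι → ι → ι → ℝ} (hv : ∀ p a q b, v p a q b = v q b p a)
    {x : ι} {c : Tens (n + 1) ι} (hc : IsAnti c) (hx : Occ x c) (T : Fin n → ι) :
    (n + 1 : ℂ) * dens2 v c (Fin.cons x T) =
      dens1 (ker v x) (dn x c) T + dens2 v (dn x c) T := by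
  unfold dens2
  rw [Fin.sum_univ_succ, mul_add]
  congr 1
  · unfold dens1
    rw [Fin.sum_Ioi_zero, Finset.mul_sum]
    refine Finset.sum_congr rfl fun j _ => ?_
    have h1 := pair_cons hv hc hx T j
    simp only [Fin.cons_zero, Fin.cons_succ, update_cons_zero', update_cons_succ']
    rw [h1, Finset.mul_sum]
    refine Finset.sum_congr rfl fun b _ => ?_
    rw [dn_conj_mul]
    ring
  · rw [Finset.mul_sum]
    refine Finset.sum_congr rfl fun i _ => ?_
    rw [Fin.sum_Ioi_succ, Finset.mul_sum]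
    refine Finset.sum_congr rfl fun j _ => ?_
    rw [Finset.mul_sum]
    refine Finset.sum_congr rfl fun a _ => ?_
    rw [Finset.mul_sum]
    refine Finset.sum_congr rfl fun b _ => ?_
    rw [Fin.cons_succ, Fin.cons_succ, update_cons_succ', update_cons_succ', dn_conj_mul]
    ring

theorem dn_twoE {n : ℕ} {v : ι → ι → ι → ι → ℝ} (hv : ∀ p a q b, v p a q b = v q b p a)
    {x : ι} {c : Tens (n + 1) ι} (hc : IsAnti c) (hx : Occ x c) :
    twoE v c = oneE (ker v x) (dn x c) + twoE v (dn x c) := by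
  rw [oneE_eq, twoE_eq, twoE_eq, sum_cons hc hx (dens2 v c) (dens2_perm hv hc) ?_,
    Finset.mul_sum, Finset.sum_congr rfl (fun T _ => dens2_cons hv hc hx T),
    Finset.sum_add_distrib, Complex.add_re]
  intro I hI
  unfold dens2
  simp only [hI, map_zero, zero_mul, mul_zero, sum_const_zero]

theorem oneE_add {N : ℕ} (h h' : ι → ι → ℝ) (c : Tens N ι) :
    oneE (fun a b => h a b + h' a b) c = oneE h c + oneE h' c := by
  rw [oneE_eq, oneE_eq, oneE_eq, ← Complex.add_re, ← Finset.sum_add_distrib]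
  congr 1
  refine Finset.sum_congr rfl fun I _ => ?_
  unfold dens1
  rw [← Finset.sum_add_distrib]
  refine Finset.sum_congr rfl fun i _ => ?_
  rw [← Finset.sum_add_distrib]
  refine Finset.sum_congr rfl fun a _ => ?_
  push_cast
  ring

/-- one step -/
theorem step {n : ℕ} (h : ι → ι → ℝ) {v : ι → ι → ι → ι → ℝ}
    (hv : ∀ p a q b, v p a q b = v q b p a) {x : ι} {c : Tens (n + 1) ι} (hc : IsAnti c)
    (hx : Occ x c) : oneE h c + twoE v c = h x x * nsq (dn x c) +
      (oneE (fun a b => h a b + ker v x a b) (dn x c) + twoE v (dn x c)) := by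
  rw [dn_oneE h hc hx, dn_twoE hv hc hx, oneE_add]
  ring

/-- energy of the labels in `S` -/
noncomputable def cst (h : ι → ι → ℝ) (v : ι → ι → ι → ι → ℝ) (S : Finset ι) : ℝ :=
  ∑ x ∈ S, h x x + (∑ x ∈ S, ∑ y ∈ S, ker v x y y) / 2

theorem ker_self (v : ι → ι → ι → ι → ℝ) (x : ι) : ker v x x x = 0 := sub_self _

theorem ker_symm {v : ι → ι → ι → ι → ℝ} (hv : ∀ p a q b, v p a q b = v q b p a) (x y : ι) :
    ker v x y y = ker v y x x := by
  unfold ker
  rw [hv y y x x, hv y x x y]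

theorem cst_insert (h : ι → ι → ℝ) {v : ι → ι → ι → ι → ℝ}
    (hv : ∀ p a q b, v p a q b = v q b p a) {S : Finset ι} {x : ι} (hx : x ∉ S) :
    cst h v (insert x S) = h x x + cst (fun a b => h a b + ker v x a b) v S := by
  unfold cst
  rw [Finset.sum_insert hx, Finset.sum_insert hx, Finset.sum_insert hx, ker_self, zero_add,
    Finset.sum_add_distrib]
  have h1 : ∑ y ∈ S, ∑ z ∈ insert x S, ker v y z z =
      ∑ y ∈ S, ker v x y y + ∑ y ∈ S, ∑ z ∈ S, ker v y z z := by
    rw [← Finset.sum_add_distrib]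
    refine Finset.sum_congr rfl fun y _ => ?_
    rw [Finset.sum_insert hx, ker_symm hv]
  rw [h1]
  ring

theorem elim (S : Finset ι) {v : ι → ι → ι → ι → ℝ} (hv : ∀ p a q b, v p a q b = v q b p a)
    {K : ℕ} : ∀ {N : ℕ} (_ : N = S.card + K) (h : ι → ι → ℝ) (c : Tens N ι) (_ : IsAnti c)
      (_ : ∀ x ∈ S, Occ x c), ∃ d : Tens K ι, IsAnti d ∧ (∀ x ∈ S, Emp x d) ∧
        (∀ x, Emp x c → Emp x d) ∧ nsq d = nsq c ∧
        oneE h c + twoE v c = cst h v S * nsq d +
          (oneE (fun a b => h a b + ∑ x ∈ S, ker v x a b) d + twoE v d) := by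
  induction S using Finset.induction_on with
  | empty =>
    intro N hN h c hc _
    rw [card_empty, zero_add] at hN
    subst hN
    refine ⟨c, hc, by simp only [notMem_empty, IsEmpty.forall_iff, implies_true], fun x hx => hx, rfl, ?_⟩
    unfold cst
    simp only [sum_empty, sum_const_zero, zero_div, add_zero, zero_mul, zero_add]
  | insert x S hxS ih =>
    intro N hN h c hc hS
    obtain rfl : N = (S.card + K) + 1 := by
      rw [hN, card_insert_of_notMem hxS]
      omega
    have hx := hS x (mem_insert_self x S)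
    obtain ⟨d, hd, hd1, hd2, hd3, hd4⟩ := ih rfl (fun a b => h a b + ker v x a b) (dn x c)
      (dn_anti x hc) (fun y hy => dn_occ (fun h => hxS (by rw [h]; exact hy))
        (hS y (mem_insert_of_mem hy)))
    refine ⟨d, hd, ?_, fun y hy => hd2 y (dn_emp' x hy), hd3.trans (dn_nsq hc hx), ?_⟩
    · intro y hy
      rcases mem_insert.1 hy with rfl | hy
      · exact hd2 _ (dn_emp _ hc)
      · exact hd1 y hy
    · rw [step h hv hc hx, hd4, ← hd3, cst_insert h hv hxS]
      have h1 : (fun a b => h a b + ∑ y ∈ insert x S, ker v y a b) =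
          fun a b => h a b + ker v x a b + ∑ y ∈ S, ker v y a b := by
        funext a b
        rw [Finset.sum_insert hxS, add_assoc]
      rw [h1]
      ring

/-- adding the label `x` -/
noncomputable def up {n : ℕ} (x : ι) (d : Tens n ι) : Tens (n + 1) ι :=
  fun I => ((n.factorial : ℂ) * (Real.sqrt (n + 1) : ℂ))⁻¹ *
    ∑ π : Equiv.Perm (Fin (n + 1)), ((Equiv.Perm.sign π : ℤ) : ℂ) *
      (if I (π 0) = x then d (fun i => I (π i.succ)) else 0)

theorem up_anti {n : ℕ} (x : ι) (d : Tens n ι) : IsAnti (up x d) := by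
  intro σ I
  unfold up
  rw [mul_left_comm]
  congr 1
  conv_rhs => rw [← Equiv.sum_comp (Equiv.mulLeft σ), Finset.mul_sum]
  refine Finset.sum_congr rfl fun π _ => ?_
  rw [Equiv.coe_mulLeft, Equiv.Perm.sign_mul, Units.val_mul, Int.cast_mul]
  have key : ∀ s t A : ℂ, s * s = 1 → t * A = s * (s * t * A) := by
    intro s t A h
    linear_combination (-(t * A)) * h
  exact key _ _ _ (sign_mul_self σ)

theorem up_ne {n : ℕ} {x : ι} {d : Tens n ι} {I : Fin (n + 1) → ι} (h : up x d I ≠ 0) :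
    ∃ π : Equiv.Perm (Fin (n + 1)), I (π 0) = x ∧ d (fun i => I (π i.succ)) ≠ 0 := by
  by_contra hne
  push Not at hne
  apply h
  unfold up
  rw [Finset.sum_eq_zero, mul_zero]
  intro π _
  by_cases h0 : I (π 0) = x
  · rw [if_pos h0, hne π h0, mul_zero]
  · rw [if_neg h0, mul_zero]

theorem up_occ {n : ℕ} (x : ι) (d : Tens n ι) : Occ x (up x d) := by
  intro I hI
  obtain ⟨π, hπ, -⟩ := up_ne hI
  exact ⟨_, hπ⟩

theorem up_occ' {n : ℕ} (x : ι) {y : ι} {d : Tens n ι} (hd : Occ y d) : Occ y (up x d) := by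
  intro I hI
  obtain ⟨π, -, hπ⟩ := up_ne hI
  obtain ⟨i, hi⟩ := hd _ hπ
  exact ⟨_, hi⟩

theorem up_emp {n : ℕ} {x y : ι} (hxy : x ≠ y) {d : Tens n ι} (hd : Emp y d) :
    Emp y (up x d) := by
  intro I hI i hi
  obtain ⟨π, hπ0, hπ⟩ := up_ne hI
  obtain ⟨j, rfl⟩ := π.surjective i
  revert hi
  refine Fin.cases (fun hi => ?_) (fun m hm => ?_) j
  · exact hxy (hπ0.symm.trans hi)
  · exact hd _ hπ m hm

theorem dn_up {n : ℕ} {x : ι} {d : Tens n ι} (hd : IsAnti d) (hx : Emp x d) :
    dn x (up x d) = d := by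
  funext T
  by_cases hT : ∃ i, T i = x
  · obtain ⟨i, hi⟩ := hT
    have h1 : d T = 0 := by
      by_contra h
      exact hx T h i hi
    rw [h1]
    by_contra h
    have h3 := anti_inj (up_anti x d) (dn_ne h) (a₁ := 0) (a₂ := i.succ) (by
      rw [Fin.cons_zero, Fin.cons_succ, hi])
    exact (Fin.succ_ne_zero i) h3.symm
  · unfold dn up
    rw [← Equiv.sum_comp Equiv.Perm.decomposeFin.symm, Fintype.sum_prod_type,
      Finset.sum_eq_single 0]
    · have h1 : ∀ ρ : Equiv.Perm (Fin n),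
          ((Equiv.Perm.sign (Equiv.Perm.decomposeFin.symm (0, ρ)) : ℤ) : ℂ) *
          (if (Fin.cons x T : Fin (n + 1) → ι) (Equiv.Perm.decomposeFin.symm (0, ρ) 0) = x then
            d (fun i => (Fin.cons x T : Fin (n + 1) → ι)
              (Equiv.Perm.decomposeFin.symm (0, ρ) i.succ)) else 0) = d T := by
        intro ρ
        rw [Equiv.Perm.decomposeFin_symm_apply_zero, Fin.cons_zero, if_pos rfl,
          Equiv.Perm.decomposeFin.symm_sign, if_pos rfl, one_mul]
        have h2 : (fun i => (Fin.cons x T : Fin (n + 1) → ι)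
              (Equiv.Perm.decomposeFin.symm (0, ρ) i.succ)) = fun i => T (ρ i) := by
          funext i
          rw [Equiv.Perm.decomposeFin_symm_apply_succ, Equiv.swap_self, Equiv.refl_apply,
            Fin.cons_succ]
        rw [h2, hd, ← mul_assoc, sign_mul_self, one_mul]
      rw [Finset.sum_congr rfl (fun ρ _ => h1 ρ), Finset.sum_const, card_univ,
        Fintype.card_perm, Fintype.card_fin, nsmul_eq_mul]
      have h3 : (n.factorial : ℂ) ≠ 0 := Nat.cast_ne_zero.2 n.factorial_ne_zero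
      have h4 : (Real.sqrt (n + 1) : ℂ) ≠ 0 := by
        rw [Ne, Complex.ofReal_eq_zero, Real.sqrt_eq_zero (by (clear * -; positivity))]
        positivity
      field_simp
    · intro p _ hp
      refine Finset.sum_eq_zero fun ρ _ => ?_
      rw [Equiv.Perm.decomposeFin_symm_apply_zero, if_neg, mul_zero]
      obtain ⟨m, rfl⟩ := Fin.exists_succ_eq.2 hp
      rw [Fin.cons_succ]
      exact fun h => hT ⟨m, h⟩
    · simp only [Nat.succ_eq_add_one, mem_univ, not_true_eq_false, Equiv.Perm.decomposeFin.symm_sign, ↓reduceIte, one_mul, Equiv.Perm.decomposeFin_symm_apply_zero, Fin.cons_zero, Equiv.Perm.decomposeFin_symm_apply_succ, Equiv.swap_self, Equiv.refl_apply, Fin.cons_succ, IsEmpty.forall_iff]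

theorem elim' (S : Finset ι) {v : ι → ι → ι → ι → ℝ} (hv : ∀ p a q b, v p a q b = v q b p a)
    {K : ℕ} (d : Tens K ι) (hd : IsAnti d) : ∀ {N : ℕ} (_ : N = S.card + K)
      (_ : ∀ x ∈ S, Emp x d), ∃ c : Tens N ι, IsAnti c ∧ (∀ x ∈ S, Occ x c) ∧
        (∀ x, x ∉ S → Emp x d → Emp x c) ∧ nsq c = nsq d ∧
        ∀ h : ι → ι → ℝ, oneE h c + twoE v c = cst h v S * nsq d +
          (oneE (fun a b => h a b + ∑ x ∈ S, ker v x a b) d + twoE v d) := by
  induction S using Finset.induction_on with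
  | empty =>
    intro N hN _
    rw [card_empty, zero_add] at hN
    subst hN
    refine ⟨d, hd, by simp only [notMem_empty, IsEmpty.forall_iff, implies_true], fun x _ hx => hx, rfl, fun h => ?_⟩
    unfold cst
    simp only [sum_empty, sum_const_zero, zero_div, add_zero, zero_mul, zero_add]
  | insert x S hxS ih =>
    intro N hN hS
    obtain rfl : N = (S.card + K) + 1 := by
      rw [hN, card_insert_of_notMem hxS]
      omega
    obtain ⟨c, hc, hc1, hc2, hc3, hc4⟩ := ih rfl (fun y hy => hS y (mem_insert_of_mem hy))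
    have hxc : Emp x c := hc2 x hxS (hS x (mem_insert_self x S))
    have hdu : dn x (up x c) = c := dn_up hc hxc
    refine ⟨up x c, up_anti x c, ?_, ?_, ?_, fun h => ?_⟩
    · intro y hy
      rcases mem_insert.1 hy with rfl | hy
      · exact up_occ _ c
      · exact up_occ' x (hc1 y hy)
    · intro y hy hyd
      rw [mem_insert, not_or] at hy
      exact up_emp (fun h => hy.1 h.symm) (hc2 y hy.2 hyd)
    · rw [← dn_nsq (up_anti x c) (up_occ x c), hdu, hc3]
    · rw [step h hv (up_anti x c) (up_occ x c), hdu, hc4, hc3, cst_insert h hv hxS]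
      have h1 : (fun a b => h a b + ∑ y ∈ insert x S, ker v y a b) =
          fun a b => h a b + ker v x a b + ∑ y ∈ S, ker v y a b := by
        funext a b
        rw [Finset.sum_insert hxS, add_assoc]
      rw [h1]
      ring

/-! ### restriction to a set of labels -/

section restrict

variable {Y : Type} [Fintype Y] [DecidableEq Y]

theorem sum_restrict {N : ℕ} {j : Y → ι} (hj : Function.Injective j)
    (F : (Fin N → ι) → ℂ) (hF : ∀ I, F I ≠ 0 → ∀ i, I i ∈ Set.range j) :
    ∑ I, F I = ∑ J : Fin N → Y, F (fun i => j (J i)) := by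
  have hinj : Function.Injective (fun (J : Fin N → Y) i => j (J i)) := by
    intro J J' h
    funext i
    exact hj (congrFun h i)
  symm
  rw [← Finset.sum_image (s := univ) (g := fun (J : Fin N → Y) i => j (J i))
    (f := F) (fun J _ J' _ h => hinj h)]
  refine Finset.sum_subset (Finset.subset_univ _) fun I _ hI => ?_
  by_contra h
  apply hI
  choose J hJ using hF I h
  exact mem_image.2 ⟨J, mem_univ _, funext hJ⟩

theorem sum_restrict1 {j : Y → ι} (hj : Function.Injective j)
    (F : ι → ℂ) (hF : ∀ a, F a ≠ 0 → a ∈ Set.range j) : ∑ a, F a = ∑ b, F (j b) := by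
  symm
  rw [← Finset.sum_image (s := univ) (g := j) (f := F) (fun J _ J' _ h => hj h)]
  refine Finset.sum_subset (Finset.subset_univ _) fun a _ ha => ?_
  by_contra h
  apply ha
  obtain ⟨b, hb⟩ := hF a h
  exact mem_image.2 ⟨b, mem_univ _, hb⟩

theorem update_comp {N : ℕ} (j : Y → ι) (J : Fin N → Y) (i : Fin N) (a : Y) :
    Function.update (fun k => j (J k)) i (j a) = fun k => j (Function.update J i a k) := by
  funext k
  rcases eq_or_ne k i with rfl | h
  · rw [Function.update_self, Function.update_self]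
  · rw [Function.update_of_ne h, Function.update_of_ne h]

/-- restriction to labels in the range of `j` -/
def res {N : ℕ} (j : Y → ι) (d : Tens N ι) : Tens N Y := fun J => d (fun i => j (J i))

theorem res_anti {N : ℕ} (j : Y → ι) {d : Tens N ι} (hd : IsAnti d) : IsAnti (res j d) :=
  fun π J => hd π (fun i => j (J i))

theorem res_nsq {N : ℕ} {j : Y → ι} (hj : Function.Injective j) {d : Tens N ι}
    (hd : ∀ I, d I ≠ 0 → ∀ i, I i ∈ Set.range j) : nsq (res j d) = nsq d := by
  have h : (nsq (res j d) : ℂ) = nsq d := by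
    rw [nsq_eq, nsq_eq, sum_restrict hj (fun I => conj (d I) * d I) (fun I hI =>
      hd I (right_ne_zero_of_mul hI))]
    rfl
  exact_mod_cast h

theorem res_oneE {N : ℕ} {j : Y → ι} (hj : Function.Injective j) {d : Tens N ι}
    (hd : ∀ I, d I ≠ 0 → ∀ i, I i ∈ Set.range j) (h : ι → ι → ℝ) :
    oneE h d = oneE (fun a b => h (j a) (j b)) (res j d) := by
  rw [oneE_eq, oneE_eq, sum_restrict hj (dens1 h d)]
  · congr 1
    refine Finset.sum_congr rfl fun J _ => ?_
    unfold dens1
    refine Finset.sum_congr rfl fun i _ => ?_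
    rw [sum_restrict1 hj]
    · refine Finset.sum_congr rfl fun b _ => ?_
      rw [update_comp]
      rfl
    · intro a ha
      have h1 := hd _ (right_ne_zero_of_mul (right_ne_zero_of_mul ha)) i
      rwa [Function.update_self] at h1
  · intro I hI
    refine hd I fun h0 => hI ?_
    unfold dens1
    simp only [h0, map_zero, zero_mul, mul_zero, sum_const_zero]

theorem res_twoE {N : ℕ} {j : Y → ι} (hj : Function.Injective j) {d : Tens N ι}
    (hd : ∀ I, d I ≠ 0 → ∀ i, I i ∈ Set.range j) (v : ι → ι → ι → ι → ℝ) :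
    twoE v d = twoE (fun p a q b => v (j p) (j a) (j q) (j b)) (res j d) := by
  rw [twoE_eq, twoE_eq, sum_restrict hj (dens2 v d)]
  · congr 1
    refine Finset.sum_congr rfl fun J _ => ?_
    unfold dens2
    refine Finset.sum_congr rfl fun i _ => Finset.sum_congr rfl fun m hm => ?_
    have him : i ≠ m := (mem_Ioi.1 hm).ne
    rw [sum_restrict1 hj]
    · refine Finset.sum_congr rfl fun a _ => ?_
      rw [sum_restrict1 hj]
      · refine Finset.sum_congr rfl fun b _ => ?_
        rw [update_comp, update_comp]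
        rfl
      · intro b hb
        have h1 := hd _ (right_ne_zero_of_mul (right_ne_zero_of_mul hb)) m
        rwa [Function.update_self] at h1
    · intro a ha
      obtain ⟨b, -, hb⟩ := Finset.exists_ne_zero_of_sum_ne_zero ha
      have h1 := hd _ (right_ne_zero_of_mul (right_ne_zero_of_mul hb)) i
      rwa [Function.update_of_ne him, Function.update_self] at h1
  · intro I hI
    refine hd I fun h0 => hI ?_
    unfold dens2
    simp only [h0, map_zero, zero_mul, mul_zero, sum_const_zero]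

open Classical in
/-- extension by zero -/
noncomputable def ext {N : ℕ} (j : Y → ι) (d : Tens N Y) : Tens N ι :=
  fun I => if h : ∃ J : Fin N → Y, (fun i => j (J i)) = I then d h.choose else 0

theorem ext_apply {N : ℕ} {j : Y → ι} (hj : Function.Injective j) (d : Tens N Y)
    (J : Fin N → Y) : ext j d (fun i => j (J i)) = d J := by
  have h : ∃ J' : Fin N → Y, (fun i => j (J' i)) = fun i => j (J i) := ⟨J, rfl⟩
  unfold ext
  rw [dif_pos h]
  congr 1
  funext i
  exact hj (congrFun h.choose_spec i)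

theorem ext_ne {N : ℕ} {j : Y → ι} {d : Tens N Y} {I : Fin N → ι} (h : ext j d I ≠ 0) (i : Fin N) :
    I i ∈ Set.range j := by
  unfold ext at h
  by_cases h0 : ∃ J : Fin N → Y, (fun i => j (J i)) = I
  · obtain ⟨J, rfl⟩ := h0
    exact ⟨J i, rfl⟩
  · rw [dif_neg h0] at h
    exact absurd rfl h

theorem res_ext {N : ℕ} {j : Y → ι} (hj : Function.Injective j) (d : Tens N Y) :
    res j (ext j d) = d := funext fun J => ext_apply hj d J

theorem ext_anti {N : ℕ} {j : Y → ι} (hj : Function.Injective j) {d : Tens N Y}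
    (hd : IsAnti d) : IsAnti (ext j d) := by
  intro π I
  by_cases h0 : ∃ J : Fin N → Y, (fun i => j (J i)) = I
  · obtain ⟨J, rfl⟩ := h0
    rw [show ext j d (fun i => j (J i)) = d J from ext_apply hj d J, ← hd]
    exact ext_apply hj d (fun i => J (π i))
  · have h1 : ext j d I = 0 := by
      unfold ext
      rw [dif_neg h0]
    rw [h1, mul_zero]
    by_contra hne
    apply h0
    choose J hJ using ext_ne hne
    refine ⟨fun i => J (π.symm i), ?_⟩
    funext i
    rw [hJ, Equiv.apply_symm_apply]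

end restrict

end Vale.Agent.P370.Q.ClS
end

section

/-!
Elimination of closed shells (Slater-Condon), from full to open tensors.
-/

set_option linter.unusedSectionVars false
set_option linter.unusedVariables false

namespace Vale.Agent.P370.Q

open MeasureTheory Finset ComplexConjugate

namespace ClS

section cA

variable {C O : Type} [Fintype C] [DecidableEq C] [Fintype O] [DecidableEq O]

/-- closed spin-orbitals -/
def clo (C O : Type) [Fintype C] [DecidableEq C] [DecidableEq O] : Finset ((C ⊕ O) × Fin 2) :=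
  (univ : Finset (C × Fin 2)).map ⟨fun p => (Sum.inl p.1, p.2), fun p q h => by
    simp only [Prod.mk.injEq, Sum.inl.injEq] at h
    exact Prod.ext h.1 h.2⟩

/-- open spin-orbitals -/
def opn (p : O × Fin 2) : (C ⊕ O) × Fin 2 := (Sum.inr p.1, p.2)

theorem opn_inj : Function.Injective (opn : O × Fin 2 → (C ⊕ O) × Fin 2) := by
  intro p q h
  simp only [opn, Prod.mk.injEq, Sum.inr.injEq] at h
  exact Prod.ext h.1 h.2

theorem card_clo : (clo C O).card = 2 * Fintype.card C := by
  unfold clo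
  rw [card_map, card_univ, Fintype.card_prod, Fintype.card_fin, mul_comm]

theorem mem_clo {x : (C ⊕ O) × Fin 2} : x ∈ clo C O ↔ ∃ (a : C) (s : Fin 2), x = (Sum.inl a, s) := by
  unfold clo
  rw [mem_map]
  constructor
  · rintro ⟨p, -, rfl⟩
    exact ⟨p.1, p.2, rfl⟩
  · rintro ⟨a, s, rfl⟩
    exact ⟨(a, s), mem_univ _, rfl⟩

theorem sum_clo (F : (C ⊕ O) × Fin 2 → ℝ) :
    ∑ x ∈ clo C O, F x = ∑ a : C, ∑ s : Fin 2, F (Sum.inl a, s) := by
  unfold clo
  rw [sum_map, Fintype.sum_prod_type]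
  rfl

theorem mem_range_of_emp {K : ℕ} {d : Tens K ((C ⊕ O) × Fin 2)}
    (hd : ∀ x ∈ clo C O, Emp x d) : ∀ I, d I ≠ 0 → ∀ i, I i ∈ Set.range (opn (C := C) (O := O)) := by
  intro I hI i
  rcases hIi : I i with ⟨a | b, s⟩
  · exact absurd hIi (hd (Sum.inl a, s) (mem_clo.2 ⟨a, s, rfl⟩) I hI i)
  · exact ⟨(b, s), rfl⟩

theorem sum_ker (v : C ⊕ O → C ⊕ O → C ⊕ O → C ⊕ O → ℝ) (p q : C ⊕ O) (s s' : Fin 2) :
    ∑ x ∈ clo C O, ker (spin2 v) x (p, s) (q, s') = if s = s' then
      ∑ c : C, (2 * v p q (Sum.inl c) (Sum.inl c) - v p (Sum.inl c) (Sum.inl c) q) else 0 := by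
  rw [sum_clo]
  by_cases h : s = s'
  · subst h
    rw [if_pos rfl]
    refine Finset.sum_congr rfl fun c _ => ?_
    unfold ker spin2
    rw [Fin.sum_univ_two]
    fin_cases s <;> simp <;> ring
  · rw [if_neg h]
    refine Finset.sum_eq_zero fun c _ => Finset.sum_eq_zero fun t _ => ?_
    unfold ker spin2
    rw [if_neg (fun h' => h h'.1), if_neg (fun h' => h (h'.1.trans h'.2)), sub_zero]

theorem eff (h : C ⊕ O → C ⊕ O → ℝ) (v : C ⊕ O → C ⊕ O → C ⊕ O → C ⊕ O → ℝ) :
    (fun a b : O × Fin 2 => spin1 h (opn a) (opn b) +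
      ∑ x ∈ clo C O, ker (spin2 v) x (opn a) (opn b)) = spin1 (closedF h v) := by
  funext a b
  obtain ⟨a, s⟩ := a
  obtain ⟨b, s'⟩ := b
  unfold opn
  rw [sum_ker]
  unfold spin1 closedF
  by_cases h : s = s'
  · simp only [h, ↓reduceIte, sum_sub_distrib]
  · simp [h]

theorem cst_eq (h : C ⊕ O → C ⊕ O → ℝ) (v : C ⊕ O → C ⊕ O → C ⊕ O → C ⊕ O → ℝ) :
    cst (spin1 h) (spin2 v) (clo C O) = closedC h v := by
  unfold cst closedC
  congr 1
  · rw [sum_clo, Finset.mul_sum]
    refine Finset.sum_congr rfl fun a _ => ?_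
    rw [Fin.sum_univ_two]
    unfold spin1
    simp
    ring
  · rw [Finset.sum_comm, sum_clo, Finset.sum_div]
    refine Finset.sum_congr rfl fun a _ => ?_
    rw [Fin.sum_univ_two, sum_ker, sum_ker, if_pos rfl, if_pos rfl]
    ring

theorem spin2_symm {v : C ⊕ O → C ⊕ O → C ⊕ O → C ⊕ O → ℝ}
    (hv : ∀ p a q b, v p a q b = v q b p a) (p a q b : (C ⊕ O) × Fin 2) :
    spin2 v p a q b = spin2 v q b p a := by
  unfold spin2
  rw [hv p.1]
  exact if_congr and_comm rfl rfl

end cA

end ClS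

open ClS in
theorem closed_elim {C O : Type} [Fintype C] [DecidableEq C] [Fintype O] [DecidableEq O]
    {K M : ℕ} (hM : M = 2 * Fintype.card C) (h : C ⊕ O → C ⊕ O → ℝ)
    (v : C ⊕ O → C ⊕ O → C ⊕ O → C ⊕ O → ℝ)
    (hvsym1 : ∀ p a q b, v p a q b = v a p q b) (hvsym2 : ∀ p a q b, v p a q b = v q b p a)
    (c : Tens (M + K) ((C ⊕ O) × Fin 2)) (hc : IsAnti c) (hg : Good c) :
    ∃ d : Tens K (O × Fin 2), IsAnti d ∧ nsq d = nsq c ∧
      enT h v c = closedC h v * nsq d +
        enT (closedF h v) (fun p a q b : O => v (Sum.inr p) (Sum.inr a) (Sum.inr q) (Sum.inr b))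
          d := by
  obtain ⟨d, hd, hd1, -, hd2, hd3⟩ := elim (clo C O) (spin2_symm hvsym2) (K := K)
    (N := M + K) (by rw [card_clo, hM]) (spin1 h) c hc (by
      intro x hx I hI
      obtain ⟨a, s, rfl⟩ := mem_clo.1 hx
      exact hg I hI a s)
  have hr := mem_range_of_emp hd1
  refine ⟨res opn d, res_anti _ hd, by rw [res_nsq opn_inj hr, hd2], ?_⟩
  unfold enT
  rw [hd3, res_oneE opn_inj hr, res_twoE opn_inj hr, res_nsq opn_inj hr, cst_eq h v, eff]
  rfl

open ClS in
theorem closed_elim' {C O : Type} [Fintype C] [DecidableEq C] [Fintype O] [DecidableEq O]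
    {K M : ℕ} (hM : M = 2 * Fintype.card C) (h : C ⊕ O → C ⊕ O → ℝ)
    (v : C ⊕ O → C ⊕ O → C ⊕ O → C ⊕ O → ℝ)
    (hvsym1 : ∀ p a q b, v p a q b = v a p q b) (hvsym2 : ∀ p a q b, v p a q b = v q b p a)
    (d : Tens K (O × Fin 2)) (hd : IsAnti d) :
    ∃ c : Tens (M + K) ((C ⊕ O) × Fin 2), IsAnti c ∧ Good c ∧ nsq c = nsq d ∧
      enT h v c = closedC h v * nsq d +
        enT (closedF h v) (fun p a q b : O => v (Sum.inr p) (Sum.inr a) (Sum.inr q) (Sum.inr b))
          d := by
  have hr : ∀ I, ext (opn (C := C)) d I ≠ 0 → ∀ i, I i ∈ Set.range (opn (C := C) (O := O)) :=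
    fun I hI i => ext_ne hI i
  have hres : res (opn (C := C)) (ext opn d) = d := res_ext opn_inj d
  obtain ⟨c, hc, hc1, -, hc2, hc3⟩ := elim' (clo C O) (spin2_symm hvsym2) (K := K)
    (ext opn d) (ext_anti opn_inj hd) (N := M + K) (by rw [card_clo, hM]) (by
      intro x hx I hI i hi
      obtain ⟨a, s, rfl⟩ := mem_clo.1 hx
      obtain ⟨b, hb⟩ := hr I hI i
      rw [hi] at hb
      simp [opn] at hb)
  have hn : nsq (ext (opn (C := C)) d) = nsq d := by
    rw [← res_nsq opn_inj hr, hres]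
  refine ⟨c, hc, fun I hI a s => hc1 _ (mem_clo.2 ⟨a, s, rfl⟩) I hI, hc2.trans hn, ?_⟩
  unfold enT
  rw [hc3, res_oneE opn_inj hr, res_twoE opn_inj hr, hres, hn, cst_eq h v, eff]
  rfl

end Vale.Agent.P370.Q
end

section

/-!
Energies of configurations with filled closed shells.
-/

namespace Vale.Agent.P370.NB.U

open MeasureTheory Function ComplexConjugate Finset Vale.Agent.P370.Q

section linear

variable {N : ℕ} {P : Type} [Fintype P] [DecidableEq P]

theorem oneE_comb {m : ℕ} (w : Fin m → ℝ) (h : Fin m → P → P → ℝ) (c : Tens N P) :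
    oneE (fun p q => ∑ b, w b * h b p q) c = ∑ b, w b * oneE (h b) c := by
  unfold oneE
  simp only [Complex.re_sum, Complex.re_ofReal_mul, sum_mul, mul_sum]
  conv_rhs => rw [Finset.sum_comm]
  refine Finset.sum_congr rfl fun I _ => ?_
  conv_rhs => rw [Finset.sum_comm]
  refine Finset.sum_congr rfl fun i _ => ?_
  conv_rhs => rw [Finset.sum_comm]
  refine Finset.sum_congr rfl fun a _ => ?_
  refine Finset.sum_congr rfl fun b _ => ?_
  ring

theorem oneE_sub_half (h h' : P → P → ℝ) (c : Tens N P) :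
    1 / 2 * oneE h c - oneE h' c = oneE (fun p q => 1 / 2 * h p q - h' p q) c := by
  unfold oneE
  simp only [Complex.re_sum, Complex.re_ofReal_mul, mul_sum, ← sum_sub_distrib]
  refine Finset.sum_congr rfl fun I _ => Finset.sum_congr rfl fun i _ =>
    Finset.sum_congr rfl fun a _ => ?_
  ring

theorem oneE_diag (e : P → ℝ) (c : Tens N P) :
    oneE (fun p q => if p = q then e p else 0) c = ∑ I, (∑ i, e (I i)) * ‖c I‖ ^ 2 := by
  unfold oneE
  rw [Complex.re_sum]
  refine Finset.sum_congr rfl fun I _ => ?_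
  rw [Complex.re_sum, Finset.sum_mul]
  refine Finset.sum_congr rfl fun i _ => ?_
  rw [Finset.sum_eq_single (I i)]
  · beta_reduce
    rw [if_pos rfl, update_eq_self, Complex.re_ofReal_mul, Complex.conj_mul']
    congr 1
    exact_mod_cast Complex.ofReal_re _
  · intro a _ ha
    beta_reduce
    rw [if_neg ha.symm]
    simp only [Complex.ofReal_zero, zero_mul]
  · simp only [mem_univ, not_true_eq_false, ↓reduceIte, update_eq_self, mul_eq_zero, Complex.ofReal_eq_zero, map_eq_zero, or_self, IsEmpty.forall_iff]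

theorem anti_inj {c : Tens N P} (hc : IsAnti c) {I : Fin N → P} (hI : c I ≠ 0) :
    Injective I := by
  intro i j hij
  by_contra hne
  apply hI
  have h := hc (Equiv.swap i j) I
  have h1 : (fun l => I (Equiv.swap i j l)) = I := by
    funext l
    rw [Equiv.swap_apply_def]
    split_ifs with h1 h2
    · rw [h1, hij]
    · rw [h2, hij]
    · rfl
  rw [h1, Equiv.Perm.sign_swap hne] at h
  simp only [Units.val_neg, Units.val_one, Int.cast_neg, Int.cast_one, neg_mul, one_mul] at h
  have h3 : (2 : ℂ) * c I = 0 := by linear_combination h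
  simpa using h3

end linear

section closed

variable {n K M : ℕ} {C O : Type} [Fintype C] [DecidableEq C] [Fintype O] [DecidableEq O]

theorem closed_card (B : ShellBasis n (C ⊕ O)) (hO : ∀ o, B.lev (Sum.inr o) = n) {k : ℕ}
    (hk1 : 1 ≤ k) (hk : k < n) :
    #(univ.filter (fun c : C => B.lev (Sum.inl c) = k)) = k ^ 2 := by
  rw [← B.card k hk1 hk.le, Finset.card_filter, Finset.card_filter, Fintype.sum_sum_type]
  have : ∑ o : O, (if B.lev (Sum.inr o) = k then 1 else 0) = 0 := by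
    refine Finset.sum_eq_zero fun o _ => ?_
    rw [hO o, if_neg (by omega)]
  rw [this, add_zero]

theorem closed_sum (hn : 1 ≤ n) (B : ShellBasis n (C ⊕ O)) (hC : ∀ c, B.lev (Sum.inl c) < n)
    (hO : ∀ o, B.lev (Sum.inr o) = n) :
    ∑ c : C, -(1 / (2 * (B.lev (Sum.inl c) : ℝ) ^ 2)) = -(((n : ℝ) - 1) / 2) := by
  have hmap : ∀ c ∈ (univ : Finset C), B.lev (Sum.inl c) ∈ Finset.Icc 1 (n - 1) := by
    intro c _
    have := hC c
    have := B.lev_pos (Sum.inl c)
    exact Finset.mem_Icc.2 ⟨this, by omega⟩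
  rw [← Finset.sum_fiberwise_of_maps_to hmap]
  have h1 : ∀ k ∈ Finset.Icc 1 (n - 1),
      ∑ c ∈ univ.filter (fun c : C => B.lev (Sum.inl c) = k),
        -(1 / (2 * (B.lev (Sum.inl c) : ℝ) ^ 2)) = -(1 / 2) := by
    intro k hk
    have hk' := Finset.mem_Icc.1 hk
    have h2 : ∀ c ∈ univ.filter (fun c : C => B.lev (Sum.inl c) = k),
        -(1 / (2 * (B.lev (Sum.inl c) : ℝ) ^ 2)) = -(1 / (2 * (k : ℝ) ^ 2)) := by
      intro c hc
      rw [(Finset.mem_filter.1 hc).2]
    rw [Finset.sum_congr rfl h2, Finset.sum_const, closed_card B hO hk'.1 (by (clear * - hn hk'; omega)),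
      nsmul_eq_mul]
    have : (k : ℝ) ≠ 0 := by
      have : 0 < k := hk'.1
      positivity
    push_cast
    field_simp
  rw [Finset.sum_congr rfl h1, Finset.sum_const, Nat.card_Icc, nsmul_eq_mul]
  rw [Nat.add_sub_cancel, Nat.cast_sub hn]
  push_cast
  ring

theorem config_energy (hn : 1 ≤ n) (B : ShellBasis n (C ⊕ O)) (hC : ∀ c, B.lev (Sum.inl c) < n)
    (hO : ∀ o, B.lev (Sum.inr o) = n) (hM : M = 2 * Fintype.card C)
    {c : Tens (M + K) ((C ⊕ O) × Fin 2)} (hc : IsAnti c) (hg : Good c)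
    {I : Fin (M + K) → (C ⊕ O) × Fin 2} (hI : c I ≠ 0) :
    ∑ i, -(1 / (2 * (B.lev (I i).1 : ℝ) ^ 2)) = -((n : ℝ) - 1) - K / (2 * (n : ℝ) ^ 2) := by
  have hinj := anti_inj hc hI
  set e : (C ⊕ O) × Fin 2 → ℝ := fun p => -(1 / (2 * (B.lev p.1 : ℝ) ^ 2)) with he
  set Cl : Finset ((C ⊕ O) × Fin 2) :=
    univ.image (fun q : C × Fin 2 => ((Sum.inl q.1 : C ⊕ O), q.2)) with hCl
  have hinjC : Injective (fun q : C × Fin 2 => ((Sum.inl q.1 : C ⊕ O), q.2)) := by
    rintro ⟨a, s⟩ ⟨b, t⟩ h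
    simp only [Prod.mk.injEq, Sum.inl.injEq] at h
    exact Prod.ext h.1 h.2
  have hsub : Cl ⊆ univ.image I := by
    intro p hp
    obtain ⟨q, _, rfl⟩ := Finset.mem_image.1 hp
    obtain ⟨i, hi⟩ := hg I hI q.1 q.2
    exact Finset.mem_image.2 ⟨i, Finset.mem_univ i, hi⟩
  have h1 : ∑ i, e (I i) = ∑ p ∈ univ.image I, e p := by
    rw [Finset.sum_image fun i _ j _ h => hinj h]
  have h2 : ∑ p ∈ Cl, e p = -((n : ℝ) - 1) := by
    rw [hCl, Finset.sum_image fun i _ j _ h => hinjC h, Fintype.sum_prod_type]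
    have := closed_sum hn B hC hO
    simp only [he, sum_const, card_univ, Fintype.card_fin, nsmul_eq_mul]
    rw [← Finset.mul_sum, this]
    push_cast
    ring
  have h3 : #(univ.image I \ Cl) = K := by
    rw [Finset.card_sdiff_of_subset hsub, Finset.card_image_of_injective _ hinj, hCl,
      Finset.card_image_of_injective _ hinjC, Finset.card_univ, Finset.card_univ,
      Fintype.card_fin, Fintype.card_prod, Fintype.card_fin]
    omega
  have h4 : ∑ p ∈ univ.image I \ Cl, e p = -(K / (2 * (n : ℝ) ^ 2)) := by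
    have h5 : ∀ p ∈ univ.image I \ Cl, e p = -(1 / (2 * (n : ℝ) ^ 2)) := by
      rintro ⟨a | o, σ⟩ hp
      · exfalso
        apply (Finset.mem_sdiff.1 hp).2
        exact Finset.mem_image.2 ⟨(a, σ), Finset.mem_univ _, rfl⟩
      · simp only [he, hO]
    rw [Finset.sum_congr rfl h5, Finset.sum_const, h3, nsmul_eq_mul]
    ring
  have h6 := Finset.sum_sdiff (f := e) hsub
  change ∑ i, e (I i) = _
  rw [h1, ← h6, h2, h4]
  ring

/-- energy of a good tensor in the hydrogenic Hamiltonian -/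
theorem shell_energy (hn : 1 ≤ n) (B : ShellBasis n (C ⊕ O)) (hC : ∀ c, B.lev (Sum.inl c) < n)
    (hO : ∀ o, B.lev (Sum.inr o) = n) (hM : M = 2 * Fintype.card C)
    {c : Tens (M + K) ((C ⊕ O) × Fin 2)} (hc : IsAnti c) (hg : Good c) :
    1 / 2 * oneE (spin1 (fun a b => dir (B.χ a) (B.χ b))) c -
      oneE (spin1 (fun a b => rinv (B.χ a) (B.χ b))) c =
      (-((n : ℝ) - 1) - K / (2 * (n : ℝ) ^ 2)) * nsq c := by
  rw [oneE_sub_half]
  have h1 : (fun p q : (C ⊕ O) × Fin 2 => 1 / 2 * spin1 (fun a b => dir (B.χ a) (B.χ b)) p q -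
      spin1 (fun a b => rinv (B.χ a) (B.χ b)) p q) =
      fun p q => if p = q then -(1 / (2 * (B.lev p.1 : ℝ) ^ 2)) else 0 := by
    funext p q
    have h2 := shell_form (B.lev_pos p.1) (B.mem p.1) (SB_nice B q.1)
    rw [B.ortho] at h2
    unfold spin1
    by_cases hpq : p = q
    · subst hpq
      simp only [if_true] at h2 ⊢
      rw [h2]
      ring
    · rw [if_neg hpq]
      by_cases h3 : p.2 = q.2
      · have h4 : p.1 ≠ q.1 := fun h => hpq (Prod.ext h h3)
        rw [if_neg h4, mul_zero] at h2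
        rw [if_pos h3, if_pos h3, h2]
      · rw [if_neg h3, if_neg h3]
        ring
  rw [h1, oneE_diag (fun p : (C ⊕ O) × Fin 2 => -(1 / (2 * (B.lev p.1 : ℝ) ^ 2)))]
  unfold nsq
  rw [Finset.mul_sum]
  refine Finset.sum_congr rfl fun I _ => ?_
  by_cases hI : c I = 0
  · rw [hI]
    simp only [one_div, mul_inv_rev, sum_neg_distrib, norm_zero, ne_eq, OfNat.ofNat_ne_zero, not_false_eq_true, zero_pow, mul_zero, neg_sub]
  · rw [config_energy hn B hC hO hM hc hg hI]

end closed

end Vale.Agent.P370.NB.U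
end

section

/-!
First order degenerate perturbation theory: upper bound.
-/

namespace Vale.Agent.P370.Q

open MeasureTheory Finset ComplexConjugate

open Filter Topology NB NB.U in
theorem nbody_upper {n K M m : ℕ} {C O : Type} [Fintype C] [DecidableEq C] [Fintype O]
    [DecidableEq O] (hn : 1 ≤ n)
    (B : ShellBasis n (C ⊕ O)) (hC : ∀ c, B.lev (Sum.inl c) < n) (hO : ∀ o, B.lev (Sum.inr o) = n)
    (hM : M = 2 * Fintype.card C) (hK0 : 1 ≤ K)
    (lam : ℝ) (w : Fin m → ℝ) (y : Fin m → R3) (hw : ∀ b, 0 ≤ w b) (hlam : 0 < lam)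
    (c : Tens (M + K) ((C ⊕ O) × Fin 2)) (hc : IsAnti c) (hg : Good c) (hc1 : nsq c = 1)
    (ε : ℝ) (hε : 0 < ε) :
    ∃ ψ : Wave (M + K), IsTestState ψ ∧ normSq ψ = 1 ∧
      scaledE lam w y ψ ≤ -((n : ℝ) - 1) - K / (2 * (n : ℝ) ^ 2) +
        lam * enT (nucM B.χ w y) (coulM B.χ) c + ε := by
  have hf : ∀ a, ∃ f, ApproxSeq (B.χ a) f := fun a => exists_approxSeq (B.lev_pos a) (B.mem a)
  choose f hf using hf
  set g : ℕ → C ⊕ O → R3 → ℝ := fun j a => f a j with hgd
  have hTF : ∀ j, TF (g j) := fun j => ⟨fun a => (hf a).smooth j, fun a => (hf a).compact j⟩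
  -- convergence of the matrices
  have spin1_tendsto : ∀ {h : ℕ → C ⊕ O → C ⊕ O → ℝ} {h' : C ⊕ O → C ⊕ O → ℝ},
      (∀ a b, Tendsto (fun j => h j a b) atTop (𝓝 (h' a b))) →
      ∀ p q, Tendsto (fun j => spin1 (h j) p q) atTop (𝓝 (spin1 h' p q)) := by
    intro h h' hh p q
    unfold spin1
    by_cases hpq : p.2 = q.2
    · simp only [hpq, if_true]
      exact hh _ _
    · simp only [hpq, if_false]
      exact tendsto_const_nhds
  have hS := spin1_tendsto (h := fun j a b => ov (g j a) (g j b))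
    (h' := fun a b => ov (B.χ a) (B.χ b)) fun a b => (hf a).tendsto_ov (hf b)
  have hD := spin1_tendsto (h := fun j a b => dir (g j a) (g j b))
    (h' := fun a b => dir (B.χ a) (B.χ b)) fun a b => (hf a).tendsto_dir (hf b)
  have hR := spin1_tendsto (h := fun j a b => rinv (g j a) (g j b))
    (h' := fun a b => rinv (B.χ a) (B.χ b)) fun a b => (hf a).tendsto_rinv (hf b)
  have hG := fun β => spin1_tendsto (h := fun j a b => gm (y β) (g j a) (g j b))
    (h' := fun a b => gm (y β) (B.χ a) (B.χ b)) fun a b => (hf a).tendsto_gm (hf b) (y β)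
  have hV : ∀ p a q b, Tendsto (fun j => spin2 (coulM (g j)) p a q b) atTop
      (𝓝 (spin2 (coulM B.χ) p a q b)) := by
    intro p a q b
    unfold spin2 coulM
    split_ifs
    · exact (hf _).tendsto_coul (hf _) (hf _) (hf _)
    · exact tendsto_const_nhds
  have hdelta : spin1 (fun a b => ov (B.χ a) (B.χ b)) = fun p q => if p = q then (1 : ℝ) else 0 := by
    funext p q
    unfold spin1
    beta_reduce
    rw [B.ortho]
    by_cases hpq : p = q
    · subst hpq
      simp
    · rw [if_neg hpq]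
      by_cases h3 : p.2 = q.2
      · have h4 : p.1 ≠ q.1 := fun h => hpq (Prod.ext h h3)
        rw [if_pos h3, if_neg h4]
      · rw [if_neg h3]
  rw [hdelta] at hS
  -- limits of norm and energy
  have hN0 := G0_tendsto hS c
  rw [G0_delta, hc1] at hN0
  have hE0 : Tendsto (fun j => EF (spin1 (fun a b => ov (g j a) (g j b)))
      (spin1 (fun a b => dir (g j a) (g j b))) (spin1 (fun a b => rinv (g j a) (g j b)))
      (spin2 (coulM (g j))) (fun b => spin1 (fun a a' => gm (y b) (g j a) (g j a'))) lam w c)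
      atTop (𝓝 (-((n : ℝ) - 1) - K / (2 * (n : ℝ) ^ 2) +
        lam * enT (nucM B.χ w y) (coulM B.χ) c)) := by
    have h1 := ((G1_tendsto hS hD c).const_mul (1 / 2)).add
      ((G1_tendsto hS hR c).neg.add
        (((G2_tendsto hS hV c).add
          (tendsto_finsetSum univ fun β (_ : β ∈ (univ : Finset (Fin m))) =>
            (G1_tendsto hS (hG β) c).const_mul (w β))).const_mul lam))
    simp only [G1_delta, G2_delta] at h1
    have h2 : oneE (spin1 (nucM B.χ w y)) c =
        ∑ β, w β * oneE (spin1 (fun a b => gm (y β) (B.χ a) (B.χ b))) c := by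
      rw [← oneE_comb]
      congr 1
      funext p q
      unfold spin1 nucM
      split_ifs <;> simp
    have h3 := shell_energy hn B hC hO hM hc hg
    rw [hc1, mul_one] at h3
    have h4 : 1 / 2 * oneE (spin1 (fun a b => dir (B.χ a) (B.χ b))) c +
        (-oneE (spin1 (fun a b => rinv (B.χ a) (B.χ b))) c +
          lam * (twoE (spin2 (coulM B.χ)) c +
            ∑ β, w β * oneE (spin1 (fun a b => gm (y β) (B.χ a) (B.χ b))) c)) =
        -((n : ℝ) - 1) - K / (2 * (n : ℝ) ^ 2) + lam * enT (nucM B.χ w y) (coulM B.χ) c := by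
      unfold enT
      rw [h2, ← h3]
      ring
    rw [h4] at h1
    exact h1
  set L : ℝ := -((n : ℝ) - 1) - K / (2 * (n : ℝ) ^ 2) +
    lam * enT (nucM B.χ w y) (coulM B.χ) c with hL
  have hq := hE0.div hN0 one_ne_zero
  rw [div_one] at hq
  have ev1 := hq.eventually_lt_const (show L < L + ε by linarith only [hε])
  have ev2 := hN0.eventually_const_lt (show (0 : ℝ) < 1 by norm_num)
  obtain ⟨j, hj1, hj2⟩ := (ev1.and ev2).exists
  set G : ℝ := G0 (spin1 (fun a b => ov (g j a) (g j b))) c with hGd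
  set r : ℝ := (Real.sqrt G)⁻¹ with hr
  have hr2 : r ^ 2 = G⁻¹ := by
    rw [hr, inv_pow, Real.sq_sqrt hj2.le]
  have hca : IsAnti (fun I => (r : ℂ) * c I) := by
    intro π I
    simp only
    rw [hc π I]
    ring
  refine ⟨tw (g j) (fun I => (r : ℂ) * c I), tw_test (hTF j).smooth (hTF j).compact hca, ?_, ?_⟩
  · rw [(hTF j).normSq_eq, G0_smul, hr2]
    exact inv_mul_cancel₀ hj2.ne'
  · rw [(hTF j).scaledE_eq, EF_smul, hr2, inv_mul_eq_div]
    exact hj1.le

end Vale.Agent.P370.Q
end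

section

/-!
The Turing reduction, from the structure theorem.
-/

namespace Vale.Agent.P370.Q.Alg

open Finset

/-- the constants of the structure theorem -/
def StructData (k : ℕ) : Prop :=
  ∃ (Eref : ℝ) (κ : ℕ → ℝ),
    (∀ d, 1 ≤ d → d < pK k → 1 / 2 ^ (4 * pn k) ≤ κ d ∧ κ d ≤ 1 / 2 ^ pn k) ∧
    -(pT k : ℝ) ^ 3 ≤ Eref ∧ Eref ≤ 0 ∧ Key k κ Eref

theorem final_query_eq (w ans : List Bool) (hlen : nQ (kk w) < ans.length) :
    query w (ans.take (nQ (kk w))) =
      build (kk w) (sfin (kk w) (xcal (kk w) ans) w)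
        (lo (nB (kk w)) (ans.take (nB (kk w))) - offs (kk w) w) := by
  set k := kk w with hk
  have hB : nB k ≤ nQ k := Nat.le_add_right _ _
  have h1 : (ans.take (nQ k)).length = nQ k := by simp only [List.length_take, inf_eq_left]; omega
  have h2 : (ans.take (nQ k)).take (nB k) = ans.take (nB k) := by
    rw [List.take_take]; congr 1; omega
  unfold query
  rw [← hk, h1, if_neg (by omega), if_neg (lt_irrefl _), h2]
  congr 1
  -- the parameters only depend on the answers of the scan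
  unfold sfin
  refine List.map_congr_left fun t ht => ?_
  have ht' : t < aK k * aK k := List.mem_range.1 ht
  by_cases hm : mW w (t / aK k) (t % aK k) = 0
  · rw [hm, mul_zero, mul_zero]
  · have hlt : t / aK k < t % aK k := by
      by_contra h
      exact hm (by rw [mW, if_neg (fun h' => h h'.1)])
    have hKpos : 0 < aK k := by unfold aK; positivity
    have hmod : t % aK k < aK k := Nat.mod_lt _ hKpos
    set d := t % aK k - t / aK k with hd
    have hd1 : 1 ≤ d := by (clear * - hlt; omega)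
    have hd2 : d < pK k := lt_of_le_of_lt (Nat.sub_le _ _) hmod
    have : xcal k (ans.take (nQ k)) d = xcal k ans d := by
      unfold xcal firstYes
      congr 2
      refine List.filter_congr fun j hj => ?_
      have hj' : j < nG k := List.mem_range.1 hj
      obtain ⟨b1, -, -⟩ := block_index k d j hd1 hd2 hj'
      rw [List.getD_eq_getElem?_getD, List.getD_eq_getElem?_getD, List.getElem?_take_of_lt b1]
    rw [this]

/-- **The Turing reduction.** -/
theorem turing_of_struct (h : ∀ k, 10 ≤ k → StructData k) (c : ℕ) :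
    TuringReduces heisenbergAF (electronicStructure c) := by
  obtain ⟨T, hT⟩ := exists_steps
  refine ⟨_, _, T, polyTimeFn_query, polyTimeFn_output, fun w ans hlen hans => ?_⟩
  set k := kk w with hk
  have hk10 : 10 ≤ k := le_max_left _ _
  have hcons : Cons c w ans := by
    intro t ht
    have h1 := hans t ht
    rw [pairW_eq, Lib.PolyTime.fstW_pr, Lib.PolyTime.sndW_pr] at h1
    rw [List.getD_eq_getElem _ _ ht]
    exact h1
  have hlenQ : nQ k < ans.length := by rw [hlen]; exact hT w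
  obtain ⟨Eref, κ, hκ, hE1, hE2, hkey⟩ := h k hk10
  obtain ⟨hy1, hy2⟩ := ref_found c w ans hk hcons hlenQ hkey hE1 hE2
  have hx : ∀ d, 1 ≤ d → d < pK k →
      |κ d * (xcal k ans d : ℝ) ^ 2 - pJ k| ≤ 6 * pJ k / (pK k : ℝ) ^ 6 ∧
        6 * (pK k : ℝ) ^ 6 ≤ xcal k ans d := fun d hd1 hd =>
    calibrated c w ans hk hcons hlenQ hkey hy1 hy2 d hd1 hd (hκ d hd1 hd).1 (hκ d hd1 hd).2
  have hw : w.length < aK k := length_lt_two_pow_kk w
  have hTJ := TJ_big k (by omega)
  have hδ : 2 ≤ pT k * pJ k / (pK k : ℝ) ^ 8 := by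
    have hK := pK_real_ge k hk10
    have hK0 := pK_pos k
    rw [le_div_iff₀ (by (clear * - hK; (clear * - hK; positivity)))]
    have h1 : (pK k : ℝ) ^ 8 ≤ (pK k : ℝ) ^ 9 :=
      pow_le_pow_right₀ (by linarith only [hK]) (by norm_num)
    linarith only [hTJ, h1, pow_pos hK0 8]
  have hfin := final_step hk10 (xcal k ans) w hw hkey hx
    (fun d hd1 hd => le_trans (by (clear * -; positivity)) (hκ d hd1 hd).1)
    (lo (nB k) (ans.take (nB k))) (by
      rw [abs_le]
      constructor <;> linarith only [hy1, hδ, hy2]) c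
  obtain ⟨q1, q2⟩ := hcons (nQ k) hlenQ
  rw [final_query_eq w ans hlenQ, ← hk] at q1 q2
  rw [pairW_eq, Lib.PolyTime.fstW_pr, Lib.PolyTime.sndW_pr]
  refine ⟨fun hyes => ?_, fun hno => ?_⟩
  · rw [output, ← hk, q1 (hfin.1 hyes)]
  · rw [output, ← hk, q2 (hfin.2 hno)]

end Vale.Agent.P370.Q.Alg
end
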