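import Vale.Agent.P370.MathlibUsed
import Vale.Agent.P370.QStmt
import Vale.Agent.P370.Bdl.B7
import Vale.Agent.P370.Bdl.B15
import Vale.Agent.P370.Bdl.B16
import Vale.Agent.P370.Bdl.B14
import Vale.Agent.P370.Bdl.B9
import Vale.Agent.P370.Bdl.B13
import Vale.Agent.P370.Bdl.B10
import Vale.Agent.P370.Bdl.B8
import Vale.Agent.P370.Bdl.B11
import Vale.Agent.P370.Bdl.B2
import Vale.Agent.P370.Bdl.B12
import Vale.Agent.P370.Bdl.B4

set_option linter.all false

section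

/-!
The output word (H12).
-/

namespace Vale.Agent.P370.H

theorem word_blocks_false (w : List Bool) : blocks (false :: w) = 0 :: blocks w := by
  unfold blocks
  rw [List.foldr_cons]
  rfl

theorem word_blocks_true (w : List Bool) :
    blocks (true :: w) = ((blocks w).headD 0 + 1) :: (blocks w).tail := by
  unfold blocks
  rw [List.foldr_cons]
  rfl

theorem word_blocks_rep (w : List Bool) (v : ℕ) :
    blocks (List.replicate v true ++ (false :: w)) = v :: blocks w := by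
  induction v with
  | zero => rw [List.replicate_zero, List.nil_append, word_blocks_false]
  | succ v ih =>
    rw [List.replicate_succ, List.cons_append, word_blocks_true, ih]
    rfl

theorem blocks_wordOf (l : List ℕ) : blocks (wordOf l) = l := by
  induction l with
  | nil => rfl
  | cons v l ih =>
    have h : wordOf (v :: l) = List.replicate v true ++ (false :: wordOf l) := by
      unfold wordOf
      rw [List.flatMap_cons, List.append_assoc]
      rfl
    rw [h, word_blocks_rep, ih]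

theorem hK_outW (z : List Bool) : hK (outW z) = zK z := by
  unfold hK outW
  rw [blocks_wordOf]
  rfl

theorem hA_outW (z : List Bool) : hA (outW z) = zA z := by
  unfold hA outW
  rw [blocks_wordOf]
  rfl

theorem hM_outW (z : List Bool) (i j : ℕ) (hi : i < zK z) (hj : j < zK z) :
    hM (outW z) i j = zW z i j := by
  unfold hM
  rw [hK_outW]
  unfold outW
  rw [blocks_wordOf]
  have hlt : i * zK z + j < zK z * zK z := by
    calc i * zK z + j < i * zK z + zK z := by omega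
      _ = (i + 1) * zK z := by ring
      _ ≤ zK z * zK z := Nat.mul_le_mul_right _ hi
  have h2 : 2 + i * zK z + j = (i * zK z + j) + 2 := by omega
  rw [h2, List.getD_append_right _ _ _ _ (by simp)]
  have h3 : i * zK z + j + 2 - [zK z, zA z].length = i * zK z + j := by
    simp only [List.length_cons, List.length_nil, zero_add, Nat.reduceAdd, add_tsub_cancel_right, Nat.add_left_cancel_iff]
  rw [h3, List.getD_eq_getElem _ _ (by simpa only [List.length_map, List.length_range] using hlt), List.getElem_map, List.getElem_range]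
  have hK : 0 < zK z := by omega
  have h4 : (i * zK z + j) / zK z = i := by
    rw [mul_comm, Nat.mul_add_div hK, Nat.div_eq_of_lt hj, add_zero]
  have h5 : (i * zK z + j) % zK z = j := by
    rw [mul_comm, Nat.mul_add_mod, Nat.mod_eq_of_lt hj]
  rw [h4, h5]

theorem heisenbergForm_congr {K : ℕ} (m m' : ℕ → ℕ → ℕ) (h : ∀ i j, i < K → j < K → m i j = m' i j)
    (φ : (Fin K → Fin 2) → ℂ) : heisenbergForm m φ = heisenbergForm m' φ := by
  unfold heisenbergForm
  refine Finset.sum_congr rfl fun i _ => Finset.sum_congr rfl fun j _ => ?_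
  rw [h i j i.2 j.2]

end Vale.Agent.P370.H
end

section

set_option linter.all false

/-!
The reduction to the Heisenberg model runs in polynomial time (H11).
-/

namespace Vale.Agent.P370.H

open Vale.Agent.Lib.PolyTime Vale.Agent.P370.Q.Alg

instance encTm : Enc (Tm ℤ) := ⟨fun t => enc (t.c, t.P, t.i, t.Q, t.j)⟩
instance encRnd : Enc Rnd := ⟨fun r => enc (r.a, r.q, r.f, r.s)⟩

section pt

variable {A : Set Word} {α β : Type*} [Enc α] [Enc β]

/-! ### constructors -/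

theorem pl1 {f : α → β} (hf : PT A f) : PT A (fun a => [f a]) := PT.cons hf (PT.const [])

theorem pt_tm {c : α → ℤ} {P i Q j : α → ℕ} (hc : PT A c) (hP : PT A P) (hi : PT A i)
    (hQ : PT A Q) (hj : PT A j) : PT A (fun a => (⟨c a, P a, i a, Q a, j a⟩ : Tm ℤ)) := by
  obtain ⟨F, hF, hF'⟩ := hc.pair (hP.pair (hi.pair (hQ.pair hj)))
  exact ⟨F, hF, hF'⟩

theorem pt_rnd {x q f s : α → ℕ} (hx : PT A x) (hq : PT A q) (hf : PT A f) (hs : PT A s) :
    PT A (fun a => (⟨x a, q a, f a, s a⟩ : Rnd)) := by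
  obtain ⟨F, hF, hF'⟩ := hx.pair (hq.pair (hf.pair hs))
  exact ⟨F, hF, hF'⟩

theorem pt_tup {t : α → Tm ℤ} (ht : PT A t) :
    PT A (fun a => ((t a).c, (t a).P, (t a).i, (t a).Q, (t a).j)) := by
  obtain ⟨F, hF, hF'⟩ := ht
  exact ⟨F, hF, hF'⟩

theorem pt_rup {r : α → Rnd} (hr : PT A r) :
    PT A (fun a => ((r a).a, (r a).q, (r a).f, (r a).s)) := by
  obtain ⟨F, hF, hF'⟩ := hr
  exact ⟨F, hF, hF'⟩

theorem pt_c {t : α → Tm ℤ} (ht : PT A t) : PT A (fun a => (t a).c) := (pt_tup ht).fst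
theorem pt_P {t : α → Tm ℤ} (ht : PT A t) : PT A (fun a => (t a).P) := (pt_tup ht).snd.fst
theorem pt_i {t : α → Tm ℤ} (ht : PT A t) : PT A (fun a => (t a).i) := (pt_tup ht).snd.snd.fst
theorem pt_Q {t : α → Tm ℤ} (ht : PT A t) : PT A (fun a => (t a).Q) := (pt_tup ht).snd.snd.snd.fst
theorem pt_j {t : α → Tm ℤ} (ht : PT A t) : PT A (fun a => (t a).j) := (pt_tup ht).snd.snd.snd.snd
theorem pt_ra {r : α → Rnd} (hr : PT A r) : PT A (fun a => (r a).a) := (pt_rup hr).fst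
theorem pt_rq {r : α → Rnd} (hr : PT A r) : PT A (fun a => (r a).q) := (pt_rup hr).snd.fst
theorem pt_rf {r : α → Rnd} (hr : PT A r) : PT A (fun a => (r a).f) := (pt_rup hr).snd.snd.fst
theorem pt_rs {r : α → Rnd} (hr : PT A r) : PT A (fun a => (r a).s) := (pt_rup hr).snd.snd.snd

/-! ### the circuit -/

theorem pt_comp {n kind i j : α → ℕ} (hn : PT A n) (hk : PT A kind) (hi : PT A i) (hj : PT A j) :
    PT A (fun a => comp (n a) (kind a) (i a) (j a)) := by
  have c0 : PT A (fun _ : α => 0) := PT.const 0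
  have c1 : PT A (fun _ : α => 1) := PT.const 1
  have c2 : PT A (fun _ : α => 2) := PT.const 2
  exact PT.ite (p := fun a => i a < n a) (PT.lt hi hn)
    (PT.ite (p := fun a => kind a = 0) (PT.eqNat hk c0)
      (PT.cons (pt_rnd c2 hi hi hn) (pl1 (pt_rnd c0 c0 hi hn)))
      (PT.ite (p := fun a => kind a = 1) (PT.eqNat hk c1)
        (PT.cons (pt_rnd c0 c0 hi hn) (PT.cons (pt_rnd c1 hn hi hn)
          (PT.cons (pt_rnd c1 hn hi hn) (pl1 (pt_rnd c0 c0 hi hn)))))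
        (PT.ite (p := fun a => j a < n a ∧ i a ≠ j a)
          (PT.decide_and (PT.lt hj hn) (PT.decide_not (PT.eqNat hi hj)))
          (PT.cons (pt_rnd c2 hj hi hj) (PT.cons (pt_rnd c2 hj hi hj) (pl1 (pt_rnd c0 c0 hi hj))))
          (PT.const []))))
    (PT.const [])

theorem pt_cQubits {z : α → List Bool} (hz : PT A z) : PT A (fun a => cQubits (z a)) :=
  (PT.getD (pt_blocks hz) (PT.const 0) (PT.const 0)).add (PT.const 1)

theorem pbd_cQubits {z : α → List Bool} (hz : PT A z) : PBd (fun a => cQubits (z a)) :=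
  ((PBd.length (A := A) hz).mono fun a => getD_blocks_le (z a) 0).add (PBd.const 1)

theorem pt_cWitness {z : α → List Bool} (hz : PT A z) : PT A (fun a => cWitness (z a)) :=
  PT.getD (pt_blocks hz) (PT.const 1) (PT.const 0)

theorem pt_rnds {z : α → List Bool} (hz : PT A z) : PT A (fun a => rnds (z a)) := by
  have hb := pt_blocks hz
  have hl := PT.length hb
  have hlb := PBd.length (A := A) hb
  have hb' : PT A (fun p : α × Un => blocks (z p.1)) := hb.comp PT.fst'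
  have ht : PT A (fun p : α × Un => p.2.v) := PT.unVal PT.snd'
  have h3 : PT A (fun p : α × Un => 3 * p.2.v) := (PT.const 3).mul ht
  refine PT.rangeFlatMap ((hl.sub (PT.const 2)).div (PT.const 3))
    (hlb.mono fun a => (Nat.div_le_self _ _).trans (Nat.sub_le _ _)) ?_
  exact pt_comp ((pt_cQubits hz).comp PT.fst') (PT.getD hb' (h3.add (PT.const 2)) (PT.const 0))
    (PT.getD hb' (h3.add (PT.const 3)) (PT.const 0))
    (PT.getD hb' (h3.add (PT.const 4)) (PT.const 0))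

/-! ### the Hamiltonian -/

theorem pt_tc {M : α → ℕ} (hM : PT A M) : PT A (fun a => tc (M a)) :=
  ((PT.const 6).mul hM).add (PT.const 5)

theorem pbd_tc {M : α → ℕ} (hM : PBd M) : PBd (fun a => tc (M a)) :=
  ((PBd.const 6).mul hM).add (PBd.const 5)

theorem pt_ck {N t : α → ℕ} (hN : PT A N) (ht : PT A t) : PT A (fun a => ck (N a) (t a)) :=
  (hN.add ht).sub (PT.const 1)

theorem pt_projT {N Tc t : α → ℕ} {c : α → ℤ} (hN : PT A N) (hT : PT A Tc) (hc : PT A c)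
    (ht : PT A t) : PT A (fun a => projT (N a) (Tc a) (c a) (t a)) := by
  have c0 : PT A (fun _ : α => 0) := PT.const 0
  have c1 : PT A (fun _ : α => 1) := PT.const 1
  have c2 : PT A (fun _ : α => 2) := PT.const 2
  have hc' := hc.intNeg
  exact PT.ite (p := fun a => t a = 0) (PT.eqNat ht c0)
    (PT.cons (pt_tm hc c0 c0 c0 c0) (pl1 (pt_tm hc c2 (pt_ck hN c1) c0 c0)))
    (PT.ite (p := fun a => t a = Tc a) (PT.eqNat ht hT)
      (PT.cons (pt_tm hc c0 c0 c0 c0) (pl1 (pt_tm hc' c2 (pt_ck hN hT) c0 c0)))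
      (PT.cons (pt_tm hc c2 (pt_ck hN (ht.add c1)) c0 c0) (pl1 (pt_tm hc' c2 (pt_ck hN ht) c0 c0))))

theorem pt_rget {rs : α → List Rnd} {l : α → ℕ} (hr : PT A rs) (hl : PT A l) :
    PT A (fun a => rget (rs a) (l a)) := PT.getD hr hl (PT.const _)

theorem pt_fineG {rs : α → List Rnd} {w : α → ℤ} {tr : α → ℕ → ℤ × ℤ} {t : α → ℕ}
    (hr : PT A rs) (hw : PT A w) (htr : PT A (fun p : α × ℕ => tr p.1 p.2)) (ht : PT A t) :
    PT A (fun a => fineG (rs a) (w a) (tr a) (t a)) := by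
  have c0 : PT A (fun _ : α => 0) := PT.const 0
  have c1 : PT A (fun _ : α => 1) := PT.const 1
  have c2 : PT A (fun _ : α => 2) := PT.const 2
  have hm : PT A (fun a => t a % 6) := ht.mod (PT.const 6)
  have hd : PT A (fun a => t a / 6) := ht.div (PT.const 6)
  have hl := PT.length hr
  have hg := pt_rget hr hd
  have hg1 := pt_rget hr (hd.sub c1)
  have hone : PT A (fun a => [(w a, 0, 0)]) := pl1 (hw.pair (c0.pair c0))
  have hlt : PT A (fun a => decide (t a / 6 < (rs a).length)) := PT.lt hd hl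
  have htr' : PT A (fun a => tr a (rget (rs a) (t a / 6)).a) :=
    htr.comp (PT.id.pair (pt_ra hg))
  exact PT.ite (p := fun a => t a % 6 = 1) (PT.eqNat hm c1)
    (PT.ite (p := fun a => 1 ≤ t a / 6) (PT.le c1 hd)
      (pl1 (hw.pair (c2.pair (pt_rf hg1)))) hone)
    (PT.ite (p := fun a => t a % 6 = 2) (PT.eqNat hm c2)
      (PT.ite (p := fun a => 1 ≤ t a / 6) (PT.le c1 hd)
        (pl1 (hw.pair (c2.pair (pt_rs hg1)))) hone)
      (PT.ite (p := fun a => t a % 6 = 3) (PT.eqNat hm (PT.const 3))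
        (PT.ite (p := fun a => t a / 6 < (rs a).length ∧ (rget (rs a) (t a / 6)).a ≠ 0)
          (PT.decide_and hlt (PT.decide_not (PT.eqNat (pt_ra hg) c0)))
          (PT.cons (htr'.fst.pair (c2.pair (pt_rq hg)))
            (pl1 (htr'.snd.pair (c1.pair (pt_rq hg))))) hone)
        (PT.ite (p := fun a => t a % 6 = 4) (PT.eqNat hm (PT.const 4))
          (PT.ite (p := fun a => t a / 6 < (rs a).length) hlt
            (pl1 (hw.pair (c2.pair (pt_rf hg)))) hone)
          (PT.ite (p := fun a => t a / 6 < (rs a).length) hlt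
            (pl1 (hw.pair (c2.pair (pt_rs hg)))) hone))))

theorem pt_hClock {N Tc : α → ℕ} {J : α → ℤ} (hN : PT A N) (hT : PT A Tc) (hTb : PBd Tc)
    (hJ : PT A J) : PT A (fun a => hClock (N a) (Tc a) (J a)) := by
  have c0 : PT A (fun _ : α × Un => 0) := PT.const 0
  have c2 : PT A (fun _ : α × Un => 2) := PT.const 2
  have ht : PT A (fun p : α × Un => p.2.v) := PT.unVal PT.snd'
  have hN' : PT A (fun p : α × Un => N p.1) := hN.comp PT.fst'
  have hJ' : PT A (fun p : α × Un => 2 * J p.1) := (PT.const 2).intMul (hJ.comp PT.fst')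
  have k1 := pt_ck hN' (ht.add (PT.const 1))
  have k2 := pt_ck hN' (ht.add (PT.const 2))
  exact PT.rangeFlatMap (hT.sub (PT.const 1)) (hTb.mono fun _ => Nat.sub_le _ _)
    (PT.cons (pt_tm hJ' c0 c0 c0 c0) (PT.cons (pt_tm hJ' c2 k1 c0 c0)
      (PT.cons (pt_tm hJ'.intNeg c2 k2 c0 c0) (pl1 (pt_tm hJ'.intNeg c2 k1 c2 k2)))))

theorem pt_hFine {N : α → ℕ} {rs : α → List Rnd} {w : α → ℤ} {tr : α → ℕ → ℤ × ℤ} {J : α → ℤ}
    (hN : PT A N) (hr : PT A rs) (hw : PT A w) (htr : PT A (fun p : α × ℕ => tr p.1 p.2))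
    (hJ : PT A J) : PT A (fun a => hFine (N a) (rs a) (w a) (tr a) (J a)) := by
  have hl := pt_tc (PT.length hr)
  have hlb := pbd_tc (PBd.length (A := A) hr)
  have ht : PT A (fun p : α × Un => p.2.v) := PT.unVal PT.snd'
  have ht1 : PT A (fun p : α × Un => p.2.v + 1) := ht.add (PT.const 1)
  have hN' : PT A (fun p : α × Un => N p.1) := hN.comp PT.fst'
  have hl' : PT A (fun p : α × Un => tc (rs p.1).length) := hl.comp PT.fst'
  have hJw : PT A (fun p : α × Un => 2 * J p.1 * w p.1) :=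
    ((PT.const 2).intMul (hJ.comp PT.fst')).intMul (hw.comp PT.fst')
  have htr' : PT A (fun p : (α × Un) × ℕ => tr p.1.1 p.2) :=
    htr.comp ((PT.fst'.fst).pair PT.snd')
  have hg := pt_fineG (tr := fun p : α × Un => tr p.1) (hr.comp PT.fst') (hw.comp PT.fst') htr' ht1
  have hk : PT A (fun p : (α × Un) × (ℤ × ℕ × ℕ) => ck (N p.1.1) (p.1.2.v + 1)) :=
    (pt_ck hN' ht1).comp PT.fst'
  have hc : PT A (fun p : (α × Un) × (ℤ × ℕ × ℕ) => -(4 * J p.1.1 * p.2.1)) :=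
    (((PT.const 4).intMul (hJ.comp PT.fst'.fst)).intMul PT.snd'.fst).intNeg
  have hmap : PT A (fun p : α × Un => (fineG (rs p.1) (w p.1) (tr p.1) (p.2.v + 1)).map fun g =>
      if g.2.1 = 0 then (⟨-(4 * J p.1 * g.1), 1, ck (N p.1) (p.2.v + 1), 0, 0⟩ : Tm ℤ)
      else ⟨-(4 * J p.1 * g.1), g.2.1, g.2.2, 1, ck (N p.1) (p.2.v + 1)⟩) :=
    PT.map (f := fun (p : α × Un) (g : ℤ × ℕ × ℕ) =>
      if g.2.1 = 0 then (⟨-(4 * J p.1 * g.1), 1, ck (N p.1) (p.2.v + 1), 0, 0⟩ : Tm ℤ)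
      else ⟨-(4 * J p.1 * g.1), g.2.1, g.2.2, 1, ck (N p.1) (p.2.v + 1)⟩) hg
      (PT.ite (p := fun p : (α × Un) × (ℤ × ℕ × ℕ) => p.2.2.1 = 0)
        (PT.eqNat PT.snd'.snd.fst (PT.const 0))
        (pt_tm hc (PT.const 1) hk (PT.const 0) (PT.const 0))
        (pt_tm hc PT.snd'.snd.fst PT.snd'.snd.snd (PT.const 1) hk))
  exact PT.rangeFlatMap hl hlb
    (PT.ite (p := fun p : α × Un => (p.2.v + 1) % 6 = 0)
      (PT.eqNat (ht1.mod (PT.const 6)) (PT.const 0)) (PT.const [])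
      (((pt_projT hN' hl' hJw ht1).append (pt_projT hN' hl' hJw ht)).append hmap))

theorem pt_hCz {N : α → ℕ} {rs : α → List Rnd} {J : α → ℤ} (hN : PT A N) (hr : PT A rs)
    (hJ : PT A J) : PT A (fun a => hCz (N a) (rs a) (J a)) := by
  have c0 : PT A (fun _ : α × Un => 0) := PT.const 0
  have c1 : PT A (fun _ : α × Un => 1) := PT.const 1
  have c2 : PT A (fun _ : α × Un => 2) := PT.const 2
  have ht : PT A (fun p : α × Un => p.2.v) := PT.unVal PT.snd'
  have ht1 : PT A (fun p : α × Un => 6 * (p.2.v + 1)) := (PT.const 6).mul (ht.add (PT.const 1))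
  have hN' : PT A (fun p : α × Un => N p.1) := hN.comp PT.fst'
  have hr' : PT A (fun p : α × Un => rs p.1) := hr.comp PT.fst'
  have hl' : PT A (fun p : α × Un => tc (rs p.1).length) := pt_tc (PT.length hr')
  have hJ' : PT A (fun p : α × Un => J p.1) := hJ.comp PT.fst'
  have hJ2 : PT A (fun p : α × Un => 2 * J p.1) := (PT.const 2).intMul hJ'
  have hJ4 : PT A (fun p : α × Un => 4 * J p.1) := (PT.const 4).intMul hJ'
  have hJ6 : PT A (fun p : α × Un => 6 * J p.1) := (PT.const 6).intMul hJ'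
  have hg := pt_rget hr' ht
  have k0 := pt_ck hN' ht1
  have kp1 := pt_ck hN' (ht1.add (PT.const 1))
  have kp2 := pt_ck hN' (ht1.add (PT.const 2))
  have km1 := pt_ck hN' (ht1.sub (PT.const 1))
  have km2 := pt_ck hN' (ht1.sub (PT.const 2))
  exact PT.rangeFlatMap (PT.length hr) (PBd.length (A := A) hr)
    ((((PT.cons (pt_tm hJ4.intNeg c1 k0 c0 c0) (PT.cons (pt_tm hJ6.intNeg c2 (pt_rf hg) c1 k0)
        (pl1 (pt_tm hJ6.intNeg c2 (pt_rs hg) c1 k0)))).append
      (pt_projT hN' hl' hJ4 ht1)).append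
      (pt_projT hN' hl' hJ4 (ht1.sub (PT.const 1)))).append
      (PT.cons (pt_tm hJ' c1 kp1 c0 c0) (PT.cons (pt_tm hJ' c1 kp2 c0 c0)
        (PT.cons (pt_tm hJ2 c1 kp1 c1 kp2) (PT.cons (pt_tm hJ' c1 km1 c0 c0)
          (PT.cons (pt_tm hJ' c1 km2 c0 c0) (pl1 (pt_tm hJ2 c1 km2 c1 km1))))))))

theorem pt_hIn {N m : α → ℕ} {J : α → ℤ} (hN : PT A N) (hNb : PBd N) (hm : PT A m)
    (hJ : PT A J) : PT A (fun a => hIn (N a) (m a) (J a)) := by
  have c0 : PT A (fun _ : α × Un => 0) := PT.const 0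
  have c2 : PT A (fun _ : α × Un => 2) := PT.const 2
  have ht : PT A (fun p : α × Un => p.2.v) := PT.unVal PT.snd'
  have hmi : PT A (fun p : α × Un => m p.1 + p.2.v) := (hm.comp PT.fst').add ht
  have hk : PT A (fun p : α × Un => ck (N p.1) 1) := pt_ck (hN.comp PT.fst') (PT.const 1)
  have hJ' : PT A (fun p : α × Un => 2 * J p.1) := (PT.const 2).intMul (hJ.comp PT.fst')
  exact PT.rangeFlatMap ((hN.sub (PT.const 1)).sub hm)
    (hNb.mono fun _ => (Nat.sub_le _ _).trans (Nat.sub_le _ _))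
    (PT.cons (pt_tm hJ' c0 c0 c0 c0) (PT.cons (pt_tm hJ'.intNeg c2 hmi c0 c0)
      (PT.cons (pt_tm hJ' c2 hk c0 c0) (pl1 (pt_tm hJ'.intNeg c2 hmi c2 hk)))))

theorem pt_hOut {N Tc : α → ℕ} {w : α → ℤ} (hN : PT A N) (hT : PT A Tc) (hw : PT A w) :
    PT A (fun a => hOut (N a) (Tc a) (w a)) := by
  have c0 : PT A (fun _ : α => 0) := PT.const 0
  have c2 : PT A (fun _ : α => 2) := PT.const 2
  have hw' : PT A (fun a => 2 * w a) := (PT.const 2).intMul hw
  have hk := pt_ck hN hT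
  exact PT.cons (pt_tm hw' c0 c0 c0 c0) (PT.cons (pt_tm hw' c2 c0 c0 c0)
      (PT.cons (pt_tm hw'.intNeg c2 hk c0 c0) (pl1 (pt_tm hw'.intNeg c2 c0 c2 hk))))

theorem pt_rr {N M : α → ℕ} (hN : PT A N) (hM : PT A M) : PT A (fun a => rr (N a) (M a)) :=
  (hN.add hM).add (PT.const 1000)

theorem pbd_rr {N M : α → ℕ} (hN : PBd N) (hM : PBd M) : PBd (fun a => rr (N a) (M a)) :=
  (hN.add hM).add (PBd.const 1000)

theorem pt_ham {N m : α → ℕ} {rs : α → List Rnd} {w : α → ℤ} {tr : α → ℕ → ℤ × ℤ}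
    (hN : PT A N) (hNb : PBd N) (hm : PT A m) (hr : PT A rs) (hw : PT A w)
    (htr : PT A (fun p : α × ℕ => tr p.1 p.2)) :
    PT A (fun a => ham (N a) (m a) (rs a) (w a) (tr a)) := by
  have hl := pt_tc (PT.length hr)
  have hlb := pbd_tc (PBd.length (A := A) hr)
  have hR : PT A (fun a => (rr (N a) (rs a).length : ℤ)) := PT.natCast (pt_rr hN (PT.length hr))
  exact ((((pt_hClock hN hl hlb ((PT.intPow hR 64).intMul hw)).append
    (pt_hFine hN hr hw htr (PT.intPow hR 24))).append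
    (pt_hCz hN hr ((PT.intPow hR 8).intMul hw))).append
    (pt_hIn hN hNb hm ((PT.const 1000).intMul hw))).append (pt_hOut hN hl hw)

/-! ### the couplings -/

theorem pt_trI {u a : α → ℕ} (hu : PT A u) (ha : PT A a) : PT A (fun x => trI (u x) (a x)) := by
  have h2 : PT A (fun x => 2 * u x ^ 2) := (PT.const 2).mul (hu.powConst 2)
  have h4 : PT A (fun x => Nat.sqrt (2 * u x ^ 4)) :=
    PT.natSqrt ((PT.const 2).mul (hu.powConst 4))
  have h5 : PT A (fun x => (Nat.sqrt (u x ^ 2 / 2) : ℤ)) :=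
    PT.natCast (PT.natSqrt ((hu.powConst 2).div (PT.const 2)))
  exact PT.ite (p := fun x => a x = 1) (PT.eqNat ha (PT.const 1))
    ((PT.natCast (PT.natSqrt ((h2.add h4).div (PT.const 4)))).pair
      (PT.natCast (PT.natSqrt ((h2.sub h4).div (PT.const 4)))))
    (h5.pair h5)

theorem pt_hamI {N m : α → ℕ} {rs : α → List Rnd} (hN : PT A N) (hNb : PBd N) (hm : PT A m)
    (hr : PT A rs) : PT A (fun a => hamI (N a) (m a) (rs a)) := by
  have hR : PT A (fun a => rr (N a) (rs a).length) := pt_rr hN (PT.length hr)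
  exact pt_ham (tr := fun a => trI (rr (N a) (rs a).length ^ 1000)) hN hNb hm hr
    (PT.intPow (PT.natCast hR) 1000)
    (pt_trI ((hR.powConst 1000).comp PT.fst') PT.snd')

theorem pt_pvI {u P a : α → ℕ} (hu : PT A u) (hP : PT A P) (ha : PT A a) :
    PT A (fun x => pvI (u x) (P x) (a x)) := by
  have hu' : PT A (fun x => (u x : ℤ)) := PT.natCast hu
  have hs : PT A (fun x => (Nat.sqrt (3 * u x ^ 2) : ℤ)) :=
    PT.natCast (PT.natSqrt ((PT.const 3).mul (hu.powConst 2)))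
  have ha0 : PT A (fun x => decide (a x = 0)) := PT.eqNat ha (PT.const 0)
  exact PT.ite (p := fun x => P x = 2) (PT.eqNat hP (PT.const 2))
    (PT.ite (p := fun x => a x = 0) ha0 ((PT.const 2).intMul hu') hu'.intNeg)
    (PT.ite (p := fun x => P x = 1) (PT.eqNat hP (PT.const 1))
      (PT.ite (p := fun x => a x = 0) ha0 (PT.const 0)
        (PT.ite (p := fun x => a x = 1) (PT.eqNat ha (PT.const 1)) hs hs.intNeg))
      (PT.const 0))

theorem pt_co2 {u b b' x x' : α → ℕ} {L : α → List (Tm ℤ)} (hu : PT A u) (hL : PT A L)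
    (hb : PT A b) (hb' : PT A b') (hx : PT A x) (hx' : PT A x') :
    PT A (fun a => co2 (pvI (u a)) (L a) (b a) (b' a) (x a) (x' a)) := by
  have ht : PT A (fun p : α × Tm ℤ => p.2) := PT.snd'
  have hu' : PT A (fun p : α × Tm ℤ => u p.1) := hu.comp PT.fst'
  have hB : PT A (fun p : α × Tm ℤ => b p.1) := hb.comp PT.fst'
  have hB' : PT A (fun p : α × Tm ℤ => b' p.1) := hb'.comp PT.fst'
  have hX : PT A (fun p : α × Tm ℤ => x p.1) := hx.comp PT.fst'
  have hX' : PT A (fun p : α × Tm ℤ => x' p.1) := hx'.comp PT.fst'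
  refine PT.intSum (PT.map (f := fun a (t : Tm ℤ) => if t.P = 0 ∨ t.Q = 0 then 0
    else if t.i = b a ∧ t.j = b' a then t.c * (pvI (u a) t.P (x a) * pvI (u a) t.Q (x' a))
    else if t.i = b' a ∧ t.j = b a then t.c * (pvI (u a) t.P (x' a) * pvI (u a) t.Q (x a)) else 0)
    hL ?_)
  exact PT.ite (p := fun p : α × Tm ℤ => p.2.P = 0 ∨ p.2.Q = 0)
    (PT.decide_or (PT.eqNat (pt_P ht) (PT.const 0)) (PT.eqNat (pt_Q ht) (PT.const 0))) (PT.const 0)
    (PT.ite (p := fun p : α × Tm ℤ => p.2.i = b p.1 ∧ p.2.j = b' p.1)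
      (PT.decide_and (PT.eqNat (pt_i ht) hB) (PT.eqNat (pt_j ht) hB'))
      ((pt_c ht).intMul ((pt_pvI hu' (pt_P ht) hX).intMul (pt_pvI hu' (pt_Q ht) hX')))
      (PT.ite (p := fun p : α × Tm ℤ => p.2.i = b' p.1 ∧ p.2.j = b p.1)
        (PT.decide_and (PT.eqNat (pt_i ht) hB') (PT.eqNat (pt_j ht) hB))
        ((pt_c ht).intMul ((pt_pvI hu' (pt_P ht) hX').intMul (pt_pvI hu' (pt_Q ht) hX)))
        (PT.const 0)))

theorem pt_co1 {u b x : α → ℕ} {L : α → List (Tm ℤ)} (hu : PT A u) (hL : PT A L)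
    (hb : PT A b) (hx : PT A x) :
    PT A (fun a => co1 (pvI (u a)) (L a) (b a) (x a)) := by
  have ht : PT A (fun p : α × Tm ℤ => p.2) := PT.snd'
  refine PT.intSum (PT.map (f := fun a (t : Tm ℤ) =>
    if t.P ≠ 0 ∧ t.Q = 0 ∧ t.i = b a then t.c * pvI (u a) t.P (x a) else 0) hL ?_)
  exact PT.ite (p := fun p : α × Tm ℤ => p.2.P ≠ 0 ∧ p.2.Q = 0 ∧ p.2.i = b p.1)
    (PT.decide_and (PT.decide_not (PT.eqNat (pt_P ht) (PT.const 0)))
      (PT.decide_and (PT.eqNat (pt_Q ht) (PT.const 0)) (PT.eqNat (pt_i ht) (hb.comp PT.fst'))))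
    ((pt_c ht).intMul (pt_pvI (hu.comp PT.fst') (pt_P ht) (hx.comp PT.fst'))) (PT.const 0)

theorem pt_co0 {L : α → List (Tm ℤ)} (hL : PT A L) : PT A (fun a => co0 (L a)) := by
  have ht : PT A (fun p : α × Tm ℤ => p.2) := PT.snd'
  exact PT.intSum (PT.map (f := fun _ (t : Tm ℤ) => if t.P = 0 then t.c else 0) hL
    (PT.ite (p := fun p : α × Tm ℤ => p.2.P = 0) (PT.eqNat (pt_P ht) (PT.const 0)) (pt_c ht)
      (PT.const 0)))

theorem pt_fI {r b b' x x' : α → ℕ} {L : α → List (Tm ℤ)} (hr : PT A r) (hL : PT A L)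
    (hb : PT A b) (hb' : PT A b') (hx : PT A x) (hx' : PT A x') :
    PT A (fun a => fI (r a) (L a) (b a) (b' a) (x a) (x' a)) := by
  have hR : PT A (fun a => (r a : ℤ)) := PT.natCast hr
  have h3 := PT.intPow hR 3066
  exact ((PT.intPow hR 600).intMul (((PT.const 9).intMul h3).intSub
    (pt_co2 (hr.powConst 1000) hL hb hb' hx hx'))).intDiv ((PT.const 18).intMul h3)

theorem pt_dI {r b x : α → ℕ} {L : α → List (Tm ℤ)} (hr : PT A r) (hL : PT A L)
    (hb : PT A b) (hx : PT A x) : PT A (fun a => dI (r a) (L a) (b a) (x a)) := by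
  have hR : PT A (fun a => (r a : ℤ)) := PT.natCast hr
  exact (((PT.intPow hR 300).intMul (pt_co1 (hr.powConst 1000) hL hb hx)).intNeg).intDiv
    ((PT.const 36).intMul (PT.intPow hR 2066))

theorem pt_wI {r i j : α → ℕ} {L : α → List (Tm ℤ)} (hr : PT A r) (hL : PT A L)
    (hi : PT A i) (hj : PT A j) : PT A (fun a => wI (r a) (L a) (i a) (j a)) := by
  have hR : PT A (fun a => (r a : ℤ)) := PT.natCast hr
  have c4 : PT A (fun _ : α => 4) := PT.const 4
  have c0 : PT A (fun _ : α => 0) := PT.const 0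
  have i4 := hi.div c4
  have j4 := hj.div c4
  have im := hi.mod c4
  have jm := hj.mod c4
  have im1 := im.sub (PT.const 1)
  have jm1 := jm.sub (PT.const 1)
  have i0 : PT A (fun a => decide (i a % 4 = 0)) := PT.eqNat im c0
  have j0 : PT A (fun a => decide (j a % 4 = 0)) := PT.eqNat jm c0
  exact PT.ite (p := fun a => i a / 4 = j a / 4) (PT.eqNat i4 j4)
    (((PT.intPow hR 1000).intAdd
      (PT.ite (p := fun a => i a % 4 = 0 ∧ j a % 4 ≠ 0) (PT.decide_and i0 (PT.decide_not j0))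
        (pt_dI hr hL i4 jm1) (PT.const 0))).intAdd
      (PT.ite (p := fun a => j a % 4 = 0 ∧ i a % 4 ≠ 0) (PT.decide_and j0 (PT.decide_not i0))
        (pt_dI hr hL i4 im1) (PT.const 0)))
    (PT.ite (p := fun a => i a % 4 ≠ 0 ∧ j a % 4 ≠ 0)
      (PT.decide_and (PT.decide_not i0) (PT.decide_not j0))
      (pt_fI hr hL i4 j4 im1 jm1)
      (PT.ite (p := fun a => i a % 4 = 0 ∧ j a % 4 = 0) (PT.decide_and i0 j0)
        (PT.intPow hR 700) (PT.const 0)))

theorem pt_wN {r i j : α → ℕ} {L : α → List (Tm ℤ)} (hr : PT A r) (hL : PT A L)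
    (hi : PT A i) (hj : PT A j) : PT A (fun a => wN (r a) (L a) (i a) (j a)) :=
  PT.min (PT.posPart (pt_wI hr hL hi hj)) ((PT.const 2).mul (hr.powConst 1000))

theorem pt_thrI {N m : α → ℕ} {rs : α → List Rnd} (hN : PT A N) (hNb : PBd N) (hm : PT A m)
    (hr : PT A rs) : PT A (fun a => thrI (N a) (m a) (rs a)) := by
  have hl := PT.length hr
  have hR : PT A (fun a => (rr (N a) (rs a).length : ℤ)) := PT.natCast (pt_rr hN hl)
  have hM : PT A (fun a => 6 * (((rs a).length : ℤ) + 1)) :=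
    (PT.const 6).intMul ((PT.natCast hl).intAdd (PT.const 1))
  have hn : PT A (fun a => ((N a + tc (rs a).length : ℕ) : ℤ)) := PT.natCast (hN.add (pt_tc hl))
  have hco : PT A (fun a => co0 (ham (N a) (m a) (rs a) (1 : ℤ) (fun _ => (0, 0)))) :=
    pt_co0 (pt_ham (tr := fun _ _ => (0, 0)) hN hNb hm hr (PT.const 1) (PT.const (0, 0)))
  exact (((((((PT.const 864).intMul hM).intMul (PT.intPow hR 1000)).intMul hn).intAdd
    (((((PT.const 27).intMul hM).intMul ((PT.intPow hR 400).intAdd (PT.intPow hR 300))).intMul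
      hn).intMul (hn.intSub (PT.const 1)))).intAdd
    ((((PT.const 24).intMul (PT.intPow hR 234)).intMul hM).intMul hco)).intSub
    ((PT.const 88).intMul (PT.intPow hR 234))).intDiv ((PT.const 144).intMul hM)

/-! ### the threshold is polynomially bounded -/

/-- all coefficients are bounded by `C` -/
def CB (C : ℤ) (L : List (Tm ℤ)) : Prop := ∀ t ∈ L, |t.c| ≤ C

theorem cb_nil (C : ℤ) : CB C [] := fun t ht => by simp at ht

theorem cb_cons {C : ℤ} {t : Tm ℤ} {L : List (Tm ℤ)} (h : |t.c| ≤ C) (h' : CB C L) :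
    CB C (t :: L) := fun s hs => by
  rcases List.mem_cons.1 hs with rfl | hs
  · exact h
  · exact h' s hs

theorem cb_append {C : ℤ} {L L' : List (Tm ℤ)} (h : CB C L) (h' : CB C L') : CB C (L ++ L') :=
  fun s hs => by
    rcases List.mem_append.1 hs with hs | hs
    · exact h s hs
    · exact h' s hs

theorem cb_flatMap {ι : Type*} {C : ℤ} {l : List ι} {f : ι → List (Tm ℤ)}
    (h : ∀ x, CB C (f x)) : CB C (l.flatMap f) := fun s hs => by
  obtain ⟨x, -, hx⟩ := List.mem_flatMap.1 hs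
  exact h x s hx

theorem cb_projT {C c : ℤ} (N Tc t : ℕ) (h : |c| ≤ C) : CB C (projT N Tc c t) := by
  have h' : |-c| ≤ C := by rwa [abs_neg]
  unfold projT
  split_ifs
  · exact cb_cons h (cb_cons h (cb_nil _))
  · exact cb_cons h (cb_cons h' (cb_nil _))
  · exact cb_cons h (cb_cons h' (cb_nil _))

theorem fineG_le (rs : List Rnd) (t : ℕ) :
    ∀ g ∈ fineG rs (1 : ℤ) (fun _ => (0, 0)) t, |g.1| ≤ 1 := by
  unfold fineG
  intro g hg
  split_ifs at hg <;> simp only [List.mem_cons, List.not_mem_nil, or_false] at hg <;> (try rcases hg with rfl | rfl) <;> (try subst hg) <;> simp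

theorem cb_ham (N m : ℕ) (rs : List Rnd) :
    CB (6 * (rr N rs.length : ℤ) ^ 64) (ham N m rs (1 : ℤ) (fun _ => (0, 0))) := by
  have hR : (1000 : ℤ) ≤ (rr N rs.length : ℤ) := by
    have : 1000 ≤ rr N rs.length := by unfold rr; omega
    exact_mod_cast this
  unfold ham
  obtain ⟨R, hRe⟩ : ∃ R : ℤ, R = (rr N rs.length : ℤ) := ⟨_, rfl⟩
  rw [← hRe] at hR ⊢
  have h1 : (1 : ℤ) ≤ R := by linarith only [hR]
  have h64 : R ≤ R ^ 64 := by
    calc R = R ^ 1 := (pow_one R).symm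
      _ ≤ R ^ 64 := pow_le_pow_right₀ h1 (by (clear * -; norm_num))
  have h24 : R ^ 24 ≤ R ^ 64 := pow_le_pow_right₀ h1 (by norm_num)
  have h8 : R ^ 8 ≤ R ^ 64 := pow_le_pow_right₀ h1 (by norm_num)
  have p24 : 0 ≤ R ^ 24 := by positivity
  have p8 : 0 ≤ R ^ 8 := by positivity
  generalize R ^ 64 = X at *
  generalize R ^ 24 = Y at *
  generalize R ^ 8 = Z at *
  refine cb_append (cb_append (cb_append (cb_append ?_ ?_) ?_) ?_) ?_
  · unfold hClock
    refine cb_flatMap fun t => cb_cons ?_ (cb_cons ?_ (cb_cons ?_ (cb_cons ?_ (cb_nil _)))) <;>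
      (show |_| ≤ _; rw [abs_le]; constructor <;> linarith only [hR, h64])
  · unfold hFine
    refine cb_flatMap fun t => ?_
    split_ifs
    · exact cb_nil _
    · refine cb_append (cb_append (cb_projT _ _ _ ?_) (cb_projT _ _ _ ?_)) ?_
      · rw [abs_le]; constructor <;> linarith only [hR, h64, h24, p24]
      · rw [abs_le]; constructor <;> linarith
      · intro s hs
        obtain ⟨g, hg, rfl⟩ := List.mem_map.1 hs
        have h2 := fineG_le rs _ g hg
        have h3 : |-(4 * Y * g.1)| ≤ 6 * X := by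
          rw [abs_neg, abs_mul, abs_of_nonneg (by linarith only [p24] : (0 : ℤ) ≤ 4 * Y)]
          calc 4 * Y * |g.1| ≤ 4 * Y * 1 := mul_le_mul_of_nonneg_left h2 (by linarith only [p24])
            _ ≤ 6 * X := by linarith only [hR, h64, h24]
        split_ifs <;> exact h3
  · unfold hCz
    refine cb_flatMap fun t => ?_
    refine cb_append (cb_append (cb_append (cb_cons ?_ (cb_cons ?_ (cb_cons ?_ (cb_nil _))))
      (cb_projT _ _ _ ?_)) (cb_projT _ _ _ ?_)) (cb_cons ?_ (cb_cons ?_ (cb_cons ?_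
      (cb_cons ?_ (cb_cons ?_ (cb_cons ?_ (cb_nil _))))))) <;>
      (show |_| ≤ _; rw [abs_le]; constructor <;> linarith only [h8, hR, h64, p8])
  · unfold hIn
    refine cb_flatMap fun t => cb_cons ?_ (cb_cons ?_ (cb_cons ?_ (cb_cons ?_ (cb_nil _)))) <;>
      (show |_| ≤ _; rw [abs_le]; constructor <;> linarith only [hR, h64])
  · unfold hOut
    refine cb_cons ?_ (cb_cons ?_ (cb_cons ?_ (cb_cons ?_ (cb_nil _)))) <;>
      (show |_| ≤ _; rw [abs_le]; constructor <;> linarith only [hR, h64])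

theorem co0_le {C : ℤ} (hC : 0 ≤ C) (L : List (Tm ℤ)) (h : CB C L) : co0 L ≤ L.length * C := by
  induction L with
  | nil => simp [co0]
  | cons t L ih =>
    have h1 : co0 (t :: L) = (if t.P = 0 then t.c else 0) + co0 L := by
      unfold co0
      rw [List.map_cons, List.sum_cons]
    have h2 := ih fun s hs => h s (List.mem_cons_of_mem _ hs)
    have h3 : (if t.P = 0 then t.c else 0) ≤ C := by
      split_ifs
      · exact (le_abs_self _).trans (h t List.mem_cons_self)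
      · exact hC
    rw [h1, List.length_cons]
    push_cast
    linarith only [h2, h3]

/-- bound of the threshold -/
def thrB (N M l : ℕ) : ℕ :=
  864 * (6 * (M + 1)) * rr N M ^ 1000 * (N + tc M) +
    27 * (6 * (M + 1)) * (rr N M ^ 400 + rr N M ^ 300) * (N + tc M) * (N + tc M) +
    24 * rr N M ^ 234 * (6 * (M + 1)) * (l * (6 * rr N M ^ 64))

theorem thr_arith {M A4 A3 A10 A2 T Y K : ℤ} (hM : 0 ≤ M) (h4 : 0 ≤ A4) (h3 : 0 ≤ A3)
    (h2 : 0 ≤ A2) (hT : 0 ≤ T) (hK : K ≤ Y) :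
    864 * (6 * (M + 1)) * A10 * T + 27 * (6 * (M + 1)) * (A4 + A3) * T * (T - 1) +
      24 * A2 * (6 * (M + 1)) * K - 88 * A2 ≤
    864 * (6 * (M + 1)) * A10 * T + 27 * (6 * (M + 1)) * (A4 + A3) * T * T +
      24 * A2 * (6 * (M + 1)) * Y := by
  have e1 : 27 * (6 * (M + 1)) * (A4 + A3) * T * (T - 1) ≤
      27 * (6 * (M + 1)) * (A4 + A3) * T * T :=
    mul_le_mul_of_nonneg_left (by linarith only []) (by positivity)
  have e2 : 24 * A2 * (6 * (M + 1)) * K ≤ 24 * A2 * (6 * (M + 1)) * Y :=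
    mul_le_mul_of_nonneg_left hK (by positivity)
  linarith only [h2, e1, e2]

theorem thrB_cast (N M l : ℕ) : (thrB N M l : ℤ) =
    864 * (6 * ((M : ℤ) + 1)) * (rr N M : ℤ) ^ 1000 * ((N + tc M : ℕ) : ℤ) +
    27 * (6 * ((M : ℤ) + 1)) * ((rr N M : ℤ) ^ 400 + (rr N M : ℤ) ^ 300) * ((N + tc M : ℕ) : ℤ) *
      ((N + tc M : ℕ) : ℤ) +
    24 * (rr N M : ℤ) ^ 234 * (6 * ((M : ℤ) + 1)) * ((l : ℤ) * (6 * (rr N M : ℤ) ^ 64)) := by
  unfold thrB
  push_cast
  rfl

theorem thrI_le (N m : ℕ) (rs : List Rnd) : (thrI N m rs).toNat ≤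
    thrB N rs.length (ham N m rs (1 : ℤ) (fun _ => (0, 0))).length := by
  have hd : (0 : ℤ) < 144 * (6 * ((rs.length : ℤ) + 1)) := by positivity
  have h0 : (0 : ℤ) ≤ (thrB N rs.length (ham N m rs (1 : ℤ) (fun _ => (0, 0))).length : ℤ) :=
    Int.natCast_nonneg _
  have hR : (0 : ℤ) ≤ (rr N rs.length : ℤ) := Int.natCast_nonneg _
  have hco := co0_le (mul_nonneg (by norm_num) (pow_nonneg hR 64)) _ (cb_ham N m rs)
  have h1 := thr_arith (A10 := (rr N rs.length : ℤ) ^ 1000) (Int.natCast_nonneg rs.length)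
    (pow_nonneg hR 400) (pow_nonneg hR 300) (pow_nonneg hR 234)
    (Int.natCast_nonneg (N + tc rs.length)) hco
  rw [← thrB_cast] at h1
  rw [Int.toNat_le]
  exact (Int.ediv_le_ediv hd h1).trans (Int.ediv_le_self _ h0)

theorem pbd_thrI {N m : α → ℕ} {rs : α → List Rnd} (hN : PT A N) (hNb : PBd N) (hm : PT A m)
    (hr : PT A rs) : PBd (fun a => (thrI (N a) (m a) (rs a)).toNat) := by
  have hl := PBd.length (A := A) (pt_ham (tr := fun _ _ => ((0 : ℤ), (0 : ℤ))) hN hNb hm hr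
    (PT.const 1) (PT.const (0, 0)))
  have hM := PBd.length (A := A) hr
  have hR := pbd_rr hNb hM
  have hM6 := (PBd.const 6).mul (hM.add (PBd.const 1))
  have hT := hNb.add (pbd_tc hM)
  have h : PBd (fun a => thrB (N a) (rs a).length
      (ham (N a) (m a) (rs a) (1 : ℤ) (fun _ => (0, 0))).length) :=
    (((((PBd.const 864).mul hM6).mul (hR.pow 1000)).mul hT).add
      ((((PBd.const 27).mul hM6).mul ((hR.pow 400).add (hR.pow 300))).mul hT |>.mul hT)).add
      ((((PBd.const 24).mul (hR.pow 234)).mul hM6).mul (hl.mul ((PBd.const 6).mul (hR.pow 64))))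
  exact h.mono fun a => thrI_le _ _ _

/-! ### the output -/

theorem pt_wordOf {l : α → List ℕ} {B : α → ℕ} (hl : PT A l) (hB : PT A B) (hBb : PBd B)
    (h : ∀ a, ∀ v ∈ l a, v ≤ B a) : PT A (fun a => wordOf (l a)) := by
  refine (PT.flatMap (f := fun a v => List.replicate (Min.min v (B a)) true ++ [false]) hl
    ?_).congr fun a => ?_
  · exact (PT.replicate (PT.min PT.snd' (hB.comp PT.fst'))
      (hBb.compFst.mono fun _ => min_le_right _ _) (PT.const true)).append (PT.const [false])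
  · unfold wordOf
    exact List.flatMap_congr fun v hv => by rw [min_eq_left (h a v hv)]

variable {z : α → List Bool}

theorem pt_zN (hz : PT A z) : PT A (fun a => zN (z a)) := (pt_cQubits hz).add (PT.const 1)

theorem pbd_zN (hz : PT A z) : PBd (fun a => zN (z a)) := (pbd_cQubits hz).add (PBd.const 1)

theorem pt_zK (hz : PT A z) : PT A (fun a => zK (z a)) :=
  ((pt_zN hz).add (pt_tc (PT.length (pt_rnds hz)))).mul (PT.const 4)

theorem pbd_zK (hz : PT A z) : PBd (fun a => zK (z a)) :=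
  ((pbd_zN hz).add (pbd_tc (PBd.length (A := A) (pt_rnds hz)))).mul (PBd.const 4)

theorem pt_zA (hz : PT A z) : PT A (fun a => zA (z a)) :=
  PT.posPart (pt_thrI (pt_zN hz) (pbd_zN hz) (pt_cWitness hz) (pt_rnds hz))

theorem pbd_zA (hz : PT A z) : PBd (fun a => zA (z a)) :=
  pbd_thrI (pt_zN hz) (pbd_zN hz) (pt_cWitness hz) (pt_rnds hz)

theorem pt_zr (hz : PT A z) : PT A (fun a => rr (zN (z a)) (rnds (z a)).length) :=
  pt_rr (pt_zN hz) (PT.length (pt_rnds hz))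

theorem pbd_zr (hz : PT A z) : PBd (fun a => rr (zN (z a)) (rnds (z a)).length) :=
  pbd_rr (pbd_zN hz) (PBd.length (A := A) (pt_rnds hz))

theorem pt_zW {i j : α → ℕ} (hz : PT A z) (hi : PT A i) (hj : PT A j) :
    PT A (fun a => zW (z a) (i a) (j a)) :=
  pt_wN (pt_zr hz) (pt_hamI (pt_zN hz) (pbd_zN hz) (pt_cWitness hz) (pt_rnds hz)) hi hj

theorem zW_le (z : List Bool) (i j : ℕ) : zW z i j ≤ 2 * rr (zN z) (rnds z).length ^ 1000 :=
  min_le_right _ _

theorem pt_out (hz : PT A z) : PT A (fun a => outW (z a)) := by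
  have hK := pt_zK hz
  have hKb := pbd_zK hz
  have hi : PT A (fun p : α × Un => p.2.v) := PT.unVal PT.snd'
  have hK' : PT A (fun p : α × Un => zK (z p.1)) := hK.comp PT.fst'
  have hl : PT A (fun a => [zK (z a), zA (z a)] ++ (List.range (zK (z a) * zK (z a))).map
      fun t => zW (z a) (t / zK (z a)) (t % zK (z a))) :=
    (PT.cons hK (pl1 (pt_zA hz))).append (PT.rangeMap (hK.mul hK) (hKb.mul hKb)
      (pt_zW (hz.comp PT.fst') (hi.div hK') (hi.mod hK')))
  have hB : PT A (fun a => zK (z a) + zA (z a) + 2 * rr (zN (z a)) (rnds (z a)).length ^ 1000) :=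
    (hK.add (pt_zA hz)).add ((PT.const 2).mul ((pt_zr hz).powConst 1000))
  have hBb : PBd (fun a => zK (z a) + zA (z a) + 2 * rr (zN (z a)) (rnds (z a)).length ^ 1000) :=
    (hKb.add (pbd_zA hz)).add ((PBd.const 2).mul ((pbd_zr hz).pow 1000))
  refine pt_wordOf hl hB hBb fun a v hv => ?_
  rcases List.mem_append.1 hv with hv | hv
  · rcases List.mem_cons.1 hv with rfl | hv
    · exact (Nat.le_add_right _ _).trans (Nat.le_add_right _ _)
    · rcases List.mem_cons.1 hv with rfl | hv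
      · exact (Nat.le_add_left _ _).trans (Nat.le_add_right _ _)
      · simp at hv
  · obtain ⟨t, -, rfl⟩ := List.mem_map.1 hv
    exact (zW_le _ _ _).trans (Nat.le_add_left _ _)

end pt

theorem pt_outW : PT ∅ (fun x : Raw => outW x.w) :=
  pt_out (PT.listOfRaw PT.id)

theorem polyTimeFn_outW : PolyTimeFn outW := polyTimeFn_of_pt pt_outW

end Vale.Agent.P370.H
end

section

/-!
The antiferromagnetic Heisenberg model is QMA-hard.
-/

namespace Vale.Agent.P370.H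

theorem closeW_congr {N m : ℕ} {rs : List Rnd} {mm mm' : ℕ → ℕ → ℕ} (h : CloseW N m rs mm)
    (h' : ∀ i j, i < (N + tc rs.length) * 4 → j < (N + tc rs.length) * 4 → mm i j = mm' i j) :
    CloseW N m rs mm' := by
  intro p q hpq
  have h1 := h p q hpq
  rw [h' _ _ (by have := p.1.2; have := p.2.2; omega) (by have := q.1.2; have := q.2.2; (clear m mm mm' h h' p hpq h1; omega))] at h1
  exact h1

theorem outW_close (z : List Bool) : CloseW (zN z) (cWitness z) (rnds z) (hM (outW z)) := by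
  have hN : 1 ≤ zN z := by unfold zN; omega
  have hok : ∀ r ∈ rnds z, r.Ok (zN z) := rnds_ok z
  refine closeW_congr (wN_close (zN z) (cWitness z) hN (rnds z) hok (ham_abs _ _ _)
    (ham_ok _ _ hN _ hok)) fun i j hi hj => ?_
  exact (hM_outW z i j hi hj).symm

theorem outW_thr (z : List Bool) : |(hA (outW z) : ℝ) - midA (zN z) (cWitness z) (rnds z)| ≤ 1 := by
  have hN : 1 ≤ zN z := by unfold zN; (clear * -; omega)
  rw [hA_outW]
  exact thrI_close _ _ hN _ (rnds_ok z)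

theorem outW_yes (z : List Bool) (h : ∃ ψ, IsInput z ψ ∧ 2 / 3 ≤ accProb z ψ) :
    outW z ∈ heisenbergAF.yes := by
  have hN : 1 ≤ zN z := by unfold zN; omega
  exact final_yes (zN z) (cWitness z) hN (rnds z) (rnds_ok z) (yes_real z h) (hK (outW z))
    (hK_outW z) (hM (outW z)) (outW_close z) (hA (outW z)) (outW_thr z)

theorem outW_no (z : List Bool) (h : ∀ ψ, IsInput z ψ → accProb z ψ ≤ 1 / 3) :
    outW z ∈ heisenbergAF.no := by
  have hN : 1 ≤ zN z := by unfold zN; omega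
  exact fun φ hφ => final_no (zN z) (cWitness z) hN (rnds z) (rnds_ok z) (no_real z h) (hK (outW z))
    (hK_outW z) (hM (outW z)) (outW_close z) (hA (outW z)) (outW_thr z) φ hφ

/-- The antiferromagnetic Heisenberg model is QMA-hard under many-one reductions. -/
theorem qma_heisenberg (A : PromiseProblem) (hA : A ∈ QMA) : KarpReduces A heisenbergAF := by
  obtain ⟨f, hf, hy, hn⟩ := hA
  exact ⟨fun w => outW (f w), PolyTimeFn.comp polyTimeFn_outW hf, fun w hw => outW_yes _ (hy w hw),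
    fun w hw => outW_no _ (hn w hw)⟩

end Vale.Agent.P370.H
end

section

/-!
KC8: the mean field scalar.
-/

namespace Vale.Agent.P370.KC

open Finset MeasureTheory Vale.Agent.P370.Q
open Vale.Agent.P370.Q.S3 (Dd Dd_pos Dd_continuous lp_continuous lp_one)

/-! ### radial integrals are symmetric -/

theorem mf_Phi_symm (a b L : ℕ) (α β : ℝ) : Phi a b L α β = Phi b a L β α := by
  unfold Phi
  exact add_comm _ _

theorem mf_sld_symm (k l k' l' : ℕ) : sld k l k' l' = sld k' l' k l := by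
  unfold sld
  rw [mul_comm (nrm k' l')]
  congr 1
  have h1 : ∀ (i j : ℕ), (∑ i' ∈ range (k' + 1 - l'),
      ∑ j' ∈ range (k' + 1 - l'), lag k l i * lag k l j * lag k' l' i' * lag k' l' j' *
      Phi (2 * l + 2 + i + j) (2 * l' + 2 + i' + j') 0 (2 * kp k) (2 * kp k')) =
      ∑ i' ∈ range (k' + 1 - l'),
      ∑ j' ∈ range (k' + 1 - l'), lag k' l' i' * lag k' l' j' * lag k l i * lag k l j *
      Phi (2 * l' + 2 + i' + j') (2 * l + 2 + i + j) 0 (2 * kp k') (2 * kp k) := by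
    intro i j
    refine Finset.sum_congr rfl fun i' _ => Finset.sum_congr rfl fun j' _ => ?_
    rw [mf_Phi_symm]
    ring
  simp only [h1]
  rw [Finset.sum_congr rfl fun i _ => Finset.sum_comm, Finset.sum_comm]
  refine Finset.sum_congr rfl fun i' _ => ?_
  rw [Finset.sum_congr rfl fun i _ => Finset.sum_comm, Finset.sum_comm]

/-! ### the top function -/

/-- real part of the null power -/
noncomputable def mfY (N : ℕ) (u : R3) : ℝ := (cdot (av 0) u ^ N).re

theorem mf_cdot_smul (r : ℝ) (u : R3) : cdot (av 0) (r • u) = (r : ℂ) * cdot (av 0) u := by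
  have h := (S3.cdotL (av 0)).map_smul r u
  rw [S3.cdotL_apply, S3.cdotL_apply, Complex.real_smul] at h
  exact h

theorem mfY_smul (N : ℕ) (r : ℝ) (u : R3) : mfY N (r • u) = r ^ N * mfY N u := by
  unfold mfY
  rw [mf_cdot_smul, mul_pow, ← Complex.ofReal_pow, Complex.re_ofReal_mul]

theorem mfY_cont (N : ℕ) : Continuous (mfY N) :=
  Complex.continuous_re.comp ((continuous_cdot (av 0)).pow N)

theorem mf_fh (N : ℕ) (x : R3) :
    fh (N + 1) 0 x = mfY N x * Real.exp (-(kp N * ‖x‖)) / Real.sqrt (nf (N + 1)) := by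
  unfold fh fsite mfY kp
  rw [Nat.add_sub_cancel]
  congr 3
  push_cast
  ring_nf

theorem mf_fh_smul (N : ℕ) {r : ℝ} (hr : 0 < r) {u : R3} (hu : ‖u‖ = 1) :
    fh (N + 1) 0 (r • u) =
      r ^ N * Real.exp (-(kp N * r)) / Real.sqrt (nf (N + 1)) * mfY N u := by
  rw [mf_fh, mfY_smul, norm_smul, hu, mul_one, Real.norm_of_nonneg hr.le]
  ring

theorem mf_rad (N : ℕ) (r : ℝ) : Hyd.rad N N r = Real.exp (-(kp N * r)) := by
  unfold Hyd.rad Hyd.Lr
  rw [show N + 1 - N = 1 by omega, Finset.sum_range_one]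
  simp only [Hyd.cf, pow_zero, mul_one, Hyd.kap, one_div, neg_mul, one_mul, kp]

theorem mf_ca (r s : ℝ) (hr : 0 < r) (hs : 0 < s) (u v : R3) (hu : ‖u‖ = 1) (hv : ‖v‖ = 1) :
    ca (r • u) (s • v) = inner ℝ u v := by
  unfold ca
  rw [norm_smul, norm_smul, hu, hv, Real.norm_of_nonneg hr.le, Real.norm_of_nonneg hs.le,
    inner_smul_left, inner_smul_right]
  simp only [conj_trivial, mul_one]
  field_simp

theorem mf_Qk_smul (k l : ℕ) {r s : ℝ} (hr : 0 < r) (hs : 0 < s) {u v : R3} (hu : ‖u‖ = 1)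
    (hv : ‖v‖ = 1) : Qk k l (r • u) (s • v) =
      (r * s) ^ l * (Hyd.rad k l r * Hyd.rad k l s) / (4 * Real.pi * Hyd.radN k l) *
        S3.lp l (inner ℝ v u) := by
  unfold Qk
  rw [mf_ca r s hr hs u v hu hv, norm_smul, norm_smul, hu, hv, Real.norm_of_nonneg hr.le,
    Real.norm_of_nonneg hs.le, mul_one, mul_one, real_inner_comm]
  ring

theorem mf_Qtop_smul (N : ℕ) {r s : ℝ} (hr : 0 < r) (hs : 0 < s) {u v : R3} (hu : ‖u‖ = 1)
    (hv : ‖v‖ = 1) : Qk N N (r • u) (s • v) =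
      (r ^ N * Real.exp (-(kp N * r))) * (s ^ N * Real.exp (-(kp N * s))) /
        (4 * Real.pi * Hyd.radN N N) * S3.lp N (inner ℝ v u) := by
  rw [mf_Qk_smul N N hr hs hu hv, mf_rad, mf_rad, mul_pow]
  ring

theorem mf_inner_self {u : R3} (hu : ‖u‖ = 1) : inner ℝ u u = (1 : ℝ) := by
  rw [real_inner_self_eq_norm_sq, hu, one_pow]

theorem mf_Qtop_diag (N : ℕ) {s : ℝ} (hs : 0 < s) {v : R3}
    (hv : ‖v‖ = 1) : Qk N N (s • v) (s • v) =
      (s ^ N * Real.exp (-(kp N * s))) ^ 2 / (4 * Real.pi * Hyd.radN N N) := by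
  rw [mf_Qtop_smul N hs hs hv hv, mf_inner_self hv, lp_one]
  ring

theorem mf_radN_pos (N : ℕ) : 0 < Hyd.radN N N := Hyd.radN_pos le_rfl

theorem mf_Qtop_pos (N : ℕ) {y : R3} (hy : y ≠ 0) : 0 < Qk N N y y := by
  have hs : 0 < ‖y‖ := norm_pos_iff.2 hy
  have h1 : y = ‖y‖ • (‖y‖⁻¹ • y) := by
    rw [smul_smul, mul_inv_cancel₀ hs.ne', one_smul]
  have h2 : ‖‖y‖⁻¹ • y‖ = 1 := by
    rw [norm_smul, norm_inv, norm_norm, inv_mul_cancel₀ hs.ne']
  rw [h1, mf_Qtop_diag N hs h2]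
  have := mf_radN_pos N
  positivity

/-! ### Funk-Hecke for the real null power -/

theorem mf_FH (N : ℕ) (v : R3) (hv : ‖v‖ = 1) (g : ℝ → ℝ) (hg : ContinuousOn g (Set.Icc (-1) 1)) :
    sph (fun u => g (inner ℝ v u) * mfY N u) = lc g N * mfY N v := by
  have h1 := sph_zonal_null' v hv (av 0) (av_null 0) N g hg
  have h2 : sph (fun u => (g (inner ℝ v u) : ℝ) • cdot (av 0) u ^ N) =
      sph (fun u => (ext1 g (inner ℝ v u) : ℝ) • cdot (av 0) u ^ N) := by
    refine sph_congr fun u hu => ?_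
    rw [ext1_eq g (inner_mem_Icc hv hu)]
  have hc : Continuous fun u : R3 => (ext1 g (inner ℝ v u) : ℝ) • cdot (av 0) u ^ N :=
    Continuous.smul ((continuous_ext1 hg).comp (by (clear * -; fun_prop))) ((continuous_cdot _).pow N)
  have h3 := sph_re _ hc
  rw [← h2, h1] at h3
  have h4 : sph (fun u => g (inner ℝ v u) * mfY N u) =
      sph (fun u => ((ext1 g (inner ℝ v u) : ℝ) • cdot (av 0) u ^ N).re) := by
    refine sph_congr fun u hu => ?_
    rw [ext1_eq g (inner_mem_Icc hv hu), Complex.real_smul, Complex.re_ofReal_mul]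
    rfl
  rw [h4, h3, Complex.real_smul, Complex.re_ofReal_mul]
  rfl

/-! ### the radial average -/

theorem mf_radial_avg (N : ℕ) (hN : 1 ≤ N) : sph (fun u => mfY N u ^ 2) / nf (N + 1) =
    1 / (4 * Real.pi * Hyd.radN N N) := by
  have h1 := vfun_ov (N + 1) (by omega) (P := c1A 0 (N + 1 - 1)) (P' := c1A 0 (N + 1 - 1))
    (c1_harm 0 _).1 (c1_harm 0 _).1
  rw [← c1_fsite, site_ov_ff (N + 1) (by omega)] at h1
  have h2 : sph (fun u => pe (c1A 0 (N + 1 - 1)) u * pe (c1A 0 (N + 1 - 1)) u) =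
      sph (fun u => mfY N u ^ 2) := by
    refine sph_congr fun u _ => ?_
    rw [(c1_pe 0 (N + 1 - 1) u).1, Nat.add_sub_cancel]
    unfold mfY
    ring
  rw [h2] at h1
  have h3 : I0 (N + 1) = Hyd.radN N N := by
    unfold I0 Hyd.radN
    refine setIntegral_congr_fun measurableSet_Ioi fun r _ => ?_
    rw [mf_rad, ← Real.exp_nat_mul]
    unfold kp
    push_cast
    rw [show 2 * (N + 1) = 2 * N + 2 by ring]
    congr 2
    ring
  rw [h3] at h1
  have h4 : ((1 + Real.cos (0 - 0)) / 2) ^ (N + 1 - 1) + ((1 - Real.cos (0 - 0)) / 2) ^ (N + 1 - 1)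
      = 1 := by
    rw [sub_zero, Real.cos_zero, Nat.add_sub_cancel]
    norm_num
    omega
  rw [h4, mul_one] at h1
  have h5 := nf_pos (N + 1) (by omega)
  have h6 := mf_radN_pos N
  have h7 := Real.pi_pos
  rw [div_eq_div_iff h5.ne' (by (clear * - h6; positivity)), one_mul]
  linarith only [h1]

theorem mf_avg (N : ℕ) (hN : 1 ≤ N) (w : ℝ → ℝ)
    (h1 : Integrable fun y => fh (N + 1) 0 y ^ 2 * w ‖y‖)
    (h2 : Integrable fun y => Qk N N y y * w ‖y‖) :
    ∫ y, fh (N + 1) 0 y ^ 2 * w ‖y‖ = ∫ y, Qk N N y y * w ‖y‖ := by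
  rw [polar_sph _ h1, polar_sph _ h2]
  refine setIntegral_congr_fun measurableSet_Ioi fun r hr => ?_
  have hr' : 0 < r := hr
  congr 1
  have hnf := nf_pos (N + 1) (by omega)
  have e1 : sph (fun u => fh (N + 1) 0 (r • u) ^ 2 * w ‖r • u‖) =
      sph (fun u => ((r ^ N * Real.exp (-(kp N * r))) ^ 2 / nf (N + 1) * w r) •
        (mfY N u ^ 2)) := by
    refine sph_congr fun u hu => ?_
    rw [mf_fh_smul N hr' hu, norm_smul, hu, mul_one, Real.norm_of_nonneg hr'.le, smul_eq_mul,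
      mul_pow, div_pow, Real.sq_sqrt hnf.le]
    ring
  have e2 : sph (fun u => Qk N N (r • u) (r • u) * w ‖r • u‖) =
      sph (fun _ => (r ^ N * Real.exp (-(kp N * r))) ^ 2 / (4 * Real.pi * Hyd.radN N N) * w r) := by
    refine sph_congr fun u hu => ?_
    rw [mf_Qtop_diag N hr' hu, norm_smul, hu, mul_one, Real.norm_of_nonneg hr'.le]
  rw [e1, e2, sph_smul, sph_const, smul_eq_mul]
  have h3 := mf_radial_avg N hN
  have e3 : (r ^ N * Real.exp (-(kp N * r))) ^ 2 / nf (N + 1) * w r * sph (fun u => mfY N u ^ 2) =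
      (r ^ N * Real.exp (-(kp N * r))) ^ 2 * w r * (sph (fun u => mfY N u ^ 2) / nf (N + 1)) := by
    ring
  rw [e3, h3]
  ring

/-! ### the inner integral -/

/-- the kernel of the closed shells -/
noncomputable def mfG (n : ℕ) (x y : R3) : ℝ :=
  ∑ k ∈ range (n - 1), ∑ l ∈ range (k + 1), (2 * (l : ℝ) + 1) * Qk k l x y

/-- its angular profile divided by the distance -/
noncomputable def mfg (n : ℕ) (r s : ℝ) (t : ℝ) : ℝ :=
  (∑ k ∈ range (n - 1), ∑ l ∈ range (k + 1), (2 * (l : ℝ) + 1) *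
    ((r * s) ^ l * (Hyd.rad k l r * Hyd.rad k l s) / (4 * Real.pi * Hyd.radN k l) *
        S3.lp l t)) / √(Dd r s t)

theorem mfg_cont (n : ℕ) {r s : ℝ} (hr : 0 < r) (hs : 0 < s) (hne : r ≠ s) :
    ContinuousOn (mfg n r s) (Set.Icc (-1) 1) := by
  unfold mfg
  refine ContinuousOn.div ?_ (Dd_continuous r s).sqrt.continuousOn ?_
  · refine Continuous.continuousOn ?_
    refine continuous_finsetSum _ fun k _ => continuous_finsetSum _ fun l _ => ?_
    exact continuous_const.mul (continuous_const.mul (lp_continuous l))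
  · intro t ht
    exact Real.sqrt_ne_zero'.2 (Dd_pos hr hs hne ht.2)

theorem mf_dist {r s : ℝ} {u v : R3} (hu : ‖u‖ = 1) (hv : ‖v‖ = 1) :
    dist (r • u) (s • v) = √(Dd r s (inner ℝ v u)) := by
  rw [S3.dist_eq u v hu hv, real_inner_comm]

theorem mfG_smul (n : ℕ) {r s : ℝ} (hr : 0 < r) (hs : 0 < s) {u v : R3} (hu : ‖u‖ = 1)
    (hv : ‖v‖ = 1) : mfG n (r • u) (s • v) / dist (r • u) (s • v) = mfg n r s (inner ℝ v u) := by
  unfold mfG mfg
  rw [mf_dist hu hv]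
  congr 1
  exact Finset.sum_congr rfl fun k _ => Finset.sum_congr rfl fun l _ => by
    rw [mf_Qk_smul k l hr hs hu hv]

/-- the radial integral -/
noncomputable def mfA (N n : ℕ) (s : ℝ) : ℝ :=
  ∫ r in Set.Ioi (0 : ℝ), 4 * Real.pi * r ^ 2 *
    (r ^ N * Real.exp (-(kp N * r)) * lc (mfg n r s) N)

theorem mf_ae_ne (s : ℝ) : ∀ᵐ r : ℝ ∂(volume.restrict (Set.Ioi (0 : ℝ))), r ≠ s := by
  refine ae_restrict_of_ae ?_
  filter_upwards [(Set.countable_singleton s).ae_notMem volume] with r hr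
  simpa using hr

theorem mf_inner_f (N n : ℕ) {s : ℝ} (hs : 0 < s) {v : R3} (hv : ‖v‖ = 1)
    (hi : Integrable fun x => fh (N + 1) 0 x * (mfG n x (s • v) / dist x (s • v))) :
    ∫ x, fh (N + 1) 0 x * (mfG n x (s • v) / dist x (s • v)) =
      mfY N v / Real.sqrt (nf (N + 1)) * mfA N n s := by
  rw [polar_sph _ hi]
  unfold mfA
  rw [← integral_const_mul]
  refine integral_congr_ae ?_
  filter_upwards [mf_ae_ne s, ae_restrict_mem measurableSet_Ioi] with r hrs hr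
  have hr' : 0 < r := hr
  have e1 : sph (fun u => fh (N + 1) 0 (r • u) * (mfG n (r • u) (s • v) / dist (r • u) (s • v))) =
      sph (fun u => (r ^ N * Real.exp (-(kp N * r)) / Real.sqrt (nf (N + 1))) •
        (mfg n r s (inner ℝ v u) * mfY N u)) := by
    refine sph_congr fun u hu => ?_
    rw [mf_fh_smul N hr' hu, mfG_smul n hr' hs hu hv, smul_eq_mul]
    ring
  rw [e1, sph_smul, mf_FH N v hv _ (mfg_cont n hr' hs hrs), smul_eq_mul, smul_eq_mul]
  ring

theorem mf_inner_Q (N n : ℕ) {s : ℝ} (hs : 0 < s) {v : R3} (hv : ‖v‖ = 1)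
    (hi : Integrable fun x => Qk N N x (s • v) * (mfG n x (s • v) / dist x (s • v))) :
    ∫ x, Qk N N x (s • v) * (mfG n x (s • v) / dist x (s • v)) =
      s ^ N * Real.exp (-(kp N * s)) / (4 * Real.pi * Hyd.radN N N) * mfA N n s := by
  rw [polar_sph _ hi]
  unfold mfA
  rw [← integral_const_mul]
  refine integral_congr_ae ?_
  filter_upwards [mf_ae_ne s, ae_restrict_mem measurableSet_Ioi] with r hrs hr
  have hr' : 0 < r := hr
  have e1 : sph (fun u => Qk N N (r • u) (s • v) *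
      (mfG n (r • u) (s • v) / dist (r • u) (s • v))) =
      sph (fun u => (r ^ N * Real.exp (-(kp N * r)) * (s ^ N * Real.exp (-(kp N * s))) /
        (4 * Real.pi * Hyd.radN N N)) •
        (mfg n r s (inner ℝ v u) * S3.lp N (inner ℝ v u))) := by
    refine sph_congr fun u hu => ?_
    rw [mf_Qtop_smul N hr' hs hu hv, mfG_smul n hr' hs hu hv, smul_eq_mul]
    ring
  have hc : ContinuousOn (fun t => mfg n r s t * S3.lp N t) (Set.Icc (-1) 1) :=
    (mfg_cont n hr' hs hrs).mul (lp_continuous N).continuousOn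
  rw [e1, sph_smul, S3.sph_zonal_real (fun t => mfg n r s t * S3.lp N t) v hv hc, smul_eq_mul,
    smul_eq_mul]
  unfold lc
  ring

theorem mf_decomp {y : R3} (hy : y ≠ 0) : ∃ v : R3, ‖v‖ = 1 ∧ 0 < ‖y‖ ∧ y = ‖y‖ • v := by
  have hs : 0 < ‖y‖ := norm_pos_iff.2 hy
  refine ⟨‖y‖⁻¹ • y, ?_, hs, ?_⟩
  · rw [norm_smul, norm_inv, norm_norm, inv_mul_cancel₀ hs.ne']
  · rw [smul_smul, mul_inv_cancel₀ hs.ne', one_smul]

/-- radial weight -/
noncomputable def mfw (N n : ℕ) (s : ℝ) : ℝ := mfA N n s / (s ^ N * Real.exp (-(kp N * s)))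

theorem mf_inner_f' (N n : ℕ) {y : R3} (hy : y ≠ 0)
    (hi : Integrable fun x => fh (N + 1) 0 x * (mfG n x y / dist x y)) :
    ∫ x, fh (N + 1) 0 x * (mfG n x y / dist x y) = fh (N + 1) 0 y * mfw N n ‖y‖ := by
  obtain ⟨v, hv, hs, hyv⟩ := mf_decomp hy
  set s := ‖y‖ with hsdef
  have h1 : fh (N + 1) 0 y = s ^ N * Real.exp (-(kp N * s)) / Real.sqrt (nf (N + 1)) * mfY N v := by
    rw [hyv, mf_fh_smul N hs hv]
  rw [h1]
  rw [hyv] at hi ⊢
  rw [mf_inner_f N n hs hv hi]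
  unfold mfw
  have : s ^ N * Real.exp (-(kp N * s)) ≠ 0 := by positivity
  field_simp

theorem mf_inner_Q' (N n : ℕ) {y : R3} (hy : y ≠ 0)
    (hi : Integrable fun x => Qk N N x y * (mfG n x y / dist x y)) :
    ∫ x, Qk N N x y * (mfG n x y / dist x y) = Qk N N y y * mfw N n ‖y‖ := by
  obtain ⟨v, hv, hs, hyv⟩ := mf_decomp hy
  set s := ‖y‖ with hsdef
  have h1 : Qk N N y y = (s ^ N * Real.exp (-(kp N * s))) ^ 2 / (4 * Real.pi * Hyd.radN N N) := by
    rw [hyv, mf_Qtop_diag N hs hv]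
  rw [h1]
  rw [hyv] at hi ⊢
  rw [mf_inner_Q N n hs hv hi]
  unfold mfw
  have : s ^ N * Real.exp (-(kp N * s)) ≠ 0 := by positivity
  have := mf_radN_pos N
  field_simp

/-! ### double sums -/

/-- indices of the closed subshells -/
def mfP (n : ℕ) : Finset (Σ _ : ℕ, ℕ) := (range (n - 1)).sigma fun k => range (k + 1)

theorem mfP_le {n : ℕ} {p : Σ _ : ℕ, ℕ} (hp : p ∈ mfP n) : p.2 ≤ p.1 := by
  unfold mfP at hp
  rw [Finset.mem_sigma, Finset.mem_range, Finset.mem_range] at hp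
  omega

theorem mf_sum (n : ℕ) (F : ℕ → ℕ → ℝ) :
    ∑ k ∈ range (n - 1), ∑ l ∈ range (k + 1), F k l = ∑ p ∈ mfP n, F p.1 p.2 := by
  unfold mfP
  rw [Finset.sum_sigma]

theorem mf_ae_ne0 : ∀ᵐ x : R3 ∂volume, x ≠ 0 := by
  filter_upwards [(Set.countable_singleton (0 : R3)).ae_notMem volume] with r hr
  simpa using hr

theorem mfG_sum (n : ℕ) (x y : R3) :
    mfG n x y = ∑ p ∈ mfP n, (2 * (p.2 : ℝ) + 1) * Qk p.1 p.2 x y := by
  unfold mfG
  rw [mf_sum n fun k l => (2 * (l : ℝ) + 1) * Qk k l x y]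

theorem mf_QG_int (N n : ℕ) {y : R3} (hy : y ≠ 0) :
    Integrable (fun x => Qk N N x y * (mfG n x y / dist x y)) ∧
    ∫ x, Qk N N x y * (mfG n x y / dist x y) =
      ∑ p ∈ mfP n, (2 * (p.2 : ℝ) + 1) * ∫ x, Qk N N x y * Qk p.1 p.2 x y / dist x y := by
  have e : (fun x => Qk N N x y * (mfG n x y / dist x y)) = fun x =>
      ∑ p ∈ mfP n, (2 * (p.2 : ℝ) + 1) * (Qk N N x y * Qk p.1 p.2 x y / dist x y) := by
    funext x
    rw [mfG_sum, Finset.sum_div, Finset.mul_sum]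
    exact Finset.sum_congr rfl fun p _ => by ring
  have hi : ∀ p ∈ mfP n, Integrable fun x =>
      (2 * (p.2 : ℝ) + 1) * (Qk N N x y * Qk p.1 p.2 x y / dist x y) := fun p hp =>
    ((exch_int (le_refl N) (mfP_le hp)).1 y hy).const_mul _
  rw [e]
  refine ⟨integrable_finsetSum _ hi, ?_⟩
  rw [integral_finsetSum _ hi]
  exact Finset.sum_congr rfl fun p _ => integral_const_mul _ _

section Main

variable {N : ℕ} {C O : Type} [Fintype C] [DecidableEq C] [Fintype O] [DecidableEq O]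
  (B : ShellBasis (N + 1) (C ⊕ O))

theorem mf_kernel (hC : ∀ c, B.lev (Sum.inl c) < N + 1)
    (hO : ∀ o, B.lev (Sum.inr o) = N + 1) (x y : R3) (hx : x ≠ 0) (hy : y ≠ 0) :
    ∑ c : C, B.χ (Sum.inl c) x * B.χ (Sum.inl c) y = mfG (N + 1) x y :=
  closed_kernel_eq B hC hO x y hx hy

theorem mf_nice_fh (n : ℕ) (hn : 1 ≤ n) (α : ℝ) : Nice (fh n α) := by
  have h := nice_smul (nice_fsite hn α) (Real.sqrt (nf n))⁻¹
  have e : (fun x => (Real.sqrt (nf n))⁻¹ * fsite n α x) = fh n α := by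
    funext x
    unfold fh
    ring
  rwa [e] at h

theorem mf_exch (hN : 1 ≤ N) (hC : ∀ c, B.lev (Sum.inl c) < N + 1)
    (hO : ∀ o, B.lev (Sum.inr o) = N + 1) :
    ∑ c : C, coul (fh (N + 1) 0) (B.χ (Sum.inl c)) (B.χ (Sum.inl c)) (fh (N + 1) 0) =
      ∑ p ∈ mfP (N + 1), (2 * (p.2 : ℝ) + 1) *
        ∑ L ∈ range (N + p.2 + 1), tri N p.2 L * slx N N p.1 p.2 L := by
  have hf := mf_nice_fh (N + 1) (by omega) 0
  have hχ : ∀ c : C, Nice (B.χ (Sum.inl c)) := fun c => nice_basis B _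
  have hinner : ∀ y : R3, y ≠ 0 →
      ∫ x, fh (N + 1) 0 x * (∑ c : C, B.χ (Sum.inl c) x * B.χ (Sum.inl c) y) / dist x y =
        fh (N + 1) 0 y * mfw N (N + 1) ‖y‖ := by
    intro y hy
    have hae : (fun x => fh (N + 1) 0 x *
        (∑ c : C, B.χ (Sum.inl c) x * B.χ (Sum.inl c) y) / dist x y) =ᵐ[volume]
        fun x => fh (N + 1) 0 x * (mfG (N + 1) x y / dist x y) := by
      filter_upwards [mf_ae_ne0] with x hx
      rw [mf_kernel B hC hO x y hx hy]
      ring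
    rw [integral_congr_ae hae]
    refine mf_inner_f' N (N + 1) hy ?_
    refine Integrable.congr ?_ hae
    have h1 : Integrable fun x => ∑ c : C, fh (N + 1) 0 x * B.χ (Sum.inl c) x / dist x y *
        B.χ (Sum.inl c) y :=
      integrable_finsetSum _ fun c _ => (nice_integrable_nuc hf (hχ c) y).mul_const _
    refine h1.congr (Filter.Eventually.of_forall fun x => ?_)
    simp only
    rw [Finset.mul_sum, Finset.sum_div]
    exact Finset.sum_congr rfl fun c _ => by ring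
  have hsum : ∀ y : R3, ∑ c : C, nuc y (fh (N + 1) 0) (B.χ (Sum.inl c)) *
      (B.χ (Sum.inl c) y * fh (N + 1) 0 y) =
      (∫ x, fh (N + 1) 0 x * (∑ c : C, B.χ (Sum.inl c) x * B.χ (Sum.inl c) y) / dist x y) *
        fh (N + 1) 0 y := by
    intro y
    have h1 : ∫ x, fh (N + 1) 0 x * (∑ c : C, B.χ (Sum.inl c) x * B.χ (Sum.inl c) y) / dist x y =
        ∑ c : C, nuc y (fh (N + 1) 0) (B.χ (Sum.inl c)) * B.χ (Sum.inl c) y := by
      unfold nuc
      have h2 : ∀ c : C, (∫ x, fh (N + 1) 0 x * B.χ (Sum.inl c) x / dist x y) *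
          B.χ (Sum.inl c) y = ∫ x, fh (N + 1) 0 x * B.χ (Sum.inl c) x / dist x y *
          B.χ (Sum.inl c) y := fun c => (integral_mul_const _ _).symm
      simp only [h2]
      rw [← integral_finsetSum _ fun c _ => (nice_integrable_nuc hf (hχ c) y).mul_const _]
      congr 1
      funext x
      rw [Finset.mul_sum, Finset.sum_div]
      exact Finset.sum_congr rfl fun c _ => by ring
    rw [h1, Finset.sum_mul]
    exact Finset.sum_congr rfl fun c _ => by ring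
  have hae1 : (fun y => ∑ c : C, nuc y (fh (N + 1) 0) (B.χ (Sum.inl c)) *
      (B.χ (Sum.inl c) y * fh (N + 1) 0 y)) =ᵐ[volume]
      fun y => fh (N + 1) 0 y ^ 2 * mfw N (N + 1) ‖y‖ := by
    filter_upwards [mf_ae_ne0] with y hy
    rw [hsum, hinner y hy]
    ring
  have hi1 : Integrable fun y => fh (N + 1) 0 y ^ 2 * mfw N (N + 1) ‖y‖ := by
    refine Integrable.congr ?_ hae1
    exact integrable_finsetSum _ fun c _ => coul_integrable hf (hχ c) (hχ c) hf
  have hae2 : (fun y => ∑ p ∈ mfP (N + 1), (2 * (p.2 : ℝ) + 1) *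
      ∫ x, Qk N N x y * Qk p.1 p.2 x y / dist x y) =ᵐ[volume]
      fun y => Qk N N y y * mfw N (N + 1) ‖y‖ := by
    filter_upwards [mf_ae_ne0] with y hy
    have h := mf_QG_int N (N + 1) hy
    rw [← h.2, mf_inner_Q' N (N + 1) hy h.1]
  have hi : ∀ p ∈ mfP (N + 1), Integrable fun y : R3 => (2 * (p.2 : ℝ) + 1) *
      ∫ x, Qk N N x y * Qk p.1 p.2 x y / dist x y := fun p hp =>
    (exch_int (le_refl N) (mfP_le hp)).2.const_mul _
  have hi2 : Integrable fun y => Qk N N y y * mfw N (N + 1) ‖y‖ := by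
    refine Integrable.congr ?_ hae2
    exact integrable_finsetSum _ hi
  calc ∑ c : C, coul (fh (N + 1) 0) (B.χ (Sum.inl c)) (B.χ (Sum.inl c)) (fh (N + 1) 0)
      = ∫ y, ∑ c : C, nuc y (fh (N + 1) 0) (B.χ (Sum.inl c)) *
          (B.χ (Sum.inl c) y * fh (N + 1) 0 y) := by
        unfold coul
        rw [integral_finsetSum _ fun c _ => coul_integrable hf (hχ c) (hχ c) hf]
    _ = ∫ y, fh (N + 1) 0 y ^ 2 * mfw N (N + 1) ‖y‖ := integral_congr_ae hae1
    _ = ∫ y, Qk N N y y * mfw N (N + 1) ‖y‖ := mf_avg N hN _ hi1 hi2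
    _ = ∫ y, ∑ p ∈ mfP (N + 1), (2 * (p.2 : ℝ) + 1) *
          ∫ x, Qk N N x y * Qk p.1 p.2 x y / dist x y := (integral_congr_ae hae2).symm
    _ = _ := by
        rw [integral_finsetSum _ hi]
        refine Finset.sum_congr rfl fun p hp => ?_
        rw [integral_const_mul, exch_eq (le_refl N) (mfP_le hp)]

/-! ### direct part -/

/-- potential of the closed shells -/
noncomputable def mfU (n : ℕ) (y : R3) : ℝ :=
  ∑ p ∈ mfP n, (2 * (p.2 : ℝ) + 1) * ∫ x, Qk p.1 p.2 x x / dist x y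

theorem mf_Qk_iso (k l : ℕ) (g : R3 ≃ₗᵢ[ℝ] R3) (x : R3) : Qk k l (g x) (g x) = Qk k l x x := by
  unfold Qk ca
  rw [g.norm_map, g.inner_map_map]

theorem mfU_iso (n : ℕ) (g : R3 ≃ₗᵢ[ℝ] R3) (y : R3) : mfU n (g y) = mfU n y := by
  unfold mfU
  refine Finset.sum_congr rfl fun p _ => ?_
  congr 1
  rw [← integral_comp_isometry g]
  refine integral_congr_ae (Filter.Eventually.of_forall fun x => ?_)
  simp only
  rw [mf_Qk_iso, g.dist_map]

theorem mfU_radial (n : ℕ) (y : R3) : mfU n y = mfU n (‖y‖ • S3.ez) := by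
  obtain ⟨g, hg⟩ := exists_rot (‖y‖ • S3.ez) y (by
    rw [norm_smul, S3.norm_ez, mul_one, norm_norm])
  conv_lhs => rw [← hg]
  rw [mfU_iso]

theorem mf_dir (hN : 1 ≤ N) (hC : ∀ c, B.lev (Sum.inl c) < N + 1)
    (hO : ∀ o, B.lev (Sum.inr o) = N + 1) :
    ∑ c : C, coul (fh (N + 1) 0) (fh (N + 1) 0) (B.χ (Sum.inl c)) (B.χ (Sum.inl c)) =
      ∑ p ∈ mfP (N + 1), (2 * (p.2 : ℝ) + 1) * sld N N p.1 p.2 := by
  have hf := mf_nice_fh (N + 1) (by omega) 0
  have hχ : ∀ c : C, Nice (B.χ (Sum.inl c)) := fun c => nice_basis B _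
  have hU : ∀ y : R3, ∑ c : C, nuc y (B.χ (Sum.inl c)) (B.χ (Sum.inl c)) = mfU (N + 1) y := by
    intro y
    unfold nuc
    rw [← integral_finsetSum _ fun c _ => nice_integrable_nuc (hχ c) (hχ c) y]
    have hae : (fun x => ∑ c : C, B.χ (Sum.inl c) x * B.χ (Sum.inl c) x / dist x y) =ᵐ[volume]
        fun x => ∑ p ∈ mfP (N + 1), (2 * (p.2 : ℝ) + 1) * (Qk p.1 p.2 x x / dist x y) := by
      filter_upwards [mf_ae_ne0] with x hx
      rw [← Finset.sum_div, mf_kernel B hC hO x x hx hx, mfG_sum, Finset.sum_div]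
      exact Finset.sum_congr rfl fun p _ => by ring
    rw [integral_congr_ae hae, integral_finsetSum _ fun p hp =>
      ((dir_int (mfP_le hp) (le_refl N)).1 y).const_mul _]
    unfold mfU
    exact Finset.sum_congr rfl fun p _ => integral_const_mul _ _
  have e1 : (fun y => ∑ c : C, nuc y (B.χ (Sum.inl c)) (B.χ (Sum.inl c)) *
      (fh (N + 1) 0 y * fh (N + 1) 0 y)) =
      fun y => fh (N + 1) 0 y ^ 2 * mfU (N + 1) (‖y‖ • S3.ez) := by
    funext y
    rw [← Finset.sum_mul, hU, ← mfU_radial]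
    ring
  have hi1 : Integrable fun y => fh (N + 1) 0 y ^ 2 * mfU (N + 1) (‖y‖ • S3.ez) := by
    rw [← e1]
    exact integrable_finsetSum _ fun c _ => coul_integrable (hχ c) (hχ c) hf hf
  have e2 : (fun y => ∑ p ∈ mfP (N + 1), (2 * (p.2 : ℝ) + 1) *
      ((∫ x, Qk p.1 p.2 x x / dist x y) * Qk N N y y)) =
      fun y => Qk N N y y * mfU (N + 1) (‖y‖ • S3.ez) := by
    funext y
    rw [← mfU_radial]
    unfold mfU
    rw [Finset.mul_sum]
    exact Finset.sum_congr rfl fun p _ => by ring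
  have hi : ∀ p ∈ mfP (N + 1), Integrable fun y : R3 => (2 * (p.2 : ℝ) + 1) *
      ((∫ x, Qk p.1 p.2 x x / dist x y) * Qk N N y y) := fun p hp =>
    (dir_int (mfP_le hp) (le_refl N)).2.const_mul _
  have hi2 : Integrable fun y => Qk N N y y * mfU (N + 1) (‖y‖ • S3.ez) := by
    rw [← e2]
    exact integrable_finsetSum _ hi
  calc ∑ c : C, coul (fh (N + 1) 0) (fh (N + 1) 0) (B.χ (Sum.inl c)) (B.χ (Sum.inl c))
      = ∑ c : C, coul (B.χ (Sum.inl c)) (B.χ (Sum.inl c)) (fh (N + 1) 0) (fh (N + 1) 0) :=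
        Finset.sum_congr rfl fun c _ => coul_symm2 hf hf (hχ c) (hχ c)
    _ = ∫ y, ∑ c : C, nuc y (B.χ (Sum.inl c)) (B.χ (Sum.inl c)) *
          (fh (N + 1) 0 y * fh (N + 1) 0 y) := by
        unfold coul
        rw [integral_finsetSum _ fun c _ => coul_integrable (hχ c) (hχ c) hf hf]
    _ = ∫ y, Qk N N y y * mfU (N + 1) (‖y‖ • S3.ez) := by
        rw [e1]
        exact mf_avg N hN (fun s => mfU (N + 1) (s • S3.ez)) hi1 hi2
    _ = _ := by
        rw [← e2, integral_finsetSum _ hi]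
        refine Finset.sum_congr rfl fun p hp => ?_
        rw [integral_const_mul, dir_eq (mfP_le hp) (le_refl N), mf_sld_symm]

end Main

theorem mfield_eq {n : ℕ} (hn : 2 ≤ n) {C O : Type} [Fintype C] [DecidableEq C] [Fintype O]
    [DecidableEq O] (B : ShellBasis n (C ⊕ O)) (hC : ∀ c, B.lev (Sum.inl c) < n)
    (hO : ∀ o, B.lev (Sum.inr o) = n) : mfield B (fh n 0) (fh n 0) = mf n := by
  obtain ⟨N, rfl⟩ : ∃ N, n = N + 1 := ⟨n - 1, by omega⟩
  have hN : 1 ≤ N := by omega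
  unfold mfield mf
  rw [Finset.sum_sub_distrib, ← Finset.mul_sum, mf_dir B hN hC hO, mf_exch B hN hC hO,
    mf_sum (N + 1) fun k l => (2 * (l : ℝ) + 1) * pe2 (N + 1 - 1) (N + 1 - 1) k l,
    Finset.mul_sum, ← Finset.sum_sub_distrib]
  refine Finset.sum_congr rfl fun p _ => ?_
  rw [Nat.add_sub_cancel]
  unfold pe2
  ring

end Vale.Agent.P370.KC
end

section

/-!
Energy of the closed shells.
-/

namespace Vale.Agent.P370.Q

open MeasureTheory Finset

/-! ### numbers -/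

theorem s8_pow_le (n c : ℕ) : n ^ c ≤ 2 ^ (c * n) := by
  calc n ^ c ≤ (2 ^ n) ^ c := Nat.pow_le_pow_left Nat.lt_two_pow_self.le c
    _ = 2 ^ (c * n) := by rw [← pow_mul, mul_comm]

theorem s8_pow_le' (n c : ℕ) : (n : ℝ) ^ c ≤ 2 ^ (c * n) := by
  exact_mod_cast s8_pow_le n c

theorem s8_pn_ge (k : ℕ) (hk : 10 ≤ k) : 1024 ≤ pn k := by
  unfold pn
  calc 1024 = 2 ^ 10 := by norm_num
    _ ≤ 2 ^ (2048 * k) := Nat.pow_le_pow_right (by norm_num) (by omega)

theorem s8_pK_le (k : ℕ) : pK k ^ 4 ≤ pn k := by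
  unfold pK pn
  rw [← pow_mul]
  exact Nat.pow_le_pow_right (by norm_num) (by omega)

theorem s8_pK_le' (k : ℕ) : (pK k : ℝ) ^ 4 ≤ pn k := by
  exact_mod_cast s8_pK_le k

theorem s8_norm_node (D a b : ℕ) : ‖node D a b‖ = 1 := by
  unfold node sp
  rw [EuclideanSpace.norm_eq, Fin.sum_univ_three]
  simp only [Real.norm_eq_abs, sq_abs, Matrix.cons_val_zero, Matrix.cons_val_one,
    Matrix.cons_val]
  rw [Real.sqrt_eq_one]
  have h1 := Real.sin_sq_add_cos_sq (Real.pi * (2 * a + 1) / (2 * D))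
  have h2 := Real.sin_sq_add_cos_sq (2 * Real.pi * b / D)
  linear_combination h1 + Real.sin (Real.pi * (2 * a + 1) / (2 * D)) ^ 2 * h2

variable {k : ℕ} {C R : Type} [Fintype C] [DecidableEq C] [Fintype R] [DecidableEq R]

theorem closedC_near (hk : 10 ≤ k) (S : SiteB k C R) (q : ℕ → ℕ) (hq : GoodQ k q)
    (s : ℕ → ℕ → ℕ) (hs : GoodS k q s) (w : Fin (pD k * pD k) → ℕ)
    (y : Fin (pD k * pD k) → R3) (H : Approx k q s w y) :
    |closedC (nucM S.B.χ (fun β => (w β : ℝ)) y) (coulM S.B.χ) - cc0 S| ≤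
      1 / (pn k : ℝ) ^ 3 := by
  have hn := s8_pn_ge k hk
  obtain ⟨χ, hχ⟩ : ∃ χ : C → R3 → ℝ, ∀ c, χ c = S.B.χ (Sum.inl c) := ⟨_, fun _ => rfl⟩
  have hone : ∀ c : C, ov (S.B.χ (Sum.inl c)) (S.B.χ (Sum.inl c)) = 1 := fun c => by
    rw [S.B.ortho]; simp
  -- the rounding errors
  have h1 : ∀ c : C, |∑ β, (w β : ℝ) * gm (y β) (S.B.χ (Sum.inl c)) (S.B.χ (Sum.inl c)) -
      hex k q s (S.B.χ (Sum.inl c)) (S.B.χ (Sum.inl c))| ≤ 1 / 2 ^ (15 * pn k ^ 2) := by
    intro c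
    have h := rounding k hk q hq s hs w y H (S.B.lev_pos (Sum.inl c)) (S.B.lev_pos (Sum.inl c))
      (S.B.mem (Sum.inl c)) (S.B.mem (Sum.inl c))
    rwa [hone c, mul_one, Real.sqrt_one, mul_one] at h
  -- exact form
  have h2 : ∑ c : C, hex k q s (S.B.χ (Sum.inl c)) (S.B.χ (Sum.inl c)) =
      pW k * ∑ c : C, gm (pρ k • node (pD k) 0 0) (S.B.χ (Sum.inl c)) (S.B.χ (Sum.inl c)) := by
    unfold hex
    rw [sum_comm]
    have e1 : ∀ a ∈ range (pD k), ∑ c : C, ∑ b ∈ range (pD k),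
        wex k q s a b * gm (pρ k • node (pD k) a b) (S.B.χ (Sum.inl c)) (S.B.χ (Sum.inl c)) =
        (∑ b ∈ range (pD k), wex k q s a b) *
          ∑ c : C, gm (pρ k • node (pD k) 0 0) (S.B.χ (Sum.inl c)) (S.B.χ (Sum.inl c)) := by
      intro a _
      rw [sum_comm, sum_mul]
      refine sum_congr rfl fun b _ => ?_
      rw [← mul_sum]
      congr 1
      refine closed_gm S.B S.hC S.hO _ _ ?_
      rw [norm_smul, norm_smul, s8_norm_node, s8_norm_node]
    rw [sum_congr rfl e1, ← sum_mul, wex_sum k hk q hq s]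
  -- assembly
  have h3 : closedC (nucM S.B.χ (fun β => (w β : ℝ)) y) (coulM S.B.χ) - cc0 S =
      2 * ∑ c : C, (∑ β, (w β : ℝ) * gm (y β) (S.B.χ (Sum.inl c)) (S.B.χ (Sum.inl c)) -
      hex k q s (S.B.χ (Sum.inl c)) (S.B.χ (Sum.inl c))) := by
    unfold closedC cc0 nucM
    rw [sum_sub_distrib, h2]
    ring
  rw [h3, abs_mul, abs_of_pos (by norm_num : (0:ℝ) < 2)]
  have hcard : (Fintype.card C : ℝ) ≤ (pn k : ℝ) ^ 3 := by
    exact_mod_cast (S.card hk).2.1
  have h4 : |∑ c : C, (∑ β, (w β : ℝ) * gm (y β) (S.B.χ (Sum.inl c)) (S.B.χ (Sum.inl c)) -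
      hex k q s (S.B.χ (Sum.inl c)) (S.B.χ (Sum.inl c)))| ≤
      (pn k : ℝ) ^ 3 * (1 / 2 ^ (15 * pn k ^ 2)) := by
    refine (abs_sum_le_sum_abs _ _).trans ((sum_le_sum fun c _ => h1 c).trans ?_)
    rw [sum_const, card_univ, nsmul_eq_mul]
    (clear * - hcard; gcongr)
  have hpos : (0:ℝ) < pn k := by
    have : 0 < pn k := by omega
    exact_mod_cast this
  have h5 : 2 * (pn k : ℝ) ^ 6 ≤ 2 ^ (15 * pn k ^ 2) := by
    have h6 := s8_pow_le' (pn k) 6
    calc 2 * (pn k : ℝ) ^ 6 ≤ 2 * 2 ^ (6 * pn k) := by gcongr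
      _ = 2 ^ (6 * pn k + 1) := by rw [pow_succ]; ring
      _ ≤ 2 ^ (15 * pn k ^ 2) := pow_le_pow_right₀ (by norm_num) (by nlinarith only [hn])
  calc 2 * |∑ c : C, (∑ β, (w β : ℝ) * gm (y β) (S.B.χ (Sum.inl c)) (S.B.χ (Sum.inl c)) -
      hex k q s (S.B.χ (Sum.inl c)) (S.B.χ (Sum.inl c)))| ≤
      2 * ((pn k : ℝ) ^ 3 * (1 / 2 ^ (15 * pn k ^ 2))) := by (clear * - h4; gcongr)
    _ ≤ 1 / (pn k : ℝ) ^ 3 := by
        rw [mul_one_div, mul_div_assoc', div_le_div_iff₀ (by positivity) (by (clear * - hn; positivity))]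
        linarith only [h5]

/-! ### size of the constants -/

theorem s8_cc0 (hk : 10 ≤ k) (S : SiteB k C R) : |cc0 S| ≤ 2 ^ (130 * pn k ^ 3) := by
  have hn := s8_pn_ge k hk
  have hone : ∀ c : C, ov (S.B.χ (Sum.inl c)) (S.B.χ (Sum.inl c)) = 1 := fun c => by
    rw [S.B.ortho]; simp
  have hcard : (Fintype.card C : ℝ) ≤ (pn k : ℝ) ^ 3 := by
    exact_mod_cast (S.card hk).2.1
  have hρ : pρ k ≤ 1 := by
    unfold pρ
    rw [div_le_one (by positivity)]
    exact one_le_pow₀ (by norm_num)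
  have hρ0 : 0 ≤ pρ k := by unfold pρ; positivity
  have hW : (0:ℝ) ≤ pW k := by unfold pW; positivity
  have h1 : |∑ c : C, gm (pρ k • node (pD k) 0 0) (S.B.χ (Sum.inl c)) (S.B.χ (Sum.inl c))| ≤
      (pn k : ℝ) ^ 3 * 16 := by
    refine (abs_sum_le_sum_abs _ _).trans ?_
    have : ∀ c ∈ (univ : Finset C),
        |gm (pρ k • node (pD k) 0 0) (S.B.χ (Sum.inl c)) (S.B.χ (Sum.inl c))| ≤ 16 := by
      intro c _
      have h := gm_bound (S.B.lev_pos (Sum.inl c)) (S.B.lev_pos (Sum.inl c))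
        (S.B.mem (Sum.inl c)) (S.B.mem (Sum.inl c)) (pρ k • node (pD k) 0 0)
      rw [hone c, mul_one, Real.sqrt_one, mul_one, norm_smul, s8_norm_node, mul_one,
        Real.norm_of_nonneg hρ0] at h
      linarith only [hρ, h]
    refine (sum_le_sum this).trans ?_
    rw [sum_const, card_univ, nsmul_eq_mul]
    (clear * - hcard; gcongr)
  have h2 : |∑ a : C, ∑ b : C, (2 * coulM S.B.χ (Sum.inl a) (Sum.inl a) (Sum.inl b) (Sum.inl b) -
      coulM S.B.χ (Sum.inl a) (Sum.inl b) (Sum.inl b) (Sum.inl a))| ≤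
      (pn k : ℝ) ^ 3 * ((pn k : ℝ) ^ 3 * 12) := by
    refine (abs_sum_le_sum_abs _ _).trans ?_
    have h3 : ∀ a ∈ (univ : Finset C),
        |∑ b : C, (2 * coulM S.B.χ (Sum.inl a) (Sum.inl a) (Sum.inl b) (Sum.inl b) -
          coulM S.B.χ (Sum.inl a) (Sum.inl b) (Sum.inl b) (Sum.inl a))| ≤ (pn k : ℝ) ^ 3 * 12 := by
      intro a _
      refine (abs_sum_le_sum_abs _ _).trans ?_
      have h4 : ∀ b ∈ (univ : Finset C),
          |2 * coulM S.B.χ (Sum.inl a) (Sum.inl a) (Sum.inl b) (Sum.inl b) -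
          coulM S.B.χ (Sum.inl a) (Sum.inl b) (Sum.inl b) (Sum.inl a)| ≤ 12 := by
        intro b _
        have h5 := coul_shell (S.B.lev_pos (Sum.inl a)) (S.B.lev_pos (Sum.inl a))
          (S.B.lev_pos (Sum.inl b)) (S.B.lev_pos (Sum.inl b)) (S.B.mem (Sum.inl a))
          (S.B.mem (Sum.inl a)) (S.B.mem (Sum.inl b)) (S.B.mem (Sum.inl b))
        have h6 := coul_shell (S.B.lev_pos (Sum.inl a)) (S.B.lev_pos (Sum.inl b))
          (S.B.lev_pos (Sum.inl b)) (S.B.lev_pos (Sum.inl a)) (S.B.mem (Sum.inl a))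
          (S.B.mem (Sum.inl b)) (S.B.mem (Sum.inl b)) (S.B.mem (Sum.inl a))
        rw [hone a, hone b] at h5 h6
        simp only [mul_one, Real.sqrt_one] at h5 h6
        unfold coulM
        rw [abs_le] at h5 h6 ⊢
        constructor <;> linarith [h5.1, h5.2, h6.1, h6.2]
      refine (sum_le_sum h4).trans ?_
      rw [sum_const, card_univ, nsmul_eq_mul]
      gcongr
    refine (sum_le_sum h3).trans ?_
    rw [sum_const, card_univ, nsmul_eq_mul]
    (clear * - hcard hn; gcongr)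
  have h7 : |cc0 S| ≤ 2 * (pW k * ((pn k : ℝ) ^ 3 * 16)) + (pn k : ℝ) ^ 3 * ((pn k : ℝ) ^ 3 * 12) := by
    unfold cc0
    refine (abs_add_le _ _).trans ?_
    rw [abs_mul, abs_mul, abs_of_pos (by norm_num : (0:ℝ) < 2), abs_of_nonneg hW]
    gcongr
  refine h7.trans ?_
  have h8 := s8_pow_le' (pn k) 3
  have h9 := s8_pow_le' (pn k) 6
  have hA : 2 * (pW k * ((pn k : ℝ) ^ 3 * 16)) ≤ 2 ^ (128 * pn k ^ 3 + 3 * pn k + 5) := by
    unfold pW
    rw [pow_add, pow_add]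
    calc 2 * ((2:ℝ) ^ (128 * pn k ^ 3) * ((pn k : ℝ) ^ 3 * 16)) =
        2 ^ (128 * pn k ^ 3) * (pn k : ℝ) ^ 3 * 2 ^ 5 := by ring
      _ ≤ 2 ^ (128 * pn k ^ 3) * 2 ^ (3 * pn k) * 2 ^ 5 := by (clear * - h8; gcongr)
  have hB : (pn k : ℝ) ^ 3 * ((pn k : ℝ) ^ 3 * 12) ≤ 2 ^ (6 * pn k + 4) := by
    rw [pow_add]
    calc (pn k : ℝ) ^ 3 * ((pn k : ℝ) ^ 3 * 12) = (pn k : ℝ) ^ 6 * 12 := by ring
      _ ≤ 2 ^ (6 * pn k) * 2 ^ 4 := by
          have : (12:ℝ) ≤ 2 ^ 4 := by norm_num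
          (clear * - h9 this; gcongr)
  have hn3 : pn k * pn k * 1 ≤ pn k ^ 3 := by
    rw [pow_succ, sq]
    exact Nat.mul_le_mul_left _ (by (clear * - hn; omega))
  have hn2 : 1024 * pn k ≤ pn k * pn k := Nat.mul_le_mul_right _ hn
  have hA' : (2:ℝ) ^ (128 * pn k ^ 3 + 3 * pn k + 5) ≤ 2 ^ (129 * pn k ^ 3) :=
    pow_le_pow_right₀ (by norm_num) (by omega)
  have hB' : (2:ℝ) ^ (6 * pn k + 4) ≤ 2 ^ (129 * pn k ^ 3) :=
    pow_le_pow_right₀ (by norm_num) (by omega)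
  have hC' : (2:ℝ) ^ (129 * pn k ^ 3 + 1) ≤ 2 ^ (130 * pn k ^ 3) :=
    pow_le_pow_right₀ (by norm_num) (by omega)
  rw [pow_succ] at hC'
  linarith only [hA, hB, hA', hB', hC']

theorem s8_fh_ov (n : ℕ) (hn : 2 ≤ n) : ov (fh n 0) (fh n 0) = 1 := by
  have hnf := nf_pos n (by omega)
  have h1 : ov (fh n 0) (fh n 0) = (nf n)⁻¹ * ov (fsite n 0) (fsite n 0) := by
    unfold ov fh
    rw [← integral_const_mul]
    congr 1
    funext x
    have h2 : Real.sqrt (nf n) * Real.sqrt (nf n) = nf n := Real.mul_self_sqrt hnf.le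
    rw [div_mul_div_comm, h2]
    ring
  rw [h1, site_ov_ff n hn 0 0]
  have h0 : n - 1 ≠ 0 := by omega
  simp only [sub_self, Real.cos_zero, zero_div]
  rw [zero_pow h0]
  field_simp
  norm_num

theorem s8_fh_shell (n : ℕ) (hn : 1 ≤ n) : IsShell n (fh n 0) := by
  refine InV.isShell hn ?_
  obtain ⟨P, hP, hf⟩ := fsite_InV n hn 0
  refine ⟨MvPolynomial.C ((Real.sqrt (nf n))⁻¹) * P, ?_, ?_⟩
  · constructor
    · have := (MvPolynomial.isHomogeneous_C (Fin 3) ((Real.sqrt (nf n))⁻¹)).mul hP.1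
      rwa [zero_add] at this
    · have h2 := hP.2
      unfold lap at h2 ⊢
      have : ∀ i : Fin 3, MvPolynomial.pderiv i (MvPolynomial.pderiv i
          (MvPolynomial.C ((Real.sqrt (nf n))⁻¹) * P)) =
          MvPolynomial.C ((Real.sqrt (nf n))⁻¹) * MvPolynomial.pderiv i (MvPolynomial.pderiv i P) := by
        intro i
        rw [MvPolynomial.pderiv_C_mul, MvPolynomial.pderiv_C_mul]
      simp_rw [this]
      rw [← mul_sum, h2, mul_zero]
  · funext x
    unfold fh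
    rw [hf]
    unfold vfun pe
    rw [map_mul, MvPolynomial.eval_C]
    ring

theorem s8_eps0 (hk : 10 ≤ k) (S : SiteB k C R) : |eps0 S| ≤ 2 ^ (130 * pn k ^ 3) := by
  have hn := s8_pn_ge k hk
  have hcard : (Fintype.card C : ℝ) ≤ (pn k : ℝ) ^ 3 := by
    exact_mod_cast (S.card hk).2.1
  have hρ : pρ k ≤ 1 := by
    unfold pρ
    rw [div_le_one (by positivity)]
    exact one_le_pow₀ (by norm_num)
  have hρ0 : 0 < pρ k := by unfold pρ; positivity
  have hW : (0:ℝ) ≤ pW k := by unfold pW; positivity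
  have h1 := xr_bounds (pn k) (by omega) (pρ k) hρ0 hρ
  have h1' : xr (pn k) (pρ k) ≤ 1 := h1.2.trans (pow_le_one₀ hρ0.le hρ)
  have h2 := mfield_bound S.B (fh (pn k) 0) (fh (pn k) 0) (s8_fh_shell _ (by omega))
    (s8_fh_shell _ (by omega)) (by omega)
  rw [s8_fh_ov (pn k) (by omega), mul_one, Real.sqrt_one, mul_one] at h2
  have h3 := zt_bounds k (2 * (pn k - 1)) hk (by (clear * - hn; omega)) (by (clear * - hn; omega))
  have h4 := gam_bounds (pn k) (by (clear * - hn; omega))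
  have hg0 : 0 ≤ gam (pn k) := le_trans (by (clear * - hn; positivity)) h4.1
  have hL : (0:ℝ) < pL k := by unfold pL; positivity
  have hL' : pL k ≤ 2 ^ (pn k) := by
    unfold pL
    exact pow_le_pow_right₀ (by norm_num) (Nat.div_le_self _ _)
  have h5 : |Lam k| ≤ 2 ^ (pn k) * 2 * 1 := by
    unfold Lam
    rw [abs_of_nonneg (by have := h3.1; (clear * - hL this hg0; positivity))]
    have := h3.1
    gcongr
    · exact h3.2
    · exact h4.2
  have h6 : |pW k * xr (pn k) (pρ k)| ≤ 2 ^ (128 * pn k ^ 3) := by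
    rw [abs_of_nonneg (mul_nonneg hW h1.1)]
    calc pW k * xr (pn k) (pρ k) ≤ pW k * 1 := by (clear * - h1' hW; gcongr)
      _ = 2 ^ (128 * pn k ^ 3) := by unfold pW; ring
  have h7 : |mfield S.B (fh (pn k) 0) (fh (pn k) 0)| ≤ 2 ^ (3 * pn k + 4) := by
    refine h2.trans ?_
    rw [pow_add]
    have := s8_pow_le' (pn k) 3
    calc 12 * (Fintype.card C : ℝ) ≤ 2 ^ 4 * 2 ^ (3 * pn k) := by
          have : (12:ℝ) ≤ 2 ^ 4 := by norm_num
          gcongr
          (clear hn hρ hρ0 hW h1 h1' h2 h3 h4 hg0 hL hL' h5 h6 this; linarith)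
      _ = _ := by ring
  have h8 : |eps0 S| ≤ 2 ^ (128 * pn k ^ 3) + 2 ^ (3 * pn k + 4) + 2 ^ (pn k) * 2 * 1 := by
    unfold eps0
    refine (abs_sub _ _).trans ?_
    refine add_le_add ((abs_add_le _ _).trans (add_le_add h6 h7)) h5
  refine h8.trans ?_
  have hn3 : pn k * pn k * 1 ≤ pn k ^ 3 := by
    rw [pow_succ, sq]
    exact Nat.mul_le_mul_left _ (by omega)
  have hn2 : 1024 * pn k ≤ pn k * pn k := Nat.mul_le_mul_right _ hn
  have hA' : (2:ℝ) ^ (3 * pn k + 4) ≤ 2 ^ (128 * pn k ^ 3) :=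
    pow_le_pow_right₀ (by norm_num) (by omega)
  have hB' : (2:ℝ) ^ (pn k + 1) ≤ 2 ^ (128 * pn k ^ 3) :=
    pow_le_pow_right₀ (by norm_num) (by (clear * - hn hn3 hn2; omega))
  have hC' : (2:ℝ) ^ (128 * pn k ^ 3 + 2) ≤ 2 ^ (130 * pn k ^ 3) :=
    pow_le_pow_right₀ (by norm_num) (by omega)
  rw [pow_succ] at hB'
  rw [pow_add] at hC'
  have hp : (0:ℝ) < 2 ^ (128 * pn k ^ 3) := by positivity
  linarith only [hL, hL', hA', hB', hC']

theorem s8_wS_sum (hk : 10 ≤ k) : |∑ i : Fin (pK k), ∑ j ∈ Ioi i, wS k i j| ≤ 1 := by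
  have hn := s8_pn_ge k hk
  have hn0 : (0:ℝ) < pn k := by
    have : 0 < pn k := by omega
    exact_mod_cast this
  have hK := s8_pK_le' k
  have h1 : ∀ i j : Fin (pK k), |wS k i j| ≤ (pK k : ℝ) ^ 2 / (pn k : ℝ) ^ 2 := by
    intro i j
    have h := wdir_bounds (pn k) (by omega) (pα k i - pα k j)
    unfold wS
    rw [abs_of_nonneg h.1]
    refine h.2.trans ?_
    gcongr
    exact (log_pn_le k hk).2
  have h2 : |∑ i : Fin (pK k), ∑ j ∈ Ioi i, wS k i j| ≤
      ∑ i : Fin (pK k), ∑ j : Fin (pK k), (pK k : ℝ) ^ 2 / (pn k : ℝ) ^ 2 := by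
    refine (abs_sum_le_sum_abs _ _).trans (sum_le_sum fun i _ => ?_)
    refine (abs_sum_le_sum_abs _ _).trans ?_
    refine (sum_le_sum_of_subset_of_nonneg (subset_univ _) fun j _ _ => abs_nonneg _).trans ?_
    exact sum_le_sum fun j _ => h1 i j
  refine h2.trans ?_
  simp only [sum_const, card_univ, Fintype.card_fin, nsmul_eq_mul]
  rw [mul_div_assoc', mul_div_assoc', div_le_one (by (clear * - hn; positivity))]
  have h3 : (pn k : ℝ) * 1 ≤ (pn k : ℝ) * pn k := by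
    have : (1:ℝ) ≤ pn k := by
      have : 1 ≤ pn k := by omega
      exact_mod_cast this
    gcongr
  calc (pK k : ℝ) * (pK k * (pK k) ^ 2) = (pK k : ℝ) ^ 4 := by ring
    _ ≤ (pn k : ℝ) := hK
    _ ≤ (pn k : ℝ) ^ 2 := by linarith only [h3]

/-- size of the constants -/
theorem const_bounds (hk : 10 ≤ k) (S : SiteB k C R) :
    |cc0 S| ≤ 2 ^ (130 * pn k ^ 3) ∧ |eps0 S| ≤ 2 ^ (130 * pn k ^ 3) ∧
      |mottBase (wS k) (eps0 S)| ≤ 2 ^ (131 * pn k ^ 3) ∧
      -(pT k : ℝ) ^ 3 ≤ Erefv S ∧ Erefv S ≤ -(pT k : ℝ) := by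
  have hn := s8_pn_ge k hk
  have hc := s8_cc0 hk S
  have he := s8_eps0 hk S
  have hn3 : pn k * pn k * 1 ≤ pn k ^ 3 := by
    rw [pow_succ, sq]
    exact Nat.mul_le_mul_left _ (by omega)
  have hn2 : 1024 * pn k ≤ pn k * pn k := Nat.mul_le_mul_right _ hn
  have hK4 := s8_pK_le k
  have hK1 : pK k ≤ pn k := by
    refine le_trans ?_ hK4
    exact Nat.le_self_pow (by norm_num) _
  have hKr : (pK k : ℝ) ≤ 2 ^ (pn k) := by
    have h1 : (pK k : ℝ) ≤ pn k := by exact_mod_cast hK1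
    refine h1.trans ?_
    exact_mod_cast (Nat.lt_two_pow_self (n := pn k)).le
  have hm : |mottBase (wS k) (eps0 S)| ≤ 2 ^ (131 * pn k ^ 3) := by
    unfold mottBase
    refine (abs_add_le _ _).trans ?_
    rw [abs_mul, abs_of_nonneg (by (clear * -; positivity) : (0:ℝ) ≤ pK k)]
    have h1 : (pK k : ℝ) * |eps0 S| ≤ 2 ^ (pn k + 130 * pn k ^ 3) := by
      rw [pow_add]
      gcongr
    have h2 := s8_wS_sum hk
    have h3 : (2:ℝ) ^ (pn k + 130 * pn k ^ 3 + 1) ≤ 2 ^ (131 * pn k ^ 3) :=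
      pow_le_pow_right₀ (by norm_num) (by omega)
    have h4 : (1:ℝ) ≤ 2 ^ (pn k + 130 * pn k ^ 3) := one_le_pow₀ (by norm_num)
    rw [pow_succ] at h3
    linarith only [h1, h2, h3, h4]
  refine ⟨hc, he, hm, ?_⟩
  -- the reference energy
  set n := pn k with hnd
  have hTr : (pT k : ℝ) = 2 ^ (2000 * n ^ 3) := by
    unfold pT; push_cast; rfl
  set T : ℝ := (pT k : ℝ) with hT
  set c : ℝ := cc0 S + mottBase (wS k) (eps0 S) with hcdef
  have hcb : |c| ≤ 2 ^ (132 * n ^ 3) := by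
    refine (abs_add_le _ _).trans ?_
    have h1 : (2:ℝ) ^ (130 * n ^ 3) ≤ 2 ^ (131 * n ^ 3) :=
      pow_le_pow_right₀ (by norm_num) (by omega)
    have h3 : (2:ℝ) ^ (131 * n ^ 3 + 1) ≤ 2 ^ (132 * n ^ 3) :=
      pow_le_pow_right₀ (by norm_num) (by omega)
    rw [pow_succ] at h3
    linarith only [hc, hm, h1, h3]
  have hn1 : (1024:ℝ) ≤ n := by exact_mod_cast hn
  have hKn : (pK k : ℝ) ≤ n := by exact_mod_cast hK1
  have hK0 : (0:ℝ) ≤ pK k := by (clear * -; positivity)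
  have hfrac0 : 0 ≤ (pK k : ℝ) / (2 * (n:ℝ) ^ 2) := by (clear * - hn; positivity)
  have hfrac1 : (pK k : ℝ) / (2 * (n:ℝ) ^ 2) ≤ 1 := by
    rw [div_le_one (by positivity)]
    linarith only [mul_nonneg_of_nonpos_of_nonpos (Mathlib.Tactic.Linarith.sub_nonpos_of_le (Mathlib.Tactic.Linarith.natCast_nonneg ℝ n)) (Mathlib.Tactic.Linarith.sub_nonpos_of_le hn1), hKn]
  have hTbig : (2:ℝ) ^ (132 * n ^ 3) * 4 ≤ T := by
    rw [hTr]
    calc (2:ℝ) ^ (132 * n ^ 3) * 4 = 2 ^ (132 * n ^ 3 + 2) := by rw [pow_add]; norm_num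
      _ ≤ 2 ^ (2000 * n ^ 3) := pow_le_pow_right₀ (by norm_num) (by omega)
  have hTn : (n:ℝ) * 4 ≤ T := by
    have h1 : (n:ℝ) ≤ 2 ^ n := by exact_mod_cast (Nat.lt_two_pow_self (n := n)).le
    have h2 : (2:ℝ) ^ n ≤ 2 ^ (132 * n ^ 3) := pow_le_pow_right₀ (by norm_num) (by omega)
    linarith only [hTbig, h1, h2]
  have hB1 : (1:ℝ) ≤ 2 ^ (132 * n ^ 3) := one_le_pow₀ (by norm_num)
  obtain ⟨hc1, hc2⟩ := abs_le.1 hcb
  have hT0 : 0 < T := by linarith only [hn1, hTn]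
  have hE : Erefv S = T ^ 2 * (-((n:ℝ) - 1) - (pK k : ℝ) / (2 * (n:ℝ) ^ 2)) + T * c := rfl
  rw [hE]
  constructor
  · have h1 : T ^ 2 * (-((n:ℝ) - 1) - (pK k : ℝ) / (2 * (n:ℝ) ^ 2)) ≥ T ^ 2 * (-(n:ℝ)) := by
      apply mul_le_mul_of_nonneg_left _ (by (clear * - hT0; positivity))
      linarith only [hfrac1]
    have h2 : T * c ≥ T * (-(T / 4)) := by
      apply mul_le_mul_of_nonneg_left _ hT0.le
      linarith only [hTbig, hc1]
    have h3 : T ^ 2 * (n:ℝ) ≤ T ^ 2 * (T / 4) := by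
      apply mul_le_mul_of_nonneg_left _ (by (clear * - hT0; positivity))
      linarith only [hTn]
    have h4 : T ^ 2 ≤ T ^ 3 := by
      have : (1:ℝ) ≤ T := by linarith only [hn1, hTn]
      linarith only [mul_nonneg_of_nonpos_of_nonpos (Mathlib.Tactic.Linarith.sub_nonpos_of_le (sq_nonneg T)) (Mathlib.Tactic.Linarith.sub_nonpos_of_le hn1), mul_nonneg_of_nonpos_of_nonpos (Mathlib.Tactic.Linarith.sub_nonpos_of_le (sq_nonneg T)) (Mathlib.Tactic.Linarith.sub_nonpos_of_le (Mathlib.Tactic.Linarith.natCast_nonneg ℝ n)), h3]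
    linarith only [h4, h3, h2, h1, sq_nonneg T]
  · have h1 : T ^ 2 * (-((n:ℝ) - 1) - (pK k : ℝ) / (2 * (n:ℝ) ^ 2)) ≤ T ^ 2 * (-2) := by
      apply mul_le_mul_of_nonneg_left _ (by (clear * - hT0; positivity))
      linarith only [hn1, hfrac0]
    have h2 : T * c ≤ T * (T / 4) := by
      apply mul_le_mul_of_nonneg_left _ hT0.le
      linarith only [hTbig, hc2]
    have h3 : T * 1 ≤ T * T := by
      apply mul_le_mul_of_nonneg_left _ hT0.le
      linarith only [hn1, hTn]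
    linarith only [hTn, h1, h2, h3]

end Vale.Agent.P370.Q
end

section

/-!
The effective model of the open shell.
-/

namespace Vale.Agent.P370.Q

open MeasureTheory Finset

variable {k : ℕ} {C R : Type} [Fintype C] [DecidableEq C] [Fintype R] [DecidableEq R]

/-! ### numbers -/

theorem s9_K (hk : 10 ≤ k) : (1024 : ℝ) ≤ pK k := by
  exact_mod_cast pK_ge k hk

theorem s9_n (k : ℕ) : (pn k : ℝ) = (pK k : ℝ) ^ 2048 := by
  rw [pn_eq]
  push_cast
  rfl

theorem s9_wS_symm (hk : 10 ≤ k) (i j : Fin (pK k)) : wS k i j = wS k j i := by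
  unfold wS
  rw [← wdir_even (pn k) (pn_even k hk).2, neg_sub]

theorem s9_wS_row (hk : 10 ≤ k) (i : Fin (pK k)) :
    ∑ j, wS k i j = ∑ j : Fin (pK k), wdir (pn k) (Real.pi * (j : ℕ) / pK k) := by
  have hK := pK_ge k hk
  have : NeZero (pK k) := ⟨by omega⟩
  have hK0 : (pK k : ℝ) ≠ 0 := by
    have := s9_K hk
    positivity
  rw [← Equiv.sum_comp (Equiv.subLeft i)
    (fun j : Fin (pK k) => wdir (pn k) (Real.pi * (j : ℕ) / pK k))]
  refine Finset.sum_congr rfl fun j _ => ?_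
  unfold wS pα
  rw [Equiv.subLeft_apply]
  by_cases h : j ≤ i
  · rw [Fin.sub_val_of_le h]
    congr 1
    rw [Nat.cast_sub (by exact_mod_cast h)]
    ring
  · have h' : i < j := not_le.1 h
    have e : ((i - j : Fin (pK k)) : ℕ) = pK k + i - j := Fin.coe_sub_iff_lt.2 h'
    rw [e, Nat.cast_sub (by omega), ← wdir_per (pn k) (pn_even k hk).2]
    congr 1
    push_cast
    field_simp
    ring

theorem s9_tS_symm (q : ℕ → ℕ) (s : ℕ → ℕ → ℕ) (i j : Fin (pK k)) :
    tS k q s i j = tS k q s j i := by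
  unfold tS
  rcases lt_trichotomy i j with h | h | h
  · rw [if_pos h, if_neg (not_lt.2 h.le), if_pos h]
  · subst h
    rfl
  · rw [if_neg (not_lt.2 h.le), if_pos h, if_pos h]

theorem s9_tS_le (hk : 10 ≤ k) (q : ℕ → ℕ) (hq : GoodQ k q) (s : ℕ → ℕ → ℕ)
    (hs : GoodS k q s) (i j : Fin (pK k)) :
    |tS k q s i j| ≤ 1 / ((pn k : ℝ) ^ 2 * (pK k : ℝ) ^ 126) := by
  unfold tS
  rcases lt_trichotomy i j with h | h | h
  · rw [if_pos h]
    exact (goodS_bound k hk q hq s hs i j h j.2).2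
  · subst h
    rw [if_neg (lt_irrefl _), if_neg (lt_irrefl _), abs_zero]
    (clear * -; (clear * -; positivity))
  · rw [if_neg (not_lt.2 h.le), if_pos h]
    exact (goodS_bound k hk q hq s hs j i h i.2).2

/-- the hypotheses of the Mott lemma hold for the sites -/
theorem mottHyp_sites (hk : 10 ≤ k) (S : SiteB k C R) (q : ℕ → ℕ) (hq : GoodQ k q)
    (s : ℕ → ℕ → ℕ) (hs : GoodS k q s) (w : Fin (pD k * pD k) → ℕ)
    (y : Fin (pD k * pD k) → R3) (H : Approx k q s w y) :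
    ∃ w1 : ℝ, MottHyp (pK k)
      (fun i j => hS S (fun β => (w β : ℝ)) y (Sum.inl i) (Sum.inl j)) (wS k) (tS k q s)
      (fun i j i' j' => vS S (Sum.inl i) (Sum.inl j) (Sum.inl i') (Sum.inl j'))
      (eps0 S) (wdir (pn k) 0) w1 (1 / (2 ^ 31 * (pK k : ℝ) ^ 2 * (pn k : ℝ) ^ 2))
      (1 / ((pn k : ℝ) ^ 2 * (pK k : ℝ) ^ 126)) (1 / ((pn k : ℝ) ^ 2 * (pK k : ℝ) ^ 500)) := by
  have hK := s9_K hk
  have hKn := pK_ge k hk
  have hK0 : (0 : ℝ) < pK k := by linarith only [hK]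
  have hn0 : (0 : ℝ) < pn k := by
    rw [s9_n]
    (clear * - hKn; positivity)
  refine ⟨∑ j : Fin (pK k), wdir (pn k) (Real.pi * (j : ℕ) / pK k), ?_⟩
  refine ⟨by omega, s9_wS_symm hk, fun i => by unfold wS; rw [sub_self], s9_wS_row hk,
    by (clear * - hKn hn0; (clear * - hKn hn0; positivity)), ?_, s9_tS_symm q s, fun i => ?_, s9_tS_le hk q hq s hs, ?_, by (clear * - hn0 hKn; positivity),
    fun i j => ?_, vS_near hk S⟩
  · intro x hx hx0
    have hn : 2 ^ 30 * pK k ^ 4 ≤ pn k := by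
      rw [pn_eq]
      calc 2 ^ 30 * pK k ^ 4 = 1024 ^ 3 * pK k ^ 4 := by norm_num
        _ ≤ pK k ^ 3 * pK k ^ 4 := Nat.mul_le_mul_right _ (Nat.pow_le_pow_left hKn 3)
        _ = pK k ^ 7 := by ring
        _ ≤ pK k ^ 2048 := Nat.pow_le_pow_right (by omega) (by norm_num)
    have h := wdir_pd (pn k) (pK k) (by omega) hn x hx hx0
    refine le_trans (le_of_eq ?_) h
    (clear * - hn0 hKn; field_simp)
  · unfold tS
    rw [if_neg (lt_irrefl _), if_neg (lt_irrefl _)]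
  · rw [div_div, mul_one_div, div_le_div_iff₀ (by (clear * - hn0 hKn; positivity)) (by positivity), one_mul]
    have h1 : (2 : ℝ) ^ 32 ≤ (pK k : ℝ) ^ 4 := by
      calc (2 : ℝ) ^ 32 ≤ 1024 ^ 4 := by norm_num
        _ ≤ (pK k : ℝ) ^ 4 := pow_le_pow_left₀ (by norm_num) hK 4
    have h2 : (pK k : ℝ) ^ 8 ≤ (pK k : ℝ) ^ 126 :=
      pow_le_pow_right₀ (by linarith only [hK]) (by norm_num)
    calc (pK k : ℝ) ^ 2 * (2 ^ 31 * (pK k : ℝ) ^ 2 * (pn k : ℝ) ^ 2 * 2) =
        2 ^ 32 * (pK k : ℝ) ^ 4 * (pn k : ℝ) ^ 2 := by ring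
      _ ≤ (pK k : ℝ) ^ 4 * (pK k : ℝ) ^ 4 * (pn k : ℝ) ^ 2 := by (clear * - h1 hKn hn0; gcongr)
      _ = (pK k : ℝ) ^ 8 * (pn k : ℝ) ^ 2 := by ring
      _ ≤ (pK k : ℝ) ^ 126 * (pn k : ℝ) ^ 2 := by (clear * - h2 hn0; gcongr)
      _ = _ := by ring
  · refine (hS_near hk S q hq s hs w y H i j).trans ?_
    apply one_div_le_one_div_of_le (by (clear * - hn0 hKn; positivity))
    rw [pow_succ (pn k : ℝ) 2]
    refine mul_le_mul_of_nonneg_left ?_ (by (clear * - hn0; positivity))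
    rw [s9_n]
    exact pow_le_pow_right₀ (by linarith only [hK]) (by norm_num)

/-- the superexchange couplings are the couplings of the structure theorem -/
theorem mottJ_sites (hk : 10 ≤ k) (q : ℕ → ℕ) (hq : GoodQ k q) (s : ℕ → ℕ → ℕ)
    (i j : Fin (pK k)) (hij : i < j) :
    mottJ (wS k) (tS k q s) (wdir (pn k) 0) i j = coupl (kap k q) s i j := by
  unfold mottJ coupl
  rw [if_pos hij, s9_wS_symm hk]
  unfold tS
  rw [if_pos hij]
  have e : wS k j i = wdir (pn k) (Real.pi * ((j - i : ℕ) : ℕ) / pK k) := by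
    unfold wS pα
    congr 1
    rw [Nat.cast_sub (by exact_mod_cast hij.le)]
    ring
  rw [e]
  unfold kap thop
  ring

theorem heisMax_congr {K : ℕ} (J J' : Fin K → Fin K → ℝ) (h : ∀ i j, i < j → J i j = J' i j) :
    heisMax J = heisMax J' := by
  have e : ∀ φ : SpinState K, heisE J φ = heisE J' φ := by
    intro φ
    unfold heisE
    refine Finset.sum_congr rfl fun i _ => Finset.sum_congr rfl fun j hj => ?_
    rw [h i j (Finset.mem_Ioi.1 hj)]
  unfold heisMax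
  simp only [e]

/-- error of the effective model -/
theorem mott_error_small (hk : 10 ≤ k) :
    8 * (pK k : ℝ) ^ 4 * ((1 / ((pn k : ℝ) ^ 2 * (pK k : ℝ) ^ 126)) ^ 3 /
        (1 / (2 ^ 31 * (pK k : ℝ) ^ 2 * (pn k : ℝ) ^ 2)) ^ 2 +
      1 / ((pn k : ℝ) ^ 2 * (pK k : ℝ) ^ 500)) ≤ pJ k / (pK k : ℝ) ^ 9 := by
  have hK := s9_K hk
  have hK0 : (0 : ℝ) < pK k := by linarith only [hK]
  have hn0 : (0 : ℝ) < pn k := by
    rw [s9_n]
    (clear * - hK; positivity)
  unfold pJ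
  generalize (pK k : ℝ) = K at *
  generalize (pn k : ℝ) = n at *
  have e1 : 8 * K ^ 4 * ((1 / (n ^ 2 * K ^ 126)) ^ 3 / (1 / (2 ^ 31 * K ^ 2 * n ^ 2)) ^ 2 +
      1 / (n ^ 2 * K ^ 500)) = (2 ^ 65 * K ^ 126 + 8) / (n ^ 2 * K ^ 496) := by
    field_simp
    ring
  have e2 : 1 / (n ^ 2 * K ^ 256) / K ^ 9 = K ^ 231 / (n ^ 2 * K ^ 496) := by
    field_simp
  rw [e1, e2]
  apply div_le_div_of_nonneg_right _ (by (clear * - hn0 hK; positivity))
  have h1 : (2 : ℝ) ^ 70 ≤ K ^ 7 := by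
    calc (2 : ℝ) ^ 70 = 1024 ^ 7 := by norm_num
      _ ≤ K ^ 7 := pow_le_pow_left₀ (by norm_num) hK 7
  have h2 : (1 : ℝ) ≤ K ^ 126 := one_le_pow₀ (by linarith only [hK])
  calc 2 ^ 65 * K ^ 126 + 8 ≤ 2 ^ 65 * K ^ 126 + 8 * K ^ 126 := by linarith only [h2]
    _ ≤ 2 ^ 70 * K ^ 126 := by linarith only [h2]
    _ ≤ K ^ 7 * K ^ 126 := by gcongr
    _ = K ^ 133 := by ring
    _ ≤ K ^ 231 := pow_le_pow_right₀ (by linarith only [hK]) (by norm_num)

/-! ### symmetries and bounds of the Coulomb integrals -/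

theorem s9_nice (S : SiteB k C R) (a : C ⊕ (Fin (pK k) ⊕ R)) : Nice (S.B.χ a) :=
  bd_shell_nice (S.B.lev_pos a) (S.B.mem a)

theorem s9_vsym1 (S : SiteB k C R) (p a q b : C ⊕ (Fin (pK k) ⊕ R)) :
    coulM S.B.χ p a q b = coulM S.B.χ a p q b := coul_symm1 _ _ _ _

theorem s9_vsym2 (S : SiteB k C R) (p a q b : C ⊕ (Fin (pK k) ⊕ R)) :
    coulM S.B.χ p a q b = coulM S.B.χ q b p a :=
  coul_symm2 (s9_nice S p) (s9_nice S a) (s9_nice S q) (s9_nice S b)

/-- extension by zero of a pair function -/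
def s9ext {A B : Type} (x : B → B → ℝ) (p q : A ⊕ B) : ℝ :=
  Sum.elim (fun _ => 0) (fun p' => Sum.elim (fun _ => 0) (fun q' => x p' q') q) p

theorem s9_sum_ext {A B : Type} [Fintype A] [Fintype B] (x : B → B → ℝ) :
    ∑ p : A ⊕ B, ∑ q : A ⊕ B, s9ext x p q ^ 2 = ∑ p, ∑ q, x p q ^ 2 := by
  simp only [s9ext, Fintype.sum_sum_type, Sum.elim_inl, Sum.elim_lam_const_lam_const, ne_eq, OfNat.ofNat_ne_zero, not_false_eq_true, zero_pow, sum_const_zero, Sum.elim_inr, zero_add]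

theorem s9_qf2_ext {A B : Type} [Fintype A] [Fintype B]
    (v : A ⊕ B → A ⊕ B → A ⊕ B → A ⊕ B → ℝ) (x : B → B → ℝ) :
    qf2 v (s9ext x) = qf2 (fun p a q b => v (Sum.inr p) (Sum.inr a) (Sum.inr q) (Sum.inr b)) x := by
  unfold qf2
  simp only [s9ext, Fintype.sum_sum_type, Sum.elim_inl, Sum.elim_lam_const_lam_const, mul_zero, sum_const_zero, Sum.elim_inr, zero_add, zero_mul]

theorem s9_vpos (S : SiteB k C R) (x : Fin (pK k) ⊕ R → Fin (pK k) ⊕ R → ℝ) :
    0 ≤ qf2 (vS S) x := by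
  have h := (coul_pair_bounds S.B (s9ext x)).1
  rwa [s9_qf2_ext] at h

theorem s9_vle (S : SiteB k C R) (x : Fin (pK k) ⊕ R → Fin (pK k) ⊕ R → ℝ) :
    qf2 (vS S) x ≤ 4 * (Fintype.card (C ⊕ (Fin (pK k) ⊕ R)) : ℝ) * ∑ p, ∑ q, x p q ^ 2 := by
  have h := (coul_pair_bounds S.B (s9ext x)).2
  rwa [s9_qf2_ext, s9_sum_ext] at h

/-- number of orbitals -/
theorem s9_card (hk : 10 ≤ k) (S : SiteB k C R) :
    4 * (Fintype.card (C ⊕ (Fin (pK k) ⊕ R)) : ℝ) ≤ (pn k : ℝ) ^ 4 := by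
  have hK := s9_K hk
  have hn1 : (1024 : ℝ) ≤ pn k := by
    rw [s9_n]
    exact hK.trans (le_self_pow₀ (by linarith only [hK]) (by norm_num))
  have hKn : (pK k : ℝ) ≤ pn k := by
    rw [s9_n]
    exact le_self_pow₀ (by linarith only [hK]) (by norm_num)
  obtain ⟨-, h1, h2⟩ := S.card hk
  rw [Fintype.card_sum, Fintype.card_sum, Fintype.card_fin]
  have h1' : (Fintype.card C : ℝ) ≤ (pn k : ℝ) ^ 3 := by exact_mod_cast h1
  have h2' : (Fintype.card R : ℝ) ≤ (pn k : ℝ) ^ 2 := by exact_mod_cast h2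
  push_cast
  have h3 : (pn k : ℝ) ^ 2 ≤ (pn k : ℝ) ^ 3 := pow_le_pow_right₀ (by linarith only [hn1]) (by norm_num)
  have h4 : (pn k : ℝ) ≤ (pn k : ℝ) ^ 3 := le_self_pow₀ (by linarith only [hn1]) (by norm_num)
  have h5 : (pn k : ℝ) ^ 4 = pn k * (pn k : ℝ) ^ 3 := by ring
  have h6 : 12 * (pn k : ℝ) ^ 3 ≤ pn k * (pn k : ℝ) ^ 3 :=
    mul_le_mul_of_nonneg_right (by linarith only [hn1]) (by (clear * - hn1; positivity))
  linarith only [hKn, h1', h2', h3, h4, h6]

/-- the direct Coulomb matrix is small -/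
theorem s9_wS_le (hk : 10 ≤ k) (i j : Fin (pK k)) : wS k i j ≤ 1 := by
  have hK := s9_K hk
  have h := (wdir_bounds (pn k) (pn_even k hk).2 (pα k i - pα k j)).2
  have h2 := (log_pn_le k hk).2
  have hn : (pK k : ℝ) ^ 2 ≤ (pn k : ℝ) ^ 2 := by
    rw [s9_n]
    exact pow_le_pow_left₀ (by linarith only []) (le_self_pow₀ (by linarith only [hK]) (by norm_num)) 2
  have hn0 : (0 : ℝ) < (pn k : ℝ) ^ 2 := by
    rw [s9_n]
    (clear * - hK; positivity)
  refine h.trans ?_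
  rw [div_le_one hn0]
  linarith only [h2, hn]

theorem s9_base_le (hk : 10 ≤ k) (ε0 : ℝ) :
    mottBase (wS k) ε0 ≤ pK k * ε0 + (pK k : ℝ) ^ 2 := by
  unfold mottBase
  have h1 : ∀ i : Fin (pK k), ∑ j ∈ Ioi i, wS k i j ≤ pK k := by
    intro i
    calc ∑ j ∈ Ioi i, wS k i j ≤ ∑ j ∈ Ioi i, (1 : ℝ) :=
          Finset.sum_le_sum fun j _ => s9_wS_le hk i j
      _ = ((Ioi i).card : ℝ) := by simp only [sum_const, Fin.card_Ioi, nsmul_eq_mul, mul_one]
      _ ≤ pK k := by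
        exact_mod_cast (Finset.card_le_univ _).trans (by rw [Fintype.card_fin])
  have h2 : ∑ i, ∑ j ∈ Ioi i, wS k i j ≤ ∑ i : Fin (pK k), (pK k : ℝ) :=
    Finset.sum_le_sum fun i _ => h1 i
  rw [Finset.sum_const, Finset.card_univ, Fintype.card_fin, nsmul_eq_mul] at h2
  rw [pow_two]
  linarith only [h2]

/-- the gap beats everything -/
theorem s9_gap (hk : 10 ≤ k) : 8 * ((pn k : ℝ) ^ 7 * 2 ^ (pe0 k / 4)) ≤ Lam k / 2 := by
  have hK := s9_K hk
  have hn1 : (1024 : ℝ) ≤ pn k := by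
    rw [s9_n]
    exact hK.trans (le_self_pow₀ (by linarith only [hK]) (by norm_num))
  have h1 := pn_pow_le k hk 9 (by norm_num)
  obtain ⟨he, hL⟩ := pe0_eq k hk
  have hn2 := (pn_even k hk).2
  have hz := (zt_bounds k (2 * (pn k - 1)) hk (by omega) (by omega)).1
  have hg := (gam_bounds (pn k) hn2).1
  unfold Lam
  rw [hL]
  have h2 : (2 : ℝ) ^ (pe0 k / 64) * 2 ^ (pe0 k / 4) ≤ 2 ^ pe0 k := by
    rw [← pow_add]
    exact pow_le_pow_right₀ (by norm_num) (by omega)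
  have h3 : (2 : ℝ) ^ pe0 k * (1 / 2) * (1 / (8 * (pn k : ℝ))) ≤
      2 ^ pe0 k * zt k (2 * (pn k - 1)) * gam (pn k) := by
    (clear * - hz hg hn2; gcongr)
  have h4 : 256 * ((pn k : ℝ) ^ 8 * 2 ^ (pe0 k / 4)) ≤ 2 ^ pe0 k := by
    calc 256 * ((pn k : ℝ) ^ 8 * 2 ^ (pe0 k / 4)) ≤
        pn k * ((pn k : ℝ) ^ 8 * 2 ^ (pe0 k / 4)) :=
          mul_le_mul_of_nonneg_right (by linarith only [hn1]) (by (clear * - hn2; positivity))
      _ = (pn k : ℝ) ^ 9 * 2 ^ (pe0 k / 4) := by ring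
      _ ≤ 2 ^ (pe0 k / 64) * 2 ^ (pe0 k / 4) := by (clear * - h1; gcongr)
      _ ≤ _ := h2
  have h5 : 8 * ((pn k : ℝ) ^ 7 * 2 ^ (pe0 k / 4)) ≤
      2 ^ pe0 k * (1 / 2) * (1 / (8 * (pn k : ℝ))) / 2 := by
    have e : 2 ^ pe0 k * (1 / 2) * (1 / (8 * (pn k : ℝ))) / 2 = 2 ^ pe0 k / (32 * (pn k : ℝ)) := by
      field_simp
      norm_num
    rw [e, le_div_iff₀ (by (clear * - hn2; positivity))]
    calc 8 * ((pn k : ℝ) ^ 7 * 2 ^ (pe0 k / 4)) * (32 * (pn k : ℝ)) =
        256 * ((pn k : ℝ) ^ 8 * 2 ^ (pe0 k / 4)) := by ring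
      _ ≤ _ := h4
  linarith only [h3, h5]

theorem s9_inv_n (hk : 10 ≤ k) : 4 * (1 / (pn k : ℝ) ^ 3) ≤ pJ k / (pK k : ℝ) ^ 9 := by
  have hK := s9_K hk
  have hK0 : (0 : ℝ) < pK k := by linarith only [hK]
  have hn0 : (0 : ℝ) < pn k := by
    rw [s9_n]
    (clear * - hK; positivity)
  unfold pJ
  rw [div_div, mul_one_div, div_le_div_iff₀ (by positivity) (by (clear * - hn0 hK; positivity))]
  have h : 4 * (pK k : ℝ) ^ 265 ≤ pn k := by
    rw [s9_n]
    calc 4 * (pK k : ℝ) ^ 265 ≤ pK k * (pK k : ℝ) ^ 265 :=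
          mul_le_mul_of_nonneg_right (by linarith only [hK]) (by (clear * - hK; positivity))
      _ = (pK k : ℝ) ^ 266 := by ring
      _ ≤ _ := pow_le_pow_right₀ (by linarith only [hK]) (by norm_num)
  calc 4 * ((pn k : ℝ) ^ 2 * (pK k : ℝ) ^ 256 * (pK k : ℝ) ^ 9) =
      (4 * (pK k : ℝ) ^ 265) * (pn k : ℝ) ^ 2 := by ring
    _ ≤ pn k * (pn k : ℝ) ^ 2 := by gcongr
    _ = _ := by ring

/-- one-body matrix between the sites, lower bound -/
theorem s9_hS_low (hk : 10 ≤ k) (S : SiteB k C R) (q : ℕ → ℕ) (hq : GoodQ k q)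
    (s : ℕ → ℕ → ℕ) (hs : GoodS k q s) (w : Fin (pD k * pD k) → ℕ)
    (y : Fin (pD k * pD k) → R3) (H : Approx k q s w y) (x : Fin (pK k) → ℝ) :
    (eps0 S - 1) * (∑ i, x i ^ 2) ≤
      ∑ i, ∑ j, hS S (fun β => (w β : ℝ)) y (Sum.inl i) (Sum.inl j) * x i * x j := by
  have hK := s9_K hk
  have hK0 : (0 : ℝ) < pK k := by linarith only [hK]
  have hn1 : (1 : ℝ) ≤ pn k := by
    rw [s9_n]
    exact one_le_pow₀ (by linarith only [hK])
  have hnK : (pK k : ℝ) ^ 2 ≤ pn k := by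
    rw [s9_n]
    exact pow_le_pow_right₀ (by linarith only [hK]) (by norm_num)
  -- entries
  have hsmall : ∀ i j : Fin (pK k),
      |hS S (fun β => (w β : ℝ)) y (Sum.inl i) (Sum.inl j) - (if i = j then eps0 S else 0)| ≤
        1 / pK k := by
    intro i j
    have h1 := hS_near hk S q hq s hs w y H i j
    have h2 := s9_tS_le hk q hq s hs i j
    have h3 : 1 / (pn k : ℝ) ^ 3 ≤ 1 / (2 * pK k) := by
      apply one_div_le_one_div_of_le (by (clear * - hK; positivity))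
      calc 2 * (pK k : ℝ) ≤ pK k * pK k := by nlinarith only [hK]
        _ = (pK k : ℝ) ^ 2 := by ring
        _ ≤ pn k := hnK
        _ ≤ (pn k : ℝ) ^ 3 := le_self_pow₀ hn1 (by norm_num)
    have h4 : 1 / ((pn k : ℝ) ^ 2 * (pK k : ℝ) ^ 126) ≤ 1 / (2 * pK k) := by
      apply one_div_le_one_div_of_le (by (clear * - hK; positivity))
      calc 2 * (pK k : ℝ) ≤ pK k * pK k := by nlinarith only [hK]
        _ = 1 * (pK k : ℝ) ^ 2 := by ring
        _ ≤ (pn k : ℝ) ^ 2 * (pK k : ℝ) ^ 126 := by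
          apply mul_le_mul (one_le_pow₀ hn1)
            (pow_le_pow_right₀ (by linarith only [hK]) (by norm_num)) (by positivity) (by (clear * - hn1; positivity))
    have h5 : (1 : ℝ) / pK k = 1 / (2 * pK k) + 1 / (2 * pK k) := by
      field_simp
      norm_num
    rw [h5]
    rw [abs_le] at *
    constructor <;> linarith [h1.1, h1.2, h2.1, h2.2]
  have hpt : ∀ i j : Fin (pK k), (if i = j then eps0 S else 0) * x i * x j -
      1 / (2 * pK k) * (x i ^ 2 + x j ^ 2) ≤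
        hS S (fun β => (w β : ℝ)) y (Sum.inl i) (Sum.inl j) * x i * x j := by
    intro i j
    have h1 := hsmall i j
    set d := hS S (fun β => (w β : ℝ)) y (Sum.inl i) (Sum.inl j) - (if i = j then eps0 S else 0)
      with hd
    have h2 : |d * (x i * x j)| ≤ 1 / pK k * ((x i ^ 2 + x j ^ 2) / 2) := by
      rw [abs_mul]
      refine mul_le_mul h1 ?_ (abs_nonneg _) (by (clear * - hK; positivity))
      rw [abs_mul]
      linarith only [sq_nonneg (|x i| - |x j|), sq_abs (x i), sq_abs (x j)]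
    have h3 := (abs_le.1 h2).1
    have e : hS S (fun β => (w β : ℝ)) y (Sum.inl i) (Sum.inl j) =
        d + (if i = j then eps0 S else 0) := by rw [hd]; ring
    rw [e]
    have e2 : 1 / (pK k : ℝ) * ((x i ^ 2 + x j ^ 2) / 2) =
        1 / (2 * pK k) * (x i ^ 2 + x j ^ 2) := by
      (clear * - hK; field_simp)
    rw [e2] at h3
    linarith only [h3]
  refine le_trans (le_of_eq ?_)
    (Finset.sum_le_sum fun i _ => Finset.sum_le_sum fun j _ => hpt i j)
  simp only [Finset.sum_sub_distrib, ← Finset.mul_sum, Finset.sum_add_distrib,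
    Finset.sum_const, Finset.card_univ, Fintype.card_fin, nsmul_eq_mul]
  have e1 : ∀ i : Fin (pK k), ∑ j, (if i = j then eps0 S else 0) * x i * x j =
      eps0 S * x i ^ 2 := by
    intro i
    rw [Finset.sum_eq_single i (fun j _ hj => by rw [if_neg (Ne.symm hj)]; ring)
      (fun h => absurd (Finset.mem_univ _) h), if_pos rfl]
    ring
  simp only [e1, ← Finset.mul_sum]
  field_simp
  ring

/-- lower bound of the finite dimensional problem -/
theorem fin_lower (hk : 10 ≤ k) (S : SiteB k C R) (q : ℕ → ℕ) (hq : GoodQ k q)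
    (s : ℕ → ℕ → ℕ) (hs : GoodS k q s) (w : Fin (pD k * pD k) → ℕ)
    (y : Fin (pD k * pD k) → R3) (H : Approx k q s w y)
    (c : Tens (2 * Fintype.card C + pK k) ((C ⊕ (Fin (pK k) ⊕ R)) × Fin 2)) (hc : IsAnti c)
    (hg : Good c) :
    (cc0 S + mottBase (wS k) (eps0 S) - heisMax (coupl (kap k q) s (K := pK k)) -
        2 * pJ k / (pK k : ℝ) ^ 9) * nsq c ≤
      enT (nucM S.B.χ (fun β => (w β : ℝ)) y) (coulM S.B.χ) c := by
  have hK := s9_K hk
  have hK0 : (0 : ℝ) < pK k := by linarith only [hK]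
  have hn1 : (1024 : ℝ) ≤ pn k := by
    rw [s9_n]
    exact hK.trans (le_self_pow₀ (by linarith only [hK]) (by norm_num))
  have hn0 : (0 : ℝ) < pn k := by linarith only [hn1]
  have hKn : (pK k : ℝ) ≤ pn k := by
    rw [s9_n]
    exact le_self_pow₀ (by linarith only [hK]) (by norm_num)
  obtain ⟨d, hd, hdn, hde⟩ := closed_elim rfl (nucM S.B.χ (fun β => (w β : ℝ)) y)
    (coulM S.B.χ) (s9_vsym1 S) (s9_vsym2 S) c hc hg
  obtain ⟨w1, HM⟩ := mottHyp_sites hk S q hq s hs w y H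
  have hmax : heisMax (mottJ (wS k) (tS k q s) (wdir (pn k) 0)) =
      heisMax (coupl (kap k q) s (K := pK k)) :=
    heisMax_congr _ _ fun i j hij => mottJ_sites hk q hq s i j hij
  have hmax0 : 0 ≤ heisMax (coupl (kap k q) s (K := pK k)) := by
    refine Mott.heisMax_nonneg fun i j hij => ?_
    rw [← mottJ_sites hk q hq s i j hij]
    unfold mottJ
    have hd1 : 1 ≤ ((j : ℕ) - (i : ℕ)) := by
      have : (i : ℕ) < j := hij
      omega
    have hg := (gap_bounds k hk ((j : ℕ) - (i : ℕ)) hd1 (by omega)).1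
    have e : wS k i j = wdir (pn k) (Real.pi * ((j - i : ℕ) : ℕ) / pK k) := by
      rw [s9_wS_symm hk]
      unfold wS pα
      congr 1
      rw [Nat.cast_sub (by exact_mod_cast hij.le)]
      ring
    rw [e]
    refine div_nonneg (by (clear * -; (clear * -; positivity))) (le_trans (by (clear * - hK hn1; (clear * - hK hn1; positivity))) hg)
  set er : ℝ := 8 * (pK k : ℝ) ^ 4 * ((1 / ((pn k : ℝ) ^ 2 * (pK k : ℝ) ^ 126)) ^ 3 /
        (1 / (2 ^ 31 * (pK k : ℝ) ^ 2 * (pn k : ℝ) ^ 2)) ^ 2 +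
      1 / ((pn k : ℝ) ^ 2 * (pK k : ℝ) ^ 500)) with her
  have her1 : er ≤ pJ k / (pK k : ℝ) ^ 9 := mott_error_small hk
  have her0 : 0 ≤ er := by (clear * - hK hn1; (clear * - hK hn1; positivity))
  set μ : ℝ := mottBase (wS k) (eps0 S) - heisMax (coupl (kap k q) s (K := pK k)) - er with hμdef
  set η : ℝ := 1 / 2 ^ (pe0 k / 4) with hη
  set β : ℝ := 4 * (Fintype.card (C ⊕ (Fin (pK k) ⊕ R)) : ℝ) with hβ
  have hη0 : 0 < η := by positivity
  have hη1 : η ≤ 1 := by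
    rw [hη, div_le_one (by positivity)]
    exact one_le_pow₀ (by norm_num)
  have hβ0 : 0 ≤ β := by (clear * -; positivity)
  have hβ1 : β ≤ (pn k : ℝ) ^ 4 := s9_card hk S
  have hgap := s9_gap hk
  have h2pos : (1 : ℝ) ≤ 2 ^ (pe0 k / 4) := one_le_pow₀ (by norm_num)
  have hG0 : 0 ≤ Lam k / 2 := le_trans (by (clear * - hn1; positivity)) hgap
  have hlow := open_lower (hS S (fun β => (w β : ℝ)) y) (vS S) (eps0 S) 1 η (Lam k / 2) β η μ
    hη0.le zero_le_one hβ0 hG0 hη0 hη1 (hS_symm S _ y)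
    (fun p a q b => s9_vsym1 S _ _ _ _) (fun p a q b => s9_vsym2 S _ _ _ _)
    (s9_vpos S) (s9_vle S) (hS_gap hk S q hq s hs w y H)
    (s9_hS_low hk S q hq s hs w y H)
    (fun d' hd' => by
      have := mott_lower HM d' hd'
      rw [hmax] at this
      exact this)
    (by
      have h1 := s9_base_le hk (eps0 S)
      have h2 : (pK k : ℝ) ^ 2 * β / η ≤ (pn k : ℝ) ^ 7 * 2 ^ (pe0 k / 4) := by
        rw [hη, div_div_eq_mul_div, div_one]
        apply mul_le_mul_of_nonneg_right _ (by positivity)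
        calc (pK k : ℝ) ^ 2 * β ≤ (pn k : ℝ) ^ 2 * (pn k : ℝ) ^ 4 := by (clear * - hK hKn hβ1 hn1; gcongr)
          _ = (pn k : ℝ) ^ 6 := by ring
          _ ≤ (pn k : ℝ) ^ 7 := pow_le_pow_right₀ (by linarith only [hn1]) (by norm_num)
      have h3 : (pn k : ℝ) ^ 2 ≤ (pn k : ℝ) ^ 7 * 2 ^ (pe0 k / 4) := by
        calc (pn k : ℝ) ^ 2 ≤ (pn k : ℝ) ^ 7 := pow_le_pow_right₀ (by linarith only [hn1]) (by norm_num)
          _ = (pn k : ℝ) ^ 7 * 1 := by ring
          _ ≤ _ := by (clear * - h2pos hn1; gcongr)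
      have h4 : (pK k : ℝ) ^ 2 ≤ (pn k : ℝ) ^ 2 := by (clear * - hK hKn; gcongr)
      have h5 : (pK k : ℝ) * (1 + η) ≤ 2 * (pn k : ℝ) ^ 2 := by
        calc (pK k : ℝ) * (1 + η) ≤ pn k * 2 := by
              apply mul_le_mul hKn (by linarith only [hη1]) (by positivity) hn0.le
          _ ≤ _ := by nlinarith only [hn1]
      linarith only [hmax0, her0, hgap, hG0, h1, h2, h3, h4, h5])
    d hd
  have hcl := (abs_le.1 (closedC_near hk S q hq s hs w y H)).1
  have hnn : 0 ≤ nsq d := Finset.sum_nonneg fun I _ => by (clear * -; positivity)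
  have hη2 : η * pK k + η * (pK k : ℝ) ^ 2 * β ≤ 2 * (1 / (pn k : ℝ) ^ 3) := by
    have h1 := pn_pow_le k hk 9 (by norm_num)
    have h2 : (2 : ℝ) ^ (pe0 k / 64) ≤ 2 ^ (pe0 k / 4) :=
      pow_le_pow_right₀ (by norm_num) (by (clear * -; omega))
    have h3 : η * (pn k : ℝ) ^ 6 ≤ 1 / (pn k : ℝ) ^ 3 := by
      rw [hη, one_div_mul_eq_div, div_le_div_iff₀ (by positivity) (by (clear * - hn1; (clear * - hn1; positivity)))]
      calc (pn k : ℝ) ^ 6 * (pn k : ℝ) ^ 3 = (pn k : ℝ) ^ 9 := by ring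
        _ ≤ 2 ^ (pe0 k / 64) := h1
        _ ≤ 2 ^ (pe0 k / 4) := h2
        _ = _ := (one_mul _).symm
    have h4 : η * pK k ≤ η * (pn k : ℝ) ^ 6 := by
      apply mul_le_mul_of_nonneg_left _ hη0.le
      exact hKn.trans (le_self_pow₀ (by linarith only [hn1]) (by norm_num))
    have h5 : η * (pK k : ℝ) ^ 2 * β ≤ η * (pn k : ℝ) ^ 6 := by
      calc η * (pK k : ℝ) ^ 2 * β ≤ η * (pn k : ℝ) ^ 2 * (pn k : ℝ) ^ 4 := by (clear * - hK hKn hβ1 hn1; gcongr)
        _ = _ := by ring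
    linarith only [h3, h4, h5]
  have hin := s9_inv_n hk
  have hfin : cc0 S + mottBase (wS k) (eps0 S) - heisMax (coupl (kap k q) s (K := pK k)) -
      2 * pJ k / (pK k : ℝ) ^ 9 ≤
      closedC (nucM S.B.χ (fun β => (w β : ℝ)) y) (coulM S.B.χ) +
        (μ - η * pK k - η * (pK k : ℝ) ^ 2 * β) := by
    have e : 2 * pJ k / (pK k : ℝ) ^ 9 = 2 * (pJ k / (pK k : ℝ) ^ 9) := by ring
    rw [e, hμdef]
    linarith only [her1, her0, hcl, hη2, hin]
  have hfin2 := mul_le_mul_of_nonneg_right hfin hnn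
  rw [hde, ← hdn]
  refine hfin2.trans ?_
  rw [add_mul]
  exact add_le_add le_rfl hlow

/-- upper bound of the finite dimensional problem -/
theorem fin_upper (hk : 10 ≤ k) (S : SiteB k C R) (q : ℕ → ℕ) (hq : GoodQ k q)
    (s : ℕ → ℕ → ℕ) (hs : GoodS k q s) (w : Fin (pD k * pD k) → ℕ)
    (y : Fin (pD k * pD k) → R3) (H : Approx k q s w y) :
    ∃ c : Tens (2 * Fintype.card C + pK k) ((C ⊕ (Fin (pK k) ⊕ R)) × Fin 2), IsAnti c ∧ Good c ∧
      nsq c = 1 ∧ enT (nucM S.B.χ (fun β => (w β : ℝ)) y) (coulM S.B.χ) c ≤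
        cc0 S + mottBase (wS k) (eps0 S) - heisMax (coupl (kap k q) s (K := pK k)) +
          2 * pJ k / (pK k : ℝ) ^ 9 := by
  obtain ⟨w1, HM⟩ := mottHyp_sites hk S q hq s hs w y H
  have hmax : heisMax (mottJ (wS k) (tS k q s) (wdir (pn k) 0)) =
      heisMax (coupl (kap k q) s (K := pK k)) :=
    heisMax_congr _ _ fun i j hij => mottJ_sites hk q hq s i j hij
  obtain ⟨c0, hc0, hc1, hc2⟩ := mott_upper HM
  rw [hmax] at hc2
  obtain ⟨d, hd, hd1, hd2⟩ := open_upper (hS S (fun β => (w β : ℝ)) y) (vS S) c0 hc0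
  obtain ⟨c, hc, hg, hcn, hce⟩ := closed_elim' rfl (nucM S.B.χ (fun β => (w β : ℝ)) y)
    (coulM S.B.χ) (s9_vsym1 S) (s9_vsym2 S) d hd
  have hcl := (abs_le.1 (closedC_near hk S q hq s hs w y H)).2
  have her1 := mott_error_small hk
  have hin := s9_inv_n hk
  have hpos : 0 ≤ 1 / (pn k : ℝ) ^ 3 := by (clear * -; (clear * -; positivity))
  refine ⟨c, hc, hg, by rw [hcn, hd1, hc1], ?_⟩
  rw [hce, hd1, hc1, mul_one]
  have e : 2 * pJ k / (pK k : ℝ) ^ 9 = 2 * (pJ k / (pK k : ℝ) ^ 9) := by ring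
  have h3 : enT (closedF (nucM S.B.χ (fun β => (w β : ℝ)) y) (coulM S.B.χ))
      (fun p a q b => coulM S.B.χ (Sum.inr p) (Sum.inr a) (Sum.inr q) (Sum.inr b)) d =
      enT (hS S (fun β => (w β : ℝ)) y) (vS S) d := rfl
  rw [h3, hd2, e]
  linarith only [hc2, hcl, her1, hin, hpos]

end Vale.Agent.P370.Q
end

section

/-!
KC13: the explicit constants approximate the constants of the structure theorem.
-/

namespace Vale.Agent.P370.KC

open Finset MeasureTheory Vale.Agent.P370.Q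

/-- admissible approximations of the cosines -/
def GoodX (k : ℕ) (x : ℕ → ℝ) : Prop :=
  ∀ d, d < pK k → 0 ≤ x d ∧ x d ≤ 1 ∧
    |x d - Real.cos (Real.pi * d / (2 * pK k))| ≤ 1 / 2 ^ (pn k ^ 2)

/-! ### numbers -/

theorem e13_sq_ge (k : ℕ) (hk : 10 ≤ k) : 1024 * pn k ≤ pn k ^ 2 := by
  have h := pn_ge k hk
  rw [sq]
  exact Nat.mul_le_mul_right _ h

theorem e13_cube_ge (k : ℕ) (hk : 10 ≤ k) : 1024 * pn k ^ 2 ≤ pn k ^ 3 := by
  have h := pn_ge k hk
  rw [pow_succ (pn k) 2, mul_comm]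
  exact Nat.mul_le_mul_left _ h

theorem e13_sqrt (k : ℕ) : √(pn k : ℝ) = (pK k : ℝ) ^ 1024 := by
  rw [S4.n_eq, show 2048 = 1024 * 2 from rfl, pow_mul, Real.sqrt_sq (by positivity)]

/-- the accuracy -/
theorem e13_acc (k : ℕ) : pJ k / (pK k : ℝ) ^ 8 = 1 / ((pn k : ℝ) ^ 2 * (pK k : ℝ) ^ 264) := by
  unfold pJ
  rw [div_div]
  congr 1
  ring

theorem e13_small (k : ℕ) (hk : 10 ≤ k) : 1 / 2 ^ pn k ≤ pJ k / (pK k : ℝ) ^ 8 / 16 := by
  have hK := S4.K_ge k hk
  have hn := S4.n_ge k hk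
  have hn1 := S4.n_one_le k hk
  have hKn := S4.Kpow_le_n k hk 264 (by norm_num)
  have h4 := S4.npow_le k hk 4 (by norm_num)
  rw [e13_acc, div_div, div_le_div_iff₀ (by positivity) (by (clear * - hn hK; positivity)), one_mul, one_mul]
  calc (pn k : ℝ) ^ 2 * (pK k : ℝ) ^ 264 * 16 ≤ (pn k : ℝ) ^ 2 * pn k * pn k := by
        gcongr
        linarith only [hn]
    _ = (pn k : ℝ) ^ 4 := by ring
    _ ≤ 2 ^ pn k := h4

/-- the errors of the direct integrals are negligible -/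
theorem e13_wd (k : ℕ) (hk : 10 ≤ k) :
    2 / ((pn k : ℝ) ^ 2 * √(pn k : ℝ)) + 2 ^ (16 * pn k) * (4 * (1 / 2 ^ (pn k ^ 2))) ≤
      3 / ((pn k : ℝ) ^ 2 * (pK k : ℝ) ^ 1024) := by
  have hK := S4.K_ge k hk
  have hn1 := S4.n_one_le k hk
  have hKn := S4.Kpow_le_n k hk 1024 (by norm_num)
  have hsq := e13_sq_ge k hk
  have h3 := S4.npow_le k hk 3 (by norm_num)
  rw [e13_sqrt]
  have h1 : 2 ^ (16 * pn k) * (4 * (1 / 2 ^ (pn k ^ 2))) ≤
      1 / ((pn k : ℝ) ^ 2 * (pK k : ℝ) ^ 1024) := by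
    have e : (2 : ℝ) ^ (16 * pn k) * (4 * (1 / 2 ^ (pn k ^ 2))) =
        2 ^ (16 * pn k + 2) / 2 ^ (pn k ^ 2) := by
      rw [pow_add]
      ring
    rw [e, div_le_div_iff₀ (by positivity) (by (clear * - hn1 hK; positivity)), one_mul]
    calc (2 : ℝ) ^ (16 * pn k + 2) * ((pn k : ℝ) ^ 2 * (pK k : ℝ) ^ 1024)
        ≤ 2 ^ (16 * pn k + 2) * ((pn k : ℝ) ^ 2 * pn k) := by (clear * - hKn hn1; gcongr)
      _ = 2 ^ (16 * pn k + 2) * (pn k : ℝ) ^ 3 := by ring
      _ ≤ 2 ^ (16 * pn k + 2) * 2 ^ pn k := by gcongr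
      _ = 2 ^ (17 * pn k + 2) := by rw [← pow_add]; ring_nf
      _ ≤ 2 ^ (pn k ^ 2) := two_pow_mono (by have := pn_ge k hk; (clear * - hsq this; omega))
  calc _ ≤ 2 / ((pn k : ℝ) ^ 2 * (pK k : ℝ) ^ 1024) + 1 / ((pn k : ℝ) ^ 2 * (pK k : ℝ) ^ 1024) :=
        add_le_add le_rfl h1
    _ = _ := by ring

/-- a direct Coulomb integral from the approximate cosine -/
theorem e13_wdir (k : ℕ) (hk : 10 ≤ k) (x : ℕ → ℝ) (hx : GoodX k x) (d : ℕ) (hd : d < pK k) :
    |wdir (pn k) (Real.pi * d / pK k) - W0 (pn k) (2 * x d ^ 2 - 1)| ≤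
      3 / ((pn k : ℝ) ^ 2 * (pK k : ℝ) ^ 1024) := by
  obtain ⟨h0, h1, h2⟩ := hx d hd
  have hn2 := S4.two_le_pn k hk
  have hK := S4.K_ge k hk
  have hK0 : (0 : ℝ) < pK k := by linarith only [hK]
  set c := Real.cos (Real.pi * d / (2 * pK k)) with hc
  have hcos : Real.cos (Real.pi * d / pK k) = 2 * c ^ 2 - 1 := by
    rw [hc, ← Real.cos_two_mul]
    congr 1
    field_simp
  have hc1 : |c| ≤ 1 := Real.abs_cos_le_one _
  have hcm : 2 * c ^ 2 - 1 ∈ Set.Icc (-1 : ℝ) 1 := by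
    have := abs_le.1 hc1
    constructor <;> nlinarith only [this]
  have hxm : 2 * x d ^ 2 - 1 ∈ Set.Icc (-1 : ℝ) 1 := by
    constructor <;> nlinarith [sq_nonneg (x d)]
  have h3 := wdir_near (pn k) hn2 (Real.pi * d / pK k)
  rw [hcos] at h3
  have h4 := W0_lip (pn k) hn2 _ _ hcm hxm
  have h5 : |2 * c ^ 2 - 1 - (2 * x d ^ 2 - 1)| ≤ 4 * (1 / 2 ^ (pn k ^ 2)) := by
    have e : 2 * c ^ 2 - 1 - (2 * x d ^ 2 - 1) = -((x d - c) * (2 * (x d + c))) := by ring
    rw [e, abs_neg, abs_mul]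
    have h6 : |2 * (x d + c)| ≤ 4 := by
      have := abs_le.1 hc1
      rw [abs_le]
      constructor <;> linarith
    calc |x d - c| * |2 * (x d + c)| ≤ 1 / 2 ^ (pn k ^ 2) * 4 := by gcongr
      _ = _ := by ring
  have h6 : |W0 (pn k) (2 * c ^ 2 - 1) - W0 (pn k) (2 * x d ^ 2 - 1)| ≤
      2 ^ (16 * pn k) * (4 * (1 / 2 ^ (pn k ^ 2))) :=
    h4.trans (mul_le_mul_of_nonneg_left h5 (by positivity))
  calc |wdir (pn k) (Real.pi * d / pK k) - W0 (pn k) (2 * x d ^ 2 - 1)|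
      ≤ |wdir (pn k) (Real.pi * d / pK k) - W0 (pn k) (2 * c ^ 2 - 1)| +
        |W0 (pn k) (2 * c ^ 2 - 1) - W0 (pn k) (2 * x d ^ 2 - 1)| := abs_sub_le _ _ _
    _ ≤ _ := (add_le_add h3 h6).trans (e13_wd k hk)

/-! ### exchange couplings -/

theorem ratio_close {u u' G G' ε : ℝ} (hu : 0 < u) (hG : 0 < G) (hε0 : 0 ≤ ε) (hε : ε ≤ 1 / 8)
    (h1 : |u' - u| ≤ ε * u) (h2 : |G' - G| ≤ ε * G) :
    |2 * u' ^ 2 / G' - 2 * u ^ 2 / G| ≤ 8 * ε * (2 * u ^ 2 / G) := by
  have hG' : 7 / 8 * G ≤ G' := by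
    have := (abs_le.1 h2).1
    linarith only [mul_nonneg_of_nonpos_of_nonpos (le_of_lt (Mathlib.Tactic.Linarith.sub_neg_of_lt hG)) (Mathlib.Tactic.Linarith.sub_nonpos_of_le hε), this]
  have hG'0 : 0 < G' := by linarith only [hG, hG']
  have h3 : |u' ^ 2 - u ^ 2| ≤ 17 / 8 * ε * u ^ 2 := by
    have e : u' ^ 2 - u ^ 2 = (u' - u) * (u' - u + 2 * u) := by ring
    rw [e, abs_mul]
    have h4 : |u' - u + 2 * u| ≤ 17 / 8 * u := by
      refine (abs_add_le _ _).trans ?_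
      rw [abs_of_pos (by linarith only [hu] : 0 < 2 * u)]
      nlinarith only [h1, hu, hε]
    calc |u' - u| * |u' - u + 2 * u| ≤ ε * u * (17 / 8 * u) := by gcongr
      _ = _ := by ring
  have h4 : |u' ^ 2 * G - u ^ 2 * G'| ≤ 4 * ε * u ^ 2 * G' := by
    have e : u' ^ 2 * G - u ^ 2 * G' = (u' ^ 2 - u ^ 2) * G - u ^ 2 * (G' - G) := by ring
    rw [e]
    refine (abs_sub _ _).trans ?_
    rw [abs_mul, abs_mul, abs_of_pos hG, abs_of_nonneg (sq_nonneg u)]
    calc |u' ^ 2 - u ^ 2| * G + u ^ 2 * |G' - G| ≤ 17 / 8 * ε * u ^ 2 * G + u ^ 2 * (ε * G) := by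
          gcongr
      _ = 25 / 8 * (ε * u ^ 2) * G := by ring
      _ ≤ 25 / 8 * (ε * u ^ 2) * (8 / 7 * G') := by
          have : 0 ≤ ε * u ^ 2 := by positivity
          gcongr
          linarith only [hG']
      _ ≤ 4 * ε * u ^ 2 * G' := by
          have : 0 ≤ ε * u ^ 2 * G' := by (clear * - hε0 hu hG'0; positivity)
          linarith only [this]
  have e : 2 * u' ^ 2 / G' - 2 * u ^ 2 / G = 2 * (u' ^ 2 * G - u ^ 2 * G') / (G' * G) := by
    (clear * - hG hG'0; field_simp)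
  rw [e, abs_div, abs_mul, abs_of_pos (by norm_num : (0 : ℝ) < 2), abs_of_pos (mul_pos hG'0 hG),
    div_le_iff₀ (mul_pos hG'0 hG)]
  have e2 : 8 * ε * (2 * u ^ 2 / G) * (G' * G) = 16 * ε * u ^ 2 * G' := by
    have e3 : 2 * u ^ 2 / G * G = 2 * u ^ 2 := div_mul_cancel₀ _ hG.ne'
    calc 8 * ε * (2 * u ^ 2 / G) * (G' * G) = 8 * ε * (2 * u ^ 2 / G * G) * G' := by ring
      _ = 16 * ε * u ^ 2 * G' := by
        rw [e3]
        ring
  rw [e2]
  have : 0 ≤ ε * u ^ 2 * G' := by (clear * - hε0 hu hG'0; positivity)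
  linarith only [h4, this]

theorem kap_close (k : ℕ) (hk : 10 ≤ k) (q : ℕ → ℕ) (hq : GoodQ k q) (d : ℕ) (hd1 : 1 ≤ d)
    (hd2 : d < pK k) (x : ℕ → ℝ) (hx : GoodX k x) :
    |kapx k (q d) (x d) - kap k q d| ≤ kap k q d / (pK k : ℝ) ^ 8 := by
  have hqr := goodQ_range k hk q hq d hd1 hd2
  have hn1 := S4.n_one_le k hk
  have hK := S4.K_ge k hk
  have hK0 : (0 : ℝ) < pK k := by linarith only [hK]
  have hn0 : (0 : ℝ) < pn k := by linarith only [hn1]
  have hn2 := S4.two_le_pn k hk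
  have hsq := e13_sq_ge k hk
  have hng := pn_ge k hk
  obtain ⟨ha1, ha2⟩ := amp_bounds k hk q hq d hd1 hd2
  obtain ⟨hz1, hz2⟩ := zt_bounds k (2 * q d) hk (by omega) (by omega)
  have hz3 := zt_near k (2 * q d) hk (by (clear * - hqr; omega)) (by omega)
  obtain ⟨hg1, hg2⟩ := gap_bounds k hk d hd1 hd2
  obtain ⟨hx0, hx1, hx2⟩ := hx d hd2
  have hamp := amp_eq k q d (by omega)
  have hη : 0 < pη k := by unfold pη; positivity
  have ha0 : 0 < amp k q d := lt_of_lt_of_le (by (clear * - hn2; positivity)) ha1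
  have hz0 : 0 < zt k (2 * q d) := by linarith only [hz1]
  have hG0 : 0 < wdir (pn k) 0 - wdir (pn k) (Real.pi * d / pK k) :=
    lt_of_lt_of_le (by (clear * - hK hn2; positivity)) hg1
  -- the amplitudes
  set c := Real.cos (Real.pi * d / (2 * pK k)) with hc
  have hdr : (d : ℝ) < pK k := by exact_mod_cast hd2
  have hcm : c ∈ Set.Icc (0 : ℝ) 1 := by
    refine ⟨Real.cos_nonneg_of_mem_Icc ⟨?_, ?_⟩, Real.cos_le_one _⟩
    · have : 0 ≤ Real.pi * d / (2 * pK k) := by (clear * - hd1 hK; (clear * - hd1 hK; positivity))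
      linarith only [this, Real.pi_pos]
    · rw [div_le_div_iff₀ (by (clear * - hK; positivity)) (by norm_num)]
      nlinarith only [hdr, Real.pi_pos]
  have h1 := hopx_lip (pn k) (q d) hn2 (by (clear * - hqr hng; omega)) (x d) c ⟨hx0, hx1⟩ hcm
  rw [← hamp] at h1
  have h13 := S4.npow_le k hk 13 (by norm_num)
  have hKn := S4.Kpow_le_n k hk 9 (by norm_num)
  have h2 : |hopx (pn k) (q d) (x d) - amp k q d| ≤ 1 / (4 * (pK k : ℝ) ^ 9) * amp k q d := by
    calc |hopx (pn k) (q d) (x d) - amp k q d| ≤ 2 ^ (8 * pn k) * (1 / 2 ^ (pn k ^ 2)) :=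
          h1.trans (mul_le_mul_of_nonneg_left hx2 (by positivity))
      _ = 2 ^ (8 * pn k) / 2 ^ (pn k ^ 2) := by ring
      _ ≤ 1 / (4 * (pK k : ℝ) ^ 9) * (1 / (64 * (pn k : ℝ) ^ 4)) := by
          rw [one_div_mul_one_div, div_le_div_iff₀ (by positivity) (by (clear * - hK hn2; positivity)), one_mul]
          calc (2 : ℝ) ^ (8 * pn k) * (4 * (pK k : ℝ) ^ 9 * (64 * (pn k : ℝ) ^ 4))
              ≤ 2 ^ (8 * pn k) * (4 * (pn k : ℝ) * (64 * (pn k : ℝ) ^ 4)) := by (clear * - hKn hn2; gcongr)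
            _ = 2 ^ (8 * pn k) * (2 ^ 8 * (pn k : ℝ) ^ 5) := by ring
            _ ≤ 2 ^ (8 * pn k) * (2 ^ 8 * 2 ^ pn k) := by
                have h5 := S4.npow_le k hk 5 (by norm_num)
                (clear * - h5; gcongr)
            _ = 2 ^ (9 * pn k + 8) := by rw [← pow_add, ← pow_add]; ring_nf
            _ ≤ 2 ^ (pn k ^ 2) := two_pow_mono (by (clear * - hsq hng; omega))
      _ ≤ 1 / (4 * (pK k : ℝ) ^ 9) * amp k q d := by (clear * - ha1 hK; gcongr)
  have h3 : |zt k (2 * q d) - 1| ≤ 1 / (4 * (pK k : ℝ) ^ 9) := by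
    refine hz3.trans ?_
    rw [div_le_div_iff₀ (by positivity) (by (clear * - hK; positivity)), one_mul, one_mul]
    calc 4 * (pK k : ℝ) ^ 9 ≤ 4 * (pn k : ℝ) := by (clear * - hKn; gcongr)
      _ ≤ 2 ^ 2 * 2 ^ pn k := by
          have := pn_le_two_pow k
          norm_num
          linarith only [this]
      _ = 2 ^ (pn k + 2) := by rw [pow_add]; ring
      _ ≤ 2 ^ (16 * pn k ^ 2) := two_pow_mono (by omega)
  have hu : |pη k * hopx (pn k) (q d) (x d) - pη k * zt k (2 * q d) * amp k q d| ≤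
      1 / (pK k : ℝ) ^ 9 * (pη k * zt k (2 * q d) * amp k q d) := by
    have e : pη k * hopx (pn k) (q d) (x d) - pη k * zt k (2 * q d) * amp k q d =
        pη k * ((hopx (pn k) (q d) (x d) - amp k q d) -
          (zt k (2 * q d) - 1) * amp k q d) := by ring
    rw [e, abs_mul, abs_of_pos hη]
    have h4 : |(hopx (pn k) (q d) (x d) - amp k q d) - (zt k (2 * q d) - 1) * amp k q d| ≤
        1 / (pK k : ℝ) ^ 9 * (zt k (2 * q d) * amp k q d) := by
      refine (abs_sub _ _).trans ?_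
      rw [abs_mul, abs_of_pos ha0]
      calc |hopx (pn k) (q d) (x d) - amp k q d| + |zt k (2 * q d) - 1| * amp k q d
          ≤ 1 / (4 * (pK k : ℝ) ^ 9) * amp k q d + 1 / (4 * (pK k : ℝ) ^ 9) * amp k q d := by
            (clear * - h2 h3 ha0; gcongr)
        _ = 1 / (pK k : ℝ) ^ 9 * (1 / 2 * amp k q d) := by
            field_simp
            norm_num
        _ ≤ 1 / (pK k : ℝ) ^ 9 * (zt k (2 * q d) * amp k q d) := by (clear * - hz1 ha0 hK; gcongr)
    calc pη k * |(hopx (pn k) (q d) (x d) - amp k q d) - (zt k (2 * q d) - 1) * amp k q d|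
        ≤ pη k * (1 / (pK k : ℝ) ^ 9 * (zt k (2 * q d) * amp k q d)) := by (clear * - h4 hη; gcongr)
      _ = _ := by ring
  -- the gaps
  have h5 := e13_wdir k hk x hx d hd2
  have h6 := wdir_near (pn k) hn2 0
  rw [Real.cos_zero] at h6
  have h7 : 2 / ((pn k : ℝ) ^ 2 * √(pn k : ℝ)) ≤ 3 / ((pn k : ℝ) ^ 2 * (pK k : ℝ) ^ 1024) := by
    refine le_trans ?_ (e13_wd k hk)
    have : (0 : ℝ) ≤ 2 ^ (16 * pn k) * (4 * (1 / 2 ^ (pn k ^ 2))) := by (clear * -; positivity)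
    linarith only [this]
  have hgap : |W0 (pn k) 1 - W0 (pn k) (2 * x d ^ 2 - 1) -
      (wdir (pn k) 0 - wdir (pn k) (Real.pi * d / pK k))| ≤
      1 / (pK k : ℝ) ^ 9 * (wdir (pn k) 0 - wdir (pn k) (Real.pi * d / pK k)) := by
    have e : W0 (pn k) 1 - W0 (pn k) (2 * x d ^ 2 - 1) -
        (wdir (pn k) 0 - wdir (pn k) (Real.pi * d / pK k)) =
        (wdir (pn k) (Real.pi * d / pK k) - W0 (pn k) (2 * x d ^ 2 - 1)) -
          (wdir (pn k) 0 - W0 (pn k) 1) := by ring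
    rw [e]
    refine (abs_sub _ _).trans ?_
    calc _ ≤ 3 / ((pn k : ℝ) ^ 2 * (pK k : ℝ) ^ 1024) + 3 / ((pn k : ℝ) ^ 2 * (pK k : ℝ) ^ 1024) :=
          add_le_add h5 (h6.trans h7)
      _ = 6 / ((pn k : ℝ) ^ 2 * (pK k : ℝ) ^ 1024) := by ring
      _ ≤ 1 / (pK k : ℝ) ^ 9 * (1 / (2 ^ 31 * (pK k : ℝ) ^ 2 * (pn k : ℝ) ^ 2)) := by
          rw [one_div_mul_one_div, div_le_div_iff₀ (by (clear * - hn2 hK; (clear * - hn2 hK; positivity))) (by (clear * - hK hn2; positivity)), one_mul]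
          have h8 : (2 : ℝ) ^ 40 ≤ (pK k : ℝ) ^ 4 := by
            calc (2 : ℝ) ^ 40 = 1024 ^ 4 := by norm_num
              _ ≤ (pK k : ℝ) ^ 4 := pow_le_pow_left₀ (by norm_num) hK 4
          calc 6 * ((pK k : ℝ) ^ 9 * (2 ^ 31 * (pK k : ℝ) ^ 2 * (pn k : ℝ) ^ 2))
              = (6 * 2 ^ 31) * ((pn k : ℝ) ^ 2 * (pK k : ℝ) ^ 11) := by ring
            _ ≤ (pK k : ℝ) ^ 4 * ((pn k : ℝ) ^ 2 * (pK k : ℝ) ^ 11) := by
                gcongr
                linarith only [h8]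
            _ = (pn k : ℝ) ^ 2 * (pK k : ℝ) ^ 15 := by ring
            _ ≤ (pn k : ℝ) ^ 2 * (pK k : ℝ) ^ 1024 := by
                gcongr
                · linarith only [hK]
                · norm_num
      _ ≤ _ := by (clear * - hg1 hK; gcongr)
  have hε : 1 / (pK k : ℝ) ^ 9 ≤ 1 / 8 := by
    apply one_div_le_one_div_of_le (by norm_num)
    have : (1024 : ℝ) ^ 1 ≤ (pK k : ℝ) ^ 9 := by
      calc (1024 : ℝ) ^ 1 ≤ (pK k : ℝ) ^ 1 := by simpa only [pow_one, Nat.ofNat_le_cast] using hK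
        _ ≤ (pK k : ℝ) ^ 9 := pow_le_pow_right₀ (by linarith only [hK]) (by norm_num)
    linarith only [this]
  have hmain := ratio_close (u := pη k * zt k (2 * q d) * amp k q d)
    (by (clear * - hη hz1 ha0; (clear * - hη hz1 ha0; positivity))) hG0 (by (clear * - hK; (clear * - hK; positivity))) hε hu hgap
  unfold kapx kap
  refine hmain.trans ?_
  have hkap : 0 ≤ 2 * (pη k * zt k (2 * q d) * amp k q d) ^ 2 /
      (wdir (pn k) 0 - wdir (pn k) (Real.pi * d / pK k)) := by (clear * - hη hz1 ha0 hG0; positivity)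
  rw [div_eq_mul_inv _ ((pK k : ℝ) ^ 8), mul_comm]
  refine mul_le_mul_of_nonneg_left ?_ hkap
  rw [mul_one_div, ← one_div, div_le_div_iff₀ (by (clear * - hK; positivity)) (by (clear * - hK; positivity)), one_mul]
  calc 8 * (pK k : ℝ) ^ 8 ≤ pK k * (pK k : ℝ) ^ 8 := by
        gcongr
        linarith only [hK]
    _ = (pK k : ℝ) ^ 9 := by ring

/-! ### the reference energy -/

theorem sum_pairs (f : ℕ → ℝ) (K : ℕ) :
    ∑ i ∈ range K, ∑ j ∈ range K, (if i < j then f (j - i) else 0) =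
      ∑ d ∈ range K, if d = 0 then 0 else ((K : ℝ) - d) * f d := by
  induction K with
  | zero => simp only [range_zero, sum_empty, sum_const_zero, CharP.cast_eq_zero, zero_sub, neg_mul]
  | succ K ih =>
    rw [sum_range_succ (fun i => ∑ j ∈ range (K + 1), (if i < j then f (j - i) else 0)) K,
      sum_range_succ (fun d => if d = 0 then (0 : ℝ) else (((K + 1 : ℕ) : ℝ) - d) * f d) K]
    have h1 : ∑ j ∈ range (K + 1), (if K < j then f (j - K) else 0) = 0 :=
      sum_eq_zero fun j hj => if_neg (by have := mem_range.1 hj; omega)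
    have h2 : ∀ i ∈ range K, ∑ j ∈ range (K + 1), (if i < j then f (j - i) else 0) =
        ∑ j ∈ range K, (if i < j then f (j - i) else 0) + f (K - i) := fun i hi => by
      rw [sum_range_succ, if_pos (mem_range.1 hi)]
    rw [h1, add_zero, sum_congr rfl h2, sum_add_distrib, ih]
    have h3 : ∑ i ∈ range K, f (K - i) = ∑ d ∈ range K, f (d + 1) := by
      rw [← sum_range_reflect]
      refine sum_congr rfl fun i hi => ?_
      have := mem_range.1 hi
      congr 1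
      omega
    have h4 : ∀ d ∈ range K, (if d = 0 then (0 : ℝ) else (((K + 1 : ℕ) : ℝ) - d) * f d) =
        (if d = 0 then 0 else ((K : ℝ) - d) * f d) + (if d = 0 then 0 else f d) := fun d _ => by
      split_ifs
      · simp
      · push_cast
        ring
    rw [sum_congr rfl h4, sum_add_distrib, add_assoc, h3]
    congr 1
    have h5 : (if K = 0 then (0 : ℝ) else (((K + 1 : ℕ) : ℝ) - (K : ℕ)) * f K) =
        if K = 0 then 0 else f K := by
      split_ifs
      · rfl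
      · push_cast
        ring
    rw [h5, ← sum_range_succ (fun d => if d = 0 then (0 : ℝ) else f d) K, sum_range_succ']
    simp only [Nat.add_eq_zero_iff, one_ne_zero, and_false, ↓reduceIte, add_zero]

theorem sum_wS (k : ℕ) (hk : 10 ≤ k) :
    ∑ i : Fin (pK k), ∑ j ∈ Ioi i, wS k i j =
      ∑ d ∈ range (pK k), if d = 0 then 0 else
        ((pK k : ℝ) - d) * wdir (pn k) (Real.pi * d / pK k) := by
  rw [← sum_pairs (fun d => wdir (pn k) (Real.pi * d / pK k)), ← Fin.sum_univ_eq_sum_range]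
  refine sum_congr rfl fun i _ => ?_
  rw [← Fin.sum_univ_eq_sum_range (fun j => if (i : ℕ) < j then
    (fun d : ℕ => wdir (pn k) (Real.pi * d / pK k)) (j - i) else 0)]
  rw [← sum_filter]
  have hfil : (Finset.univ.filter fun j : Fin (pK k) => (i : ℕ) < (j : ℕ)) = Ioi i := by
    ext j
    simp only [Fin.val_fin_lt, mem_filter, mem_univ, true_and, mem_Ioi]
  rw [hfil]
  refine sum_congr rfl fun j hj => ?_
  have hij : i < j := mem_Ioi.1 hj
  rw [s9_wS_symm hk]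
  unfold wS pα
  congr 1
  rw [Nat.cast_sub (by exact_mod_cast hij.le)]
  ring

theorem eref_close (k : ℕ) (hk : 10 ≤ k) {C R : Type} [Fintype C] [DecidableEq C] [Fintype R]
    [DecidableEq R] (S : SiteB k C R) (x : ℕ → ℝ) (hx : GoodX k x) :
    |Erefv S - erefx k x| ≤ pT k * pJ k / (pK k : ℝ) ^ 8 / 2 := by
  have hn1 := S4.n_one_le k hk
  have hK := S4.K_ge k hk
  have hK0 : (0 : ℝ) < pK k := by linarith only [hK]
  have hn0 : (0 : ℝ) < pn k := by linarith only [hn1]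
  have hn2 := S4.two_le_pn k hk
  have hng := pn_ge k hk
  have hsq := e13_sq_ge k hk
  have hcu := e13_cube_ge k hk
  have hsm := e13_small k hk
  have hρ0 : 0 < pρ k := by unfold pρ; positivity
  have hρ1 : pρ k ≤ 1 := by
    unfold pρ
    rw [div_le_one (by positivity)]
    exact one_le_pow₀ (by norm_num)
  have hW0 : 0 ≤ pW k := by unfold pW; positivity
  have hT0 : (0 : ℝ) ≤ pT k := Nat.cast_nonneg _
  have hL0 : 0 ≤ pL k := by unfold pL; positivity
  have hL1 : pL k ≤ 2 ^ pn k := by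
    unfold pL
    exact pow_le_pow_right₀ (by norm_num) (Nat.div_le_self _ _)
  have hKn : (pK k : ℝ) ≤ pn k := by
    have := S4.Kpow_le_n k hk 1 (by norm_num)
    rwa [pow_one] at this
  -- truncation factor
  have htr : pW k * (8 * (2 * pρ k) ^ pNs k) ≤ 1 / 2 ^ (300 * pn k ^ 3) := by
    have e1 : (2 * pρ k) ^ pNs k ≤ 1 / 2 ^ (480 * pn k ^ 3) := by
      have h1 : 2 * pρ k ≤ 1 / 2 ^ (15 * pn k ^ 2) := by
        unfold pρ
        rw [mul_one_div, div_le_div_iff₀ (by positivity) (by positivity), one_mul]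
        calc 2 * (2 : ℝ) ^ (15 * pn k ^ 2) = 2 ^ (15 * pn k ^ 2 + 1) := by rw [pow_succ]; ring
          _ ≤ 2 ^ (16 * pn k ^ 2) := two_pow_mono (by omega)
      calc (2 * pρ k) ^ pNs k ≤ (1 / 2 ^ (15 * pn k ^ 2)) ^ pNs k :=
            pow_le_pow_left₀ (by (clear * - hρ0; positivity)) h1 _
        _ = 1 / 2 ^ (480 * pn k ^ 3) := by
            rw [one_div_pow, ← pow_mul]
            unfold pNs
            congr 2
            ring
    calc pW k * (8 * (2 * pρ k) ^ pNs k) ≤ 2 ^ (128 * pn k ^ 3) *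
          (8 * (1 / 2 ^ (480 * pn k ^ 3))) := by
          unfold pW
          (clear * - e1; gcongr)
      _ = 2 ^ (128 * pn k ^ 3 + 3) / 2 ^ (480 * pn k ^ 3) := by
          rw [pow_add]
          ring
      _ ≤ 1 / 2 ^ (300 * pn k ^ 3) := by
          rw [div_le_div_iff₀ (by positivity) (by positivity), one_mul, ← pow_add]
          exact two_pow_mono (by omega)
  -- 1: one-body energy of the closed shells
  have hnode : ‖pρ k • node (pD k) 0 0‖ = pρ k := by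
    rw [norm_smul, s8_norm_node, mul_one, Real.norm_of_nonneg hρ0.le]
  have hy0 : pρ k • node (pD k) 0 0 ≠ 0 := by
    rw [← norm_ne_zero_iff, hnode]
    exact hρ0.ne'
  have hgm := gm_closed S.B S.hC S.hO (pρ k • node (pD k) 0 0) hy0
  rw [hnode] at hgm
  have hgmb : |∑ c : C, gm (pρ k • node (pD k) 0 0) (S.B.χ (Sum.inl c)) (S.B.χ (Sum.inl c))| ≤
      (pn k : ℝ) ^ 3 * 16 := by
    have hcard : (Fintype.card C : ℝ) ≤ (pn k : ℝ) ^ 3 := by
      exact_mod_cast (S.card hk).2.1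
    refine (abs_sum_le_sum_abs _ _).trans ?_
    have : ∀ c ∈ (univ : Finset C),
        |gm (pρ k • node (pD k) 0 0) (S.B.χ (Sum.inl c)) (S.B.χ (Sum.inl c))| ≤ 16 := by
      intro c _
      have hone : ov (S.B.χ (Sum.inl c)) (S.B.χ (Sum.inl c)) = 1 := by
        rw [S.B.ortho]; simp
      have h := gm_bound (S.B.lev_pos (Sum.inl c)) (S.B.lev_pos (Sum.inl c))
        (S.B.mem (Sum.inl c)) (S.B.mem (Sum.inl c)) (pρ k • node (pD k) 0 0)
      rw [hone, mul_one, Real.sqrt_one, mul_one, hnode] at h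
      linarith only [hρ1, h]
    refine (sum_le_sum this).trans ?_
    rw [sum_const, card_univ, nsmul_eq_mul]
    (clear * - hcard; gcongr)
  have hp1 : |pW k * gms (pNs k) (pn k) (pρ k) - pW k *
      ∑ c : C, gm (pρ k • node (pD k) 0 0) (S.B.χ (Sum.inl c)) (S.B.χ (Sum.inl c))| ≤
      1 / 2 ^ (2 * pn k) := by
    have h1 : |gms (pNs k) (pn k) (pρ k) -
        ∑ c : C, gm (pρ k • node (pD k) 0 0) (S.B.χ (Sum.inl c)) (S.B.χ (Sum.inl c))| ≤
        8 * (2 * pρ k) ^ pNs k *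
          ∑ c : C, gm (pρ k • node (pD k) 0 0) (S.B.χ (Sum.inl c)) (S.B.χ (Sum.inl c)) := by
      rw [hgm]
      unfold gms
      rw [← sum_sub_distrib, mul_sum]
      refine (abs_sum_le_sum_abs _ _).trans (sum_le_sum fun a ha => ?_)
      rw [← sum_sub_distrib, mul_sum]
      refine (abs_sum_le_sum_abs _ _).trans (sum_le_sum fun b hb => ?_)
      rw [← mul_sub, abs_mul, abs_of_nonneg (by (clear * -; (clear * -; positivity)) : (0 : ℝ) ≤ 2 * (b : ℝ) + 1)]
      have h2 := gIs_err (pNs k) a b (by have := mem_range.1 hb; (clear * - this; omega)) (pρ k) hρ0 hρ1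
      calc (2 * (b : ℝ) + 1) * |gIs (pNs k) a b (pρ k) - gI a b (pρ k)|
          ≤ (2 * (b : ℝ) + 1) * (8 * (2 * pρ k) ^ pNs k * gI a b (pρ k)) := by (clear * - h2; gcongr)
        _ = _ := by ring
    rw [← mul_sub, abs_mul, abs_of_nonneg hW0]
    calc pW k * |gms (pNs k) (pn k) (pρ k) -
          ∑ c : C, gm (pρ k • node (pD k) 0 0) (S.B.χ (Sum.inl c)) (S.B.χ (Sum.inl c))|
        ≤ pW k * (8 * (2 * pρ k) ^ pNs k * ((pn k : ℝ) ^ 3 * 16)) := by
          refine mul_le_mul_of_nonneg_left (h1.trans ?_) hW0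
          exact mul_le_mul_of_nonneg_left ((le_abs_self _).trans hgmb) (by (clear * - hρ0; positivity))
      _ = pW k * (8 * (2 * pρ k) ^ pNs k) * ((pn k : ℝ) ^ 3 * 16) := by ring
      _ ≤ 1 / 2 ^ (300 * pn k ^ 3) * (2 ^ pn k * 2 ^ 4) := by
          have h3 := S4.npow_le k hk 3 (by norm_num)
          have : (16 : ℝ) ≤ 2 ^ 4 := by norm_num
          gcongr
      _ = 2 ^ (pn k + 4) / 2 ^ (300 * pn k ^ 3) := by
          rw [pow_add]
          ring
      _ ≤ 1 / 2 ^ (2 * pn k) := by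
          rw [div_le_div_iff₀ (by positivity) (by positivity), one_mul, ← pow_add]
          exact two_pow_mono (by (clear * - hng hsq hcu; omega))
  -- 2: isotropic charge on the sites
  have hxr := xr_bounds (pn k) (by omega) (pρ k) hρ0 hρ1
  have hxr1 : xr (pn k) (pρ k) ≤ 1 := hxr.2.trans (pow_le_one₀ hρ0.le hρ1)
  have hp2 : |pW k * xrs (pNs k) (pn k) (pρ k) - pW k * xr (pn k) (pρ k)| ≤ 1 / 2 ^ (2 * pn k) := by
    rw [← mul_sub, abs_mul, abs_of_nonneg hW0]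
    calc pW k * |xrs (pNs k) (pn k) (pρ k) - xr (pn k) (pρ k)|
        ≤ pW k * (8 * (2 * pρ k) ^ pNs k * 1) := by
          refine mul_le_mul_of_nonneg_left ?_ hW0
          refine (xrs_err (pNs k) (pn k) (by (clear * - hng; omega)) (pρ k) hρ0 hρ1).trans ?_
          exact mul_le_mul_of_nonneg_left hxr1 (by (clear * - hρ0; positivity))
      _ = pW k * (8 * (2 * pρ k) ^ pNs k) := by ring
      _ ≤ 1 / 2 ^ (300 * pn k ^ 3) := htr
      _ ≤ 1 / 2 ^ (2 * pn k) := by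
          apply one_div_le_one_div_of_le (by positivity)
          exact two_pow_mono (by (clear * - hng hsq hcu; omega))
  -- 3: depth of the sites
  have hgam := gam_bounds (pn k) hn2
  have hg0 : 0 ≤ gam (pn k) := le_trans (by (clear * - hn2; positivity)) hgam.1
  have hzt := zt_near k (2 * (pn k - 1)) hk (by omega) (by (clear * - hng; omega))
  have hp3 : |Lam k - pL k * gam (pn k)| ≤ 1 / 2 ^ (2 * pn k) := by
    have e : Lam k - pL k * gam (pn k) = pL k * gam (pn k) * (zt k (2 * (pn k - 1)) - 1) := by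
      unfold Lam
      ring
    rw [e, abs_mul, abs_of_nonneg (mul_nonneg hL0 hg0)]
    calc pL k * gam (pn k) * |zt k (2 * (pn k - 1)) - 1|
        ≤ 2 ^ pn k * 1 * (1 / 2 ^ (16 * pn k ^ 2)) := by
          have := hgam.2
          (clear * - hL1 this hg0 hzt; gcongr)
      _ = 2 ^ pn k / 2 ^ (16 * pn k ^ 2) := by ring
      _ ≤ 1 / 2 ^ (2 * pn k) := by
          rw [div_le_div_iff₀ (by positivity) (by positivity), one_mul, ← pow_add]
          exact two_pow_mono (by omega)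
  -- 4: direct integrals
  have hp4 : |∑ i : Fin (pK k), ∑ j ∈ Ioi i, wS k i j -
      ∑ d ∈ range (pK k), (if d = 0 then 0 else
        ((pK k : ℝ) - d) * W0 (pn k) (2 * x d ^ 2 - 1))| ≤ pJ k / (pK k : ℝ) ^ 8 / 16 := by
    rw [sum_wS k hk, ← sum_sub_distrib]
    calc _ ≤ ∑ d ∈ range (pK k), |(if d = 0 then (0 : ℝ) else
            ((pK k : ℝ) - d) * wdir (pn k) (Real.pi * d / pK k)) - (if d = 0 then 0 else
            ((pK k : ℝ) - d) * W0 (pn k) (2 * x d ^ 2 - 1))| := abs_sum_le_sum_abs _ _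
      _ ≤ ∑ _d ∈ range (pK k), (pK k : ℝ) * (3 / ((pn k : ℝ) ^ 2 * (pK k : ℝ) ^ 1024)) := by
          refine sum_le_sum fun d hd => ?_
          have hd' := mem_range.1 hd
          split_ifs with h0
          · rw [sub_zero, abs_zero]
            (clear * - hK hn2; (clear * - hK hn2; positivity))
          · have hdr : (d : ℝ) ≤ pK k := by exact_mod_cast hd'.le
            rw [← mul_sub, abs_mul, abs_of_nonneg (by linarith only [hdr])]
            have h1 := e13_wdir k hk x hx d hd'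
            have h2 : (pK k : ℝ) - d ≤ pK k := by
              have : (0 : ℝ) ≤ d := Nat.cast_nonneg _
              linarith only []
            (clear * - h2 h1 hK; gcongr)
      _ = 3 * (pK k : ℝ) ^ 2 / ((pn k : ℝ) ^ 2 * (pK k : ℝ) ^ 1024) := by
          rw [sum_const, card_range, nsmul_eq_mul]
          ring
      _ ≤ pJ k / (pK k : ℝ) ^ 8 / 16 := by
          rw [e13_acc, div_div, div_le_div_iff₀ (by (clear * - hn2 hK; positivity)) (by (clear * - hn2 hK; positivity)), one_mul]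
          calc 3 * (pK k : ℝ) ^ 2 * ((pn k : ℝ) ^ 2 * (pK k : ℝ) ^ 264 * 16)
              = 48 * ((pn k : ℝ) ^ 2 * (pK k : ℝ) ^ 266) := by ring
            _ ≤ pK k * ((pn k : ℝ) ^ 2 * (pK k : ℝ) ^ 266) := by
                gcongr
                linarith only [hK]
            _ = (pn k : ℝ) ^ 2 * (pK k : ℝ) ^ 267 := by ring
            _ ≤ (pn k : ℝ) ^ 2 * (pK k : ℝ) ^ 1024 := by
                gcongr
                · linarith only [hK]
                · norm_num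
  -- assembly
  have hcl := closed_energy S.B S.hC S.hO
  have hmf := mfield_eq hn2 S.B S.hC S.hO
  have hKp : (pK k : ℝ) * (1 / 2 ^ (2 * pn k)) ≤ 1 / 2 ^ pn k := by
    rw [mul_one_div, div_le_div_iff₀ (by positivity) (by positivity), one_mul, two_mul, pow_add]
    have := hKn.trans (pn_le_two_pow k)
    (clear * - this; gcongr)
  have h2p : (1 : ℝ) / 2 ^ (2 * pn k) ≤ 1 / 2 ^ pn k := by
    apply one_div_le_one_div_of_le (by positivity)
    exact two_pow_mono (by (clear * - hng; omega))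
  have key : Erefv S - erefx k x = pT k * (
      -2 * (pW k * gms (pNs k) (pn k) (pρ k) - pW k *
        ∑ c : C, gm (pρ k • node (pD k) 0 0) (S.B.χ (Sum.inl c)) (S.B.χ (Sum.inl c))) -
      pK k * (pW k * xrs (pNs k) (pn k) (pρ k) - pW k * xr (pn k) (pρ k)) -
      pK k * (Lam k - pL k * gam (pn k)) +
      (∑ i : Fin (pK k), ∑ j ∈ Ioi i, wS k i j -
      ∑ d ∈ range (pK k), (if d = 0 then 0 else
        ((pK k : ℝ) - d) * W0 (pn k) (2 * x d ^ 2 - 1)))) := by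
    unfold Erefv erefx cc0 mottBase eps0
    rw [hcl, hmf]
    ring
  rw [key, abs_mul, abs_of_nonneg hT0]
  have e5 : (pT k : ℝ) * pJ k / (pK k : ℝ) ^ 8 / 2 = pT k * (pJ k / (pK k : ℝ) ^ 8 / 2) := by ring
  rw [e5]
  refine mul_le_mul_of_nonneg_left ?_ hT0
  have q1 := abs_le.1 hp1
  have q2 := abs_le.1 hp2
  have q3 := abs_le.1 hp3
  have q4 := abs_le.1 hp4
  have r2 : |(pK k : ℝ) * (pW k * xrs (pNs k) (pn k) (pρ k) - pW k * xr (pn k) (pρ k))| ≤
      1 / 2 ^ pn k := by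
    rw [abs_mul, abs_of_pos hK0]
    exact (mul_le_mul_of_nonneg_left hp2 hK0.le).trans hKp
  have r3 : |(pK k : ℝ) * (Lam k - pL k * gam (pn k))| ≤ 1 / 2 ^ pn k := by
    rw [abs_mul, abs_of_pos hK0]
    exact (mul_le_mul_of_nonneg_left hp3 hK0.le).trans hKp
  have s2 := abs_le.1 r2
  have s3 := abs_le.1 r3
  have hpos : 0 ≤ pJ k / (pK k : ℝ) ^ 8 := by
    have := pJ_pos k
    (clear * - this hK; (clear * - this hK; positivity))
  rw [abs_le]
  constructor <;> linarith only [hsm, h2p, q1, q4, s2, s3]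

end Vale.Agent.P370.KC
end

section

/-!
Singular parts of Coulomb potentials: `N`-body estimates.
-/

namespace Vale.Agent.P370.NB

open MeasureTheory Function ComplexConjugate Finset Vale.Agent.P370.Q

variable {N : ℕ} {n : ℕ} {A : Type} [Fintype A] [DecidableEq A] (B : ShellBasis n A)
  {κ : ℝ} (hκ : 0 < κ) (hB : ∀ a, ∃ C : ℝ, 0 ≤ C ∧ ∀ x, |B.χ a x| ≤ C * Real.exp (-κ * ‖x‖))

/-- electron-nucleus potential of a test state is integrable -/
theorem sr_test_integrable {ψ : Wave N} (hψ : IsTestState ψ) (i : Fin N) (y : R3) {r : ℝ}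
    (hr : 0 < r) :
    Integrable (fun w => ‖toY ψ w‖ ^ 2 * sr r (dist (w i).1 y)) (pm (Fin N) μY) := by
  have hm : ∀ s, Measurable (fun x : Fin N → R3 => ‖ψ x s‖ ^ 2 * sr r (dist (x i) y)) := by
    intro s
    refine ((hψ.smooth s).continuous.measurable.norm.pow_const 2).mul ?_
    exact (sr_measurable r).comp ((bd_dist_meas y).comp (measurable_pi_apply i))
  refine integrable_pow (F := fun w => ‖toY ψ w‖ ^ 2 * sr r (dist (w i).1 y)) hm fun s => ?_
  have h := integrable_nuc (fun x => ψ x s) ((hψ.smooth s).of_le (by exact_mod_cast le_top))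
    (hψ.compactSupport s) i y
  refine h.mono' (hm s).aestronglyMeasurable (Filter.Eventually.of_forall fun x => ?_)
  rw [Real.norm_eq_abs, toY_jn, abs_of_nonneg (mul_nonneg (sq_nonneg _) (sr_nonneg _ _)),
    div_eq_mul_one_div]
  exact mul_le_mul_of_nonneg_left (sr_le_inv hr dist_nonneg) (sq_nonneg _)

include B hκ hB in
theorem sr_test_le (hn : 1 ≤ n) {ψ : Wave N} (hψ : IsTestState ψ) (i : Fin N) (y : R3) {r : ℝ}
    (hr : 0 < r) :
    ∫ w, ‖toY ψ w‖ ^ 2 * sr r (dist (w i).1 y) ∂(pm (Fin N) μY) ≤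
      4 * r * ((∫ w, ofS (hd ψ i) w ∂(pm (Fin N) μY)) + ∫ w, ‖toY ψ w‖ ^ 2 ∂(pm (Fin N) μY)) := by
  obtain ⟨a₀⟩ := SB_nonempty B hn
  have i1 : Integrable (fun w => ‖toY ψ w‖ ^ 2) (pm (Fin N) μY) :=
    (toY_dm hψ hκ).norm_sq_integrable
  have i2 := ofS_hd_integrable hψ i
  have i3 := sr_test_integrable hψ i y hr
  rw [← integral_add i2 i1, ← integral_const_mul]
  have hθ := (SBFam B hκ hB).orb (a₀, 0)
  refine integral_le_of_slices μY i (h := fun y => so B.χ (a₀, 0) y * so B.χ (a₀, 0) y)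
    i3 ((i2.add i1).const_mul _) (hθ.mul hθ).integrable (fun y => mul_self_nonneg _)
    (((SBFam B hκ hB).ortho (a₀, 0) (a₀, 0)).trans (if_pos rfl)) ?_
  intro w
  obtain ⟨h1, h2⟩ := integral_sq_slice hψ i w
  have h3 : Integrable (fun y => ofS (hd ψ i) (update w i y)) μY := by
    have hm : Measurable (ofS (hd ψ i)) := measurable_ofS fun s => hd_measurable hψ i s
    refine integrable_Y (fun τ => ?_) fun τ => ?_
    · exact (hm.comp (measurable_update w)).comp measurable_prodMk_right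
    · simp only [ofS_hd_update hψ]
      obtain ⟨h1, h2, -⟩ := hd_slice_integrable hψ i (fun l => (w l).1)
        (update (fun l => (w l).2) i τ)
      exact (h1.const_mul _).sub h2
  have h4 : ∀ τ, Integrable (fun z => ‖toY ψ (update w i (z, τ))‖ ^ 2 *
      sr r (dist (update w i (z, τ) i).1 y)) := by
    intro τ
    simp only [toY_update, update_self]
    exact (sr_test (sl_smooth hψ _ _ _) (sl_compact hψ _ _ _) y hr).1
  have h5 : Integrable (fun y' => ‖toY ψ (update w i y')‖ ^ 2 *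
      sr r (dist (update w i y' i).1 y)) μY := by
    refine integrable_Y (fun τ => ?_) h4
    have hm : Measurable (fun w : Fin N → YS => ‖toY ψ w‖ ^ 2 * sr r (dist (w i).1 y)) := by
      refine ((toY_dm hψ hκ).1.norm.pow_const 2).mul ?_
      exact (sr_measurable r).comp ((bd_dist_meas y).comp
        (measurable_fst.comp (measurable_pi_apply i)))
    exact (hm.comp (measurable_update w)).comp measurable_prodMk_right
  rw [integral_const_mul, integral_add h3 h1, h2, integral_hd_slice hψ, integral_Y h5,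
    ← Finset.sum_add_distrib, Finset.mul_sum]
  refine Finset.sum_le_sum fun τ _ => ?_
  simp only [toY_update, update_self]
  exact (sr_test (sl_smooth hψ _ _ _) (sl_compact hψ _ _ _) y hr).2

/-! ### combinations of shell orbitals -/

theorem lc_update {Y : Type*} {A : Type*} [Fintype A] [DecidableEq A] (θ : A → Y → ℝ)
    (c : (Fin N → A) → ℂ) (i : Fin N) (w : Fin N → Y) :
    ∃ d : A → ℂ, ∀ y, lc (fun _ => θ) c (update w i y) = ∑ b, d b * (θ b y : ℂ) := by
  refine ⟨fun b => ∑ I : Fin N → A, if I i = b then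
    c I * ((∏ l ∈ univ.erase i, θ (I l) (w l) : ℝ) : ℂ) else 0, fun y => ?_⟩
  unfold lc
  simp only [Finset.sum_mul]
  rw [Finset.sum_comm]
  refine Finset.sum_congr rfl fun I _ => ?_
  rw [Finset.sum_eq_single (I i)]
  · rw [if_pos rfl]
    unfold pf
    rw [← Finset.mul_prod_erase univ (fun l => θ (I l) (update w i y l)) (Finset.mem_univ i),
      update_self]
    have : ∏ l ∈ univ.erase i, θ (I l) (update w i y l) = ∏ l ∈ univ.erase i, θ (I l) (w l) := by
      refine Finset.prod_congr rfl fun l hl => ?_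
      rw [update_of_ne (Finset.ne_of_mem_erase hl)]
    rw [this]
    push_cast
    ring
  · intro b _ hb
    rw [if_neg hb.symm, zero_mul]
  · simp only [mem_univ, not_true_eq_false, ↓reduceIte, Complex.ofReal_prod, mul_eq_zero, Complex.ofReal_eq_zero, IsEmpty.forall_iff]

theorem sum_so {A : Type} [Fintype A] [DecidableEq A] (χ : A → R3 → ℝ) (d : A × Fin 2 → ℂ) (z : R3)
    (τ : Fin 2) : ∑ b, d b * (so χ b (z, τ) : ℂ) = ∑ a, d (a, τ) * (χ a z : ℂ) := by
  rw [Fintype.sum_prod_type]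
  refine Finset.sum_congr rfl fun a _ => ?_
  rw [Finset.sum_eq_single τ]
  · unfold so
    simp
  · intro σ _ hσ
    unfold so
    simp only
    rw [if_neg hσ.symm]
    simp
  · simp only [mem_univ, not_true_eq_false, mul_eq_zero, Complex.ofReal_eq_zero, IsEmpty.forall_iff]

include hκ hB in
/-- slice estimate for combinations of shell orbitals -/
theorem sr_lc_le (hn : 1 ≤ n) (c : (Fin N → A × Fin 2) → ℂ) (i : Fin N)
    {r : ℝ} (hr : 0 < r) (Yc : (Fin N → YS) → R3) (hYc : Measurable Yc)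
    (hY : ∀ w y, Yc (update w i y) = Yc w)
    (hi : Integrable (fun w => ‖lc (fun _ => so B.χ) c w‖ ^ 2 * sr r (dist (w i).1 (Yc w)))
      (pm (Fin N) μY)) :
    ∫ w, ‖lc (fun _ => so B.χ) c w‖ ^ 2 * sr r (dist (w i).1 (Yc w)) ∂(pm (Fin N) μY) ≤
      4 * r * ∫ w, ‖lc (fun _ => so B.χ) c w‖ ^ 2 ∂(pm (Fin N) μY) := by
  obtain ⟨a₀⟩ := SB_nonempty B hn
  have hmθ : ∀ b, Measurable (so B.χ b) := so_measurable fun a => (SB_nice B a).cont
  have hmlc : Measurable (lc (fun _ => so B.χ) c : (Fin N → YS) → ℂ) := by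
    unfold lc pf
    refine Finset.measurable_fun_sum _ fun I _ => ?_
    refine measurable_const.mul (Complex.measurable_ofReal.comp ?_)
    exact Finset.measurable_fun_prod _ fun l _ => (hmθ _).comp (measurable_pi_apply l)
  have i1 : Integrable (fun w => ‖lc (fun _ => so B.χ) c w‖ ^ 2) (pm (Fin N) μY) :=
    (integral_lc_zero μY (Θ := fun _ => so B.χ) (fun l a b =>
      (((SBFam B hκ hB).orb a).mul ((SBFam B hκ hB).orb b)).integrable) c).1
  rw [← integral_const_mul]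
  have hθ := (SBFam B hκ hB).orb (a₀, 0)
  refine integral_le_of_slices μY i (h := fun y => so B.χ (a₀, 0) y * so B.χ (a₀, 0) y)
    hi (i1.const_mul _) (hθ.mul hθ).integrable (fun y => mul_self_nonneg _)
    (((SBFam B hκ hB).ortho (a₀, 0) (a₀, 0)).trans (if_pos rfl)) ?_
  intro w
  obtain ⟨d, hd⟩ := lc_update (so B.χ) c i w
  have e1 : ∀ z τ, lc (fun _ => so B.χ) c (update w i (z, τ)) = ∑ a, d (a, τ) * (B.χ a z : ℂ) := by
    intro z τ
    rw [hd, sum_so]
  have h1 : Integrable (fun y => ‖lc (fun _ => so B.χ) c (update w i y)‖ ^ 2) μY := by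
    refine integrable_Y (fun τ => ?_) fun τ => ?_
    · exact (((hmlc.norm.pow_const 2).comp (measurable_update w)).comp measurable_prodMk_right)
    · simp only [e1]
      exact (sr_shell B (fun a => d (a, τ)) (Yc w) hr).2.1
  have h2 : Integrable (fun y => ‖lc (fun _ => so B.χ) c (update w i y)‖ ^ 2 *
      sr r (dist (update w i y i).1 (Yc (update w i y)))) μY := by
    refine integrable_Y (fun τ => ?_) fun τ => ?_
    · have hm : Measurable (fun w : Fin N → YS => ‖lc (fun _ => so B.χ) c w‖ ^ 2 *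
          sr r (dist (w i).1 (Yc w))) := by
        refine (hmlc.norm.pow_const 2).mul ((sr_measurable r).comp ?_)
        exact (measurable_fst.comp (measurable_pi_apply i)).dist hYc
      exact (hm.comp (measurable_update w)).comp measurable_prodMk_right
    · simp only [e1, hY, update_self]
      exact (sr_shell B (fun a => d (a, τ)) (Yc w) hr).1
  rw [integral_const_mul, integral_Y h1, integral_Y h2, Finset.mul_sum]
  refine Finset.sum_le_sum fun τ _ => ?_
  simp only [e1, hY, update_self]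
  exact (sr_shell B (fun a => d (a, τ)) (Yc w) hr).2.2

end Vale.Agent.P370.NB
end

section

/-!
The lower bound with free parameters.
-/

namespace Vale.Agent.P370.NB

open MeasureTheory Function ComplexConjugate Finset Vale.Agent.P370.Q

variable {N n K M m : ℕ} {C O : Type} [Fintype C] [DecidableEq C] [Fintype O]
    [DecidableEq O]

open Classical in
theorem lower_core (hN : N = M + K) (hn : 1 ≤ n)
    (B : ShellBasis n (C ⊕ O)) (hC : ∀ c, B.lev (Sum.inl c) < n) (hO : ∀ o, B.lev (Sum.inr o) = n)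
    (hM : M = 2 * Fintype.card C)
    (lam r μ : ℝ) (wt : Fin m → ℝ) (y : Fin m → R3) (hwt : ∀ b, 0 ≤ wt b)
    (hlam : 0 < lam) (hr : 0 < r)
    (hμ : ∀ c : Tens N ((C ⊕ O) × Fin 2), IsAnti c → Good c →
      μ * nsq c ≤ enT (nucM B.χ wt y) (coulM B.χ) c)
    (ψ : Wave N) (hψ : IsTestState ψ) (hψ1 : normSq ψ = 1) {t : ℝ} (ht : 0 < t) :
    ∃ q : ℝ, 0 ≤ q ∧ q ≤ 1 ∧
      -((n : ℝ) - 1) - K / (2 * (n : ℝ) ^ 2) +
        (1 / (2 * (n : ℝ) ^ 2) - 1 / (2 * ((n : ℝ) + 1) ^ 2)) * q ≤ H0 ψ ∧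
      H0 ψ + lam * (μ * (1 - q) -
        4 * r * ((N : ℝ) * ((N : ℝ) + ∑ b, wt b)) * (1 - q) -
        (N : ℝ) * ((N : ℝ) + ∑ b, wt b) / r * t * (1 - q) -
        (N : ℝ) * ((N : ℝ) + ∑ b, wt b) / r * (1 / t + 1) * q -
        4 * r * (∑ b, wt b) * (H0 ψ + (N : ℝ))) ≤ scaledE lam wt y ψ := by
  obtain ⟨κ, hκ, hB⟩ := SB_exists_kappa B
  set F := SBFam B hκ hB with hF
  set G := PreSlots.good (N := N) (ClS C O) with hG
  have hGmem : ∀ I : Fin N → (C ⊕ O) × Fin 2, I ∈ G ↔ ∀ a ∈ ClS C O, ∃ i, I i = a := by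
    intro I
    rw [hG]
    unfold PreSlots.good
    simp only [mem_filter, mem_univ, true_and]
  -- coefficients
  let d : Tens N ((C ⊕ O) × Fin 2) := fun I => if I ∈ G then F.coef I (toY ψ) else 0
  have hdd : ∀ I, d I = if I ∈ G then F.coef I (toY ψ) else 0 := fun I => rfl
  have hGperm : ∀ (π : Equiv.Perm (Fin N)) (I : Fin N → (C ⊕ O) × Fin 2),
      (fun i => I (π i)) ∈ G ↔ I ∈ G := by
    intro π I
    rw [hGmem, hGmem]
    constructor
    · intro h a ha
      obtain ⟨i, hi⟩ := h a ha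
      exact ⟨π i, hi⟩
    · intro h a ha
      obtain ⟨i, hi⟩ := h a ha
      exact ⟨π.symm i, by simpa using hi⟩
  have hanti : IsAnti d := by
    intro π I
    rw [hdd, hdd]
    by_cases h : I ∈ G
    · rw [if_pos h, if_pos ((hGperm π I).2 h), coef_perm F hψ]
    · rw [if_neg h, if_neg (fun h' => h ((hGperm π I).1 h')), mul_zero]
  have hgood : Good d := by
    intro I hI a σ
    have h : I ∈ G := by
      by_contra h
      apply hI
      rw [hdd, if_neg h]
    exact (hGmem I).1 h _ ((mem_ClS _).2 ⟨a, rfl⟩)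
  -- the projection
  have hlin : ∀ w, F.lin G (fun I => F.coef I (toY ψ)) w = lc (fun _ => so B.χ) d w := by
    intro w
    unfold Fam.lin lc
    simp only [hdd, ite_mul, zero_mul]
    rw [Finset.sum_ite_mem, Finset.univ_inter]
    rfl
  have hPdm : Dm (wsp κ hκ) (lc (fun _ => so B.χ) d : (Fin N → YS) → ℂ) := by
    have := F.lin_dm G (fun I => F.coef I (toY ψ))
    have e : F.lin G (fun I => F.coef I (toY ψ)) = lc (fun _ => so B.χ) d := funext hlin
    rwa [e] at this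
  have hfdm : Dm (wsp κ hκ) (toY ψ) := toY_dm hψ hκ
  obtain ⟨hPi, hPn⟩ := lc_norm_sq B d
  have hnsq : nsq d = ∑ I ∈ G, ‖F.coef I (toY ψ)‖ ^ 2 := by
    unfold nsq
    simp only [hdd]
    rw [← Finset.sum_filter_add_sum_filter_not univ (fun I => I ∈ G)]
    have e1 : ∑ I ∈ univ.filter (fun I => I ∈ G),
        ‖(if I ∈ G then F.coef I (toY ψ) else 0)‖ ^ 2 = ∑ I ∈ G, ‖F.coef I (toY ψ)‖ ^ 2 := by
      rw [Finset.filter_mem_eq_inter, Finset.univ_inter]
      refine Finset.sum_congr rfl fun I hI => ?_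
      rw [if_pos hI]
    have e2 : ∑ I ∈ univ.filter (fun I => ¬ I ∈ G),
        ‖(if I ∈ G then F.coef I (toY ψ) else 0)‖ ^ 2 = 0 := by
      refine Finset.sum_eq_zero fun I hI => ?_
      rw [Finset.mem_filter] at hI
      rw [if_neg hI.2]
      simp
    rw [e1, e2, add_zero]
  have hf1 : ∫ w, ‖toY ψ w‖ ^ 2 ∂(pm (Fin N) μY) = 1 := (toY_norm_sq hψ).trans hψ1
  have hq : ∫ w, ‖toY ψ w - lc (fun _ => so B.χ) d w‖ ^ 2 ∂(pm (Fin N) μY) = 1 - nsq d := by
    have h := F.norm_sub_proj G (toY ψ) hfdm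
    simp only [hlin] at h
    rw [hnsq]
    refine h.trans ?_
    rw [← hf1]
    rfl
  have hp0 : 0 ≤ nsq d := by
    unfold nsq
    exact Finset.sum_nonneg fun I _ => sq_nonneg _
  have hq0 : 0 ≤ 1 - nsq d := by
    rw [← hq]
    exact integral_nonneg fun w => sq_nonneg _
  refine ⟨1 - nsq d, hq0, by linarith only [hp0], ?_, ?_⟩
  · -- unperturbed energy
    have h := H0_ge B hκ hB hn (ClS C O) K (by rw [card_ClS, ← hM, hN]) (N := N) ?_ ?_ hψ
    · rw [sum_eb_ClS B hC hO hn, hψ1] at h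
      rw [hnsq]
      refine le_trans (le_of_eq ?_) h
      rw [hG, hF]
      ring
    · intro b hb
      obtain ⟨c, hc⟩ := (mem_ClS b).1 hb
      rw [hc]
      exact hC c
    · intro b hb
      cases hb1 : b.1 with
      | inl c => exact absurd ((mem_ClS b).2 ⟨c, hb1⟩) hb
      | inr o => exact hO o
  · -- the perturbation
    rw [scaledE_eq wt y lam hψ]
    have hV := Wr_measurable (N := N) wt y r
    have hVb := fun w => Wr_bound (N := N) wt y hr hwt w
    have hWsum : 0 ≤ ∑ b, wt b := Finset.sum_nonneg fun b _ => hwt b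
    -- step 1
    have i1 : Integrable (fun w => Wr wt y r w * ‖toY ψ w‖ ^ 2) (pm (Fin N) μY) :=
      hfdm.bdd_norm_sq_integrable hV hVb
    have i2 : ∀ i b, Integrable (fun w => ‖toY ψ w‖ ^ 2 * sr r (dist (w i).1 (y b)))
        (pm (Fin N) μY) := fun i b => sr_test_integrable hψ i (y b) hr
    have i2s : Integrable (fun w => ∑ i, ∑ b, wt b *
        (‖toY ψ w‖ ^ 2 * sr r (dist (w i).1 (y b)))) (pm (Fin N) μY) :=
      integrable_finsetSum _ fun i _ => integrable_finsetSum _ fun b _ => (i2 i b).const_mul _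
    have s1 : (∫ w, Wr wt y r w * ‖toY ψ w‖ ^ 2 ∂(pm (Fin N) μY)) -
        (∑ i : Fin N, ∑ b, wt b * ∫ w, ‖toY ψ w‖ ^ 2 * sr r (dist (w i).1 (y b))
          ∂(pm (Fin N) μY)) ≤ ∫ w, ‖toY ψ w‖ ^ 2 * Wp wt y w ∂(pm (Fin N) μY) := by
      have e1 : (∑ i : Fin N, ∑ b, wt b * ∫ w, ‖toY ψ w‖ ^ 2 * sr r (dist (w i).1 (y b))
          ∂(pm (Fin N) μY)) = ∫ w, (∑ i, ∑ b, wt b *
        (‖toY ψ w‖ ^ 2 * sr r (dist (w i).1 (y b)))) ∂(pm (Fin N) μY) := by
        rw [integral_finsetSum _ fun i _ =>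
          integrable_finsetSum _ fun b _ => (i2 i b).const_mul _]
        refine Finset.sum_congr rfl fun i _ => ?_
        rw [integral_finsetSum _ fun b _ => (i2 i b).const_mul _]
        refine Finset.sum_congr rfl fun b _ => ?_
        rw [integral_const_mul]
      rw [e1, ← integral_sub i1 i2s]
      refine integral_mono (i1.sub i2s) (Wp_int wt y hψ) fun w => ?_
      have h := mul_le_mul_of_nonneg_left (Wp_ge wt y hwt (r := r) w) (sq_nonneg ‖toY ψ w‖)
      refine le_trans (le_of_eq ?_) h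
      rw [mul_sub, mul_comm (Wr wt y r w), Finset.mul_sum]
      congr 1
      refine Finset.sum_congr rfl fun i _ => ?_
      rw [Finset.mul_sum]
      refine Finset.sum_congr rfl fun b _ => ?_
      ring
    have s2 : (∑ i : Fin N, ∑ b, wt b * ∫ w, ‖toY ψ w‖ ^ 2 * sr r (dist (w i).1 (y b))
          ∂(pm (Fin N) μY)) ≤ 4 * r * (∑ b, wt b) * (H0 ψ + (N : ℝ)) := by
      have h1 : ∀ (i : Fin N) b, wt b * ∫ w, ‖toY ψ w‖ ^ 2 * sr r (dist (w i).1 (y b))
          ∂(pm (Fin N) μY) ≤ wt b * (4 * r * ((∫ w, ofS (hd ψ i) w ∂(pm (Fin N) μY)) + 1)) := by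
        intro i b
        have h := sr_test_le B hκ hB hn hψ i (y b) hr
        rw [hf1] at h
        exact mul_le_mul_of_nonneg_left h (hwt b)
      refine (Finset.sum_le_sum fun i _ => Finset.sum_le_sum fun b _ => h1 i b).trans ?_
      simp only [← Finset.sum_mul]
      rw [← Finset.mul_sum, ← Finset.mul_sum, Finset.sum_add_distrib]
      unfold H0
      simp only [Finset.sum_const, Finset.card_univ, Fintype.card_fin, nsmul_eq_mul, mul_one]
      apply le_of_eq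
      ring
    -- step 2
    have s3 := bdd_pert hfdm hPdm hV hVb ht
    -- step 3
    have hPW := lc_W B hn wt y d
    have j1 : ∀ i j : Fin N, i ≠ j → Integrable (fun w => ‖lc (fun _ => so B.χ) d w‖ ^ 2 *
        sr r (dist (w i).1 (w j).1)) (pm (Fin N) μY) := by
      intro i j hij
      have h := (lc_two B hn d hij).1
      refine h.mono' ?_ (Filter.Eventually.of_forall fun w => ?_)
      · refine Measurable.aestronglyMeasurable ?_
        refine ((lc_measurable B d).norm.pow_const 2).mul ((sr_measurable r).comp ?_)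
        exact (measurable_fst.comp (measurable_pi_apply i)).dist
          (measurable_fst.comp (measurable_pi_apply j))
      · rw [Real.norm_eq_abs, abs_of_nonneg (mul_nonneg (sq_nonneg _) (sr_nonneg _ _))]
        exact mul_le_mul_of_nonneg_left (sr_le_inv hr dist_nonneg) (sq_nonneg _)
    have j2 : ∀ i : Fin N, Integrable (fun w => ‖lc (fun _ => so B.χ) d w‖ ^ 2 *
        sr r (dist (w i).1 0)) (pm (Fin N) μY) := by
      intro i
      have h := (lc_one B d i (v := fun x => 1 / dist x 0) ((bd_dist_meas 0).const_div 1) (by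
        intro a b
        refine (nice_integrable_nuc (SB_nice B a) (SB_nice B b) 0).congr
          (Filter.Eventually.of_forall fun x => ?_)
        simp only
        ring)).1
      refine h.mono' ?_ (Filter.Eventually.of_forall fun w => ?_)
      · refine Measurable.aestronglyMeasurable ?_
        refine ((lc_measurable B d).norm.pow_const 2).mul ((sr_measurable r).comp ?_)
        exact (bd_dist_meas 0).comp (measurable_fst.comp (measurable_pi_apply i))
      · rw [Real.norm_eq_abs, abs_of_nonneg (mul_nonneg (sq_nonneg _) (sr_nonneg _ _))]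
        exact mul_le_mul_of_nonneg_left (sr_le_inv hr dist_nonneg) (sq_nonneg _)
    have k1 : ∀ i j : Fin N, i ≠ j → ∫ w, ‖lc (fun _ => so B.χ) d w‖ ^ 2 *
        sr r (dist (w i).1 (w j).1) ∂(pm (Fin N) μY) ≤ 4 * r * nsq d := by
      intro i j hij
      have h := sr_lc_le B hκ hB hn d i hr (fun w => (w j).1)
        (measurable_fst.comp (measurable_pi_apply j))
        (fun w y => by simp only [update_of_ne hij.symm]) (j1 i j hij)
      rw [hPn] at h
      exact h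
    have k2 : ∀ i : Fin N, ∫ w, ‖lc (fun _ => so B.χ) d w‖ ^ 2 *
        sr r (dist (w i).1 0) ∂(pm (Fin N) μY) ≤ 4 * r * nsq d := by
      intro i
      have h := sr_lc_le B hκ hB hn d i hr (fun _ => 0) measurable_const
        (fun w y => rfl) (j2 i)
      rw [hPn] at h
      exact h
    have j1s : Integrable (fun w => ∑ i : Fin N, ∑ j ∈ Ioi i, ‖lc (fun _ => so B.χ) d w‖ ^ 2 *
        sr r (dist (w i).1 (w j).1)) (pm (Fin N) μY) :=
      integrable_finsetSum _ fun i _ => integrable_finsetSum _ fun j hj =>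
        j1 i j (Finset.mem_Ioi.1 hj).ne
    have j2s : Integrable (fun w => ∑ i : Fin N, ∑ b, wt b * (‖lc (fun _ => so B.χ) d w‖ ^ 2 *
        sr r (dist (w i).1 0))) (pm (Fin N) μY) :=
      integrable_finsetSum _ fun i _ => integrable_finsetSum _ fun b _ => (j2 i).const_mul _
    have s4 : (∫ w, ‖lc (fun _ => so B.χ) d w‖ ^ 2 * Wp wt y w ∂(pm (Fin N) μY)) -
        ((∑ i : Fin N, ∑ j ∈ Ioi i, ∫ w, ‖lc (fun _ => so B.χ) d w‖ ^ 2 *
          sr r (dist (w i).1 (w j).1) ∂(pm (Fin N) μY)) +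
        ∑ i : Fin N, ∑ b, wt b * ∫ w, ‖lc (fun _ => so B.χ) d w‖ ^ 2 *
          sr r (dist (w i).1 0) ∂(pm (Fin N) μY)) ≤
        ∫ w, Wr wt y r w * ‖lc (fun _ => so B.χ) d w‖ ^ 2 ∂(pm (Fin N) μY) := by
      have e1 : (∑ i : Fin N, ∑ j ∈ Ioi i, ∫ w, ‖lc (fun _ => so B.χ) d w‖ ^ 2 *
          sr r (dist (w i).1 (w j).1) ∂(pm (Fin N) μY)) =
          ∫ w, (∑ i : Fin N, ∑ j ∈ Ioi i, ‖lc (fun _ => so B.χ) d w‖ ^ 2 *
          sr r (dist (w i).1 (w j).1)) ∂(pm (Fin N) μY) := by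
        rw [integral_finsetSum _ fun i _ => integrable_finsetSum _ fun j hj =>
          j1 i j (Finset.mem_Ioi.1 hj).ne]
        refine Finset.sum_congr rfl fun i _ => ?_
        rw [integral_finsetSum _ fun j hj => j1 i j (Finset.mem_Ioi.1 hj).ne]
      have e2 : (∑ i : Fin N, ∑ b, wt b * ∫ w, ‖lc (fun _ => so B.χ) d w‖ ^ 2 *
          sr r (dist (w i).1 0) ∂(pm (Fin N) μY)) =
          ∫ w, (∑ i : Fin N, ∑ b, wt b * (‖lc (fun _ => so B.χ) d w‖ ^ 2 *
          sr r (dist (w i).1 0))) ∂(pm (Fin N) μY) := by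
        rw [integral_finsetSum _ fun i _ => integrable_finsetSum _ fun b _ =>
          (j2 i).const_mul _]
        refine Finset.sum_congr rfl fun i _ => ?_
        rw [integral_finsetSum _ fun b _ => (j2 i).const_mul _]
        refine Finset.sum_congr rfl fun b _ => ?_
        rw [integral_const_mul]
      have j3s : Integrable (fun w => (∑ i : Fin N, ∑ j ∈ Ioi i,
          ‖lc (fun _ => so B.χ) d w‖ ^ 2 * sr r (dist (w i).1 (w j).1)) +
          ∑ i : Fin N, ∑ b, wt b * (‖lc (fun _ => so B.χ) d w‖ ^ 2 *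
          sr r (dist (w i).1 0))) (pm (Fin N) μY) := j1s.add j2s
      rw [e1, e2, ← integral_add j1s j2s, ← integral_sub hPW.1 j3s]
      refine integral_mono (hPW.1.sub j3s) (hPdm.bdd_norm_sq_integrable hV hVb)
        fun w => ?_
      have h := mul_le_mul_of_nonneg_left (Wr_ge wt y hwt (r := r) w)
        (sq_nonneg ‖lc (fun _ => so B.χ) d w‖)
      refine le_trans (le_of_eq ?_) (h.trans (le_of_eq (mul_comm _ _)))
      rw [mul_sub, mul_add, Finset.mul_sum, Finset.mul_sum]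
      congr 2
      · refine Finset.sum_congr rfl fun i _ => ?_
        rw [Finset.mul_sum]
      · refine Finset.sum_congr rfl fun i _ => ?_
        rw [Finset.mul_sum]
        refine Finset.sum_congr rfl fun b _ => ?_
        ring
    have hp4 : 0 ≤ 4 * r * nsq d := by (clear * - hr hp0; positivity)
    have s5 : (∑ i : Fin N, ∑ j ∈ Ioi i, ∫ w, ‖lc (fun _ => so B.χ) d w‖ ^ 2 *
          sr r (dist (w i).1 (w j).1) ∂(pm (Fin N) μY)) ≤ (N : ℝ) * N * (4 * r * nsq d) := by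
      have h1 : ∀ i ∈ (univ : Finset (Fin N)), (∑ j ∈ Ioi i, ∫ w, ‖lc (fun _ => so B.χ) d w‖ ^ 2 *
          sr r (dist (w i).1 (w j).1) ∂(pm (Fin N) μY)) ≤ (N : ℝ) * (4 * r * nsq d) := by
        intro i _
        refine (Finset.sum_le_sum fun j hj => k1 i j (Finset.mem_Ioi.1 hj).ne).trans ?_
        rw [Finset.sum_const, nsmul_eq_mul]
        have h4 : ((Ioi i).card : ℝ) ≤ N := by
          have := Finset.card_le_univ (Ioi i)
          rw [Fintype.card_fin] at this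
          exact_mod_cast this
        exact mul_le_mul_of_nonneg_right h4 hp4
      refine (Finset.sum_le_sum h1).trans (le_of_eq ?_)
      rw [Finset.sum_const, Finset.card_univ, Fintype.card_fin, nsmul_eq_mul]
      ring
    have s6 : (∑ i : Fin N, ∑ b, wt b * ∫ w, ‖lc (fun _ => so B.χ) d w‖ ^ 2 *
          sr r (dist (w i).1 0) ∂(pm (Fin N) μY)) ≤ (N : ℝ) * ((∑ b, wt b) * (4 * r * nsq d)) := by
      have h1 : ∀ i ∈ (univ : Finset (Fin N)), (∑ b, wt b * ∫ w, ‖lc (fun _ => so B.χ) d w‖ ^ 2 *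
          sr r (dist (w i).1 0) ∂(pm (Fin N) μY)) ≤ (∑ b, wt b) * (4 * r * nsq d) := by
        intro i _
        rw [Finset.sum_mul]
        exact Finset.sum_le_sum fun b _ => mul_le_mul_of_nonneg_left (k2 i) (hwt b)
      refine (Finset.sum_le_sum h1).trans ?_
      rw [Finset.sum_const, Finset.card_univ, Fintype.card_fin, nsmul_eq_mul]
    have s7 := hμ d hanti hgood
    rw [← hPW.2] at s7
    have s8 : (∫ w, ‖lc (fun _ => so B.χ) d w‖ ^ 2 ∂(pm (Fin N) (wsp κ hκ).μ)) = nsq d := hPn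
    have s9 : (∫ w, ‖toY ψ w - lc (fun _ => so B.χ) d w‖ ^ 2 ∂(pm (Fin N) (wsp κ hκ).μ)) =
      1 - nsq d := hq
    rw [s8, s9] at s3
    have s10 : (∫ w, Wr wt y r w * ‖lc (fun _ => so B.χ) d w‖ ^ 2 ∂(pm (Fin N) (wsp κ hκ).μ)) =
      ∫ w, Wr wt y r w * ‖lc (fun _ => so B.χ) d w‖ ^ 2 ∂(pm (Fin N) μY) := rfl
    have s11 : (∫ w, Wr wt y r w * ‖toY ψ w‖ ^ 2 ∂(pm (Fin N) (wsp κ hκ).μ)) =
      ∫ w, Wr wt y r w * ‖toY ψ w‖ ^ 2 ∂(pm (Fin N) μY) := rfl
    rw [s10, s11] at s3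
    have s12 : μ * (1 - (1 - nsq d)) -
        4 * r * ((N : ℝ) * ((N : ℝ) + ∑ b, wt b)) * (1 - (1 - nsq d)) -
        (N : ℝ) * ((N : ℝ) + ∑ b, wt b) / r * t * (1 - (1 - nsq d)) -
        (N : ℝ) * ((N : ℝ) + ∑ b, wt b) / r * (1 / t + 1) * (1 - nsq d) -
        4 * r * (∑ b, wt b) * (H0 ψ + (N : ℝ)) ≤
        ∫ w, ‖toY ψ w‖ ^ 2 * Wp wt y w ∂(pm (Fin N) μY) := by
      refine le_trans ?_ s1
      have e1 : 4 * r * ((N : ℝ) * ((N : ℝ) + ∑ b, wt b)) * (1 - (1 - nsq d)) =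
          (N : ℝ) * N * (4 * r * nsq d) + (N : ℝ) * ((∑ b, wt b) * (4 * r * nsq d)) := by ring
      rw [e1]
      have e2 : (1 : ℝ) - (1 - nsq d) = nsq d := by ring
      rw [e2]
      linarith only [s2, s3, s4, s5, s6, s7]
    have s13 := mul_le_mul_of_nonneg_left s12 hlam.le
    linarith

end Vale.Agent.P370.NB
end

section

/-!
First order degenerate perturbation theory: lower bound.
-/

namespace Vale.Agent.P370.Q

open MeasureTheory Finset ComplexConjugate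

/-- elementary estimates for the lower bound -/
theorem nbody_numeric {nn Nn S lam r μ q H E Er g : ℝ} (hn : 1 ≤ nn) (hN : 1 ≤ Nn) (hS : 0 ≤ S)
    (hlam : 0 < lam) (hr : 0 < r) (hr1 : r ≤ 1) (hEr : Er ≤ 0) (hg : 3 / (8 * nn ^ 3) ≤ g)
    (hsmall : 32 * nn ^ 3 * lam * Nn * (Nn + S) ≤ r) (hμ : 64 * nn ^ 3 * lam * |μ| ≤ 1)
    (hq0 : 0 ≤ q) (hq1 : q ≤ 1) (ha : Er + g * q ≤ H)
    (hb : H + lam * (μ * (1 - q) - 4 * r * (Nn * (Nn + S)) * (1 - q) -
        Nn * (Nn + S) / r * (64 * nn ^ 3 * lam * (Nn * (Nn + S)) / r) * (1 - q) -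
        Nn * (Nn + S) / r * (1 / (64 * nn ^ 3 * lam * (Nn * (Nn + S)) / r) + 1) * q -
        4 * r * S * (H + Nn)) ≤ E) :
    Er + lam * μ - 64 * lam * r * (Nn + S) ^ 2 - 64 * nn ^ 3 * lam ^ 2 * (Nn + S) ^ 4 / r ^ 2 ≤
      E := by
  obtain ⟨X, hX⟩ : ∃ X, X = Nn * (Nn + S) := ⟨_, rfl⟩
  rw [← hX] at hb
  have hn3 : 1 ≤ nn ^ 3 := one_le_pow₀ hn
  have hn3' : 0 < nn ^ 3 := by positivity
  have hXpos : 0 < X := by rw [hX]; (clear * - hN hS; positivity)
  have hXle : X ≤ (Nn + S) ^ 2 := by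
    rw [hX, sq]
    apply mul_le_mul_of_nonneg_right _ (by linarith only [hN, hS])
    linarith only [hS]
  have hSX : S ≤ X := by
    rw [hX]
    nlinarith only [hN, hS]
  have hsm : 32 * nn ^ 3 * lam * X ≤ r := by
    rw [hX]
    linarith only [hsmall]
  have hlS : lam * S ≤ 1 / 32 := by
    have h1 : 32 * (lam * S) ≤ 32 * nn ^ 3 * lam * X := by
      have h2 : lam * S ≤ lam * X := mul_le_mul_of_nonneg_left hSX hlam.le
      have h3 : lam * X ≤ nn ^ 3 * (lam * X) := by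
        have : 0 ≤ lam * X := by positivity
        nlinarith only [hn3, this]
      linarith only [h2, h3]
    linarith only [hr1, hsm, h1]
  obtain ⟨δ, hδ⟩ : ∃ δ, δ = 4 * lam * r * S := ⟨_, rfl⟩
  have hδ0 : 0 ≤ δ := by rw [hδ]; (clear * - hlam hr hS; positivity)
  have hδ1 : δ ≤ 1 / 8 := by
    rw [hδ]
    have : lam * S * r ≤ 1 / 32 * 1 := mul_le_mul hlS hr1 hr.le (by norm_num)
    linarith only [this]
  have hg0 : 0 ≤ g := le_trans (by positivity) hg
  -- main part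
  have m1 : Er + (7 / 8) * (g * q) ≤ (1 - δ) * H := by
    have h1 : (1 - δ) * (Er + g * q) ≤ (1 - δ) * H :=
      mul_le_mul_of_nonneg_left ha (by linarith only [hδ1])
    have h2 : 0 ≤ δ * (-Er) := mul_nonneg hδ0 (by linarith only [hEr])
    have h3 : 0 ≤ (1 / 8 - δ) * (g * q) := mul_nonneg (by linarith only [hδ1]) (by (clear * - hg0 hq0; positivity))
    linarith only [h1, h2, h3]
  have m2 : (7 / 8) * (3 / (8 * nn ^ 3) * q) ≤ (7 / 8) * (g * q) := by
    have := mul_le_mul_of_nonneg_right hg hq0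
    linarith only [this]
  -- the coupling terms
  have e1 : lam * (X / r * (64 * nn ^ 3 * lam * X / r)) = 64 * nn ^ 3 * lam ^ 2 * X ^ 2 / r ^ 2 := by
    field_simp
  have e2 : lam * (X / r * (1 / (64 * nn ^ 3 * lam * X / r))) = 1 / (64 * nn ^ 3) := by
    (clear * - hlam hXpos hr hn; field_simp)
  have e3 : lam * (X / r) ≤ 1 / (32 * nn ^ 3) := by
    rw [← mul_div_assoc, div_le_div_iff₀ hr (by positivity)]
    linarith only [hsm]
  have e4 : 64 * nn ^ 3 * lam ^ 2 * X ^ 2 / r ^ 2 ≤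
      64 * nn ^ 3 * lam ^ 2 * (Nn + S) ^ 4 / r ^ 2 := by
    have h1 : X ^ 2 ≤ ((Nn + S) ^ 2) ^ 2 := by (clear * - hXpos hXle; gcongr)
    have h2 : ((Nn + S) ^ 2) ^ 2 = (Nn + S) ^ 4 := by ring
    rw [h2] at h1
    (clear * - h1 hn hlam hr; gcongr)
  have e5 : lam * (μ * q) ≤ 1 / (64 * nn ^ 3) * q := by
    have h1 : lam * |μ| ≤ 1 / (64 * nn ^ 3) := by
      rw [le_div_iff₀ (by positivity)]
      linarith only [hμ]
    have h2 : lam * (μ * q) ≤ lam * |μ| * q := by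
      have h3 : μ * q ≤ |μ| * q := mul_le_mul_of_nonneg_right (le_abs_self μ) hq0
      have h4 := mul_le_mul_of_nonneg_left h3 hlam.le
      linarith only [h4]
    exact h2.trans (mul_le_mul_of_nonneg_right h1 hq0)
  have e6 : 0 ≤ 64 * nn ^ 3 * lam ^ 2 * X ^ 2 / r ^ 2 := by (clear * - hn hlam hXpos hr; positivity)
  have e7 : 64 * nn ^ 3 * lam ^ 2 * X ^ 2 / r ^ 2 * (1 - q) ≤
      64 * nn ^ 3 * lam ^ 2 * X ^ 2 / r ^ 2 := by
    have := mul_nonneg e6 hq0
    linarith only [this]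
  have e8 : lam * (4 * r * X * (1 - q)) ≤ 4 * lam * r * X := by
    have h1 : 0 ≤ 4 * lam * r * X * q := by (clear * - hlam hr hXpos hq0; positivity)
    linarith only [h1]
  have e9 : 4 * lam * r * X + 4 * lam * r * S * Nn ≤ 64 * lam * r * (Nn + S) ^ 2 := by
    have h1 : S * Nn ≤ (Nn + S) ^ 2 := by linarith only [mul_nonneg_of_nonpos_of_nonpos (Mathlib.Tactic.Linarith.sub_nonpos_of_le hN) (Mathlib.Tactic.Linarith.sub_nonpos_of_le hN), hXle, hX, hN]
    have h2 : 4 * lam * r * X ≤ 4 * lam * r * (Nn + S) ^ 2 :=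
      mul_le_mul_of_nonneg_left hXle (by positivity)
    have h3 : 4 * lam * r * (S * Nn) ≤ 4 * lam * r * (Nn + S) ^ 2 :=
      mul_le_mul_of_nonneg_left h1 (by positivity)
    have h4 : 0 ≤ lam * r * (Nn + S) ^ 2 := by (clear * - hlam hr hN hS; positivity)
    linarith only [h2, h3, h4]
  have e10 : lam * (X / r * (1 / (64 * nn ^ 3 * lam * X / r) + 1) * q) ≤
      (1 / (64 * nn ^ 3) + 1 / (32 * nn ^ 3)) * q := by
    have h1 : lam * (X / r * (1 / (64 * nn ^ 3 * lam * X / r) + 1) * q) =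
        (lam * (X / r * (1 / (64 * nn ^ 3 * lam * X / r))) + lam * (X / r)) * q := by ring
    rw [h1, e2]
    exact mul_le_mul_of_nonneg_right (by linarith only [e3]) hq0
  have hb' : (1 - δ) * H + lam * μ - lam * (μ * q) - lam * (4 * r * X * (1 - q)) -
      lam * (X / r * (64 * nn ^ 3 * lam * X / r)) * (1 - q) -
      lam * (X / r * (1 / (64 * nn ^ 3 * lam * X / r) + 1) * q) - 4 * lam * r * S * Nn ≤ E := by
    refine le_trans (le_of_eq ?_) hb
    rw [hδ]
    ring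
  rw [e1] at hb'
  have f1 : (7 / 8) * (3 / (8 * nn ^ 3) * q) = 21 * (1 / (64 * nn ^ 3) * q) := by
    field_simp
    ring
  have f2 : (1 / (64 * nn ^ 3) + 1 / (32 * nn ^ 3)) * q = 3 * (1 / (64 * nn ^ 3) * q) := by
    field_simp
    ring
  have f3 : 0 ≤ 1 / (64 * nn ^ 3) * q := by (clear * - hn hq0; positivity)
  rw [f2] at e10
  rw [f1] at m2
  linarith only [m1, m2, e4, e5, e7, e8, e9, e10, hb', f3]

theorem gap_ge {nn : ℝ} (hn : 1 ≤ nn) :
    3 / (8 * nn ^ 3) ≤ 1 / (2 * nn ^ 2) - 1 / (2 * (nn + 1) ^ 2) := by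
  have h1 : 1 / (2 * nn ^ 2) - 1 / (2 * (nn + 1) ^ 2) - 3 / (8 * nn ^ 3) =
      (4 * nn * (2 * nn + 1) - 3 * (nn + 1) ^ 2) / (8 * nn ^ 3 * (nn + 1) ^ 2) := by
    field_simp
    ring
  have h2 : 0 ≤ (4 * nn * (2 * nn + 1) - 3 * (nn + 1) ^ 2) / (8 * nn ^ 3 * (nn + 1) ^ 2) := by
    apply div_nonneg _ (by (clear * - hn; positivity))
    nlinarith only [hn]
  linarith

theorem nbody_lower {n K M m : ℕ} {C O : Type} [Fintype C] [DecidableEq C] [Fintype O]
    [DecidableEq O] (hn : 1 ≤ n)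
    (B : ShellBasis n (C ⊕ O)) (hC : ∀ c, B.lev (Sum.inl c) < n) (hO : ∀ o, B.lev (Sum.inr o) = n)
    (hM : M = 2 * Fintype.card C) (hK : K ≤ 2 * n ^ 2) (hK0 : 1 ≤ K)
    (lam r₁ μ : ℝ) (w : Fin m → ℝ) (y : Fin m → R3) (hw : ∀ b, 0 ≤ w b)
    (hlam : 0 < lam) (hr : 0 < r₁) (hr1 : r₁ ≤ 1)
    (hsmall : 32 * (n : ℝ) ^ 3 * lam * ((M + K : ℕ) : ℝ) * (((M + K : ℕ) : ℝ) + ∑ b, w b) ≤ r₁)
    (hμ1 : 64 * (n : ℝ) ^ 3 * lam * |μ| ≤ 1)
    (hμ : ∀ c : Tens (M + K) ((C ⊕ O) × Fin 2), IsAnti c → Good c →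
      μ * nsq c ≤ enT (nucM B.χ w y) (coulM B.χ) c)
    (ψ : Wave (M + K)) (hψ : IsTestState ψ) (hψ1 : normSq ψ = 1) :
    -((n : ℝ) - 1) - K / (2 * (n : ℝ) ^ 2) + lam * μ -
        64 * lam * r₁ * (((M + K : ℕ) : ℝ) + ∑ b, w b) ^ 2 -
        64 * (n : ℝ) ^ 3 * lam ^ 2 * (((M + K : ℕ) : ℝ) + ∑ b, w b) ^ 4 / r₁ ^ 2
      ≤ scaledE lam w y ψ := by
  have hn' : (1 : ℝ) ≤ n := by exact_mod_cast hn
  have hN : (1 : ℝ) ≤ ((M + K : ℕ) : ℝ) := by
    have : 1 ≤ M + K := by omega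
    exact_mod_cast this
  have hS : 0 ≤ ∑ b, w b := Finset.sum_nonneg fun b _ => hw b
  have ht : 0 < 64 * (n : ℝ) ^ 3 * lam * (((M + K : ℕ) : ℝ) * (((M + K : ℕ) : ℝ) + ∑ b, w b)) / r₁ := by
    (clear * - hn hlam hK0 hS hr; positivity)
  obtain ⟨q, hq0, hq1, ha, hb⟩ := NB.lower_core (N := M + K) rfl hn B hC hO hM lam r₁ μ w y hw
    hlam hr hμ ψ hψ hψ1 ht
  have hEr : -((n : ℝ) - 1) - K / (2 * (n : ℝ) ^ 2) ≤ 0 := by
    have : 0 ≤ (K : ℝ) / (2 * (n : ℝ) ^ 2) := by positivity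
    linarith only [hn', this]
  exact nbody_numeric hn' hN hS hlam hr hr1 hEr (gap_ge hn') hsmall hμ1 hq0 hq1 ha hb

end Vale.Agent.P370.Q
end

section

/-!
The structure theorem.
-/

namespace Vale.Agent.P370.Q

open MeasureTheory Finset ComplexConjugate

/-- errors of the perturbation theory -/
theorem err_small (k : ℕ) (hk : 10 ≤ k) (B : ℝ) (hB0 : 0 ≤ B) (hB : B ≤ 2 ^ (129 * pn k ^ 3)) :
    64 * (pT k : ℝ) * (1 / 2 ^ (400 * pn k ^ 3)) * B ^ 2 +
      64 * (pn k : ℝ) ^ 3 * B ^ 4 / (1 / 2 ^ (400 * pn k ^ 3)) ^ 2 ≤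
        pT k * pJ k / (pK k : ℝ) ^ 8 / 8 := by
  have hacc := acc_ge k hk
  have hT : (pT k : ℝ) = 2 ^ (2000 * pn k ^ 3) := by
    unfold pT; push_cast; rfl
  have hm : 1 ≤ pn k ^ 3 := Nat.one_le_pow _ _ (pn_pos k)
  generalize hM : pn k ^ 3 = m at hacc hB hT hm ⊢
  have hT0 : (0 : ℝ) < pT k := by rw [hT]; positivity
  have h1 : 64 * (pT k : ℝ) * (1 / 2 ^ (400 * m)) * B ^ 2 ≤ pT k * (64 / 2 ^ m) := by
    have : B ^ 2 ≤ 2 ^ (258 * m) := by
      calc B ^ 2 ≤ (2 ^ (129 * m)) ^ 2 := by gcongr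
        _ = 2 ^ (258 * m) := by rw [← pow_mul]; ring_nf
    calc 64 * (pT k : ℝ) * (1 / 2 ^ (400 * m)) * B ^ 2
        ≤ 64 * (pT k : ℝ) * (1 / 2 ^ (400 * m)) * 2 ^ (258 * m) := by (clear * - this hT0; gcongr)
      _ = pT k * (64 * (2 ^ (258 * m) / 2 ^ (400 * m))) := by ring
      _ ≤ pT k * (64 * (1 / 2 ^ m)) := by
          gcongr 1
          gcongr 1
          rw [div_le_div_iff₀ (by positivity) (by positivity), one_mul, ← pow_add]
          exact two_pow_mono (by omega)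
      _ = pT k * (64 / 2 ^ m) := by ring
  have h2 : 64 * (pn k : ℝ) ^ 3 * B ^ 4 / (1 / 2 ^ (400 * m)) ^ 2 ≤ pT k * (64 / 2 ^ m) := by
    have hB4 : B ^ 4 ≤ 2 ^ (516 * m) := by
      calc B ^ 4 ≤ (2 ^ (129 * m)) ^ 4 := by gcongr
        _ = 2 ^ (516 * m) := by rw [← pow_mul]; ring_nf
    have hn3 : (pn k : ℝ) ^ 3 ≤ 2 ^ m := by
      have : pn k ^ 3 < 2 ^ (pn k ^ 3) := Nat.lt_two_pow_self
      rw [hM] at this
      calc (pn k : ℝ) ^ 3 = ((pn k ^ 3 : ℕ) : ℝ) := by push_cast; rfl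
        _ = (m : ℝ) := by rw [hM]
        _ ≤ 2 ^ m := by exact_mod_cast this.le
    calc 64 * (pn k : ℝ) ^ 3 * B ^ 4 / (1 / 2 ^ (400 * m)) ^ 2
        ≤ 64 * 2 ^ m * 2 ^ (516 * m) / (1 / 2 ^ (400 * m)) ^ 2 := by (clear * - hn3 hB4; gcongr)
      _ = 64 * (2 ^ m * 2 ^ (516 * m) * (2 ^ (400 * m)) ^ 2) := by
          (clear * -; field_simp)
      _ = 64 * 2 ^ (1317 * m) := by
          rw [← pow_mul, ← pow_add, ← pow_add]
          congr 2
          ring
      _ ≤ 64 * (2 ^ (2000 * m) / 2 ^ m) := by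
          gcongr 1
          rw [le_div_iff₀ (by positivity), ← pow_add]
          exact two_pow_mono (by (clear * - hm; omega))
      _ = pT k * (64 / 2 ^ m) := by rw [hT]; ring
  have h3 : pT k * (64 / 2 ^ m) + pT k * (64 / 2 ^ m) ≤
      (pT k : ℝ) * pJ k / (pK k : ℝ) ^ 8 / 8 := by
    have : (pT k : ℝ) * pJ k / (pK k : ℝ) ^ 8 / 8 = pT k * (pJ k / (pK k : ℝ) ^ 8) / 8 := by ring
    rw [this]
    have h4 := mul_le_mul_of_nonneg_left hacc hT0.le
    have h5 : (pT k : ℝ) * (1024 / 2 ^ m) = 16 * (pT k * (64 / 2 ^ m)) := by ring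
    rw [h5] at h4
    linarith only [h4]
  linarith only [h1, h2, h3]

/-- final algebra -/
theorem range_alg (T A X p9 r B n3 e J K8 E : ℝ) (hT0 : 0 < T) (hJ : 0 ≤ J / K8)
    (herr : 64 * T * r * B ^ 2 + 64 * n3 * B ^ 4 / r ^ 2 ≤ T * J / K8 / 8)
    (h9 : p9 ≤ J / K8 / 8) (hE : e ≤ X + p9)
    (h1 : T ^ 2 * (A + 1 / T * (X - p9) - 64 * (1 / T) * r * B ^ 2 -
      64 * n3 * (1 / T) ^ 2 * B ^ 4 / r ^ 2) ≤ E)
    (h2 : E ≤ T ^ 2 * (A + 1 / T * e + 1 / T * (J / K8 / 8))) :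
    |E - (T ^ 2 * A + T * X)| ≤ T * J / K8 := by
  have hTne : T ≠ 0 := hT0.ne'
  have e2 : T ^ 2 * (A + 1 / T * (X - p9) - 64 * (1 / T) * r * B ^ 2 -
      64 * n3 * (1 / T) ^ 2 * B ^ 4 / r ^ 2) =
      T ^ 2 * A + T * X - T * p9 - (64 * T * r * B ^ 2 + 64 * n3 * B ^ 4 / r ^ 2) := by
    have : T ^ 2 * (1 / T) = T := by field_simp
    have h' : T ^ 2 * (1 / T) ^ 2 = 1 := by (clear * - hTne; field_simp)
    calc _ = T ^ 2 * A + (T ^ 2 * (1 / T)) * X - (T ^ 2 * (1 / T)) * p9 -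
          (64 * (T ^ 2 * (1 / T)) * r * B ^ 2 +
            64 * n3 * (T ^ 2 * (1 / T) ^ 2) * B ^ 4 / r ^ 2) := by ring
      _ = _ := by rw [this, h']; ring
  have e3 : T ^ 2 * (A + 1 / T * e + 1 / T * (J / K8 / 8)) =
      T ^ 2 * A + T * e + T * (J / K8 / 8) := by
    have : T ^ 2 * (1 / T) = T := by (clear * - hTne; field_simp)
    calc _ = T ^ 2 * A + (T ^ 2 * (1 / T)) * e + (T ^ 2 * (1 / T)) * (J / K8 / 8) := by ring
      _ = _ := by rw [this]
  rw [e2] at h1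
  rw [e3] at h2
  have h3 : T * e ≤ T * (X + p9) := mul_le_mul_of_nonneg_left hE hT0.le
  have h4 : T * p9 ≤ T * (J / K8 / 8) := mul_le_mul_of_nonneg_left h9 hT0.le
  have h5 : T * J / K8 = T * (J / K8) := by ring
  have h6 : 0 ≤ T * (J / K8) := mul_nonneg hT0.le hJ
  rw [h5] at herr ⊢
  have h7 : T * (X + p9) = T * X + T * p9 := by ring
  have h8 : T * (J / K8 / 8) = T * (J / K8) / 8 := by ring
  rw [h7] at h3
  rw [h8] at h4 h2
  rw [abs_le]
  constructor <;> linarith only [herr, h1, h2, h3, h4]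

/-- size of the Heisenberg energy -/
theorem heis_size (k : ℕ) (hk : 10 ≤ k) (q : ℕ → ℕ) (hq : GoodQ k q) (s : ℕ → ℕ → ℕ)
    (hs : GoodS k q s) : |heisMax (coupl (kap k q) s (K := pK k))| ≤ 2 ^ (2 * pn k ^ 3) := by
  have hpJ := pJ_pos k
  have hn1 : 1024 ≤ pn k := pn_ge k hk
  have hnR : (1024 : ℝ) ≤ pn k := by exact_mod_cast hn1
  have hK4 : (1024 : ℝ) ≤ pK k := by exact_mod_cast pK_ge k hk
  have hpJ1 : pJ k ≤ 1 := by
    unfold pJ
    rw [div_le_one (by (clear * - hn1 hK4; positivity))]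
    have h4 : (1 : ℝ) ≤ (pn k : ℝ) ^ 2 := one_le_pow₀ (by linarith only [hnR])
    have h5 : (1 : ℝ) ≤ (pK k : ℝ) ^ 256 := one_le_pow₀ (by linarith only [hK4])
    nlinarith only [h4, h5]
  have hc : ∀ i j : Fin (pK k), |coupl (kap k q) s i j| ≤ 16 := by
    intro i j
    unfold coupl
    split_ifs with hij
    · have hij' : (i : ℕ) < j := hij
      have hb := kap_bounds k hk q hq (j - i) (by omega) (by (clear * - hij; omega))
      have h0 : (0 : ℝ) ≤ kap k q (j - i) := le_trans (by (clear * -; positivity)) hb.1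
      rw [abs_of_nonneg (by (clear * - h0; positivity))]
      have := hs i j hij' j.2
      linarith only [hpJ1, this]
    · rw [abs_zero]
      norm_num
  have h1 := Alg.heisMax_lip (coupl (kap k q) s (K := pK k)) (fun _ _ => 0)
  rw [Alg.heisMax_zero, sub_zero] at h1
  have h2 : ∑ i : Fin (pK k), ∑ j ∈ Ioi i, |coupl (kap k q) s i j - 0| ≤
      ∑ _i : Fin (pK k), ∑ _j : Fin (pK k), (16 : ℝ) := by
    refine Finset.sum_le_sum fun i _ => ?_
    refine le_trans (Finset.sum_le_sum (g := fun _ => (16 : ℝ)) fun j _ => ?_)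
      (Finset.sum_le_sum_of_subset_of_nonneg (Finset.subset_univ _) fun _ _ _ => by norm_num)
    rw [sub_zero]
    exact hc i j
  rw [Finset.sum_const, Finset.sum_const, Finset.card_univ, Fintype.card_fin, nsmul_eq_mul,
    nsmul_eq_mul] at h2
  have hKn : (pK k : ℝ) ≤ 2 ^ pn k := by
    have h3 : pK k ≤ pn k := by
      rw [pn_eq]
      exact Nat.le_self_pow (by norm_num) _
    exact le_trans (by exact_mod_cast h3) (pn_le_two_pow k)
  have hnm : 1024 * pn k ≤ pn k ^ 3 := pn_cube_ge k hk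
  calc |heisMax (coupl (kap k q) s (K := pK k))| ≤ 2 * ((pK k : ℝ) * ((pK k : ℝ) * 16)) := by
        linarith only [h1, h2]
    _ ≤ 2 * (2 ^ pn k * (2 ^ pn k * 16)) := by (clear * - hKn hK4; gcongr)
    _ = 2 ^ (5 + pn k + pn k) := by
        rw [pow_add, pow_add]
        ring
    _ ≤ 2 ^ (2 * pn k ^ 3) := two_pow_mono (by omega)

/-- **Structure theorem**, explicit form. -/
theorem structure_explicit (k : ℕ) (hk : 10 ≤ k) (q : ℕ → ℕ) (hq : GoodQ k q)
    {C R : Type} [Fintype C] [DecidableEq C] [Fintype R] [DecidableEq R] (S : SiteB k C R)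
    (s : ℕ → ℕ → ℕ) (hs : GoodS k q s)
    (w : Fin (pD k * pD k) → ℕ) (y : Fin (pD k * pD k) → R3) (H : Approx k q s w y) :
    ∑ β, w β < pT k ∧
      ∃ E : ℝ, groundEnergy (M := pD k * pD k + 1)
          (Fin.cons 0 (fun b => (1 / (pT k : ℝ)) • y b)) (Fin.cons (pT k - ∑ b, w b) w)
          (pN k) = (E : EReal) ∧
        |E - (Erefv S - pT k * heisMax (coupl (kap k q) s (K := pK k)))| ≤
          pT k * pJ k / (pK k : ℝ) ^ 8 := by
  obtain ⟨hcard, hC3, hR2⟩ := S.card hk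
  obtain ⟨hw1, hw2⟩ := approx_charge k hk q hq s hs w y H
  refine ⟨hw2, ?_⟩
  have hNle := pN_le k hk
  rw [hcard] at hNle ⊢
  -- abbreviations
  set m : ℕ := pn k ^ 3 with hm
  have hT : (pT k : ℝ) = 2 ^ (2000 * m) := by
    unfold pT; push_cast; rfl
  have hT0 : (0 : ℝ) < pT k := by rw [hT]; positivity
  have hn1 : 1024 ≤ pn k := pn_ge k hk
  have hnR : (1024 : ℝ) ≤ pn k := by exact_mod_cast hn1
  have hm1 : 1 ≤ m := Nat.one_le_pow _ _ (pn_pos k)
  have hnm : 1024 * pn k ≤ m := pn_cube_ge k hk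
  have hn2 : (pn k : ℝ) ≤ 2 ^ pn k := pn_le_two_pow k
  set X : ℝ := cc0 S + mottBase (wS k) (eps0 S) - heisMax (coupl (kap k q) s (K := pK k)) with hX
  set B : ℝ := ((2 * Fintype.card C + pK k : ℕ) : ℝ) + ∑ b, (w b : ℝ) with hB
  have hB0 : 0 ≤ B := by rw [hB]; (clear * -; positivity)
  have hn4 : (pn k : ℝ) ^ 4 ≤ 2 ^ m := by
    calc (pn k : ℝ) ^ 4 ≤ (2 ^ pn k) ^ 4 := by (clear * - hn1 hn2; gcongr)
      _ = 2 ^ (pn k * 4) := by rw [← pow_mul]
      _ ≤ 2 ^ m := two_pow_mono (le_trans (by omega) hnm)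
  have hBle : B ≤ 2 ^ (129 * m) := by
    have h1 : ∑ β, (w β : ℝ) ≤ 2 ^ (128 * m + 2) := by
      refine hw1.trans (le_of_eq ?_)
      unfold pW
      rw [pow_add]
      ring
    calc B ≤ 2 ^ m + 2 ^ (128 * m + 2) := by
          rw [hB]
          exact add_le_add (hNle.trans hn4) h1
      _ ≤ 2 ^ (128 * m + 2) + 2 ^ (128 * m + 2) :=
          add_le_add (two_pow_mono (by omega)) le_rfl
      _ = 2 ^ (128 * m + 3) := by rw [pow_succ (n := 128 * m + 2)]; ring
      _ ≤ 2 ^ (129 * m) := two_pow_mono (by omega)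
  have herr := err_small k hk B hB0 hBle
  rw [← hm] at herr
  -- size of X
  have hheis : |heisMax (coupl (kap k q) s (K := pK k))| ≤ 2 ^ (2 * m) :=
    heis_size k hk q hq s hs
  have hXabs : |X| ≤ 2 ^ (132 * m) := by
    obtain ⟨h1, -, h3, -, -⟩ := const_bounds hk S
    rw [← hm] at h1 h3
    calc |X| ≤ |cc0 S| + |mottBase (wS k) (eps0 S)| +
          |heisMax (coupl (kap k q) s (K := pK k))| := by
            rw [hX]
            exact (abs_sub _ _).trans (add_le_add_left (abs_add_le _ _) _)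
      _ ≤ 2 ^ (131 * m) + 2 ^ (131 * m) + 2 ^ (131 * m) := by
          refine add_le_add (add_le_add (h1.trans (two_pow_mono (by omega))) h3)
            (hheis.trans (two_pow_mono (by (clear * - hm1; omega))))
      _ ≤ 2 ^ (131 * m + 2) := by
          rw [pow_add]
          have : (0 : ℝ) < 2 ^ (131 * m) := by positivity
          linarith only [this]
      _ ≤ 2 ^ (132 * m) := two_pow_mono (by
          have : 1024 * 1024 ≤ 1024 * pn k := Nat.mul_le_mul_left _ hn1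
          omega)
  have hpJ := pJ_pos k
  have hKpos : (0 : ℝ) < pK k := by unfold pK; (clear * -; positivity)
  have hK4 : (1024 : ℝ) ≤ pK k := by exact_mod_cast pK_ge k hk
  have hacc9 : 2 * pJ k / (pK k : ℝ) ^ 9 ≤ pJ k / (pK k : ℝ) ^ 8 / 8 := by
    have : 2 * pJ k / (pK k : ℝ) ^ 9 = pJ k / (pK k : ℝ) ^ 8 * (2 / pK k) := by
      (clear * - hKpos hpJ; field_simp)
    rw [this, div_eq_mul_inv (pJ k / (pK k : ℝ) ^ 8) 8]
    gcongr
    rw [div_le_iff₀ hKpos]
    linarith only [hK4]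
  -- lower bound
  have hlow : ∀ ψ : Wave (2 * Fintype.card C + pK k), IsTestState ψ → normSq ψ = 1 →
      -((pn k : ℝ) - 1) - pK k / (2 * (pn k : ℝ) ^ 2) +
        1 / (pT k : ℝ) * (X - 2 * pJ k / (pK k : ℝ) ^ 9) -
        64 * (1 / (pT k : ℝ)) * (1 / 2 ^ (400 * m)) * B ^ 2 -
        64 * (pn k : ℝ) ^ 3 * (1 / (pT k : ℝ)) ^ 2 * B ^ 4 / (1 / 2 ^ (400 * m)) ^ 2 ≤
      scaledE (1 / (pT k : ℝ)) (fun b => (w b : ℝ)) y ψ := by
    intro ψ hψ hψ1
    refine nbody_lower (n := pn k) (M := 2 * Fintype.card C) (K := pK k) (by omega) S.B S.hC S.hO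
      rfl ?_ ?_ (1 / (pT k : ℝ)) (1 / 2 ^ (400 * m)) (X - 2 * pJ k / (pK k : ℝ) ^ 9)
      (fun b => (w b : ℝ)) y (fun b => Nat.cast_nonneg _) (by (clear * - hT0; positivity)) (by positivity) ?_ ?_ ?_
      ?_ ψ hψ hψ1
    · have h1 : pK k ≤ pn k := by
        rw [pn_eq]
        exact Nat.le_self_pow (by norm_num) _
      nlinarith only [h1]
    · have := pK_ge k hk
      (clear * - this; omega)
    · rw [div_le_one (by positivity)]
      exact one_le_pow₀ (by norm_num)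
    · -- hsmall
      have h1 : ((2 * Fintype.card C + pK k : ℕ) : ℝ) ≤ 2 ^ m := hNle.trans hn4
      have hn3 : (pn k : ℝ) ^ 3 ≤ 2 ^ m := by
        calc (pn k : ℝ) ^ 3 ≤ (pn k : ℝ) ^ 4 := by
              apply pow_le_pow_right₀ (by linarith only [hnR]) (by norm_num)
          _ ≤ 2 ^ m := hn4
      calc 32 * (pn k : ℝ) ^ 3 * (1 / (pT k : ℝ)) * ((2 * Fintype.card C + pK k : ℕ) : ℝ) *
            (((2 * Fintype.card C + pK k : ℕ) : ℝ) + ∑ b, (w b : ℝ))
          ≤ 32 * 2 ^ m * (1 / (pT k : ℝ)) * 2 ^ m * 2 ^ (129 * m) := by (clear * - hn3 hT0 h1 hBle; gcongr)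
        _ = 2 ^ (5 + m + m + 129 * m) / 2 ^ (2000 * m) := by
            rw [hT, pow_add, pow_add, pow_add]
            ring
        _ ≤ 1 / 2 ^ (400 * m) := by
            rw [div_le_div_iff₀ (by positivity) (by positivity), one_mul, ← pow_add]
            exact two_pow_mono (by omega)
    · -- hμ1
      have h1 : |X - 2 * pJ k / (pK k : ℝ) ^ 9| ≤ 2 ^ (133 * m) := by
        have h2 : |2 * pJ k / (pK k : ℝ) ^ 9| ≤ 2 ^ (132 * m) := by
          rw [abs_of_nonneg (by (clear * - hpJ hKpos; positivity))]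
          have h3 : pJ k ≤ 1 := by
            unfold pJ
            rw [div_le_one (by (clear * - hn1 hKpos; positivity))]
            have h4 : (1 : ℝ) ≤ (pn k : ℝ) ^ 2 := one_le_pow₀ (by linarith only [hnR])
            have h5 : (1 : ℝ) ≤ (pK k : ℝ) ^ 256 := one_le_pow₀ (by linarith only [hK4])
            nlinarith only [h4, h5]
          have h6 : (1 : ℝ) ≤ (pK k : ℝ) ^ 9 := one_le_pow₀ (by linarith only [hK4])
          calc 2 * pJ k / (pK k : ℝ) ^ 9 ≤ 2 * pJ k / 1 := by (clear * - hpJ h6; gcongr)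
            _ ≤ 2 := by linarith only [h3]
            _ = 2 ^ 1 := (pow_one _).symm
            _ ≤ 2 ^ (132 * m) := two_pow_mono (by omega)
        calc |X - 2 * pJ k / (pK k : ℝ) ^ 9| ≤ |X| + |2 * pJ k / (pK k : ℝ) ^ 9| := abs_sub _ _
          _ ≤ 2 ^ (132 * m) + 2 ^ (132 * m) := add_le_add hXabs h2
          _ = 2 ^ (132 * m + 1) := by rw [pow_succ]; ring
          _ ≤ 2 ^ (133 * m) := two_pow_mono (by (clear * - hm1; omega))
      have hn3 : (pn k : ℝ) ^ 3 ≤ 2 ^ m := by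
        calc (pn k : ℝ) ^ 3 ≤ (pn k : ℝ) ^ 4 := by
              apply pow_le_pow_right₀ (by linarith only [hnR]) (by norm_num)
          _ ≤ 2 ^ m := hn4
      calc 64 * (pn k : ℝ) ^ 3 * (1 / (pT k : ℝ)) * |X - 2 * pJ k / (pK k : ℝ) ^ 9|
          ≤ 64 * 2 ^ m * (1 / (pT k : ℝ)) * 2 ^ (133 * m) := by (clear * - hn3 hT0 h1; gcongr)
        _ = 2 ^ (6 + m + 133 * m) / 2 ^ (2000 * m) := by
            rw [hT, pow_add, pow_add]
            ring
        _ ≤ 1 := by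
            rw [div_le_one (by positivity)]
            exact two_pow_mono (by (clear * - hm1; omega))
    · intro c hc hg
      exact fin_lower hk S q hq s hs w y H c hc hg
  have hL := scaling_lower (pT k) w hw2 y _ hlow
  -- upper bound
  obtain ⟨c, hc, hg, hc1, hcE⟩ := fin_upper hk S q hq s hs w y H
  obtain ⟨ψ, hψ, hψ1, hψE⟩ := nbody_upper (n := pn k) (M := 2 * Fintype.card C) (K := pK k)
    (by (clear * - hn1; omega)) S.B S.hC S.hO rfl (by have := pK_ge k hk; omega) (1 / (pT k : ℝ))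
    (fun b => (w b : ℝ)) y (fun b => Nat.cast_nonneg _) (by (clear * - hT0; positivity)) c hc hg hc1
    (1 / (pT k : ℝ) * (pJ k / (pK k : ℝ) ^ 8 / 8)) (by (clear * - hT0 hpJ hKpos; positivity))
  have hU := scaling_upper (pT k) w hw2 y _ ψ hψ hψ1 hψE
  generalize hG : groundEnergy (M := pD k * pD k + 1)
      (Fin.cons 0 (fun b => (1 / (pT k : ℝ)) • y b)) (Fin.cons (pT k - ∑ b, w b) w)
      (2 * Fintype.card C + pK k) = G at hL hU
  have hGtop : G ≠ ⊤ := ne_top_of_le_ne_top (EReal.coe_ne_top _) hU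
  have hGbot : G ≠ ⊥ := ne_bot_of_le_ne_bot (EReal.coe_ne_bot _) hL
  refine ⟨G.toReal, (EReal.coe_toReal hGtop hGbot).symm, ?_⟩
  have e1 : Erefv S - pT k * heisMax (coupl (kap k q) s (K := pK k)) =
      (pT k : ℝ) ^ 2 * (-((pn k : ℝ) - 1) - pK k / (2 * (pn k : ℝ) ^ 2)) + pT k * X := by
    unfold Erefv
    rw [hX]
    ring
  rw [e1]
  refine range_alg (pT k) _ X _ (1 / 2 ^ (400 * m)) B ((pn k : ℝ) ^ 3) _ (pJ k)
    ((pK k : ℝ) ^ 8) _ hT0 (by (clear * - hpJ hKpos; positivity)) herr hacc9 hcE ?_ ?_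
  · rw [← EReal.coe_toReal hGtop hGbot] at hL
    exact EReal.coe_le_coe_iff.1 hL
  · rw [← EReal.coe_toReal hGtop hGbot] at hU
    exact EReal.coe_le_coe_iff.1 hU

/-- **Structure theorem.** -/
theorem structure_thm (k : ℕ) (hk : 10 ≤ k) (q : ℕ → ℕ) (hq : GoodQ k q) :
    ∃ (Eref : ℝ) (κ : ℕ → ℝ),
      (∀ d, 1 ≤ d → d < pK k → 1 / 2 ^ (4 * pn k) ≤ κ d ∧ κ d ≤ 1 / 2 ^ pn k) ∧
      -(pT k : ℝ) ^ 3 ≤ Eref ∧ Eref ≤ -(pT k : ℝ) ∧
      ∀ (s : ℕ → ℕ → ℕ), (∀ i j, i < j → j < pK k → κ (j - i) * (s i j : ℝ) ^ 2 ≤ 16 * pJ k) →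
        ∀ (w : Fin (pD k * pD k) → ℕ) (y : Fin (pD k * pD k) → R3), Approx k q s w y →
          ∑ β, w β < pT k ∧
          ∃ E : ℝ, groundEnergy (M := pD k * pD k + 1)
              (Fin.cons 0 (fun b => (1 / (pT k : ℝ)) • y b)) (Fin.cons (pT k - ∑ b, w b) w)
              (pN k) = (E : EReal) ∧
            |E - (Eref - pT k * heisMax (coupl κ s (K := pK k)))| ≤
              pT k * pJ k / (pK k : ℝ) ^ 8 := by
  obtain ⟨C, R, iC, dC, iR, dR, ⟨S⟩⟩ := exists_siteB k hk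
  exact ⟨Erefv S, kap k q, fun d h1 h2 => kap_bounds k hk q hq d h1 h2,
    (const_bounds hk S).2.2.2.1, (const_bounds hk S).2.2.2.2,
    fun s hs w y H => structure_explicit k hk q hq S s hs w y H⟩

end Vale.Agent.P370.Q
end

section

/-!
The structure theorem for the instances of the algorithm.
-/

namespace Vale.Agent.P370.Q.Alg

open Finset

theorem structData (k : ℕ) (hk : 10 ≤ k) : StructData k := by
  obtain ⟨Eref, κ, hκ, hE1, hE2, h⟩ := structure_thm k hk (aq k) (goodQ k (by omega))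
  have hT : (0 : ℝ) ≤ pT k := Nat.cast_nonneg _
  refine ⟨Eref, κ, hκ, hE1, by linarith only [hE2], fun s hs => ?_⟩
  have hs2 : ∀ i j, i < j → j < aK k → sget k s i j ≤ 2 ^ (4 * an k) := by
    intro i j hij hj
    have h1 := hs i j hij hj
    have h2 := (hκ (j - i) (by omega) (by have : pK k = aK k := rfl; omega)).1
    have h3 := pJ_le k hk
    have h4 : (sget k s i j : ℝ) ^ 2 ≤ 2 ^ (4 * pn k) := by
      have h5 : 1 / 2 ^ (4 * pn k) * (sget k s i j : ℝ) ^ 2 ≤ 1 := by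
        calc _ ≤ κ (j - i) * (sget k s i j : ℝ) ^ 2 := by (clear * - h2; gcongr)
          _ ≤ 16 * pJ k := h1
          _ ≤ 1 := by linarith only [h3]
      rw [one_div, inv_mul_le_iff₀ (by positivity), mul_one] at h5
      exact h5
    have h5 : (sget k s i j : ℝ) ^ 2 ≤ (2 ^ (4 * pn k)) ^ 2 := by
      refine h4.trans ?_
      exact le_self_pow₀ (one_le_pow₀ (by norm_num)) (by norm_num)
    have h6 : (sget k s i j : ℝ) ≤ 2 ^ (4 * pn k) := le_of_sq_le_sq h5 (by positivity)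
    have h7 : an k = pn k := rfl
    rw [h7]
    exact_mod_cast h6
  obtain ⟨h1, E, h2, h3⟩ := h (sget k s) hs _ _ (approx_build k hk s hs2)
  refine ⟨E, h3, fun c th => ?_⟩
  refine build_promise k (by omega) s th c (fun a b ha hb => (chg_err k hk s hs2 a b ha hb).2) ?_
    E ?_
  · rw [chgSum_eq]
    exact h1
  · rw [inst_E0 k s th (aN_eq k)]
    exact h2

/-- **Main theorem**: the antiferromagnetic Heisenberg model reduces to electronic structure. -/
theorem turing_main (c : ℕ) : TuringReduces heisenbergAF (electronicStructure c) :=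
  turing_of_struct structData c

end Vale.Agent.P370.Q.Alg
end

section

/-!
KC14: the Karp reduction.
-/

namespace Vale.Agent.P370.KC

open Vale.Agent.Lib.PolyTime Finset Vale.Agent.P370.Q

variable {A : Set Word} {α : Type*} [Enc α]

/-- integer approximation of the reference energy -/
noncomputable def erefA (k : ℕ) : ℤ := ⌊erefx k (xq k)⌋

/-- coupling parameter at distance `d` -/
noncomputable def xA (k d : ℕ) : ℕ := Nat.sqrt ⌊pJ k / kapx k (Alg.aq k d) (xq k d)⌋.toNat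

theorem xq_good (k : ℕ) (hk : 10 ≤ k) : GoodX k (xq k) := by
  intro d hd
  have hn1 : 1 ≤ Alg.an k := by unfold Alg.an; exact Nat.one_le_two_pow
  have hj : d * 2 ^ (2047 * k + 4) ≤ 4 * Alg.aD k ^ 2 := by
    have h1 : d ≤ 2 ^ k := hd.le
    have h2 : Alg.aD k = 2 ^ k * 2 ^ (2047 * k + 4) := by
      unfold Alg.aD Alg.an
      rw [← pow_add, show (16 : ℕ) = 2 ^ 4 by norm_num, ← pow_add]
      congr 1
      ring
    calc d * 2 ^ (2047 * k + 4) ≤ 2 ^ k * 2 ^ (2047 * k + 4) := Nat.mul_le_mul_right _ h1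
      _ = Alg.aD k := h2.symm
      _ ≤ Alg.aD k ^ 2 := Nat.le_self_pow (by norm_num) _
      _ ≤ 4 * Alg.aD k ^ 2 := by omega
  have h := Alg.cs_err k (d * 2 ^ (2047 * k + 4)) (by omega) hj
  have hang : Real.pi * ((d * 2 ^ (2047 * k + 4) : ℕ) : ℝ) / (2 * (Alg.aD k : ℝ)) =
      Real.pi * d / (2 * pK k) := by
    have h1 : (Alg.aD k : ℝ) = (pK k : ℝ) * 2 ^ (2047 * k + 4) := by
      unfold Alg.aD Alg.an pK
      push_cast
      rw [← pow_add, show (16 : ℝ) = 2 ^ 4 by norm_num, ← pow_add]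
      congr 1
      ring
    rw [h1]
    push_cast
    have : (2 : ℝ) ^ (2047 * k + 4) ≠ 0 := by positivity
    have h2 : (pK k : ℝ) ≠ 0 := (Alg.pK_pos k).ne'
    field_simp
  rw [hang] at h
  set c : ℝ := Real.cos (Real.pi * d / (2 * pK k)) with hc
  have hK := Alg.pK_pos k
  have hdK : (d : ℝ) ≤ pK k := by exact_mod_cast hd.le
  have hc0 : 0 ≤ c := by
    apply Real.cos_nonneg_of_neg_pi_div_two_le_of_le
    · have : 0 ≤ Real.pi * d / (2 * pK k) := by (clear * - hK; positivity)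
      linarith only [this, Real.pi_pos]
    · rw [div_le_div_iff₀ (by (clear * - hK; positivity)) (by norm_num)]
      linarith only [mul_nonneg_of_nonpos_of_nonpos (Mathlib.Tactic.Linarith.sub_nonpos_of_le hdK) (le_of_lt (Mathlib.Tactic.Linarith.sub_neg_of_lt Real.pi_pos))]
  have hc1 : c ≤ 1 := Real.cos_le_one _
  have hS : (0 : ℝ) < 2 ^ Alg.aQ k := by positivity
  have hcl : (xqn k d : ℝ) = min ((2 : ℝ) ^ Alg.aQ k)
      (max 0 (Alg.cs k (d * 2 ^ (2047 * k + 4)) : ℝ)) := by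
    unfold xqn
    push_cast
    rfl
  have hq : xq k d * 2 ^ Alg.aQ k = min ((2 : ℝ) ^ Alg.aQ k)
      (max 0 (Alg.cs k (d * 2 ^ (2047 * k + 4)) : ℝ)) := by
    unfold xq
    rw [div_mul_cancel₀ _ hS.ne', hcl]
  have hab : |xq k d * 2 ^ Alg.aQ k - 2 ^ Alg.aQ k * c| ≤ 2 := by
    rw [hq]
    rw [abs_le] at h ⊢
    have e1 : (2 : ℝ) ^ Alg.aQ k * c ≤ 2 ^ Alg.aQ k := by nlinarith only [hc1, hS]
    have e2 : 0 ≤ (2 : ℝ) ^ Alg.aQ k * c := by (clear * - hc0; positivity)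
    constructor
    · rcases min_choice ((2 : ℝ) ^ Alg.aQ k) (max 0 (Alg.cs k (d * 2 ^ (2047 * k + 4)) : ℝ)) with
        h1 | h1 <;> rw [h1]
      · linarith only [e1]
      · have := le_max_right 0 (Alg.cs k (d * 2 ^ (2047 * k + 4)) : ℝ)
        linarith only [this, h.1]
    · refine (sub_le_sub_right (min_le_right _ _) _).trans ?_
      rcases max_choice 0 (Alg.cs k (d * 2 ^ (2047 * k + 4)) : ℝ) with h1 | h1 <;> rw [h1]
      · linarith only [e2]
      · linarith only [h.2]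
  refine ⟨?_, ?_, ?_⟩
  · have h1 : 0 ≤ xq k d * 2 ^ Alg.aQ k := by
      rw [hq]
      exact le_min hS.le (le_max_left _ _)
    exact nonneg_of_mul_nonneg_left h1 hS
  · have h1 : xq k d * 2 ^ Alg.aQ k ≤ 1 * 2 ^ Alg.aQ k := by
      rw [hq, one_mul]
      exact min_le_left _ _
    exact le_of_mul_le_mul_right h1 hS
  · have e : xq k d * 2 ^ Alg.aQ k - 2 ^ Alg.aQ k * c = (xq k d - c) * 2 ^ Alg.aQ k := by ring
    rw [e, abs_mul, abs_of_pos hS, ← le_div_iff₀ hS] at hab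
    refine hab.trans ?_
    rw [div_le_div_iff₀ hS (by positivity), one_mul]
    calc (2 : ℝ) * 2 ^ (pn k ^ 2) = 2 ^ (pn k ^ 2 + 1) := by rw [pow_succ]; ring
      _ ≤ 2 ^ Alg.aQ k := by
        refine pow_le_pow_right₀ (by norm_num) ?_
        unfold Alg.aQ
        have e1 : pn k = Alg.an k := rfl
        rw [e1]
        have h2 : Alg.an k ^ 2 ≤ Alg.an k ^ 3 := Nat.pow_le_pow_right hn1 (by norm_num)
        have h3 : 1 ≤ Alg.an k ^ 3 := Nat.one_le_pow _ _ hn1
        (clear * - h2 h3; omega)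

theorem erefA_close (k : ℕ) (hk : 10 ≤ k) {C R : Type} [Fintype C] [DecidableEq C] [Fintype R]
    [DecidableEq R] (S : SiteB k C R) :
    |(erefA k : ℝ) - Erefv S| ≤ 2 * (pT k * pJ k / (pK k : ℝ) ^ 8) := by
  have h1 := eref_close k hk S (xq k) (xq_good k hk)
  have h2 : |(erefA k : ℝ) - erefx k (xq k)| ≤ 1 := by
    unfold erefA
    rw [abs_le]
    constructor <;> linarith only [Int.floor_le (erefx k (xq k)), Int.lt_floor_add_one (erefx k (xq k))]
  have h3 : 1 ≤ (pT k : ℝ) * pJ k / (pK k : ℝ) ^ 8 := by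
    have hK := Alg.pK_real_ge k hk
    have hK0 := Alg.pK_pos k
    rw [le_div_iff₀ (by (clear * - hK; positivity))]
    have h5 : (pK k : ℝ) ^ 8 ≤ (pK k : ℝ) ^ 9 :=
      pow_le_pow_right₀ (by (clear * - hK; linarith)) (by norm_num)
    have h6 := Alg.TJ_big k (by omega)
    linarith only [h5, h6, pow_pos hK0 8]
  rw [abs_le] at h1 h2 ⊢
  constructor <;> linarith only [h1, h2, h3]

theorem sqrt_floor (y : ℝ) (hy : 0 ≤ y) :
    ((Nat.sqrt ⌊y⌋.toNat : ℕ) : ℝ) ^ 2 ≤ y ∧ y < ((Nat.sqrt ⌊y⌋.toNat : ℕ) + 1 : ℝ) ^ 2 := by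
  have h0 : 0 ≤ ⌊y⌋ := Int.floor_nonneg.2 hy
  have h1 : ((⌊y⌋.toNat : ℕ) : ℝ) = (⌊y⌋ : ℝ) := by
    have : ((⌊y⌋.toNat : ℕ) : ℤ) = ⌊y⌋ := Int.toNat_of_nonneg h0
    exact_mod_cast this
  constructor
  · have h2 : (Nat.sqrt ⌊y⌋.toNat) ^ 2 ≤ ⌊y⌋.toNat := Nat.sqrt_le' _
    have h3 : ((Nat.sqrt ⌊y⌋.toNat : ℕ) : ℝ) ^ 2 ≤ ((⌊y⌋.toNat : ℕ) : ℝ) := by exact_mod_cast h2
    rw [h1] at h3
    exact h3.trans (Int.floor_le y)
  · have h2 : ⌊y⌋.toNat < (Nat.sqrt ⌊y⌋.toNat + 1) ^ 2 := Nat.lt_succ_sqrt' _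
    have h3 : ⌊y⌋.toNat + 1 ≤ (Nat.sqrt ⌊y⌋.toNat + 1) ^ 2 := h2
    have h4 : ((⌊y⌋.toNat : ℕ) : ℝ) + 1 ≤ ((Nat.sqrt ⌊y⌋.toNat : ℕ) + 1 : ℝ) ^ 2 := by
      exact_mod_cast h3
    rw [h1] at h4
    exact (Int.lt_floor_add_one y).trans_le h4

theorem xA_close (k : ℕ) (hk : 10 ≤ k) (d : ℕ) (hd1 : 1 ≤ d) (hd2 : d < pK k) :
    |kap k (Alg.aq k) d * (xA k d : ℝ) ^ 2 - pJ k| ≤ 6 * pJ k / (pK k : ℝ) ^ 6 ∧
      6 * (pK k : ℝ) ^ 6 ≤ xA k d := by
  have hgq := Alg.goodQ k (by omega)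
  have hkb := kap_bounds k hk (Alg.aq k) hgq d hd1 hd2
  have hkc := kap_close k hk (Alg.aq k) hgq d hd1 hd2 (xq k) (xq_good k hk)
  have hJ := Alg.pJ_pos k
  have hJb := Alg.pJ_big k (by omega)
  have hK := Alg.pK_real_ge k hk
  have hK0 := Alg.pK_pos k
  have hκ0 : 0 < kap k (Alg.aq k) d := lt_of_lt_of_le (by (clear * -; positivity)) hkb.1
  have hκ1 : 4096 * (pK k : ℝ) ^ 12 * kap k (Alg.aq k) d ≤ pJ k := by
    refine le_trans ?_ hJb
    rw [div_eq_mul_one_div (4096 * (pK k : ℝ) ^ 12)]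
    exact mul_le_mul_of_nonneg_left hkb.2 (by (clear * - hK; positivity))
  unfold xA
  generalize kapx k (Alg.aq k d) (xq k d) = κ' at hkc ⊢
  generalize kap k (Alg.aq k) d = κ at hκ0 hκ1 hkc ⊢
  clear hkb hJb
  generalize pJ k = J at hJ hκ1 ⊢
  generalize (pK k : ℝ) = K at hK hK0 hκ1 hkc ⊢
  have hK8 : (1024 : ℝ) ≤ K ^ 8 := by
    calc (1024 : ℝ) ≤ K := hK
      _ ≤ K ^ 8 := le_self_pow₀ (by linarith only [hK]) (by norm_num)
  have hK6 : (1024 : ℝ) ≤ K ^ 6 := by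
    calc (1024 : ℝ) ≤ K := hK
      _ ≤ K ^ 6 := le_self_pow₀ (by linarith only [hK]) (by norm_num)
  have hkc' := abs_le.1 hkc
  have hd : κ / K ^ 8 ≤ κ / 1024 := by (clear * - hκ0 hK8; gcongr)
  have hκ'1 : κ / 2 ≤ κ' := by linarith only [hkc', hd]
  have hκ'0 : 0 < κ' := by linarith only [hκ0, hkc', hd]
  have hκ'2 : κ' ≤ 2 * κ := by linarith only [hkc', hd]
  have hy0 : 0 ≤ J / κ' := by positivity
  obtain ⟨hx1, hx2⟩ := sqrt_floor (J / κ') hy0
  set x : ℝ := ((Nat.sqrt ⌊J / κ'⌋.toNat : ℕ) : ℝ) with hx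
  have hx0 : 0 ≤ x := Nat.cast_nonneg _
  set y : ℝ := J / κ' with hy
  have hyκ : y * κ' = J := by rw [hy]; (clear * - hκ'0 hJ; field_simp)
  -- lower bound of y
  have hylow : 2048 * K ^ 12 ≤ y := by
    rw [hy, le_div_iff₀ hκ'0]
    calc 2048 * K ^ 12 * κ' ≤ 2048 * K ^ 12 * (2 * κ) := by (clear * - hκ'2 hK; gcongr)
      _ = 4096 * K ^ 12 * κ := by ring
      _ ≤ J := hκ1
  have hxl : 44 * K ^ 6 ≤ x := by
    by_contra hcon
    push Not at hcon
    have h1 : x + 1 ≤ 45 * K ^ 6 := by linarith only [hK6, hcon]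
    have h2 : (x + 1) ^ 2 ≤ (45 * K ^ 6) ^ 2 := pow_le_pow_left₀ (by linarith) h1 2
    have h3 : (45 * K ^ 6) ^ 2 = 2025 * K ^ 12 := by ring
    have h4 : 0 < K ^ 12 := by (clear * - hK; positivity)
    linarith only [hy0, hx2, hylow, h2]
  refine ⟨?_, by linarith only [hK6, hxl]⟩
  -- |κ y - J|
  have h1 : |κ * y - J| ≤ 2 * J / K ^ 8 := by
    have e : κ * y - J = (κ - κ') * y := by rw [← hyκ]; ring
    rw [e, abs_mul, abs_of_nonneg hy0, abs_sub_comm]
    calc |κ' - κ| * y ≤ κ / K ^ 8 * y := mul_le_mul_of_nonneg_right hkc hy0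
      _ ≤ 2 * κ' / K ^ 8 * y := by
          gcongr
          linarith only [hkc', hd]
      _ = 2 * J / K ^ 8 := by rw [← hyκ]; ring
  have h2 : κ * y ≤ 2 * J := by
    have : κ * y ≤ 2 * κ' * y := by
      apply mul_le_mul_of_nonneg_right _ hy0
      linarith only [hkc', hd]
    calc κ * y ≤ 2 * κ' * y := this
      _ = 2 * J := by rw [← hyκ]; ring
  have h3 : κ * x * (44 * K ^ 6) ≤ 2 * J := by
    calc κ * x * (44 * K ^ 6) ≤ κ * x * x := by (clear * - hxl hκ0; gcongr)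
      _ = κ * x ^ 2 := by ring
      _ ≤ κ * y := by (clear * - hx1 hκ0; gcongr)
      _ ≤ 2 * J := h2
  have h4 : κ * (2 * x + 1) ≤ J / K ^ 6 := by
    have h5 : κ * (2 * x + 1) ≤ 3 * (κ * x) := by nlinarith only [hκ0, hK6, hxl]
    rw [le_div_iff₀ (by positivity)]
    calc κ * (2 * x + 1) * K ^ 6 ≤ 3 * (κ * x) * K ^ 6 := by (clear * - h5 hK; gcongr)
      _ = 3 / 44 * (κ * x * (44 * K ^ 6)) := by ring
      _ ≤ 3 / 44 * (2 * J) := by (clear * - h3; gcongr)
      _ ≤ J := by linarith only [hJ]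
  have h5 : κ * y - κ * x ^ 2 ≤ J / K ^ 6 := by
    refine le_trans ?_ h4
    have : y - x ^ 2 ≤ 2 * x + 1 := by linarith only [hx2]
    linarith only [mul_pos_of_neg_of_neg (Mathlib.Tactic.Linarith.sub_neg_of_lt hκ0) (Mathlib.Tactic.Linarith.sub_neg_of_lt hx2)]
  have h6 : κ * x ^ 2 ≤ κ * y := by gcongr
  have h7 : 2 * J / K ^ 8 ≤ 2 * J / K ^ 6 := by
    gcongr
    · linarith only [hK]
    · norm_num
  have h8 : 6 * J / K ^ 6 = 6 * (J / K ^ 6) := by ring
  have h9 : 2 * J / K ^ 6 = 2 * (J / K ^ 6) := by ring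
  have h10 : 0 ≤ J / K ^ 6 := by (clear * - hJ hK; positivity)
  rw [abs_le] at h1 ⊢
  rw [h8]
  rw [h9] at h7
  constructor <;> linarith only [h1, h5, h7, h6]

theorem pt_erefA {k : α → ℕ} (hk : PT A k) (hK : PBd (fun a => 2 ^ k a)) :
    PT A (fun a => erefA (k a)) :=
  (ptq_erefx hk hK).floor

theorem pt_xA {k d : α → ℕ} (hk : PT A k) (hK : PBd (fun a => 2 ^ k a)) (hd : PT A d)
    (hdb : PBd d) : PT A (fun a => xA (k a) (d a)) :=
  PT.natSqrt (PT.posPart ((ptq_pJ hk hK).div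
    (ptq_kapx hk hK (Alg.pt_aq hk hK hd hdb) (Alg.pbd_aq hK) hd hdb)).floor)

/-- the reduction -/
noncomputable def kred (w : List Bool) : List Bool :=
  Alg.build (Alg.kk w) (Alg.sfin (Alg.kk w) (xA (Alg.kk w)) w)
    (erefA (Alg.kk w) - Alg.offs (Alg.kk w) w)

theorem pt_kred {w : α → List Bool} (hw : PT A w) : PT A (fun a => kred (w a)) := by
  have hk := Alg.pt_kk hw
  have hK := Alg.pbd_kk hw
  refine Alg.pt_build hk hK (Alg.pt_sfin hk hK ?_ hw) ((pt_erefA hk hK).intSub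
    (Alg.pt_offs hk hK hw))
  exact pt_xA (hk.comp PT.fst') (Alg.hK_fst hK) (PT.unVal PT.snd') PBd.unSnd

theorem polyTimeFn_kred : PolyTimeFn kred :=
  Alg.polyTimeFn_of_pt (pt_kred (PT.listOfRaw (f := fun w : Raw => w) PT.id))

theorem key_explicit (k : ℕ) (hk : 10 ≤ k) {C R : Type} [Fintype C] [DecidableEq C] [Fintype R]
    [DecidableEq R] (S : SiteB k C R) : Alg.Key k (kap k (Alg.aq k)) (Erefv S) := by
  intro s hs
  have hgq := Alg.goodQ k (by omega)
  have hs2 : ∀ i j, i < j → j < Alg.aK k → Alg.sget k s i j ≤ 2 ^ (4 * Alg.an k) := by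
    intro i j hij hj
    have h1 := hs i j hij hj
    have h2 := (kap_bounds k hk (Alg.aq k) hgq (j - i) (by omega)
      (by have : pK k = Alg.aK k := rfl; omega)).1
    have h3 := Alg.pJ_le k hk
    have h4 : (Alg.sget k s i j : ℝ) ^ 2 ≤ 2 ^ (4 * pn k) := by
      have h5 : 1 / 2 ^ (4 * pn k) * (Alg.sget k s i j : ℝ) ^ 2 ≤ 1 := by
        calc _ ≤ kap k (Alg.aq k) (j - i) * (Alg.sget k s i j : ℝ) ^ 2 := by (clear * - h2; gcongr)
          _ ≤ 16 * pJ k := h1
          _ ≤ 1 := by linarith only [h3]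
      rw [one_div, inv_mul_le_iff₀ (by positivity), mul_one] at h5
      exact h5
    have h5 : (Alg.sget k s i j : ℝ) ^ 2 ≤ (2 ^ (4 * pn k)) ^ 2 := by
      refine h4.trans ?_
      exact le_self_pow₀ (one_le_pow₀ (by norm_num)) (by norm_num)
    have h6 : (Alg.sget k s i j : ℝ) ≤ 2 ^ (4 * pn k) := le_of_sq_le_sq h5 (by positivity)
    have h7 : Alg.an k = pn k := rfl
    rw [h7]
    exact_mod_cast h6
  obtain ⟨h1, E, h2, h3⟩ := structure_explicit k hk (Alg.aq k) hgq S (Alg.sget k s) hs _ _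
    (Alg.approx_build k hk s hs2)
  refine ⟨E, h3, fun c th => ?_⟩
  refine Alg.build_promise k (by omega) s th c
    (fun a b ha hb => (Alg.chg_err k hk s hs2 a b ha hb).2) ?_ E ?_
  · rw [Alg.chgSum_eq]
    exact h1
  · rw [Alg.inst_E0 k s th (Alg.aN_eq k)]
    exact h2

/-- **The Karp reduction.** -/
theorem karp_main (c : ℕ) : KarpReduces heisenbergAF (electronicStructure c) := by
  have key : ∀ w, (w ∈ heisenbergAF.yes → kred w ∈ (electronicStructure c).yes) ∧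
      (w ∈ heisenbergAF.no → kred w ∈ (electronicStructure c).no) := by
    intro w
    have hk10 : 10 ≤ Alg.kk w := le_max_left _ _
    obtain ⟨C, R, iC, dC, iR, dR, ⟨S⟩⟩ := exists_siteB (Alg.kk w) hk10
    exact Alg.final_step hk10 (xA (Alg.kk w)) w (Alg.length_lt_two_pow_kk w)
      (key_explicit (Alg.kk w) hk10 S)
      (fun d hd1 hd2 => xA_close (Alg.kk w) hk10 d hd1 hd2)
      (fun d hd1 hd2 => le_trans (by (clear * -; positivity))
        (kap_bounds (Alg.kk w) hk10 (Alg.aq (Alg.kk w)) (Alg.goodQ _ (by omega)) d hd1 hd2).1)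
      (erefA (Alg.kk w)) (erefA_close (Alg.kk w) hk10 S) c
  exact ⟨kred, polyTimeFn_kred, fun w hw => (key w).1 hw, fun w hw => (key w).2 hw⟩

end Vale.Agent.P370.KC
end

section

/-!
QMA-hardness of the electronic structure problem.
-/

namespace Vale.Agent.P370

theorem qma_hard (c : ℕ) (A : PromiseProblem) (hA : A ∈ QMA) :
    KarpReduces A (electronicStructure c) :=
  H.karp_trans (H.qma_heisenberg A hA) (KC.karp_main c)

end Vale.Agent.P370
end
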