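import Vale.Agent.P370.MathlibUsed
import Vale.Agent.P370.Bdl.B8
import Vale.Agent.P370.Bdl.B11
import Vale.Agent.P370.Bdl.B10
import Vale.Agent.P370.Bdl.B12
import Vale.Agent.P370.Bdl.B6
import Vale.Agent.P370.Bdl.B3

set_option linter.all false

section

namespace Vale.Agent.P370.Chains

open Finset

variable {n B : ℕ} {A : Fin n → Fin (n ^ 2) → ℤ}

theorem Good.two_g_le_K (hG : Good n B A) : 2 * cg B ≤ cK B := by
  unfold cg cK
  have h1 : 2 ≤ B := le_trans (by norm_num) hG.big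
  calc 2 * B ^ 200 ≤ B * B ^ 200 := Nat.mul_le_mul_right _ h1
    _ = B ^ 201 := by ring
    _ ≤ B ^ 236 := Nat.pow_le_pow_right (by omega) (by norm_num)

theorem sq_ge_of_le_abs {x y : ℝ} (hx : 0 ≤ x) (h : x ≤ |y|) : x ^ 2 ≤ y ^ 2 := by
  rw [← sq_abs y]
  exact pow_le_pow_left₀ hx h 2

theorem nat_abs_sub_ge {a b : ℕ} (h : a ≠ b) : (1 : ℝ) ≤ |(a : ℝ) - b| := by
  have h1 : (1 : ℤ) ≤ |(a : ℤ) - b| := Int.one_le_abs (by omega)
  have h2 : ((1 : ℤ) : ℝ) ≤ ((|(a : ℤ) - b| : ℤ) : ℝ) := by exact_mod_cast h1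
  simpa only [ge_iff_le, Int.cast_one, Int.cast_abs, Int.cast_sub, Int.cast_natCast] using h2

theorem sep_planar (hG : Good n B A) {a b : Site n B} (hab : a ≠ b) :
    (2 * (cg B : ℝ)) ^ 2 ≤ ((px a : ℝ) - px b) ^ 2 + ((py a : ℝ) - py b) ^ 2 := by
  have hg : (0 : ℝ) ≤ 2 * (cg B : ℝ) := by (clear * -; positivity)
  have hK : (2 * (cg B : ℝ)) ≤ (cK B : ℝ) := by exact_mod_cast hG.two_g_le_K
  have hKx : (1 : ℝ) ≤ (Kx B : ℝ) := by
    exact_mod_cast Nat.one_le_pow _ _ hG.one_le
  have hx0 := sq_nonneg ((px a : ℝ) - px b)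
  have hy0 := sq_nonneg ((py a : ℝ) - py b)
  rcases a with ⟨i, m⟩ | e <;> rcases b with ⟨i', m'⟩ | e'
  · by_cases hi : i = i'
    · subst hi
      have hm : m.val ≠ m'.val := fun h => hab (by rw [Fin.ext h])
      have h1 := nat_abs_sub_ge hm
      have h2 : ((px (Sum.inl (i, m) : Site n B) : ℝ) - px (Sum.inl (i, m') : Site n B)) =
          (2 * (cg B : ℝ)) * ((m.val : ℝ) - m'.val) := by
        simp only [px_inl, px_inr]; push_cast; ring
      have h3 : 2 * (cg B : ℝ) ≤ |((px (Sum.inl (i, m) : Site n B) : ℝ) -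
          px (Sum.inl (i, m') : Site n B))| := by
        rw [h2, abs_mul, abs_of_nonneg hg]
        linarith only [mul_nonneg_of_nonpos_of_nonpos (Mathlib.Tactic.Linarith.sub_nonpos_of_le (Mathlib.Tactic.Linarith.natCast_nonneg ℝ (Vale.Agent.P370.Chains.cg B))) (Mathlib.Tactic.Linarith.sub_nonpos_of_le h1)]
      have := sq_ge_of_le_abs hg h3
      linarith only [hy0, this]
    · have hi' : i.val ≠ i'.val := fun h => hi (Fin.ext h)
      have h1 := nat_abs_sub_ge hi'
      have h2 : ((py (Sum.inl (i, m) : Site n B) : ℝ) - py (Sum.inl (i', m') : Site n B)) =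
          (cK B : ℝ) * ((i.val : ℝ) - i'.val) := by
        simp only [py_inl, py_inr]; push_cast; ring
      have h3 : 2 * (cg B : ℝ) ≤ |((py (Sum.inl (i, m) : Site n B) : ℝ) -
          py (Sum.inl (i', m') : Site n B))| := by
        rw [h2, abs_mul, abs_of_nonneg (by (clear * -; positivity))]
        linarith only [mul_nonneg_of_nonpos_of_nonpos (Mathlib.Tactic.Linarith.sub_nonpos_of_le (Mathlib.Tactic.Linarith.natCast_nonneg ℝ (Vale.Agent.P370.Chains.cK B))) (Mathlib.Tactic.Linarith.sub_nonpos_of_le h1), hK]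
      have := sq_ge_of_le_abs hg h3
      linarith only [hx0, this]
  · have h3 : 2 * (cg B : ℝ) ≤ |((py (Sum.inl (i, m) : Site n B) : ℝ) -
          py (Sum.inr e' : Site n B))| := by
      simp only [py_inl, py_inr]
      push_cast
      rw [sub_zero, abs_of_nonneg (by (clear * -; positivity))]
      nlinarith only [hK]
    have := sq_ge_of_le_abs hg h3
    linarith only [hx0, this]
  · have h3 : 2 * (cg B : ℝ) ≤ |((py (Sum.inr e : Site n B) : ℝ) -
          py (Sum.inl (i', m') : Site n B))| := by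
      simp only [py_inl, py_inr]
      push_cast
      rw [zero_sub, abs_neg, abs_of_nonneg (by (clear * -; positivity))]
      nlinarith only [hK]
    have := sq_ge_of_le_abs hg h3
    linarith only [hx0, this]
  · have he : e.val ≠ e'.val := fun h => hab (by rw [Fin.ext h])
    have h1 := nat_abs_sub_ge he
    have h2 : ((px (Sum.inr e : Site n B) : ℝ) - px (Sum.inr e' : Site n B)) =
        (2 * (cg B : ℝ)) * ((Kx B : ℝ) * ((e.val : ℝ) - e'.val)) := by
      simp only [px_inl, px_inr]; push_cast; ring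
    have h3 : 2 * (cg B : ℝ) ≤ |((px (Sum.inr e : Site n B) : ℝ) -
        px (Sum.inr e' : Site n B))| := by
      rw [h2, abs_mul, abs_of_nonneg hg, abs_mul, abs_of_nonneg (by (clear * - hKx; positivity) : (0:ℝ) ≤ (Kx B : ℝ))]
      have h5 : (1 : ℝ) ≤ (Kx B : ℝ) * |(e.val : ℝ) - e'.val| := by linarith only [mul_nonneg_of_nonpos_of_nonpos (Mathlib.Tactic.Linarith.sub_nonpos_of_le (Mathlib.Tactic.Linarith.natCast_nonneg ℝ (Vale.Agent.P370.Chains.Kx B))) (Mathlib.Tactic.Linarith.sub_nonpos_of_le h1), hKx]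
      linarith only [mul_nonneg_of_nonpos_of_nonpos (Mathlib.Tactic.Linarith.sub_nonpos_of_le (Mathlib.Tactic.Linarith.natCast_nonneg ℝ (Vale.Agent.P370.Chains.cg B))) (Mathlib.Tactic.Linarith.sub_nonpos_of_le h5)]
    have := sq_ge_of_le_abs hg h3
    linarith only [hy0, this]

theorem cg_pos (hG : Good n B A) : (0 : ℝ) < cg B := by
  exact_mod_cast Nat.pos_of_ne_zero (fun h => by
    have := Nat.one_le_pow 200 B hG.one_le
    unfold cg at h
    omega)

theorem inv_sqrt_le {x g : ℝ} (hg : 0 < g) (h : g ^ 2 ≤ x) : 1 / √x ≤ 1 / g := by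
  have : g ≤ √x := Real.le_sqrt_of_sq_le h
  exact one_div_le_one_div_of_le hg this

theorem Wp_le (hG : Good n B A) {a b : Site n B} (hab : a ≠ b) : Wp A a b ≤ 1 / (2 * cg B) := by
  unfold Wp
  refine inv_sqrt_le (by have := cg_pos hG; (clear * - this; positivity)) ?_
  have := sep_planar hG hab
  linarith only [this, sq_nonneg ((hgt A a : ℝ) - hgt A b)]

theorem Wm_le (hG : Good n B A) {a b : Site n B} (hab : a ≠ b) : Wm A a b ≤ 1 / (2 * cg B) := by
  unfold Wm
  refine inv_sqrt_le (by have := cg_pos hG; positivity) ?_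
  have := sep_planar hG hab
  linarith only [this, sq_nonneg ((hgt A a : ℝ) + hgt A b)]

theorem hgt_le (hG : Good n B A) (a : Site n B) : hgt A a ≤ B ^ 70 := by
  rcases a with ⟨i, m⟩ | e
  · have h1 : (∑ e : Fin (n ^ 2), ((if A i e = 1 ∧ m.val = Kx B * (e.val + 1) then 1 else 0) +
        (if A i e = -1 ∧ m.val + 1 = Kx B * (e.val + 1) then 1 else 0))) ≤ n ^ 2 * 2 := by
      calc _ ≤ ∑ e : Fin (n ^ 2), 2 := by
            refine sum_le_sum (fun e _ => ?_)
            split_ifs <;> omega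
        _ = n ^ 2 * 2 := by simp only [sum_const, card_univ, Fintype.card_fin, smul_eq_mul]
    have h2 : (i.val + 1) ^ 3 ≤ B := le_trans (Nat.pow_le_pow_left (by omega) 3) hG.cube_le
    have h3 := hG.sq_le
    have h4 : 2 ^ 20 ≤ B := hG.big
    calc hgt A (Sum.inl (i, m)) = cH B + (i.val + 1) ^ 3 *
          (∑ e : Fin (n ^ 2), ((if A i e = 1 ∧ m.val = Kx B * (e.val + 1) then 1 else 0) +
        (if A i e = -1 ∧ m.val + 1 = Kx B * (e.val + 1) then 1 else 0))) := rfl
      _ ≤ B ^ 2 + B * (B * 2) := by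
          refine Nat.add_le_add le_rfl (Nat.mul_le_mul h2 (h1.trans ?_))
          (clear * - h3; omega)
      _ = 3 * B ^ 2 := by ring
      _ ≤ B * B ^ 2 := Nat.mul_le_mul_right _ (by omega)
      _ = B ^ 3 := by ring
      _ ≤ B ^ 70 := Nat.pow_le_pow_right (by omega) (by norm_num)
  · exact le_rfl

theorem card_site (n B : ℕ) : Fintype.card (Site n B) = n * CL n B + n ^ 2 := by
  simp only [Site, Fintype.card_sum, Fintype.card_prod, Fintype.card_fin, Nat.add_left_cancel_iff]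

theorem card_site_le (hG : Good n B A) : Fintype.card (Site n B) ≤ B ^ 63 := by
  rw [card_site]
  have h1 := hG.sq_le
  have h2 := hG.succ_le
  have hB := hG.one_le
  have h3 : CL n B ≤ B ^ 62 := by
    unfold CL Kx
    calc B ^ 61 * (n ^ 2 + 2) ≤ B ^ 61 * B := Nat.mul_le_mul_left _ h1
      _ = B ^ 62 := by ring
  have h4 : n ^ 2 ≤ B ^ 62 := by
    calc n ^ 2 ≤ B := by omega
      _ = B ^ 1 := by ring
      _ ≤ B ^ 62 := Nat.pow_le_pow_right hB (by norm_num)
  calc n * CL n B + n ^ 2 ≤ n * B ^ 62 + B ^ 62 := Nat.add_le_add (Nat.mul_le_mul_left _ h3) h4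
    _ = (n + 1) * B ^ 62 := by ring
    _ ≤ B * B ^ 62 := Nat.mul_le_mul_right _ h2
    _ = B ^ 63 := by ring

/-- total energy of one hole per mirror pair is tiny -/
theorem graph_energy_le (hG : Good n B A) (s : Site n B → Bool) :
    cst n B A + isingE A (fun a => sgn (s a)) ≤ 1 / (2 * (B : ℝ) ^ 70) := by
  have hB1 := hG.one_le
  have hB : (2 : ℝ) ^ 20 ≤ B := by exact_mod_cast hG.big
  have hBpos : (0 : ℝ) < B := by positivity
  have h := pairEnergy_graph A (l := 1) one_pos s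
  rw [one_div_one, one_mul] at h
  rw [← h, pairEnergy_eq]
  simp only [sum_map]
  have hterm : ∀ a b : Site n B, (if gEmb s a = gEmb s b then (0 : ℝ) else
      1 / dist (rpos A 1 (gEmb s a)) (rpos A 1 (gEmb s b))) ≤ 1 / (2 * cg B) := by
    intro a b
    have hg := cg_pos hG
    by_cases hab : a = b
    · rw [if_pos (by rw [hab])]; (clear * - hg; positivity)
    · rw [if_neg (fun h => hab ((gEmb s).injective h)), inv_dist_ne A one_pos, one_div_one, one_mul]
      change (if (gEmb s a).2 = (gEmb s b).2 then Wp A a b else Wm A a b) ≤ _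
      by_cases hs : (gEmb s a).2 = (gEmb s b).2
      · rw [if_pos hs]; exact Wp_le hG hab
      · rw [if_neg hs]; exact Wm_le hG hab
  have hsum : (∑ a : Site n B, ∑ b : Site n B, (if gEmb s a = gEmb s b then (0 : ℝ) else
      1 / dist (rpos A 1 (gEmb s a)) (rpos A 1 (gEmb s b)))) ≤
      (Fintype.card (Site n B) : ℝ) * ((Fintype.card (Site n B) : ℝ) * (1 / (2 * cg B))) := by
    calc _ ≤ ∑ a : Site n B, ∑ b : Site n B, (1 / (2 * cg B) : ℝ) :=
          sum_le_sum (fun a _ => sum_le_sum (fun b _ => hterm a b))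
      _ = _ := by simp only [one_div, mul_inv_rev, sum_const, card_univ, Fintype.card_sum, Fintype.card_prod, Fintype.card_fin, nsmul_eq_mul, Nat.cast_add, Nat.cast_mul, Nat.cast_pow]
  have hc : (Fintype.card (Site n B) : ℝ) ≤ (B : ℝ) ^ 63 := by exact_mod_cast card_site_le hG
  have hcg : (cg B : ℝ) = (B : ℝ) ^ 200 := by unfold cg; push_cast; rfl
  have hc0 : (0 : ℝ) ≤ (Fintype.card (Site n B) : ℝ) := Nat.cast_nonneg _
  calc _ ≤ (1 / 2) * ((Fintype.card (Site n B) : ℝ) *
        ((Fintype.card (Site n B) : ℝ) * (1 / (2 * cg B)))) :=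
        mul_le_mul_of_nonneg_left hsum (by (clear * -; norm_num))
    _ ≤ (1 / 2) * ((B : ℝ) ^ 63 * ((B : ℝ) ^ 63 * (1 / (2 * cg B)))) := by
        have hg := cg_pos hG
        gcongr
    _ = (1 / 4) * ((B : ℝ) ^ 126 / (B : ℝ) ^ 200) := by rw [hcg]; ring
    _ = (1 / 4) * (1 / (B : ℝ) ^ 74) := by
        congr 1
        rw [div_eq_div_iff (by positivity) (by positivity)]
        ring
    _ ≤ 1 / (2 * (B : ℝ) ^ 70) := by
        rw [div_mul_div_comm, div_le_div_iff₀ (by positivity) (by positivity)]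
        have h1 : (B : ℝ) ^ 70 ≤ (B : ℝ) ^ 74 :=
          pow_le_pow_right₀ (by exact_mod_cast hB1) (by norm_num)
        linarith only [h1, pow_pos hBpos 70]

theorem double_energy (hG : Good n B A) {l : ℝ} (hl : 0 < l) {T : Finset (Site n B × Bool)}
    {a : Site n B} (h1 : (a, true) ∈ T) (h2 : (a, false) ∈ T) :
    (1 / l) * (1 / (2 * (B : ℝ) ^ 70)) ≤ pairEnergy (rpos A l) T := by
  rw [pairEnergy_eq]
  have hnn : ∀ p q : Site n B × Bool,
      (0 : ℝ) ≤ if p = q then 0 else 1 / dist (rpos A l p) (rpos A l q) := by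
    intro p q
    split_ifs <;> (clear * -; positivity)
  have hin : ∀ p ∈ T, ∀ q ∈ T, (if p = q then (0 : ℝ) else 1 / dist (rpos A l p) (rpos A l q)) ≤
      ∑ β ∈ T, if p = β then 0 else 1 / dist (rpos A l p) (rpos A l β) := fun p _ q hq =>
    single_le_sum (f := fun β => if p = β then (0 : ℝ) else 1 / dist (rpos A l p) (rpos A l β))
      (fun β _ => hnn p β) hq
  have hne : (a, true) ≠ (a, false) := by simp
  have hpair : (∑ β ∈ T, if (a, true) = β then (0 : ℝ) else
        1 / dist (rpos A l (a, true)) (rpos A l β)) +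
      (∑ β ∈ T, if (a, false) = β then (0 : ℝ) else
        1 / dist (rpos A l (a, false)) (rpos A l β)) ≤
      ∑ α ∈ T, ∑ β ∈ T, if α = β then 0 else 1 / dist (rpos A l α) (rpos A l β) := by
    have hsub : ({(a, true), (a, false)} : Finset (Site n B × Bool)) ⊆ T := by
      intro p hp
      simp only [mem_insert, mem_singleton] at hp
      rcases hp with rfl | rfl <;> assumption
    have := sum_le_sum_of_subset_of_nonneg (f := fun α => ∑ β ∈ T, if α = β then (0 : ℝ) else
      1 / dist (rpos A l α) (rpos A l β)) hsub (fun α _ _ => sum_nonneg (fun β _ => hnn α β))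
    rwa [sum_pair hne] at this
  have e1 := hin _ h1 _ h2
  have e2 := hin _ h2 _ h1
  rw [if_neg hne, inv_dist_ne A hl] at e1
  rw [if_neg hne.symm, inv_dist_ne A hl] at e2
  simp only [Bool.true_eq_false, Bool.false_eq_true, if_false, Wm_self A hG.one_le] at e1 e2
  have h3 : (1 / (2 * (B : ℝ) ^ 70)) ≤ 1 / (2 * (hgt A a : ℝ)) := by
    have hp : (0 : ℝ) < hgt A a := by exact_mod_cast hgt_pos A hG.one_le a
    have hle : (hgt A a : ℝ) ≤ (B : ℝ) ^ 70 := by exact_mod_cast hgt_le hG a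
    (clear * - hp hle; gcongr)
  have h4 : (1 / l) * (1 / (2 * (B : ℝ) ^ 70)) ≤ (1 / l) * (1 / (2 * (hgt A a : ℝ))) :=
    mul_le_mul_of_nonneg_left h3 (by positivity)
  linarith only [hpair, e1, e2, h4]

theorem exists_graph {T : Finset (Site n B × Bool)} (hT : T.card = Fintype.card (Site n B))
    (h : ∀ a, ¬ ((a, true) ∈ T ∧ (a, false) ∈ T)) :
    ∃ s : Site n B → Bool, T = univ.map (gEmb s) := by
  classical
  refine ⟨fun a => decide ((a, true) ∈ T), ?_⟩
  have hinj : Set.InjOn Prod.fst (T : Set (Site n B × Bool)) := by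
    rintro ⟨a, s⟩ hs ⟨b, s'⟩ hs' hab
    simp only at hab
    subst hab
    rw [mem_coe] at hs hs'
    cases s <;> cases s'
    · rfl
    · exact absurd ⟨hs', hs⟩ (h a)
    · exact absurd ⟨hs, hs'⟩ (h a)
    · rfl
  have hcard : (T.image Prod.fst).card = Fintype.card (Site n B) := by
    rw [card_image_of_injOn hinj, hT]
  have huniv : T.image Prod.fst = univ := (card_eq_iff_eq_univ _).mp hcard
  symm
  apply eq_of_subset_of_card_le
  · intro p hp
    simp only [mem_map, mem_univ, true_and, gEmb_apply] at hp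
    obtain ⟨a, rfl⟩ := hp
    have ha : a ∈ T.image Prod.fst := by rw [huniv]; exact mem_univ a
    obtain ⟨⟨b, s⟩, hbs, hb⟩ := mem_image.mp ha
    simp only at hb
    subst hb
    by_cases ht : (b, true) ∈ T
    · simp [ht]
    · cases s
      · simpa [ht] using hbs
      · exact absurd hbs ht
  · rw [card_map, card_univ, hT]

theorem sgn_cases (s : Bool) : sgn s = 1 ∨ sgn s = -1 := by cases s <;> simp [sgn]

/-- lower bound for the Coulomb energy of a hole set -/
theorem holes_lower (hG : Good n B A) {l : ℝ} (hl : 0 < l) (T : Finset (Site n B × Bool))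
    (hT : T.card = Fintype.card (Site n B)) :
    ∃ t : Fin n → ℝ, (∀ i, t i = 1 ∨ t i = -1) ∧
      (1 / l) * (cst n B A + isingE A (fun a : Site n B => sg a) -
        Jst B * ∑ e, |∑ i, (A i e : ℝ) * t i| - Jst B / 8) ≤ pairEnergy (rpos A l) T := by
  have hJ : 0 ≤ Jst B := by unfold Jst; (clear * -; positivity)
  by_cases h : ∀ a, ¬ ((a, true) ∈ T ∧ (a, false) ∈ T)
  · obtain ⟨s, rfl⟩ := exists_graph hT h
    obtain ⟨t, ht, hE⟩ := chains_lower hG (fun a => sgn (s a)) (fun a => sgn_cases (s a))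
    refine ⟨t, ht, ?_⟩
    rw [pairEnergy_graph A hl]
    refine mul_le_mul_of_nonneg_left ?_ (by positivity)
    linarith only [hE]
  · push Not at h
    obtain ⟨a, h1, h2⟩ := h
    refine ⟨fun _ => 1, fun _ => Or.inl rfl, ?_⟩
    refine le_trans ?_ (double_energy hG hl h1 h2)
    refine mul_le_mul_of_nonneg_left ?_ (by positivity)
    have hsg : ∀ a : Site n B, sg a = sgn (decide (sg a = -1)) := by
      intro a
      have : sg a = 1 ∨ sg a = -1 := by
        rcases a with ⟨i, m⟩ | e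
        · exact neg_one_pow_eq_or ℝ m.val
        · left; rfl
      rcases this with h | h
      · rw [h]; norm_num [sgn]
      · rw [h]; norm_num [sgn]
    have h3 := graph_energy_le hG (fun a => decide (sg a = -1))
    simp only [← hsg] at h3
    have h4 : 0 ≤ Jst B * ∑ e : Fin (n ^ 2), |∑ i, (A i e : ℝ) * (fun _ => (1 : ℝ)) i| := by
      (clear * - hJ; positivity)
    linarith only [hJ, h3, h4]

/-- upper bound for the Coulomb energy of a suitable hole set -/
theorem holes_upper (hG : Good n B A) {l : ℝ} (hl : 0 < l)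
    (t : Fin n → ℝ) (ht : ∀ i, t i = 1 ∨ t i = -1) :
    ∃ T : Finset (Site n B × Bool), T.card = Fintype.card (Site n B) ∧
      pairEnergy (rpos A l) T ≤ (1 / l) * (cst n B A + isingE A (fun a : Site n B => sg a) -
        Jst B * ∑ e, |∑ i, (A i e : ℝ) * t i| + Jst B / 8) := by
  classical
  obtain ⟨s, hs, hE⟩ := chains_upper hG t ht
  refine ⟨univ.map (gEmb (fun a => decide (s a = -1))), by rw [card_map, card_univ], ?_⟩
  rw [pairEnergy_graph A hl]
  refine mul_le_mul_of_nonneg_left ?_ (by positivity)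
  have hsg : ∀ a : Site n B, sgn (decide (s a = -1)) = s a := by
    intro a
    rcases hs a with h | h
    · rw [h]; norm_num [sgn]
    · rw [h]; norm_num [sgn]
  simp only [hsg]
  linarith

end Vale.Agent.P370.Chains
end

section

set_option exponentiation.threshold 10000

namespace Vale.Agent.P370.Red

open Chains Finset

variable {w : List Bool} {B : ℕ}

theorem dP_pos (hG : Good (nn w) B (Am w)) {t t' : ℕ} (ht : t < NT (nn w) B)
    (ht' : t' < NT (nn w) B) (hne : t ≠ t') : 1 ≤ dP w (nn w) B t t' := by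
  obtain ⟨a, ha⟩ := (eqS (nn w) B).surjective ⟨t, ht⟩
  obtain ⟨b, hb⟩ := (eqS (nn w) B).surjective ⟨t', ht'⟩
  have ha' : (eqS (nn w) B a).val = t := congrArg Fin.val ha
  have hb' : (eqS (nn w) B b).val = t' := congrArg Fin.val hb
  have hab : a ≠ b := by
    rintro rfl
    exact hne (ha'.symm.trans hb')
  have h1 := sep_planar hG hab
  have hg := cg_pos hG
  have h2 : (0 : ℝ) < (dP w (nn w) B t t' : ℝ) := by
    unfold dP
    push_cast
    rw [cast_sq2, cast_sq2, cast_sq2, ← ha', ← hb', fX_eq, fX_eq, fY_eq, fY_eq]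
    have : 0 < (2 * (cg B : ℝ)) ^ 2 := by (clear * - hg; positivity)
    have h3 := sq_nonneg ((fH w (nn w) B (eqS (nn w) B a).val : ℝ) -
      (fH w (nn w) B (eqS (nn w) B b).val : ℝ))
    linarith only [h1, this, h3]
  exact_mod_cast h2

theorem dM_pos (hG : Good (nn w) B (Am w)) {t t' : ℕ} : 1 ≤ dM w (nn w) B t t' := by
  unfold dM
  have h1 := fH_pos w (n := nn w) hG.one_le t
  have : 1 ≤ (fH w (nn w) B t + fH w (nn w) B t') ^ 2 := Nat.one_le_pow _ _ (by omega)
  (clear * - this; omega)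

theorem cQ_pos (hG : Good (nn w) B (Am w)) : 1 ≤ cQ B := Nat.one_le_pow _ _ hG.one_le

theorem approx_A (hG : Good (nn w) B (Am w)) :
    (Asum w (nn w) B : ℝ) / cQ B ≤ slf (nn w) B (Am w) + 4 * cst (nn w) B (Am w) ∧
    slf (nn w) B (Am w) + 4 * cst (nn w) B (Am w) ≤ (Asum w (nn w) B : ℝ) / cQ B +
      (NT (nn w) B : ℝ) * (1 + (NT (nn w) B : ℝ) * 4) / cQ B := by
  have hQ := cQ_pos hG
  have hQ0 : (0 : ℝ) < cQ B := by exact_mod_cast hQ
  rw [slf_cst_eq]
  have e0 : (Asum w (nn w) B : ℝ) / cQ B = ∑ t ∈ range (NT (nn w) B),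
      ((isq (cQ B) ((2 * fH w (nn w) B t) ^ 2) : ℝ) / cQ B +
        ∑ t' ∈ range t, 2 * ((isq (cQ B) (dP w (nn w) B t t') : ℝ) / cQ B +
          (isq (cQ B) (dM w (nn w) B t t') : ℝ) / cQ B)) := by
    unfold Asum
    push_cast
    rw [sum_div]
    refine sum_congr rfl (fun t _ => ?_)
    rw [add_div, sum_div]
    congr 1
    refine sum_congr rfl (fun t' _ => ?_)
    ring
  have hH : ∀ t, 1 ≤ (2 * fH w (nn w) B t) ^ 2 := fun t =>
    Nat.one_le_pow _ _ (by have := fH_pos w (n := nn w) hG.one_le t; omega)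
  have hterm : ∀ t ∈ range (NT (nn w) B), ∀ t' ∈ range t,
      1 ≤ dP w (nn w) B t t' := by
    intro t ht t' ht'
    rw [mem_range] at ht ht'
    exact dP_pos hG ht (by omega) (by omega)
  constructor
  · rw [e0]
    refine sum_le_sum (fun t ht => ?_)
    have b1 := (isq_bounds hQ (hH t)).1
    refine add_le_add b1 (sum_le_sum (fun t' ht' => ?_))
    have b2 := (isq_bounds hQ (hterm t ht t' ht')).1
    have b3 := (isq_bounds hQ (dM_pos hG (t := t) (t' := t'))).1
    linarith only [b2, b3]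
  · rw [e0]
    have h1 : (NT (nn w) B : ℝ) * (1 + (NT (nn w) B : ℝ) * 4) / cQ B =
        ∑ t ∈ range (NT (nn w) B), (1 / (cQ B : ℝ) + ∑ t' ∈ range (NT (nn w) B),
          4 * (1 / (cQ B : ℝ))) := by
      simp only [sum_const, card_range, nsmul_eq_mul]
      ring
    rw [h1, ← sum_add_distrib]
    refine sum_le_sum (fun t ht => ?_)
    have b1 := (isq_bounds hQ (hH t)).2
    have h2 : ∑ t' ∈ range t, 2 * (1 / √((dP w (nn w) B t t' : ℕ) : ℝ) +
          1 / √((dM w (nn w) B t t' : ℕ) : ℝ)) ≤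
        ∑ t' ∈ range t, 2 * ((isq (cQ B) (dP w (nn w) B t t') : ℝ) / cQ B +
          (isq (cQ B) (dM w (nn w) B t t') : ℝ) / cQ B) +
        ∑ t' ∈ range (NT (nn w) B), 4 * (1 / (cQ B : ℝ)) := by
      have h3 : ∑ t' ∈ range t, 4 * (1 / (cQ B : ℝ)) ≤
          ∑ t' ∈ range (NT (nn w) B), 4 * (1 / (cQ B : ℝ)) :=
        sum_le_sum_of_subset_of_nonneg
          (range_subset_range.mpr (mem_range.mp ht).le) (fun _ _ _ => by positivity)
      refine le_trans ?_ (add_le_add le_rfl h3)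
      rw [← sum_add_distrib]
      refine sum_le_sum (fun t' ht' => ?_)
      have b2 := (isq_bounds hQ (hterm t ht t' ht')).2
      have b3 := (isq_bounds hQ (dM_pos hG (t := t) (t' := t'))).2
      (clear * - b2 b3; linarith)
    linarith only [b1, h2]

theorem approx_P (hG : Good (nn w) B (Am w)) :
    (Psum w (nn w) B : ℝ) / cQ B ≤
      cst (nn w) B (Am w) + isingE (Am w) (fun a : Site (nn w) B => sg a) ∧
    cst (nn w) B (Am w) + isingE (Am w) (fun a : Site (nn w) B => sg a) ≤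
      (Psum w (nn w) B : ℝ) / cQ B + (NT (nn w) B : ℝ) * (NT (nn w) B : ℝ) / cQ B := by
  have hQ := cQ_pos hG
  have hQ0 : (0 : ℝ) < cQ B := by exact_mod_cast hQ
  rw [cst_sg_eq]
  have e0 : (Psum w (nn w) B : ℝ) / cQ B = ∑ t ∈ range (NT (nn w) B), ∑ t' ∈ range t,
      (isq (cQ B) (if fP (nn w) B t = fP (nn w) B t' then dP w (nn w) B t t' else
          dM w (nn w) B t t') : ℝ) / cQ B := by
    unfold Psum
    push_cast
    rw [sum_div]
    refine sum_congr rfl (fun t _ => ?_)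
    rw [sum_div]
  have hterm : ∀ t ∈ range (NT (nn w) B), ∀ t' ∈ range t,
      1 ≤ (if fP (nn w) B t = fP (nn w) B t' then dP w (nn w) B t t' else
          dM w (nn w) B t t') := by
    intro t ht t' ht'
    rw [mem_range] at ht ht'
    split_ifs
    · exact dP_pos hG ht (by omega) (by omega)
    · exact dM_pos hG
  constructor
  · rw [e0]
    refine sum_le_sum (fun t ht => sum_le_sum (fun t' ht' => ?_))
    exact (isq_bounds hQ (hterm t ht t' ht')).1
  · rw [e0]
    have h1 : (NT (nn w) B : ℝ) * (NT (nn w) B : ℝ) / cQ B =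
        ∑ t ∈ range (NT (nn w) B), ∑ t' ∈ range (NT (nn w) B), (1 / (cQ B : ℝ)) := by
      simp only [sum_const, card_range, nsmul_eq_mul]
      ring
    rw [h1, ← sum_add_distrib]
    refine sum_le_sum (fun t ht => ?_)
    have h3 : ∑ t' ∈ range t, (1 / (cQ B : ℝ)) ≤
        ∑ t' ∈ range (NT (nn w) B), (1 / (cQ B : ℝ)) :=
      sum_le_sum_of_subset_of_nonneg
        (range_subset_range.mpr (mem_range.mp ht).le) (fun _ _ _ => by positivity)
    refine le_trans ?_ (add_le_add le_rfl h3)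
    rw [← sum_add_distrib]
    exact sum_le_sum (fun t' ht' => (isq_bounds hQ (hterm t ht t' ht')).2)

/-! ### Cuts -/

theorem sum_div_mod (n : ℕ) (hn : 0 < n) (f : ℕ → ℕ → ℝ) :
    ∑ e ∈ range (n ^ 2), f (e / n) (e % n) = ∑ p ∈ range n ×ˢ range n, f p.1 p.2 := by
  refine sum_nbij' (fun e => (e / n, e % n)) (fun p => n * p.1 + p.2) ?_ ?_ ?_ ?_ ?_
  · intro e he
    rw [mem_range] at he
    rw [mem_product, mem_range, mem_range]
    refine ⟨?_, Nat.mod_lt _ hn⟩
    rw [Nat.div_lt_iff_lt_mul hn]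
    linarith
  · intro p hp
    rw [mem_product, mem_range, mem_range] at hp
    rw [mem_range]
    nlinarith only [hp]
  · intro e _
    exact Nat.div_add_mod e n
  · intro p hp
    rw [mem_product, mem_range, mem_range] at hp
    ext
    · simp only
      rw [Nat.mul_add_div hn, Nat.div_eq_of_lt hp.2, add_zero]
    · simp only
      rw [Nat.mul_add_mod, Nat.mod_eq_of_lt hp.2]
  · intro e _
    rfl

theorem gN_lt_nn (w : List Bool) : gN w < nn w := by unfold nn; omega

/-- value of the cut functional -/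
theorem cut_eq (w : List Bool) (S : Finset ℕ) (t : Fin (nn w) → ℝ)
    (ht : ∀ i, t i = if i.val ∈ S then -1 else 1) :
    ∑ e, |∑ i, (Am w i e : ℝ) * t i| = 2 * (cutSize w S : ℝ) := by
  classical
  have hn := nn_pos w
  have h1 : ∀ e : Fin (nn w ^ 2), |∑ i, (Am w i e : ℝ) * t i| =
      (fun a b : ℕ => if gAdj w a b = true ∧ ¬ (a ∈ S ↔ b ∈ S) then (2 : ℝ) else 0)
        (e.val / nn w) (e.val % nn w) := by
    intro e
    by_cases h : gAdj w (e.val / nn w) (e.val % nn w) = true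
    · obtain ⟨h1, h2⟩ := gAdj_lt h
      have hgn := gN_lt_nn w
      set x : Fin (nn w) := ⟨e.val / nn w, by omega⟩ with hx
      set y : Fin (nn w) := ⟨e.val % nn w, by omega⟩ with hy
      have hxy : x ≠ y := fun h' => by
        have := congrArg Fin.val h'
        simp only [hx, hy] at this
        omega
      have hA : ∀ i, (Am w i e : ℝ) * t i = (if i = x then t i else 0) - (if i = y then t i else 0) := by
        intro i
        unfold Am
        simp only [h, if_true]
        by_cases a1 : i = x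
        · have a2 : i ≠ y := fun h' => hxy (a1.symm.trans h')
          rw [if_pos a1, if_neg a2, if_pos (by rw [a1])]
          simp
        · have a1' : ¬ i.val = e.val / nn w := fun h' => a1 (Fin.ext h')
          rw [if_neg a1, if_neg a1']
          by_cases a2 : i = y
          · rw [if_pos a2, if_pos (by rw [a2])]
            push_cast; ring
          · have a2' : ¬ i.val = e.val % nn w := fun h' => a2 (Fin.ext h')
            rw [if_neg a2, if_neg a2']
            simp
      simp only [hA, sum_sub_distrib, sum_ite_eq', mem_univ, if_true]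
      rw [ht x, ht y]
      simp only [hx, hy, h, true_and]
      by_cases c1 : e.val / nn w ∈ S <;> by_cases c2 : e.val % nn w ∈ S <;>
        simp [c1, c2] <;> norm_num
    · have hA : ∀ i, (Am w i e : ℝ) * t i = 0 := by
        intro i
        unfold Am
        simp only [h, Bool.false_eq_true, ↓reduceIte, Int.cast_zero, zero_mul]
      simp only [hA, sum_const_zero, abs_zero]
      simp [h]
  simp only [h1]
  rw [Fin.sum_univ_eq_sum_range (fun e => (fun a b : ℕ => if gAdj w a b = true ∧ ¬ (a ∈ S ↔ b ∈ S)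
    then (2 : ℝ) else 0) (e / nn w) (e % nn w))]
  rw [sum_div_mod (nn w) hn (fun a b : ℕ => if gAdj w a b = true ∧ ¬ (a ∈ S ↔ b ∈ S)
    then (2 : ℝ) else 0)]
  rw [← sum_filter, sum_const, nsmul_eq_mul, mul_comm]
  congr 1
  unfold cutSize
  congr 1
  apply congrArg
  ext p
  simp only [mem_filter, mem_product, mem_range]
  constructor
  · rintro ⟨_, h, h'⟩
    have := gAdj_lt h
    exact ⟨⟨by omega, by omega⟩, h, h'⟩
  · rintro ⟨⟨h1, h2⟩, h, h'⟩
    have := gN_lt_nn w
    exact ⟨⟨by omega, by omega⟩, h, h'⟩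

end Vale.Agent.P370.Red
end

section

open MeasureTheory Filter Topology

namespace Vale.Agent.P370

section
variable {N : ℕ} (φ : Fin N → R3 → ℝ)

/-- integral of a product with one modified factor -/
theorem integral_prod_update (i : Fin N) (F : R3 → ℝ)
    (hnorm : ∀ j, ∫ x, φ j x ^ 2 = 1) :
    ∫ x : Fin N → R3, F (x i) * ∏ j ∈ Finset.univ.erase i, φ j (x j) ^ 2 = ∫ y, F y := by
  have h1 : ∀ x : Fin N → R3, F (x i) * ∏ j ∈ Finset.univ.erase i, φ j (x j) ^ 2
      = ∏ j, (Function.update (fun j y => φ j y ^ 2) i F) j (x j) := by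
    intro x
    rw [← Finset.mul_prod_erase Finset.univ _ (Finset.mem_univ i), Function.update_self]
    congr 1
    apply Finset.prod_congr rfl
    intro j hj
    rw [Function.update_of_ne (Finset.ne_of_mem_erase hj)]
  simp_rw [h1]
  rw [integral_fintype_prod_volume_eq_prod, ← Finset.mul_prod_erase Finset.univ _
    (Finset.mem_univ i), Function.update_self]
  have h2 : ∏ j ∈ Finset.univ.erase i, ∫ y, (Function.update (fun j y => φ j y ^ 2) i F) j y
      = 1 := by
    apply Finset.prod_eq_one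
    intro j hj
    rw [Function.update_of_ne (Finset.ne_of_mem_erase hj)]
    exact hnorm j
  rw [h2, mul_one]

theorem prodState_sq_eq (x : Fin N → R3) (i : Fin N) :
    prodState φ x ^ 2 = φ i (x i) ^ 2 * ∏ j ∈ Finset.univ.erase i, φ j (x j) ^ 2 := by
  unfold prodState
  rw [← Finset.prod_pow, ← Finset.mul_prod_erase Finset.univ _ (Finset.mem_univ i)]

theorem integral_prodState_sq (hnorm : ∀ j, ∫ x, φ j x ^ 2 = 1) :
    ∫ x, prodState φ x ^ 2 = 1 := by
  have h1 : ∀ x : Fin N → R3, prodState φ x ^ 2 = ∏ j, (fun j y => φ j y ^ 2) j (x j) := by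
    intro x
    unfold prodState
    rw [← Finset.prod_pow]
  rw [integral_congr_ae (ae_of_all _ h1),
    integral_fintype_prod_volume_eq_prod (f := fun j y => φ j y ^ 2)]
  exact Finset.prod_eq_one fun j _ => hnorm j

theorem integral_prodState_fderiv_sq (hsm : ∀ j, ContDiff ℝ (⊤ : ℕ∞) (φ j))
    (hnorm : ∀ j, ∫ x, φ j x ^ 2 = 1) (i : Fin N) (e : R3) :
    ∫ x, (fderiv ℝ (prodState φ) x (Pi.single i e)) ^ 2 = ∫ y, (fderiv ℝ (φ i) y e) ^ 2 := by
  simp_rw [prodState_fderiv φ hsm]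
  rw [← integral_prod_update φ i (fun y => (fderiv ℝ (φ i) y e) ^ 2) hnorm]
  congr 1
  ext x
  rw [mul_pow, Finset.prod_pow]

theorem integral_prodState_nuc (hnorm : ∀ j, ∫ x, φ j x ^ 2 = 1) (i : Fin N) (c : R3) :
    ∫ x, prodState φ x ^ 2 / dist (x i) c = ∫ y, φ i y ^ 2 / dist y c := by
  rw [← integral_prod_update φ i (fun y => φ i y ^ 2 / dist y c) hnorm]
  congr 1
  ext x
  rw [prodState_sq_eq φ x i]
  ring

theorem coulombV_perm {M : ℕ} (R : Fin M → R3) (Z : Fin M → ℕ) (x : Fin N → R3)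
    (π : Equiv.Perm (Fin N)) : coulombV R Z (fun i => x (π i)) = coulombV R Z x := by
  unfold coulombV
  rw [sum_Ioi_eq_half (fun i j => 1 / dist (x (π i)) (x (π j))) (fun i j => by rw [dist_comm]),
    sum_Ioi_eq_half (fun i j => 1 / dist (x i) (x j)) (fun i j => by rw [dist_comm])]
  congr 1
  · congr 1
    exact Equiv.sum_comp π (fun i => ∑ α, (Z α : ℝ) / dist (x i) (R α))
  · refine Fintype.sum_equiv π _ _ ?_
    intro i
    congr 1
    apply Finset.sum_bij (fun j _ => π j)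
    · intro j hj
      simp only [Finset.mem_erase, Finset.mem_univ, and_true] at hj ⊢
      exact fun h => hj (π.injective h)
    · intro a _ b _ h; exact π.injective h
    · intro b hb
      refine ⟨π.symm b, ?_, by simp⟩
      simp only [Finset.mem_erase, Finset.mem_univ, and_true] at hb ⊢
      intro h; apply hb; rw [← h]; simp
    · intro j _; rfl

theorem norm_fderiv_ofReal {V : Type*} [NormedAddCommGroup V] [NormedSpace ℝ V] {f : V → ℝ}
    {x : V} (hf : DifferentiableAt ℝ f x) (v : V) :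
    ‖fderiv ℝ (fun y => ((f y : ℝ) : ℂ)) x v‖ ^ 2 = (fderiv ℝ f x v) ^ 2 := by
  have h1 : HasFDerivAt (fun y => ((f y : ℝ) : ℂ)) (Complex.ofRealCLM.comp (fderiv ℝ f x)) x :=
    (Complex.ofRealCLM.hasFDerivAt).comp x hf.hasFDerivAt
  rw [h1.fderiv]
  simp only [ContinuousLinearMap.comp_apply, Complex.ofRealCLM_apply, Complex.norm_real, Real.norm_eq_abs, sq_abs]

/-- the Slater state -/
noncomputable def slatWave : Wave N := fun x s =>
  if s = 0 then ((Real.sqrt (Nat.factorial N))⁻¹ * slat φ x : ℝ) else 0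

theorem slater_upper {M : ℕ} (R : Fin M → R3) (Z : Fin M → ℕ)
    (hsm : ∀ j, ContDiff ℝ (⊤ : ℕ∞) (φ j)) (hcs : ∀ j, HasCompactSupport (φ j))
    (hdis : ∀ i j, i ≠ j → Disjoint (tsupport (φ i)) (tsupport (φ j)))
    (hnorm : ∀ j, ∫ x, φ j x ^ 2 = 1) (b : Fin N → Fin N → ℝ)
    (hb : ∀ i j, i < j → ∀ x ∈ tsupport (φ i), ∀ y ∈ tsupport (φ j), 1 / dist x y ≤ b i j) :
    ∃ ψ : Wave N, IsTestState ψ ∧ normSq ψ = 1 ∧
      energy R Z ψ ≤
        ∑ j, ((1 / 2) * (∑ k : Fin 3, ∫ x, (fderiv ℝ (φ j) x (EuclideanSpace.single k 1)) ^ 2) -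
          ∑ α, Z α * ∫ x, φ j x ^ 2 / dist x (R α)) +
        ∑ i, ∑ j ∈ Finset.Ioi i, b i j := by
  set c : ℝ := (Real.sqrt (Nat.factorial N))⁻¹ with hc
  have hfac : (0:ℝ) < Nat.factorial N := by exact_mod_cast Nat.factorial_pos N
  have hc2 : c ^ 2 * (Nat.factorial N : ℝ) = 1 := by
    rw [hc, inv_pow, Real.sq_sqrt hfac.le]; (clear * -; field_simp)
  have hsl := slat_smooth φ hsm
  have hslc := slat_compact φ hcs
  have hps := perm_smooth φ hsm
  have hpc := perm_compact φ hcs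
  have hcard : (Finset.univ : Finset (Equiv.Perm (Fin N))).card = Nat.factorial N := by
    rw [Finset.card_univ, Fintype.card_perm, Fintype.card_fin]
  have hpsi : ∀ π : Equiv.Perm (Fin N),
      Integrable (fun x : Fin N → R3 => prodState φ (fun i => x (π i)) ^ 2) := by
    intro π
    apply Continuous.integrable_of_hasCompactSupport
    · exact (hps π).continuous.pow 2
    · exact (hpc π).comp_left (g := fun r : ℝ => r ^ 2) (by simp)
  have hpdi : ∀ (π : Equiv.Perm (Fin N)) (i : Fin N) (e : R3),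
      Integrable (fun x : Fin N → R3 => (fderiv ℝ (prodState φ) (fun j => x (π j))
        (Pi.single i e)) ^ 2) := by
    intro π i e
    apply Continuous.integrable_of_hasCompactSupport
    · apply Continuous.pow
      have h1 : Continuous (fun x : Fin N → R3 => fderiv ℝ (prodState φ) x) :=
        (prodState_smooth φ hsm).continuous_fderiv (by simp)
      exact (h1.comp (permL π).continuous).clm_apply continuous_const
    · apply HasCompactSupport.intro (K := Set.pi Set.univ (fun i => tsupport (φ (π.symm i))))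
        (isCompact_univ_pi fun i => hcs _)
      intro x hx
      simp only [Set.mem_pi, Set.mem_univ, forall_const, not_forall] at hx
      obtain ⟨l, hl⟩ := hx
      rw [prodState_fderiv_zero φ hsm (x := fun j => x (π j)) (l := π.symm l) (by simpa using hl)]
      simp
  refine ⟨slatWave φ, ⟨?_, ?_, ?_⟩, ?_, ?_⟩
  · intro s
    by_cases hs : s = 0
    · simp only [slatWave, if_pos hs]
      exact Complex.ofRealCLM.contDiff.comp (contDiff_const.mul hsl)
    · simp only [slatWave, if_neg hs]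
      exact contDiff_const
  · intro s
    by_cases hs : s = 0
    · simp only [slatWave, if_pos hs]
      exact hslc.comp_left (g := fun r : ℝ => (((Real.sqrt (Nat.factorial N))⁻¹ * r : ℝ) : ℂ))
        (by simp only [mul_zero, Complex.ofReal_zero])
    · simp only [slatWave, if_neg hs]
      exact HasCompactSupport.zero
  · intro π x s
    have h1 : (fun i => s (π i)) = 0 ↔ s = 0 := by
      constructor
      · intro h; ext i : 1
        have := congrFun h (π.symm i)
        simpa using this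
      · intro h; subst h; rfl
    simp only [slatWave, h1]
    by_cases hs : s = 0
    · simp only [if_pos hs, slat_antisymm]
      push_cast; ring
    · simp only [Complex.ofReal_mul, Complex.ofReal_inv, if_neg hs, mul_zero]
  · unfold normSq
    rw [Finset.sum_eq_single 0]
    · have h1 : ∀ x, ‖slatWave φ x 0‖ ^ 2
          = c ^ 2 * ∑ π : Equiv.Perm (Fin N), prodState φ (fun i => x (π i)) ^ 2 := by
        intro x
        rw [← slat_sq φ hdis]
        simp only [slatWave, if_pos]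
        rw [Complex.norm_real, Real.norm_eq_abs, sq_abs, mul_pow]
      simp_rw [h1]
      rw [integral_const_mul, integral_finsetSum _ fun π _ => hpsi π]
      have h2 : ∀ π : Equiv.Perm (Fin N), ∫ x : Fin N → R3, prodState φ (fun i => x (π i)) ^ 2
          = 1 := by
        intro π
        rw [integral_comp_perm π (fun x => prodState φ x ^ 2), integral_prodState_sq φ hnorm]
      simp_rw [h2]
      rw [Finset.sum_const, hcard, nsmul_eq_mul, mul_one, hc2]
    · intro s _ hs
      simp only [slatWave, Complex.ofReal_mul, Complex.ofReal_inv, if_neg hs, norm_zero, ne_eq, OfNat.ofNat_ne_zero, not_false_eq_true, zero_pow, integral_zero]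
    · intro h; exact absurd (Finset.mem_univ _) h
  · -- kinetic energy
    have hK : kinetic (slatWave φ) = ∑ j, (1 / 2) *
        (∑ k : Fin 3, ∫ x, (fderiv ℝ (φ j) x (EuclideanSpace.single k 1)) ^ 2) := by
      unfold kinetic
      rw [Finset.sum_eq_single 0, Finset.mul_sum]
      · have h1 : ∀ (i : Fin N) (k : Fin 3), ∫ x, ‖fderiv ℝ (fun y => slatWave φ y 0) x
            (Pi.single i (EuclideanSpace.single k 1))‖ ^ 2
            = c ^ 2 * ∑ π : Equiv.Perm (Fin N),
              ∫ y, (fderiv ℝ (φ (π.symm i)) y (EuclideanSpace.single k 1)) ^ 2 := by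
          intro i k
          have h2 : ∀ x, ‖fderiv ℝ (fun y => slatWave φ y 0) x
            (Pi.single i (EuclideanSpace.single k 1))‖ ^ 2
            = c ^ 2 * ∑ π : Equiv.Perm (Fin N), (fderiv ℝ (prodState φ) (fun j => x (π j))
              (Pi.single (π.symm i) (EuclideanSpace.single k 1))) ^ 2 := by
            intro x
            rw [← slat_fderiv_sq φ hsm hdis]
            have hd : DifferentiableAt ℝ (slat φ) x := hsl.differentiable (by simp) x
            have h3 : (fun y => slatWave φ y 0) = fun y => ((c * slat φ y : ℝ) : ℂ) := by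
              ext y; simp only [slatWave, ↓reduceIte, Complex.ofReal_mul, Complex.ofReal_inv, hc]
            rw [h3, norm_fderiv_ofReal (hd.const_mul c), fderiv_const_mul hd]
            simp [mul_pow]
          simp_rw [h2]
          rw [integral_const_mul, integral_finsetSum _ fun π _ => hpdi π _ _]
          congr 1
          apply Finset.sum_congr rfl
          intro π _
          rw [integral_comp_perm π (fun x => (fderiv ℝ (prodState φ) x
            (Pi.single (π.symm i) (EuclideanSpace.single k 1))) ^ 2),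
            integral_prodState_fderiv_sq φ hsm hnorm]
        simp_rw [h1]
        rw [← Finset.mul_sum, ← Finset.mul_sum]
        congr 1
        have h4 : ∀ i : Fin N, ∑ k : Fin 3, c ^ 2 * ∑ π : Equiv.Perm (Fin N),
            ∫ y, (fderiv ℝ (φ (π.symm i)) y (EuclideanSpace.single k 1)) ^ 2
            = ∑ π : Equiv.Perm (Fin N), c ^ 2 * ∑ k : Fin 3,
              ∫ y, (fderiv ℝ (φ (π.symm i)) y (EuclideanSpace.single k 1)) ^ 2 := by
          intro i
          rw [← Finset.mul_sum, ← Finset.mul_sum, Finset.sum_comm]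
        simp_rw [h4]
        rw [Finset.sum_comm]
        have h5 : ∀ π : Equiv.Perm (Fin N), ∑ i : Fin N, c ^ 2 * ∑ k : Fin 3,
              ∫ y, (fderiv ℝ (φ (π.symm i)) y (EuclideanSpace.single k 1)) ^ 2
            = c ^ 2 * ∑ i : Fin N, ∑ k : Fin 3,
              ∫ y, (fderiv ℝ (φ i) y (EuclideanSpace.single k 1)) ^ 2 := by
          intro π
          rw [← Finset.mul_sum]
          congr 1
          exact Equiv.sum_comp π.symm (fun i => ∑ k : Fin 3,
              ∫ y, (fderiv ℝ (φ i) y (EuclideanSpace.single k 1)) ^ 2)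
        simp_rw [h5]
        rw [Finset.sum_const, hcard, nsmul_eq_mul, ← mul_assoc, mul_comm _ (c ^ 2), hc2, one_mul]
      · intro s _ hs
        have h1 : (fun y => slatWave φ y s) = fun _ => 0 := by
          ext y; simp only [slatWave, Complex.ofReal_mul, Complex.ofReal_inv, if_neg hs]
        simp only [h1, fderiv_fun_const, Pi.zero_apply, zero_apply, norm_zero, ne_eq, OfNat.ofNat_ne_zero, not_false_eq_true, zero_pow, integral_zero, Finset.sum_const_zero]
      · intro h; exact absurd (Finset.mem_univ _) h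
    -- the product state as a complex function
    set g : (Fin N → R3) → ℂ := fun x => ((prodState φ x : ℝ) : ℂ) with hg_def
    have hg : ContDiff ℝ 1 g :=
      (Complex.ofRealCLM.contDiff.comp (prodState_smooth φ hsm)).of_le (by exact_mod_cast le_top)
    have hgc : HasCompactSupport g :=
      (prodState_compact φ hcs).comp_left (g := fun r : ℝ => (r : ℂ)) (by simp)
    have hgn : ∀ x, ‖g x‖ ^ 2 = prodState φ x ^ 2 := by
      intro x; simp [hg_def]
    have hVi := integrable_coulombV R Z g hg hgc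
    have hVp : ∑ s, ∫ x, coulombV R Z x * ‖slatWave φ x s‖ ^ 2
        = ∫ x, coulombV R Z x * ‖g x‖ ^ 2 := by
      rw [Finset.sum_eq_single 0]
      · have h1 : ∀ x, coulombV R Z x * ‖slatWave φ x 0‖ ^ 2
            = c ^ 2 * ∑ π : Equiv.Perm (Fin N),
              coulombV R Z (fun i => x (π i)) * ‖g (fun i => x (π i))‖ ^ 2 := by
          intro x
          simp_rw [coulombV_perm, hgn]
          rw [← Finset.mul_sum, ← slat_sq φ hdis]
          simp only [slatWave, if_pos]
          rw [Complex.norm_real, Real.norm_eq_abs, sq_abs, mul_pow]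
          ring
        simp_rw [h1]
        have hI : ∀ π : Equiv.Perm (Fin N), Integrable (fun x : Fin N → R3 =>
            coulombV R Z (fun i => x (π i)) * ‖g (fun i => x (π i))‖ ^ 2) := by
          intro π
          have h2 := integrable_coulombV R Z (fun x => g (fun i => x (π i)))
            (hg.comp (permL π).contDiff) (by
              exact (hpc π).comp_left (g := fun r : ℝ => (r : ℂ)) (by simp))
          simp_rw [coulombV_perm]
          exact h2.1
        rw [integral_const_mul, integral_finsetSum _ fun π _ => hI π]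
        have h3 : ∀ π : Equiv.Perm (Fin N), ∫ x : Fin N → R3,
            coulombV R Z (fun i => x (π i)) * ‖g (fun i => x (π i))‖ ^ 2
            = ∫ x, coulombV R Z x * ‖g x‖ ^ 2 := by
          intro π
          exact integral_comp_perm π (fun x => coulombV R Z x * ‖g x‖ ^ 2)
        simp_rw [h3]
        rw [Finset.sum_const, hcard, nsmul_eq_mul, ← mul_assoc, hc2, one_mul]
      · intro s _ hs
        simp only [slatWave, Complex.ofReal_mul, Complex.ofReal_inv, if_neg hs, norm_zero, ne_eq, OfNat.ofNat_ne_zero, not_false_eq_true, zero_pow, mul_zero, integral_zero]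
      · intro h; exact absurd (Finset.mem_univ _) h
    unfold energy
    rw [hK, hVp, hVi.2, Finset.sum_sub_distrib]
    have h1 : ∑ i, ∑ α, (Z α : ℝ) * ∫ x, ‖g x‖ ^ 2 / dist (x i) (R α)
        = ∑ j, ∑ α, (Z α : ℝ) * ∫ x, φ j x ^ 2 / dist x (R α) := by
      apply Finset.sum_congr rfl; intro i _
      apply Finset.sum_congr rfl; intro α _
      simp_rw [hgn]
      rw [integral_prodState_nuc φ hnorm]
    have h2 : ∑ i, ∑ j ∈ Finset.Ioi i, ∫ x, ‖g x‖ ^ 2 / dist (x i) (x j)
        ≤ ∑ i, ∑ j ∈ Finset.Ioi i, b i j := by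
      apply Finset.sum_le_sum; intro i _
      apply Finset.sum_le_sum; intro j hj
      have hij := Finset.mem_Ioi.1 hj
      have h3 : ∫ x, b i j * prodState φ x ^ 2 = b i j := by
        rw [integral_const_mul, integral_prodState_sq φ hnorm, mul_one]
      rw [← h3]
      apply integral_mono
      · exact integrable_ee g hg hgc i j hij.ne
      · have := hpsi 1
        exact this.const_mul _
      · intro x
        simp only [hgn]
        by_cases hx : prodState φ x = 0
        · simp [hx]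
        · have h4 : ∀ l, x l ∈ tsupport (φ l) := by
            intro l
            by_contra h5
            exact hx (prodState_zero φ h5)
          have h6 := hb i j hij (x i) (h4 i) (x j) (h4 j)
          calc prodState φ x ^ 2 / dist (x i) (x j)
              = 1 / dist (x i) (x j) * prodState φ x ^ 2 := by ring
            _ ≤ _ := mul_le_mul_of_nonneg_right h6 (by (clear * - hx; positivity))
    rw [h1]
    linarith only [h2]

end

end Vale.Agent.P370
end

section

open MeasureTheory Filter Topology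

namespace Vale.Agent.P370

theorem ibp_sq {V : Type*} [NormedAddCommGroup V] [NormedSpace ℝ V] [FiniteDimensional ℝ V]
    [MeasurableSpace V] [BorelSpace V] (μ : Measure V) [μ.IsAddHaarMeasure]
    (f : V → ℝ) (hf : ContDiff ℝ 1 f) (hc : HasCompactSupport f)
    (F : V → ℝ) (hF : ContDiff ℝ 1 F) (v : V) :
    ∫ x, F x * (2 * f x * fderiv ℝ f x v) ∂μ = - ∫ x, fderiv ℝ F x v * f x ^ 2 ∂μ := by
  have hfd : Differentiable ℝ f := hf.differentiable (by norm_num)
  have hFd : Differentiable ℝ F := hF.differentiable (by norm_num)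
  have h1 : ∀ x, fderiv ℝ (fun x => f x ^ 2) x v = 2 * f x * fderiv ℝ f x v := by
    intro x
    have := ((hfd x).hasFDerivAt.pow 2)
    rw [this.fderiv]
    simp only [Nat.add_one_sub_one, pow_one, nsmul_eq_mul, Nat.cast_ofNat, smul_apply, smul_eq_mul]
  simp_rw [← h1]
  have hn : ContDiff ℝ 1 (fun x => f x ^ 2) := hf.pow 2
  have hnc : HasCompactSupport (fun x => f x ^ 2) :=
    hc.comp_left (g := fun r : ℝ => r ^ 2) (by simp)
  have cF : Continuous F := hF.continuous
  have cFd : Continuous (fun x => fderiv ℝ F x v) :=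
    (hF.continuous_fderiv (by norm_num)).clm_apply continuous_const
  have cnd : Continuous (fun x => fderiv ℝ (fun x => f x ^ 2) x v) :=
    (hn.continuous_fderiv (by norm_num)).clm_apply continuous_const
  have hndc : HasCompactSupport (fun x => fderiv ℝ (fun x => f x ^ 2) x v) := by
    have := hnc.fderiv (𝕜 := ℝ)
    exact this.comp_left (g := fun (L : V →L[ℝ] ℝ) => L v) (by simp)
  apply integral_mul_fderiv_eq_neg_fderiv_mul_of_integrable
  · exact (cFd.mul hn.continuous).integrable_of_hasCompactSupport hnc.mul_left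
  · exact (cF.mul cnd).integrable_of_hasCompactSupport hndc.mul_left
  · exact (cF.mul hn.continuous).integrable_of_hasCompactSupport hnc.mul_left
  · intro x _; exact hFd x
  · intro x _; exact hn.differentiable (by norm_num) x

/-- cut-off orbital -/
noncomputable def orb (χ : R3 → ℝ) (δ : ℝ) (x : R3) : ℝ := χ x * Real.exp (-sreg δ x)

theorem orb_smooth {χ : R3 → ℝ} (hχ : ContDiff ℝ (⊤ : ℕ∞) χ) {δ : ℝ} (hδ : 0 < δ) :
    ContDiff ℝ (⊤ : ℕ∞) (orb χ δ) := by
  unfold orb
  exact hχ.mul (contDiff_sreg hδ).neg.exp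

theorem orb_compact {χ : R3 → ℝ} (hc : HasCompactSupport χ) (δ : ℝ) :
    HasCompactSupport (orb χ δ) := by
  unfold orb; exact hc.mul_right

theorem orb_fderiv {χ : R3 → ℝ} (hχ : ContDiff ℝ (⊤ : ℕ∞) χ) {δ : ℝ} (hδ : 0 < δ) (x : R3)
    (k : Fin 3) :
    fderiv ℝ (orb χ δ) x (EuclideanSpace.single k 1)
      = fderiv ℝ χ x (EuclideanSpace.single k 1) * Real.exp (-sreg δ x)
        - x k / sreg δ x * orb χ δ x := by
  have h1 : HasFDerivAt χ (fderiv ℝ χ x) x := (hχ.differentiable (by simp) x).hasFDerivAt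
  have h2 := ((hasFDerivAt_sreg hδ x).neg).exp
  have h3 := h1.mul h2
  have h4 : orb χ δ = χ * fun x => Real.exp ((-sreg δ) x) := rfl
  rw [h4, h3.fderiv]
  have e1 : inner ℝ x (EuclideanSpace.single k (1:ℝ)) = x k := by
    simp [EuclideanSpace.inner_single_right]
  simp [e1]
  ring

theorem kin_identity {χ : R3 → ℝ} (hχ : ContDiff ℝ (⊤ : ℕ∞) χ) (hc : HasCompactSupport χ)
    {δ : ℝ} (hδ : 0 < δ) :
    ∑ k : Fin 3, ∫ x, (fderiv ℝ (orb χ δ) x (EuclideanSpace.single k 1)) ^ 2
      = (∫ x, (3 / sreg δ x - ‖x‖ ^ 2 / sreg δ x ^ 3 - ‖x‖ ^ 2 / sreg δ x ^ 2) * orb χ δ x ^ 2)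
        + ∫ x, (∑ k : Fin 3, (fderiv ℝ χ x (EuclideanSpace.single k 1)) ^ 2)
          * Real.exp (-sreg δ x) ^ 2 := by
  have hos := orb_smooth hχ hδ
  have ho1 : ContDiff ℝ 1 (orb χ δ) := hos.of_le (by exact_mod_cast le_top)
  have hoc := orb_compact hc δ
  have cs : Continuous (sreg δ) := (contDiff_sreg hδ (n := 0)).continuous
  have hs : ∀ x, sreg δ x ≠ 0 := fun x => (sreg_pos hδ _).ne'
  have co : Continuous (orb χ δ) := hos.continuous
  have ho2c : HasCompactSupport (fun x => orb χ δ x ^ 2) :=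
    hoc.comp_left (g := fun r : ℝ => r ^ 2) (by simp)
  have hF1 : ∀ k, ContDiff ℝ 1 (fld (fun _ => (1:ℝ)) δ k) := fun k =>
    contDiff_fld contDiff_const hδ k
  have cF : ∀ k, Continuous (fld (fun _ => (1:ℝ)) δ k) := fun k => (hF1 k).continuous
  have cFd : ∀ k, Continuous (fun x => fderiv ℝ (fld (fun _ => (1:ℝ)) δ k) x
      (EuclideanSpace.single k 1)) := fun k =>
    ((hF1 k).continuous_fderiv (by norm_num)).clm_apply continuous_const
  have cχd : ∀ k : Fin 3, Continuous (fun x => fderiv ℝ χ x (EuclideanSpace.single k 1)) :=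
    fun k => (hχ.continuous_fderiv (by simp)).clm_apply continuous_const
  have hχdc : ∀ k : Fin 3, HasCompactSupport (fun x => fderiv ℝ χ x (EuclideanSpace.single k 1)) :=
    fun k => by
      have := hc.fderiv (𝕜 := ℝ)
      exact this.comp_left (g := fun (L : R3 →L[ℝ] ℝ) => L (EuclideanSpace.single k 1)) (by simp)
  have cod : ∀ k : Fin 3, Continuous (fun x => fderiv ℝ (orb χ δ) x (EuclideanSpace.single k 1)) :=
    fun k => (hos.continuous_fderiv (by simp)).clm_apply continuous_const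
  have iA : ∀ k : Fin 3, Integrable (fun x => (fderiv ℝ χ x (EuclideanSpace.single k 1)) ^ 2
      * Real.exp (-sreg δ x) ^ 2) := by
    intro k
    apply Continuous.integrable_of_hasCompactSupport
    · have := cχd k; (clear * - this cs; fun_prop)
    · apply HasCompactSupport.mul_right
      exact (hχdc k).comp_left (g := fun r : ℝ => r ^ 2) (by simp)
  have iB : ∀ k : Fin 3, Integrable (fun x => fld (fun _ => (1:ℝ)) δ k x *
      (2 * orb χ δ x * fderiv ℝ (orb χ δ) x (EuclideanSpace.single k 1))) := by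
    intro k
    apply Continuous.integrable_of_hasCompactSupport
    · have := cod k; have := cF k; fun_prop
    · apply HasCompactSupport.mul_left
      apply HasCompactSupport.mul_right
      exact hoc.mul_left
  have iC : ∀ k : Fin 3, Integrable (fun x => fld (fun _ => (1:ℝ)) δ k x ^ 2 * orb χ δ x ^ 2) := by
    intro k
    apply Continuous.integrable_of_hasCompactSupport
    · have := cF k; fun_prop
    · exact ho2c.mul_left
  have iD : ∀ k : Fin 3, Integrable (fun x => fderiv ℝ (fld (fun _ => (1:ℝ)) δ k) x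
      (EuclideanSpace.single k 1) * orb χ δ x ^ 2) := by
    intro k
    apply Continuous.integrable_of_hasCompactSupport
    · have := cFd k; fun_prop
    · exact ho2c.mul_left
  have hk : ∀ k : Fin 3, ∫ x, (fderiv ℝ (orb χ δ) x (EuclideanSpace.single k 1)) ^ 2
      = (∫ x, (fderiv ℝ χ x (EuclideanSpace.single k 1)) ^ 2 * Real.exp (-sreg δ x) ^ 2)
        + (∫ x, fderiv ℝ (fld (fun _ => (1:ℝ)) δ k) x (EuclideanSpace.single k 1)
          * orb χ δ x ^ 2)
        - ∫ x, fld (fun _ => (1:ℝ)) δ k x ^ 2 * orb χ δ x ^ 2 := by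
    intro k
    have h1 := ibp_sq volume (orb χ δ) ho1 hoc (fld (fun _ => (1:ℝ)) δ k) (hF1 k)
      (EuclideanSpace.single k 1)
    have h2 : ∀ x, (fderiv ℝ (orb χ δ) x (EuclideanSpace.single k 1)) ^ 2
        = (fderiv ℝ χ x (EuclideanSpace.single k 1)) ^ 2 * Real.exp (-sreg δ x) ^ 2
          - fld (fun _ => (1:ℝ)) δ k x *
            (2 * orb χ δ x * fderiv ℝ (orb χ δ) x (EuclideanSpace.single k 1))
          - fld (fun _ => (1:ℝ)) δ k x ^ 2 * orb χ δ x ^ 2 := by
      intro x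
      rw [orb_fderiv hχ hδ]
      simp only [fld]
      ring
    have iAB : Integrable (fun x => (fderiv ℝ χ x (EuclideanSpace.single k 1)) ^ 2
        * Real.exp (-sreg δ x) ^ 2 - fld (fun _ => (1:ℝ)) δ k x *
            (2 * orb χ δ x * fderiv ℝ (orb χ δ) x (EuclideanSpace.single k 1))) :=
      (iA k).sub (iB k)
    rw [integral_congr_ae (ae_of_all _ h2), integral_sub iAB (iC k),
      integral_sub (iA k) (iB k), h1]
    ring
  simp_rw [hk]
  rw [Finset.sum_sub_distrib, Finset.sum_add_distrib, ← integral_finsetSum _ fun k _ => iA k,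
    ← integral_finsetSum _ fun k _ => iD k, ← integral_finsetSum _ fun k _ => iC k]
  simp_rw [← Finset.sum_mul]
  have hdiv : ∀ x : R3, ∑ k, fderiv ℝ (fld (fun _ => (1:ℝ)) δ k) x (EuclideanSpace.single k 1)
      = 3 / sreg δ x - ‖x‖ ^ 2 / sreg δ x ^ 3 := by
    intro x
    rw [div_fld (h := fun _ => (1:ℝ)) (h' := fun _ => 0) (fun t => hasDerivAt_const t 1) hδ]
    ring
  have hsq : ∀ x : R3, ∑ k, fld (fun _ => (1:ℝ)) δ k x ^ 2 = ‖x‖ ^ 2 / sreg δ x ^ 2 := by
    intro x
    rw [sq_fld]; ring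
  simp_rw [hdiv, hsq]
  rw [add_sub_assoc, ← integral_sub, add_comm]
  · congr 1
    apply integral_congr_ae
    filter_upwards with x
    ring
  · apply Continuous.integrable_of_hasCompactSupport
    · have h1 : Continuous (fun x : R3 => 3 / sreg δ x) := continuous_const.div cs hs
      have h2 : Continuous (fun x : R3 => ‖x‖ ^ 2 / sreg δ x ^ 3) :=
        (by fun_prop : Continuous (fun x : R3 => ‖x‖ ^ 2)).div (cs.pow 3)
          (fun x => pow_ne_zero 3 (hs x))
      exact (h1.sub h2).mul (co.pow 2)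
    · exact ho2c.mul_left
  · apply Continuous.integrable_of_hasCompactSupport
    · have h2 : Continuous (fun x : R3 => ‖x‖ ^ 2 / sreg δ x ^ 2) :=
        (by fun_prop : Continuous (fun x : R3 => ‖x‖ ^ 2)).div (cs.pow 2)
          (fun x => pow_ne_zero 2 (hs x))
      exact h2.mul (co.pow 2)
    · exact ho2c.mul_left

theorem exp_integrable : Integrable (fun x : R3 => Real.exp (-‖x‖) ^ 2) := by
  have h1 : Integrable (fun x : R3 => (1 + ‖x‖) ^ (-(4:ℝ))) := by
    apply integrable_one_add_norm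
    rw [finrank_euclideanSpace, Fintype.card_fin]
    norm_num
  refine (h1.const_mul 16).mono' ?_ ?_
  · exact Continuous.aestronglyMeasurable (by fun_prop)
  · filter_upwards with x
    rw [Real.norm_eq_abs, abs_of_nonneg (by positivity)]
    have h2 : (1 + ‖x‖) / 2 ≤ Real.exp (‖x‖ / 2) := by
      have := Real.add_one_le_exp (‖x‖ / 2)
      linarith [norm_nonneg x]
    have h3 : ((1 + ‖x‖) / 2) ^ 4 ≤ Real.exp (‖x‖ / 2) ^ 4 := by gcongr
    have h4 : Real.exp (‖x‖ / 2) ^ 4 * Real.exp (-‖x‖) ^ 2 = 1 := by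
      rw [← Real.exp_nat_mul, ← Real.exp_nat_mul, ← Real.exp_add]
      norm_num
      ring
    rw [Real.rpow_neg (by (clear * -; positivity))]
    have h5 : (1 + ‖x‖) ^ (4:ℝ) = (1 + ‖x‖) ^ 4 := by
      exact_mod_cast Real.rpow_natCast (1 + ‖x‖) 4
    rw [h5]
    have h6 : 0 < (1 + ‖x‖) ^ 4 := by (clear * -; positivity)
    rw [← div_eq_mul_inv, le_div_iff₀ h6]
    have h7 : 0 < Real.exp (-‖x‖) ^ 2 := by positivity
    linarith only [h4, mul_le_mul_of_nonneg_right h3 h7.le]

/-- estimate for the orbital with a general smooth cut-off -/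
theorem orb_energy {χ : R3 → ℝ} (hχ : ContDiff ℝ (⊤ : ℕ∞) χ) (hc : HasCompactSupport χ)
    {δ : ℝ} (hδ : 0 < δ) :
    (1 / 2) * (∑ k : Fin 3, ∫ x, (fderiv ℝ (orb χ δ) x (EuclideanSpace.single k 1)) ^ 2)
      - (∫ x, orb χ δ x ^ 2 / ‖x‖)
      ≤ (-(1 / 2) + 2 * δ) * (∫ x, orb χ δ x ^ 2) + (1 / 2) * (1 + δ) *
        ∫ x, (∑ k : Fin 3, (fderiv ℝ χ x (EuclideanSpace.single k 1)) ^ 2)
          * Real.exp (-sreg δ x) ^ 2 := by
  have hos := orb_smooth hχ hδ
  have hoc := orb_compact hc δ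
  have co : Continuous (orb χ δ) := hos.continuous
  have cs : Continuous (sreg δ) := (contDiff_sreg hδ (n := 0)).continuous
  have hs : ∀ x, sreg δ x ≠ 0 := fun x => (sreg_pos hδ _).ne'
  have ho2c : HasCompactSupport (fun x => orb χ δ x ^ 2) :=
    hoc.comp_left (g := fun r : ℝ => r ^ 2) (by simp)
  have i0 : Integrable (fun x => orb χ δ x ^ 2) :=
    (co.pow 2).integrable_of_hasCompactSupport ho2c
  have i1 : Integrable (fun x => 1 / sreg δ x * orb χ δ x ^ 2) :=
    ((continuous_const.div cs hs).mul (co.pow 2)).integrable_of_hasCompactSupport ho2c.mul_left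
  set g : R3 → ℂ := fun x => ((orb χ δ x : ℝ) : ℂ) with hg_def
  have hg : ContDiff ℝ 1 g :=
    (Complex.ofRealCLM.contDiff.comp hos).of_le (by exact_mod_cast le_top)
  have hgc : HasCompactSupport g := hoc.comp_left (g := fun r : ℝ => (r : ℂ)) (by simp)
  have hgn : ∀ x, ‖g x‖ ^ 2 = orb χ δ x ^ 2 := by intro x; simp [hg_def]
  have iN : Integrable (fun x => orb χ δ x ^ 2 / ‖x‖) := by
    have := coulomb_integrable volume g hg hgc (ContinuousLinearMap.id ℝ R3)
      (fun k => EuclideanSpace.single k 1) (fun k => rfl) 0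
    simpa only [hgn, ContinuousLinearMap.id_apply, sub_zero] using this
  set n := ∫ x, orb χ δ x ^ 2 with hn
  set X := ∫ x, 1 / sreg δ x * orb χ δ x ^ 2 with hX
  set Y := ∫ x, (∑ k : Fin 3, (fderiv ℝ χ x (EuclideanSpace.single k 1)) ^ 2)
          * Real.exp (-sreg δ x) ^ 2 with hY
  have hkin := kin_identity hχ hc hδ
  rw [← hY] at hkin
  set K := ∑ k : Fin 3, ∫ x, (fderiv ℝ (orb χ δ) x (EuclideanSpace.single k 1)) ^ 2 with hK
  have iW : Integrable (fun x : R3 => (3 / sreg δ x - ‖x‖ ^ 2 / sreg δ x ^ 3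
      - ‖x‖ ^ 2 / sreg δ x ^ 2) * orb χ δ x ^ 2) := by
    apply Continuous.integrable_of_hasCompactSupport _ ho2c.mul_left
    have h1 : Continuous (fun x : R3 => 3 / sreg δ x) := continuous_const.div cs hs
    have h2 : Continuous (fun x : R3 => ‖x‖ ^ 2 / sreg δ x ^ 3) :=
      (by fun_prop : Continuous (fun x : R3 => ‖x‖ ^ 2)).div (cs.pow 3)
        (fun x => pow_ne_zero 3 (hs x))
    have h3 : Continuous (fun x : R3 => ‖x‖ ^ 2 / sreg δ x ^ 2) :=
      (by fun_prop : Continuous (fun x : R3 => ‖x‖ ^ 2)).div (cs.pow 2)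
        (fun x => pow_ne_zero 2 (hs x))
    exact ((h1.sub h2).sub h3).mul (co.pow 2)
  -- kinetic is at most 3 X + Y
  have hK1 : K ≤ 3 * X + Y := by
    rw [hkin, hX, ← integral_const_mul]
    gcongr ?_ + Y
    apply integral_mono iW (i1.const_mul 3)
    intro x
    have hp := sreg_pos hδ x
    have : (3 / sreg δ x - ‖x‖ ^ 2 / sreg δ x ^ 3 - ‖x‖ ^ 2 / sreg δ x ^ 2) ≤ 3 / sreg δ x := by
      have h1 : 0 ≤ ‖x‖ ^ 2 / sreg δ x ^ 3 := by (clear * - hp; positivity)
      have h2 : 0 ≤ ‖x‖ ^ 2 / sreg δ x ^ 2 := by (clear * - hp; positivity)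
      linarith only [h1, h2]
    calc _ ≤ 3 / sreg δ x * orb χ δ x ^ 2 := mul_le_mul_of_nonneg_right this (by (clear * -; positivity))
      _ = 3 * (1 / sreg δ x * orb χ δ x ^ 2) := by ring
  -- hydrogen inequality with kappa = 2
  have hK2 : 4 * X ≤ K + 4 * n := by
    have h1 := hydrogen_reg volume g hg hgc (ContinuousLinearMap.id ℝ R3)
      (fun k => EuclideanSpace.single k 1) (fun k => rfl) 0 hδ 2 (by norm_num)
    have h2 : ∫ x, ∑ c : Fin 3, ‖fderiv ℝ g x (EuclideanSpace.single c 1)‖ ^ 2 = K := by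
      rw [hK, integral_finsetSum]
      · apply Finset.sum_congr rfl; intro k _
        apply integral_congr_ae
        filter_upwards with x
        exact norm_fderiv_ofReal (hos.differentiable (by simp) x) _
      · intro k _
        apply Continuous.integrable_of_hasCompactSupport
        · have : Continuous (fun x => fderiv ℝ g x (EuclideanSpace.single k 1)) :=
            (hg.continuous_fderiv (by norm_num)).clm_apply continuous_const
          (clear * - hg; fun_prop)
        · have h3 := hgc.fderiv (𝕜 := ℝ)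
          exact h3.comp_left (g := fun (L : R3 →L[ℝ] ℂ) =>
            ‖L (EuclideanSpace.single k 1)‖ ^ 2) (by simp only [zero_apply, norm_zero, ne_eq, OfNat.ofNat_ne_zero, not_false_eq_true, zero_pow])
    rw [h2] at h1
    simp only [ContinuousLinearMap.id_apply, sub_zero, hgn] at h1
    have h4 : ∫ x, 2 * 2 / sreg δ x * orb χ δ x ^ 2 = 4 * X := by
      rw [hX, ← integral_const_mul]
      apply integral_congr_ae
      filter_upwards with x
      ring
    rw [h4] at h1
    linarith only [h1]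
  have hX1 : X ≤ 4 * n + Y := by linarith only [hK1, hK2]
  -- main pointwise estimate
  have hmain : (1 / 2) * (K - Y) - (∫ x, orb χ δ x ^ 2 / ‖x‖) ≤ -(1 / 2) * n + δ / 2 * X := by
    have e1 : K - Y = ∫ x, (3 / sreg δ x - ‖x‖ ^ 2 / sreg δ x ^ 3 - ‖x‖ ^ 2 / sreg δ x ^ 2)
        * orb χ δ x ^ 2 := by rw [hkin]; ring
    have e2 : -(1 / 2) * n + δ / 2 * X
        = ∫ x, (-(1 / 2) * orb χ δ x ^ 2 + δ / 2 * (1 / sreg δ x * orb χ δ x ^ 2)) := by
      rw [integral_add (i0.const_mul _) (i1.const_mul _), integral_const_mul, integral_const_mul]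
    rw [e1, e2, ← integral_const_mul, ← integral_sub (iW.const_mul _) iN]
    apply integral_mono_ae ((iW.const_mul _).sub iN) ((i0.const_mul _).add (i1.const_mul _))
    have hne : ∀ᵐ x : R3, x ≠ 0 := by
      rw [ae_iff]
      simp
    filter_upwards [hne] with x hx
    have hp := sreg_pos hδ x
    have hr : 0 < ‖x‖ := norm_pos_iff.2 hx
    have hsq := sreg_sq δ x
    have hns := norm_le_sreg δ x
    have hds : δ ≤ sreg δ x := le_sreg x
    simp only [Pi.sub_apply, Pi.add_apply]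
    set s := sreg δ x
    set r := ‖x‖
    have hφ : 0 ≤ orb χ δ x ^ 2 := by (clear * -; positivity)
    have h1 : r ^ 2 = s ^ 2 - δ ^ 2 := by linarith only [hsq]
    have h2 : 1 / 2 * (3 / s - r ^ 2 / s ^ 3 - r ^ 2 / s ^ 2) - 1 / r
        ≤ -(1 / 2) + δ / 2 * (1 / s) := by
      have h3 : 1 / 2 * (3 / s - r ^ 2 / s ^ 3 - r ^ 2 / s ^ 2)
          = 1 / s + δ ^ 2 / (2 * s ^ 3) - 1 / 2 + δ ^ 2 / (2 * s ^ 2) := by
        rw [h1]; field_simp; ring
      have h4 : δ ^ 2 / (2 * s ^ 2) ≤ δ / 2 * (1 / s) := by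
        rw [div_mul_div_comm, div_le_div_iff₀ (by (clear * - hp; positivity)) (by (clear * - hp; positivity))]
        linarith only [mul_le_mul_of_nonneg_left hds (mul_pos hδ hp).le]
      have h5 : 1 / s + δ ^ 2 / (2 * s ^ 3) ≤ 1 / r := by
        have h6 : δ ^ 2 = (s - r) * (s + r) := by linarith only [hsq]
        have h7 : 1 / r - 1 / s = (s - r) / (r * s) := by (clear * - hp hr; field_simp)
        have h8 : δ ^ 2 / (2 * s ^ 3) ≤ (s - r) / (r * s) := by
          rw [h6, div_le_div_iff₀ (by (clear * - hp; positivity)) (by (clear * - hx hp; positivity))]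
          have h9 : 0 ≤ s - r := by linarith only [hns]
          have h10 : (s + r) * (r * s) ≤ 2 * s ^ 3 := by linarith only [mul_nonneg_of_nonpos_of_nonpos (Mathlib.Tactic.Linarith.sub_nonpos_of_le hns) (le_of_lt (Mathlib.Tactic.Linarith.sub_neg_of_lt (mul_pos hr hp))), mul_nonneg_of_nonpos_of_nonpos (Mathlib.Tactic.Linarith.sub_nonpos_of_le (sq_nonneg s)) (Mathlib.Tactic.Linarith.sub_nonpos_of_le hns)]
          linarith only [mul_le_mul_of_nonneg_left h10 h9]
        linarith only [h7, h8]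
      linarith only [h3, h4, h5]
    have h3 : 1 / 2 * ((3 / s - r ^ 2 / s ^ 3 - r ^ 2 / s ^ 2) * orb χ δ x ^ 2)
        - orb χ δ x ^ 2 / r
        = (1 / 2 * (3 / s - r ^ 2 / s ^ 3 - r ^ 2 / s ^ 2) - 1 / r) * orb χ δ x ^ 2 := by ring
    have h4 : -(1 / 2) * orb χ δ x ^ 2 + δ / 2 * (1 / s * orb χ δ x ^ 2)
        = (-(1 / 2) + δ / 2 * (1 / s)) * orb χ δ x ^ 2 := by ring
    rw [h3, h4]
    exact mul_le_mul_of_nonneg_right h2 hφ
  linarith only [hmain, mul_le_mul_of_nonneg_left hX1 hδ.le]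

theorem orbital_exists' : ∃ C : ℝ, 0 < C ∧ ∀ ρ : ℝ, 1 ≤ ρ → ∃ φ : R3 → ℝ,
    ContDiff ℝ (⊤ : ℕ∞) φ ∧ tsupport φ ⊆ Metric.closedBall 0 ρ ∧ ∫ x, φ x ^ 2 = 1 ∧
    (1 / 2) * (∑ k : Fin 3, ∫ x, (fderiv ℝ φ x (EuclideanSpace.single k 1)) ^ 2) -
      (∫ x, φ x ^ 2 / ‖x‖) ≤ -(1 / 2) + C / ρ ^ 2 := by
  let f : ContDiffBump (0 : R3) := ⟨1 / 2, 1, by norm_num, by norm_num⟩
  have hfs : ContDiff ℝ (⊤ : ℕ∞) f := f.contDiff
  have hfc : HasCompactSupport f := f.hasCompactSupport
  -- gradient bound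
  have hG : Continuous (fun y => ∑ k : Fin 3, (fderiv ℝ f y (EuclideanSpace.single k 1)) ^ 2) := by
    apply continuous_finsetSum
    intro k _
    exact ((hfs.continuous_fderiv (by simp)).clm_apply continuous_const).pow 2
  have hGc : HasCompactSupport
      (fun y => ∑ k : Fin 3, (fderiv ℝ f y (EuclideanSpace.single k 1)) ^ 2) := by
    have := hfc.fderiv (𝕜 := ℝ)
    exact this.comp_left (g := fun (L : R3 →L[ℝ] ℝ) =>
      ∑ k : Fin 3, (L (EuclideanSpace.single k 1)) ^ 2) (by simp)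
  obtain ⟨C0, hC0⟩ := hGc.exists_bound_of_continuous hG
  have hC00 : 0 ≤ C0 := le_trans (norm_nonneg _) (hC0 0)
  set I0 := ∫ x : R3, Real.exp (-‖x‖) ^ 2 with hI0
  have hI00 : 0 ≤ I0 := integral_nonneg fun x => by positivity
  set v0 := volume.real (Metric.closedBall (0 : R3) (1 / 2)) with hv0
  have hv00 : 0 < v0 := by
    rw [hv0, measureReal_def]
    exact ENNReal.toReal_pos (Metric.measure_closedBall_pos volume _ (by norm_num)).ne'
      (measure_closedBall_lt_top).ne
  set c0 := Real.exp (-3) * v0 with hc0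
  have hc00 : 0 < c0 := by (clear * - hv00; positivity)
  refine ⟨2 + C0 * I0 / c0 + 1, by (clear * - hC00 hv00; positivity), ?_⟩
  intro ρ hρ
  have hρ0 : 0 < ρ := by linarith only [hρ]
  set δ : ℝ := 1 / ρ ^ 2 with hδdef
  have hδ : 0 < δ := by (clear * - hρ; positivity)
  have hδ1 : δ ≤ 1 := by
    rw [hδdef, div_le_one (by (clear * - hρ; positivity))]
    nlinarith only [hρ]
  set χ : R3 → ℝ := fun x => f (ρ⁻¹ • x) with hχdef
  have hχ : ContDiff ℝ (⊤ : ℕ∞) χ := hfs.comp (contDiff_const_smul ρ⁻¹)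
  have hχt : tsupport χ ⊆ Metric.closedBall 0 ρ := by
    apply closure_minimal _ Metric.isClosed_closedBall
    intro x hx
    have h1 : ρ⁻¹ • x ∈ Function.support f := hx
    rw [f.support_eq] at h1
    rw [mem_ball_zero_iff] at h1
    rw [mem_closedBall_zero_iff]
    have h2 : ‖ρ⁻¹ • x‖ < 1 := h1
    rw [norm_smul, norm_inv, Real.norm_eq_abs, abs_of_pos hρ0] at h2
    have h3 : ρ⁻¹ * ‖x‖ = ‖x‖ / ρ := by (clear * - hρ; field_simp)
    rw [h3, div_lt_one hρ0] at h2
    exact h2.le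
  have hχc : HasCompactSupport χ := (isCompact_closedBall (0:R3) ρ).of_isClosed_subset
    (isClosed_tsupport χ) hχt
  have hos := orb_smooth hχ hδ
  have hoc := orb_compact hχc δ
  have co : Continuous (orb χ δ) := hos.continuous
  have ho2c : HasCompactSupport (fun x => orb χ δ x ^ 2) :=
    hoc.comp_left (g := fun r : ℝ => r ^ 2) (by simp)
  have i0 : Integrable (fun x => orb χ δ x ^ 2) :=
    (co.pow 2).integrable_of_hasCompactSupport ho2c
  set n := ∫ x, orb χ δ x ^ 2 with hn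
  -- lower bound for the norm
  have hn0 : c0 ≤ n := by
    have h1 : c0 = ∫ x, (Metric.closedBall (0 : R3) (1 / 2)).indicator
        (fun _ => Real.exp (-3)) x := by
      rw [integral_indicator Metric.isClosed_closedBall.measurableSet]
      simp only [hc0, hv0, one_div, integral_const, MeasurableSet.univ, measureReal_restrict_apply, Set.univ_inter, smul_eq_mul]
      ring
    rw [h1]
    apply integral_mono _ i0
    · intro x
      by_cases hx : x ∈ Metric.closedBall (0 : R3) (1 / 2)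
      · rw [Set.indicator_of_mem hx]
        rw [mem_closedBall_zero_iff] at hx
        have h2 : χ x = 1 := by
          apply f.one_of_mem_closedBall
          rw [mem_closedBall_zero_iff, norm_smul, norm_inv, Real.norm_eq_abs, abs_of_pos hρ0]
          show ρ⁻¹ * ‖x‖ ≤ 1 / 2
          calc ρ⁻¹ * ‖x‖ ≤ 1 * ‖x‖ := by
                gcongr; exact inv_le_one_of_one_le₀ hρ
            _ ≤ 1 / 2 := by linarith only [hx]
        have h3 : sreg δ x ≤ 3 / 2 := by
          apply Real.sqrt_le_iff.2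
          constructor
          · norm_num
          · have h4 : ‖x‖ ^ 2 ≤ (1 / 2) ^ 2 := by (clear * - hx; gcongr)
            have h5 : δ ^ 2 ≤ 1 ^ 2 := by (clear * - hρ hδ1; gcongr)
            linarith only [h4, h5]
        simp only [orb, h2, one_mul]
        rw [← Real.exp_nat_mul]
        apply Real.exp_le_exp.2
        push_cast
        linarith only [h3]
      · rw [Set.indicator_of_notMem hx]; (clear * -; positivity)
    · apply IntegrableOn.integrable_indicator _ Metric.isClosed_closedBall.measurableSet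
      exact integrableOn_const (measure_closedBall_lt_top).ne
  have hnpos : 0 < n := lt_of_lt_of_le hc00 hn0
  -- the gradient term
  have hY : ∫ x, (∑ k : Fin 3, (fderiv ℝ χ x (EuclideanSpace.single k 1)) ^ 2)
          * Real.exp (-sreg δ x) ^ 2 ≤ C0 * I0 / ρ ^ 2 := by
    have h1 : ∀ x, ∑ k : Fin 3, (fderiv ℝ χ x (EuclideanSpace.single k 1)) ^ 2 ≤ C0 / ρ ^ 2 := by
      intro x
      have h2 : HasFDerivAt χ ((fderiv ℝ f (ρ⁻¹ • x)).comp
          (ρ⁻¹ • ContinuousLinearMap.id ℝ R3)) x := by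
        have h3 : HasFDerivAt f (fderiv ℝ f (ρ⁻¹ • x)) (ρ⁻¹ • x) :=
          (hfs.differentiable (by simp) _).hasFDerivAt
        exact h3.comp x ((hasFDerivAt_id x).const_smul ρ⁻¹)
      rw [h2.fderiv]
      have h4 : ∀ k : Fin 3, ((fderiv ℝ f (ρ⁻¹ • x)).comp (ρ⁻¹ • ContinuousLinearMap.id ℝ R3))
          (EuclideanSpace.single k 1)
          = ρ⁻¹ * fderiv ℝ f (ρ⁻¹ • x) (EuclideanSpace.single k 1) := by
        intro k; simp only [ContinuousLinearMap.comp_smulₛₗ, map_inv₀, Real.ringHom_apply, ContinuousLinearMap.comp_id, smul_apply, smul_eq_mul]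
      simp_rw [h4, mul_pow]
      rw [← Finset.mul_sum]
      have h5 := hC0 (ρ⁻¹ • x)
      rw [Real.norm_eq_abs] at h5
      have h6 := le_trans (le_abs_self _) h5
      calc _ ≤ ρ⁻¹ ^ 2 * C0 := by (clear * - h6 hρ; gcongr)
        _ = C0 / ρ ^ 2 := by (clear * - hρ; field_simp)
    have h2 : C0 * I0 / ρ ^ 2 = ∫ x : R3, C0 / ρ ^ 2 * Real.exp (-‖x‖) ^ 2 := by
      rw [integral_const_mul]; ring
    rw [h2]
    apply integral_mono_of_nonneg
    · filter_upwards with x; (clear * -; positivity)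
    · exact exp_integrable.const_mul _
    · filter_upwards with x
      have h3 : Real.exp (-sreg δ x) ≤ Real.exp (-‖x‖) :=
        Real.exp_le_exp.2 (neg_le_neg (norm_le_sreg δ x))
      have := h1 x
      (clear * - this h3 hC00 hρ; gcongr)
  have hE := orb_energy hχ hχc hδ
  rw [← hn] at hE
  set Y := ∫ x, (∑ k : Fin 3, (fderiv ℝ χ x (EuclideanSpace.single k 1)) ^ 2)
          * Real.exp (-sreg δ x) ^ 2 with hYdef
  set c := (Real.sqrt n)⁻¹ with hc
  have hc2 : c ^ 2 * n = 1 := by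
    rw [hc, inv_pow, Real.sq_sqrt hnpos.le]; (clear * - hnpos; field_simp)
  refine ⟨fun x => c * orb χ δ x, contDiff_const.mul hos, ?_, ?_, ?_⟩
  · refine subset_trans ?_ hχt
    apply closure_mono
    intro x hx
    simp only [orb, Function.mem_support] at hx ⊢
    intro h; apply hx; rw [h]; ring
  · simp_rw [mul_pow]
    rw [integral_const_mul, ← hn, hc2]
  · have h1 : ∀ k : Fin 3, ∫ x, (fderiv ℝ (fun x => c * orb χ δ x) x
        (EuclideanSpace.single k 1)) ^ 2
        = c ^ 2 * ∫ x, (fderiv ℝ (orb χ δ) x (EuclideanSpace.single k 1)) ^ 2 := by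
      intro k
      rw [← integral_const_mul]
      apply integral_congr_ae
      filter_upwards with x
      rw [fderiv_const_mul (hos.differentiable (by simp) x)]
      simp only [smul_apply, smul_eq_mul, mul_pow]
    have h2 : ∫ x, (c * orb χ δ x) ^ 2 / ‖x‖ = c ^ 2 * ∫ x, orb χ δ x ^ 2 / ‖x‖ := by
      rw [← integral_const_mul]
      apply integral_congr_ae
      filter_upwards with x
      ring
    simp_rw [h1]
    rw [h2, ← Finset.mul_sum]
    have hc2p : 0 < c ^ 2 := by (clear * - hnpos; positivity)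
    have h3 := mul_le_mul_of_nonneg_left hE hc2p.le
    have hY0 : 0 ≤ Y := integral_nonneg fun x => by (clear * -; positivity)
    have h4 : c ^ 2 * Y ≤ C0 * I0 / c0 / ρ ^ 2 := by
      have h5 : c ^ 2 = 1 / n := by rw [eq_div_iff hnpos.ne']; exact hc2
      rw [h5]
      calc 1 / n * Y ≤ 1 / c0 * (C0 * I0 / ρ ^ 2) := by (clear * - hv00 hn0 hY; gcongr)
        _ = _ := by (clear * - hρ hc00; field_simp)
    have h6 : (1 / 2) * (1 + δ) ≤ 1 := by linarith only [hδ1]
    have h7 : c ^ 2 * ((-(1 / 2) + 2 * δ) * n + 1 / 2 * (1 + δ) * Y)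
        = (-(1 / 2) + 2 * δ) * (c ^ 2 * n) + 1 / 2 * (1 + δ) * (c ^ 2 * Y) := by ring
    rw [h7, hc2, mul_one] at h3
    have h8 : 1 / 2 * (1 + δ) * (c ^ 2 * Y) ≤ 1 * (c ^ 2 * Y) := by (clear * - h6 hnpos; gcongr)
    have h9 : (2 + C0 * I0 / c0 + 1) / ρ ^ 2 = 2 * δ + C0 * I0 / c0 / ρ ^ 2 + δ := by
      rw [hδdef]; ring
    rw [h9]
    have h10 : c ^ 2 * (1 / 2 * (∑ k : Fin 3, ∫ x, (fderiv ℝ (orb χ δ) x
        (EuclideanSpace.single k 1)) ^ 2) - ∫ x, orb χ δ x ^ 2 / ‖x‖)
        = 1 / 2 * (c ^ 2 * ∑ k : Fin 3, ∫ x, (fderiv ℝ (orb χ δ) x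
        (EuclideanSpace.single k 1)) ^ 2) - c ^ 2 * ∫ x, orb χ δ x ^ 2 / ‖x‖ := by ring
    linarith only [hδ, h3, h4, h8]

end Vale.Agent.P370
end

section

open MeasureTheory Filter Topology

namespace Vale.Agent.P370

theorem integral_translate_fderiv (φ : R3 → ℝ) (a : R3) (e : R3) :
    ∫ x, (fderiv ℝ (fun y => φ (y - a)) x e) ^ 2 = ∫ x, (fderiv ℝ φ x e) ^ 2 := by
  rw [← integral_sub_right_eq_self (fun x => (fderiv ℝ φ x e) ^ 2) a]
  apply integral_congr_ae
  filter_upwards with x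
  rw [fderiv_comp_sub]

theorem tsupport_translate {φ : R3 → ℝ} {ρ : ℝ} (h : tsupport φ ⊆ Metric.closedBall 0 ρ) (a : R3) :
    tsupport (fun y => φ (y - a)) ⊆ Metric.closedBall a ρ := by
  apply closure_minimal _ Metric.isClosed_closedBall
  intro x hx
  have h1 : x - a ∈ tsupport φ := subset_tsupport φ hx
  have h2 := h h1
  rw [mem_closedBall_zero_iff] at h2
  rw [Metric.mem_closedBall, dist_eq_norm]
  exact h2

theorem far_nucleus (F : R3 → ℝ) (hFs : ContDiff ℝ (⊤ : ℕ∞) F) (hFc : HasCompactSupport F)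
    (a c : R3) (ρ D : ℝ) (hρ : 0 < ρ) (hD : ρ < D) (hFt : tsupport F ⊆ Metric.closedBall a ρ)
    (hn : ∫ x, F x ^ 2 = 1) (hdD : D ≤ dist a c) :
    1 / dist a c - ρ / D ^ 2 ≤ ∫ x, F x ^ 2 / dist x c := by
  set d := dist a c with hd
  have hD0 : 0 < D := by (clear * - hρ hD; linarith)
  have hd0 : 0 < d := by linarith only [hρ, hD, hdD]
  have h5 : (1 / d - ρ / D ^ 2) = ∫ x, (1 / d - ρ / D ^ 2) * F x ^ 2 := by
    rw [integral_const_mul, hn, mul_one]
  have hFc2 : HasCompactSupport (fun x => F x ^ 2) :=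
    hFc.comp_left (g := fun r : ℝ => r ^ 2) (by simp)
  have hi0 : Integrable (fun x => F x ^ 2) :=
    (hFs.continuous.pow 2).integrable_of_hasCompactSupport hFc2
  have hi1 : Integrable (fun x => F x ^ 2 / dist x c) := by
    set g : R3 → ℂ := fun x => ((F x : ℝ) : ℂ) with hg_def
    have hg : ContDiff ℝ 1 g :=
      (Complex.ofRealCLM.contDiff.comp hFs).of_le (by exact_mod_cast le_top)
    have hgc : HasCompactSupport g :=
      hFc.comp_left (g := fun r : ℝ => (r : ℂ)) (by simp)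
    have hgn : ∀ x, ‖g x‖ ^ 2 = F x ^ 2 := by intro x; simp [hg_def]
    have := coulomb_integrable volume g hg hgc (ContinuousLinearMap.id ℝ R3)
      (fun k => EuclideanSpace.single k 1) (fun k => rfl) c
    simpa only [dist_eq_norm, hgn, ContinuousLinearMap.id_apply] using this
  rw [h5]
  apply integral_mono (hi0.const_mul _) hi1
  intro x
  by_cases hx : F x = 0
  · simp only [one_div, hx, ne_eq, OfNat.ofNat_ne_zero, not_false_eq_true, zero_pow, mul_zero, zero_div, Std.le_refl]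
  · have hx1 : x ∈ tsupport F := subset_tsupport _ hx
    have hx2 := hFt hx1
    rw [Metric.mem_closedBall] at hx2
    have h6 : dist x c ≤ d + ρ := by
      have := dist_triangle x a c
      linarith only [hx2, this]
    have h7 : 0 < dist x c := by
      have := dist_triangle a x c
      rw [dist_comm a x] at this
      linarith only [hD, hdD, hx2, this]
    have h8 : 1 / d - ρ / D ^ 2 ≤ 1 / dist x c := by
      have h9 : D ^ 2 ≤ d * (d + ρ) := by nlinarith only [hρ, hD, hdD]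
      calc 1 / d - ρ / D ^ 2 ≤ 1 / d - ρ / (d * (d + ρ)) := by
            (clear * - hρ hD0 h9; gcongr)
        _ = 1 / (d + ρ) := by field_simp; ring
        _ ≤ _ := one_div_le_one_div_of_le h7 h6
    calc (1 / d - ρ / D ^ 2) * F x ^ 2 ≤ 1 / dist x c * F x ^ 2 :=
          mul_le_mul_of_nonneg_right h8 (by (clear * - hx; positivity))
      _ = _ := by ring

theorem near_pair (x y a b : R3) (ρ D : ℝ) (hρ : 0 < ρ) (h16 : 16 * ρ ≤ D)
    (hx : dist x a ≤ ρ) (hy : dist y b ≤ ρ) (hdD : D ≤ dist a b) :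
    1 / dist x y ≤ 1 / dist a b + 16 / 7 * ρ / D ^ 2 := by
  set d := dist a b with hd
  have h1 : d - 2 * ρ ≤ dist x y := by
    have h2 : d ≤ dist a x + dist x y + dist y b := dist_triangle4 _ _ _ _
    rw [dist_comm a x] at h2
    linarith only [hx, hy, h2]
  have hd0 : 0 < d - 2 * ρ := by linarith only [hρ, h16, hdD]
  have hdp : 0 < d := by linarith only [hρ, h16, hdD]
  have hD0 : 0 < D := by linarith only [hρ, h16]
  calc 1 / dist x y ≤ 1 / (d - 2 * ρ) := one_div_le_one_div_of_le hd0 h1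
    _ = 1 / d + 2 * ρ / (d * (d - 2 * ρ)) := by field_simp; ring
    _ ≤ 1 / d + 16 / 7 * ρ / D ^ 2 := by
        have h2 : 7 / 8 * D ^ 2 ≤ d * (d - 2 * ρ) := by
          have : 7 / 8 * D ≤ d - 2 * ρ := by linarith only [h16, hdD]
          nlinarith only [hρ, h16, hdD]
        have h3 : 2 * ρ / (d * (d - 2 * ρ)) ≤ 2 * ρ / (7 / 8 * D ^ 2) := by
          (clear * - hρ hD0 h2; gcongr)
        have h4 : 2 * ρ / (7 / 8 * D ^ 2) = 16 / 7 * ρ / D ^ 2 := by
          field_simp; norm_num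
        linarith only [h3, h4]

theorem upper_sums {M N : ℕ} (hNM : N ≤ M) (R : Fin M → R3) (T : Finset (Fin M))
    (e : Fin N → Fin M) (heinj : Function.Injective e) (himg : Finset.univ.image e = Tᶜ)
    (C ρ D : ℝ) (hC : 0 < C) (hρ0 : 0 < ρ) :
    ∑ j, (-(1 / 2) + C / ρ ^ 2 - ∑ α ∈ Finset.univ.erase (e j),
      (1 / dist (R (e j)) (R α) - ρ / D ^ 2))
    + ∑ i, ∑ j ∈ Finset.Ioi i, (1 / dist (R (e i)) (R (e j)) + 16 / 7 * ρ / D ^ 2) ≤
        -(N : ℝ) / 2 - pairEnergy R Finset.univ + pairEnergy R T +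
          (C + 3) * (M / ρ ^ 2 + M ^ 2 * ρ / D ^ 2) := by
  set b : Fin N → Fin N → ℝ := fun i j => 1 / dist (R (e i)) (R (e j)) + 16 / 7 * ρ / D ^ 2 with hb
  have h3 : ∑ i, ∑ j ∈ Finset.Ioi i, b i j
      = ∑ i, (1 / 2) * ∑ j ∈ Finset.univ.erase i, b i j :=
    sum_Ioi_eq_half b (fun i j => by simp only [hb]; rw [dist_comm])
  have hN0 : (0:ℝ) ≤ N := Nat.cast_nonneg _
  have hNM' : (N:ℝ) ≤ M := by exact_mod_cast hNM
  have hq0 : 0 ≤ ρ / D ^ 2 := by (clear * - hρ0; positivity)
  have h4 : ∑ j, (-(1 / 2) + C / ρ ^ 2 - ∑ α ∈ Finset.univ.erase (e j),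
      (1 / dist (R (e j)) (R α) - ρ / D ^ 2))
      ≤ -(N:ℝ) / 2 + C * (N / ρ ^ 2)
        - ∑ a ∈ Tᶜ, (∑ α ∈ Finset.univ.erase a, 1 / dist (R a) (R α)) + N * (M * (ρ / D ^ 2)) := by
    rw [← himg, Finset.sum_image (fun a _ b _ h => heinj h)]
    have h5 : ∀ j : Fin N, -(1 / 2) + C / ρ ^ 2 - ∑ α ∈ Finset.univ.erase (e j),
      (1 / dist (R (e j)) (R α) - ρ / D ^ 2) ≤ (-(1 / 2) + C / ρ ^ 2 + M * (ρ / D ^ 2))
        - ∑ α ∈ Finset.univ.erase (e j), 1 / dist (R (e j)) (R α) := by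
      intro j
      rw [Finset.sum_sub_distrib, Finset.sum_const, nsmul_eq_mul]
      have h6 : ((Finset.univ.erase (e j)).card : ℝ) * (ρ / D ^ 2) ≤ M * (ρ / D ^ 2) := by
        gcongr
        have := Finset.card_le_univ (Finset.univ.erase (e j))
        rwa [Fintype.card_fin] at this
      linarith only [h6]
    refine le_trans (Finset.sum_le_sum fun j _ => h5 j) (le_of_eq ?_)
    rw [Finset.sum_sub_distrib, Finset.sum_const, Finset.card_univ, Fintype.card_fin, nsmul_eq_mul]
    ring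
  have h5 : ∑ i, (1 / 2) * ∑ j ∈ Finset.univ.erase i, b i j
      ≤ (1 / 2) * ∑ a ∈ Tᶜ, (∑ α ∈ Tᶜ.erase a, 1 / dist (R a) (R α))
        + N * (M * (8 / 7 * (ρ / D ^ 2))) := by
    have h6 : ∀ i : Fin N, (1 / 2) * ∑ j ∈ Finset.univ.erase i, b i j
        ≤ (1 / 2) * ∑ α ∈ Tᶜ.erase (e i), 1 / dist (R (e i)) (R α)
          + M * (8 / 7 * (ρ / D ^ 2)) := by
      intro i
      simp only [hb]
      rw [Finset.sum_add_distrib, Finset.sum_const, nsmul_eq_mul]
      have h7 : ((Finset.univ.erase i).card : ℝ) * (16 / 7 * ρ / D ^ 2)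
          ≤ M * (16 / 7 * ρ / D ^ 2) := by
        gcongr
        have := Finset.card_le_univ (Finset.univ.erase i)
        rw [Fintype.card_fin] at this
        exact le_trans this hNM
      have h8 : ∑ j ∈ Finset.univ.erase i, 1 / dist (R (e i)) (R (e j))
          = ∑ α ∈ Tᶜ.erase (e i), 1 / dist (R (e i)) (R α) := by
        rw [← himg, ← Finset.image_erase heinj, Finset.sum_image (fun a _ b _ h => heinj h)]
      rw [h8]
      have h9 : (M:ℝ) * (16 / 7 * ρ / D ^ 2) = 2 * (M * (8 / 7 * (ρ / D ^ 2))) := by ring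
      linarith only [h7, h9]
    refine le_trans (Finset.sum_le_sum fun j _ => h6 j) (le_of_eq ?_)
    rw [Finset.sum_add_distrib, Finset.sum_const, Finset.card_univ, Fintype.card_fin, nsmul_eq_mul,
      ← Finset.mul_sum]
    congr 2
    rw [← himg, Finset.sum_image (fun a _ b _ h => heinj h)]
  have h6 := pair_identity (fun a b => 1 / dist (R a) (R b)) (fun a b => by rw [dist_comm]) Tᶜ
  rw [compl_compl, Finset.sum_add_distrib, Finset.sum_neg_distrib, ← Finset.mul_sum] at h6
  have e1 : pairEnergy R Finset.univ = 1 / 2 * ∑ a, ∑ b ∈ Finset.univ.erase a,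
      1 / dist (R a) (R b) := rfl
  have e2 : pairEnergy R T = 1 / 2 * ∑ a ∈ T, ∑ b ∈ T.erase a, 1 / dist (R a) (R b) := rfl
  rw [← e1, ← e2] at h6
  rw [h3]
  have h7 : C * (N / ρ ^ 2) ≤ C * (M / ρ ^ 2) := by gcongr
  have h8 : (N:ℝ) * (M * (ρ / D ^ 2)) ≤ M * (M * (ρ / D ^ 2)) := by (clear * - hNM' hρ0; gcongr)
  have h9 : (N:ℝ) * (M * (8 / 7 * (ρ / D ^ 2))) ≤ M * (M * (8 / 7 * (ρ / D ^ 2))) := by (clear * - hNM' hρ0; gcongr)
  have h10 : (C + 3) * (M / ρ ^ 2 + M ^ 2 * ρ / D ^ 2)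
      = C * (M / ρ ^ 2) + 3 * (M / ρ ^ 2) + (C + 3) * (M * (M * (ρ / D ^ 2))) := by ring
  have h11 : 0 ≤ 3 * ((M:ℝ) / ρ ^ 2) := by (clear * - hρ0; positivity)
  have h12 : (M:ℝ) * (M * (ρ / D ^ 2)) + M * (M * (8 / 7 * (ρ / D ^ 2)))
      ≤ (C + 3) * (M * (M * (ρ / D ^ 2))) := by
    have h13 : 0 ≤ (M:ℝ) * (M * (ρ / D ^ 2)) := by (clear * - hρ0; positivity)
    linarith only [mul_nonneg_of_nonpos_of_nonpos (Mathlib.Tactic.Linarith.sub_nonpos_of_le h13) (le_of_lt (Mathlib.Tactic.Linarith.sub_neg_of_lt hC)), h13]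
  rw [h10]
  linarith only [h4, h5, h6, h7, h8, h11, h12]

theorem atomic_upper : ∃ C : ℝ, 0 < C ∧ ∀ (M N : ℕ) (_ : N ≤ M) (R : Fin M → R3) (D ρ : ℝ)
    (_ : 1 ≤ ρ) (_ : 16 * M * ρ ≤ D)
    (_ : ∀ α β, α ≠ β → D ≤ dist (R α) (R β)) (T : Finset (Fin M)) (_ : T.card = M - N),
    ∃ ψ : Wave N, IsTestState ψ ∧ normSq ψ = 1 ∧
      energy R (fun _ => 1) ψ ≤
        -(N : ℝ) / 2 - pairEnergy R Finset.univ + pairEnergy R T +
          C * (M / ρ ^ 2 + M ^ 2 * ρ / D ^ 2) := by
  obtain ⟨C, hC, horb⟩ := orbital_exists'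
  refine ⟨C + 3, by linarith, ?_⟩
  intro M N hNM R D ρ hρ hD hsep T hT
  have hρ0 : 0 < ρ := by linarith only [hρ]
  have hScard : Tᶜ.card = N := by
    rw [Finset.card_compl, Fintype.card_fin, hT]; omega
  set e : Fin N ↪o Fin M := Tᶜ.orderEmbOfFin hScard with he
  have heinj : Function.Injective e := e.injective
  have hemem : ∀ i, e i ∈ Tᶜ := fun i => Finset.orderEmbOfFin_mem _ _ i
  obtain ⟨φ, hφs, hφt, hφn, hφE⟩ := horb ρ hρ
  have hφc : HasCompactSupport φ := (isCompact_closedBall (0:R3) ρ).of_isClosed_subset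
    (isClosed_tsupport φ) hφt
  set Φ : Fin N → R3 → ℝ := fun j y => φ (y - R (e j)) with hΦ
  have hΦs : ∀ j, ContDiff ℝ (⊤ : ℕ∞) (Φ j) := fun j => hφs.comp (contDiff_id.sub contDiff_const)
  have hΦt : ∀ j, tsupport (Φ j) ⊆ Metric.closedBall (R (e j)) ρ := fun j =>
    tsupport_translate hφt _
  have hΦc : ∀ j, HasCompactSupport (Φ j) := fun j =>
    (isCompact_closedBall (R (e j)) ρ).of_isClosed_subset (isClosed_tsupport _) (hΦt j)
  have hMpos : ∀ _ : Fin N, (1:ℝ) ≤ M := by
    intro i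
    have h1 : 0 < M := lt_of_le_of_lt (Nat.zero_le _) (e i).2
    exact_mod_cast h1
  have hρD : ∀ _ : Fin N, 16 * ρ ≤ D := by
    intro i
    have := hMpos i
    refine le_trans ?_ hD
    nlinarith only [this, hρ]
  have hdist : ∀ i j, i ≠ j → D ≤ dist (R (e i)) (R (e j)) := fun i j h =>
    hsep _ _ (fun h' => h (heinj h'))
  have hdis : ∀ i j, i ≠ j → Disjoint (tsupport (Φ i)) (tsupport (Φ j)) := by
    intro i j hij
    apply Disjoint.mono (hΦt i) (hΦt j)
    apply Metric.closedBall_disjoint_closedBall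
    have h1 := hdist i j hij
    have h2 := hρD i
    linarith only [hρ, h1, h2]
  have hΦn : ∀ j, ∫ x, Φ j x ^ 2 = 1 := by
    intro j
    rw [← hφn]
    exact integral_sub_right_eq_self (fun x => φ x ^ 2) (R (e j))
  obtain ⟨ψ, hψt, hψn, hψE⟩ := slater_upper Φ R (fun _ => 1) hΦs hΦc hdis hΦn
    (fun i j => 1 / dist (R (e i)) (R (e j)) + 16 / 7 * ρ / D ^ 2)
    (fun i j hij x hx y hy => near_pair x y _ _ ρ D hρ0 (hρD i)
      (Metric.mem_closedBall.1 (hΦt i hx)) (Metric.mem_closedBall.1 (hΦt j hy))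
      (hdist i j hij.ne))
  refine ⟨ψ, hψt, hψn, le_trans hψE ?_⟩
  have himg : Finset.univ.image e = Tᶜ := by
    ext a
    simp only [Finset.mem_image, Finset.mem_univ, true_and]
    constructor
    · rintro ⟨i, rfl⟩; exact hemem i
    · intro ha
      have : a ∈ Set.range (Tᶜ.orderEmbOfFin hScard) := by
        rw [Finset.range_orderEmbOfFin]; exact ha
      exact this
  refine le_trans ?_ (upper_sums hNM R T e heinj himg C ρ D hC hρ0)
  apply add_le_add _ le_rfl
  apply Finset.sum_le_sum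
  intro j _
  have h16 := hρD j
  have h2 : ∀ k : Fin 3, ∫ x, (fderiv ℝ (Φ j) x (EuclideanSpace.single k 1)) ^ 2
      = ∫ x, (fderiv ℝ φ x (EuclideanSpace.single k 1)) ^ 2 := fun k =>
    integral_translate_fderiv φ _ _
  have h3 : ∫ x, Φ j x ^ 2 / dist x (R (e j)) = ∫ x, φ x ^ 2 / ‖x‖ := by
    rw [← integral_sub_right_eq_self (fun x => φ x ^ 2 / ‖x‖) (R (e j))]
    apply integral_congr_ae
    filter_upwards with x
    rw [dist_eq_norm]
  have h4 : ∑ α ∈ Finset.univ.erase (e j), (1 / dist (R (e j)) (R α) - ρ / D ^ 2)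
      ≤ ∑ α ∈ Finset.univ.erase (e j), ∫ x, Φ j x ^ 2 / dist x (R α) := by
    apply Finset.sum_le_sum
    intro α hα
    exact far_nucleus (Φ j) (hΦs j) (hΦc j) _ _ ρ D hρ0 (by linarith only [hρ, h16]) (hΦt j) (hΦn j)
      (hsep _ _ (Ne.symm (Finset.ne_of_mem_erase hα)))
  simp only [Nat.cast_one, one_mul]
  rw [← Finset.add_sum_erase Finset.univ _ (Finset.mem_univ (e j))]
  simp_rw [h2]
  rw [h3]
  linarith only [hφE, h4]

end Vale.Agent.P370
end

section

set_option exponentiation.threshold 10000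

namespace Vale.Agent.P370.Red

open Chains Finset

theorem pairEnergy_map {ι κ : Type*} [DecidableEq ι] [DecidableEq κ] (e : ι ↪ κ) (R : κ → R3)
    (T : Finset ι) : pairEnergy R (T.map e) = pairEnergy (fun i => R (e i)) T := by
  rw [pairEnergy_eq, pairEnergy_eq]
  simp only [sum_map, e.injective.eq_iff]

variable {j : ℕ} {w : List Bool}

theorem pairEnergy_posR (T : Finset (Fin (2 * NT (nn w) (BB j w)))) :
    pairEnergy (posR j w) T =
      pairEnergy (rpos (Am w) (cl (BB j w)))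
        (T.map (eqM (nn w) (BB j w)).symm.toEmbedding) := by
  rw [pairEnergy_map]
  have h : ∀ α, rpos (Am w) (cl (BB j w) : ℝ) ((eqM (nn w) (BB j w)).symm.toEmbedding α) =
      posR j w α := by
    intro α
    rw [← posR_eq]
    simp
  simp only [h]

theorem card_site_NT (n B : ℕ) : Fintype.card (Site n B) = NT n B := by
  rw [card_site]; rfl

theorem pairEnergy_posR_univ (hj : 32 ≤ j) :
    pairEnergy (posR j w) (univ : Finset (Fin (2 * NT (nn w) (BB j w)))) =
      (1 / (cl (BB j w) : ℝ)) * (slf (nn w) (BB j w) (Am w) + 4 * cst (nn w) (BB j w) (Am w)) := by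
  have hG := good_Am hj w
  have hl : (0 : ℝ) < cl (BB j w) := by
    exact_mod_cast Nat.one_le_pow 2300 _ hG.one_le
  rw [pairEnergy_posR, map_univ_equiv, pairEnergy_univ _ hl hG.one_le]

theorem sep_posR (hj : 32 ≤ j) {α β : Fin (2 * NT (nn w) (BB j w))} (hne : α ≠ β) :
    (cl (BB j w) : ℝ) ≤ dist (posR j w α) (posR j w β) := by
  have hG := good_Am hj w
  have hl : (0 : ℝ) < cl (BB j w) := by
    exact_mod_cast Nat.one_le_pow 2300 _ hG.one_le
  obtain ⟨p, rfl⟩ := (eqM (nn w) (BB j w)).surjective α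
  obtain ⟨q, rfl⟩ := (eqM (nn w) (BB j w)).surjective β
  have hpq : p ≠ q := fun h => hne (by rw [h])
  rw [posR_eq, posR_eq, dist_rpos _ hl]
  have h1 : (1 : ℝ) ≤ √(((px p.1 : ℝ) - px q.1) ^ 2 +
      ((py p.1 : ℝ) - py q.1) ^ 2 + (if p.2 = q.2 then ((hgt (Am w) p.1 : ℝ) - hgt (Am w) q.1) ^ 2
        else ((hgt (Am w) p.1 : ℝ) + hgt (Am w) q.1) ^ 2)) := by
    apply Real.le_sqrt_of_sq_le
    rw [one_pow]
    have hg : (1 : ℝ) ≤ cg (BB j w) := by exact_mod_cast Nat.one_le_pow 200 _ hG.one_le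
    by_cases h : p.1 = q.1
    · have h2 : p.2 ≠ q.2 := fun h' => hpq (Prod.ext h h')
      rw [if_neg h2, h]
      have h3 : (1 : ℝ) ≤ hgt (Am w) q.1 := by exact_mod_cast hgt_pos (Am w) hG.one_le q.1
      have h4 : (1 : ℝ) ≤ ((hgt (Am w) q.1 : ℝ) + hgt (Am w) q.1) ^ 2 := by linarith only [mul_nonneg_of_nonpos_of_nonpos (Mathlib.Tactic.Linarith.sub_nonpos_of_le (Mathlib.Tactic.Linarith.natCast_nonneg ℝ (Vale.Agent.P370.Chains.hgt (Vale.Agent.P370.Red.Am w) q.1))) (Mathlib.Tactic.Linarith.sub_nonpos_of_le h3), h3]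
      have h5 := sq_nonneg ((px q.1 : ℝ) - px q.1)
      have h6 := sq_nonneg ((py q.1 : ℝ) - py q.1)
      linarith only [h4]
    · have h2 := sep_planar hG h
      have h3 : (1 : ℝ) ≤ (2 * (cg (BB j w) : ℝ)) ^ 2 := by nlinarith only [hg]
      have h4 : (0 : ℝ) ≤ (if p.2 = q.2 then ((hgt (Am w) p.1 : ℝ) - hgt (Am w) q.1) ^ 2
        else ((hgt (Am w) p.1 : ℝ) + hgt (Am w) q.1) ^ 2) := by
        split_ifs <;> (clear * -; positivity)
      linarith only [h2, h3, h4]
  calc (cl (BB j w) : ℝ) = cl (BB j w) * 1 := (mul_one _).symm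
    _ ≤ _ := mul_le_mul_of_nonneg_left h1 hl.le

/-! ### thresholds -/

theorem zA_real (w : List Bool) {n B : ℕ} (hn : 1 ≤ n) (hB : 2 ≤ B) :
    (zA w n B : ℝ) = (NT n B : ℝ) * cl B * cQ B + 2 * Asum w n B + 4 * gK w * cJ B -
      2 * Psum w n B - cJ B := by
  have h1 := Psum_le_Asum w n B
  have h2 := zB_pos w hn hB
  have h3 : zA w n B + 2 * Psum w n B + cJ B =
      NT n B * cl B * cQ B + 2 * Asum w n B + 4 * gK w * cJ B := by
    unfold zA
    unfold zB at h2
    omega
  have h4 : ((zA w n B + 2 * Psum w n B + cJ B : ℕ) : ℝ) =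
      ((NT n B * cl B * cQ B + 2 * Asum w n B + 4 * gK w * cJ B : ℕ) : ℝ) := by rw [h3]
  push_cast at h4
  linarith only [h4]

theorem zB_real (w : List Bool) {n B : ℕ} (hn : 1 ≤ n) (hB : 2 ≤ B) :
    (zB w n B : ℝ) = (NT n B : ℝ) * cl B * cQ B + 2 * Asum w n B + 4 * gK w * cJ B -
      2 * Psum w n B - 3 * cJ B := by
  have h1 := zA_real w hn hB
  have h2 := zA_eq w hn hB
  have h3 : (zA w n B : ℝ) = (zB w n B : ℝ) + 2 * cJ B := by exact_mod_cast h2
  linarith only [h1, h3]

theorem thr_real {D z : ℕ} (hD : 1 ≤ D) (hz : 1 ≤ z) :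
    ((-(((D * z - 1 : ℕ) : ℚ) / ((D ^ 2 : ℕ) : ℚ)) : ℚ) : ℝ) = -((z : ℝ) / D) + 1 / (D : ℝ) ^ 2 := by
  have h1 : 1 ≤ D * z := Nat.mul_pos hD hz
  have hD0 : (0 : ℝ) < D := by exact_mod_cast hD
  push_cast [Nat.cast_sub h1]
  field_simp
  ring

theorem NT_ge : BB j w ^ 61 ≤ NT (nn w) (BB j w) := by
  have hn := nn_pos w
  unfold NT NC CL Kx
  have h1 : BB j w ^ 61 ≤ nn w * (BB j w ^ 61 * (nn w ^ 2 + 2)) := by
    calc BB j w ^ 61 = 1 * (BB j w ^ 61 * 1) := by ring
      _ ≤ nn w * (BB j w ^ 61 * (nn w ^ 2 + 2)) :=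
        Nat.mul_le_mul hn (Nat.mul_le_mul_left _ (by omega))
  (clear * - h1; omega)

theorem NT_le (hj : 32 ≤ j) : NT (nn w) (BB j w) ≤ BB j w ^ 63 := by
  rw [← card_site_NT]
  exact card_site_le (good_Am hj w)

end Vale.Agent.P370.Red
end

section

set_option exponentiation.threshold 10000

namespace Vale.Agent.P370.Red

open Chains Finset

/-! ### numerical estimates -/

theorem num_err {b N C : ℝ} (hb : 2 ^ 20 ≤ b) (hN0 : 0 ≤ N) (hN : N ≤ b ^ 63)
    (hC : C ≤ b) :
    b ^ 2300 * (C * (2 * N / (b ^ 1510) ^ 2 + (2 * N) ^ 2 * b ^ 1510 / (b ^ 2300) ^ 2)) ≤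
      (1 / b ^ 638) / 16 := by
  have hb0 : 0 < b := by linarith
  have hb1 : 1 ≤ b := by linarith only [hb]
  have h1 : 2 * N / (b ^ 1510) ^ 2 ≤ 2 / b ^ 2957 := by
    rw [div_le_div_iff₀ (by positivity) (by positivity)]
    calc 2 * N * b ^ 2957 ≤ 2 * b ^ 63 * b ^ 2957 := by gcongr
      _ = 2 * (b ^ 1510) ^ 2 := by ring
  have h2 : (2 * N) ^ 2 * b ^ 1510 / (b ^ 2300) ^ 2 ≤ 4 / b ^ 2957 := by
    rw [div_le_div_iff₀ (by positivity) (by positivity)]
    have hN2 : N ^ 2 ≤ (b ^ 63) ^ 2 := pow_le_pow_left₀ hN0 hN 2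
    calc (2 * N) ^ 2 * b ^ 1510 * b ^ 2957 = 4 * (N ^ 2 * b ^ 4467) := by ring
      _ ≤ 4 * ((b ^ 63) ^ 2 * b ^ 4467) := by gcongr
      _ = 4 * b ^ 4593 := by ring
      _ ≤ 4 * b ^ 4600 := by
          have := pow_le_pow_right₀ hb1 (show 4593 ≤ 4600 by norm_num)
          linarith only [this]
      _ = 4 * (b ^ 2300) ^ 2 := by ring
  have h3 : 0 ≤ 2 * N / (b ^ 1510) ^ 2 + (2 * N) ^ 2 * b ^ 1510 / (b ^ 2300) ^ 2 := by (clear * - hN0 hb; positivity)
  calc b ^ 2300 * (C * (2 * N / (b ^ 1510) ^ 2 + (2 * N) ^ 2 * b ^ 1510 / (b ^ 2300) ^ 2))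
      ≤ b ^ 2300 * (b * (2 / b ^ 2957 + 4 / b ^ 2957)) := by
        apply mul_le_mul_of_nonneg_left _ (by positivity)
        exact mul_le_mul hC (add_le_add h1 h2) h3 hb0.le
    _ = 6 * b ^ 2301 / b ^ 2957 := by ring
    _ ≤ (1 / b ^ 638) / 16 := by
        rw [div_div, div_le_div_iff₀ (by positivity) (by positivity)]
        have h4 : (2 : ℝ) ^ 20 ≤ b ^ 18 := le_trans hb (le_self_pow₀ hb1 (by norm_num))
        calc 6 * b ^ 2301 * (b ^ 638 * 16) = 96 * b ^ 2939 := by ring
          _ ≤ b ^ 18 * b ^ 2939 := by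
              apply mul_le_mul_of_nonneg_right _ (by positivity)
              linarith only [h4]
          _ = 1 * b ^ 2957 := by ring

theorem num_Q {b N : ℝ} (hb : 2 ^ 20 ≤ b) (hN0 : 1 ≤ N) (hN : N ≤ b ^ 63) :
    N * (1 + N * 4) / b ^ 800 ≤ (1 / b ^ 638) / 16 := by
  have hb0 : 0 < b := by linarith
  have hb1 : 1 ≤ b := by linarith only [hb]
  rw [div_div, div_le_div_iff₀ (by positivity) (by positivity)]
  have hN2 : N ^ 2 ≤ (b ^ 63) ^ 2 := pow_le_pow_left₀ (by linarith only [hN0]) hN 2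
  have h4 : (2 : ℝ) ^ 20 ≤ b ^ 36 := le_trans hb (le_self_pow₀ hb1 (by norm_num))
  calc N * (1 + N * 4) * (b ^ 638 * 16) ≤ 5 * N ^ 2 * (b ^ 638 * 16) := by
        apply mul_le_mul_of_nonneg_right _ (by positivity)
        nlinarith only [hN0]
    _ ≤ 5 * (b ^ 63) ^ 2 * (b ^ 638 * 16) := by gcongr
    _ = 80 * b ^ 764 := by ring
    _ ≤ b ^ 36 * b ^ 764 := by
        apply mul_le_mul_of_nonneg_right _ (by positivity)
        linarith only [h4]
    _ = 1 * b ^ 800 := by ring

theorem num_D {b : ℝ} (hb : 2 ^ 20 ≤ b) :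
    b ^ 2300 * (1 / (2 * b ^ 2300 * b ^ 800) ^ 2) ≤ (1 / b ^ 638) / 16 := by
  have hb0 : 0 < b := by linarith
  have hb1 : 1 ≤ b := by linarith only [hb]
  rw [mul_one_div, div_div, div_le_div_iff₀ (by positivity) (by positivity)]
  have h4 : (2 : ℝ) ^ 20 ≤ b ^ 3262 := le_trans hb (le_self_pow₀ hb1 (by norm_num))
  calc b ^ 2300 * (b ^ 638 * 16) = 16 * b ^ 2938 := by ring
    _ ≤ b ^ 3262 * b ^ 2938 := by
        apply mul_le_mul_of_nonneg_right _ (by positivity)
        linarith only [h4]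
    _ = b ^ 6200 := by ring
    _ ≤ 4 * b ^ 6200 := by nlinarith only [pow_pos hb0 6200]
    _ = 1 * (2 * b ^ 2300 * b ^ 800) ^ 2 := by ring

end Vale.Agent.P370.Red
end

section

set_option exponentiation.threshold 10000

namespace Vale.Agent.P370.Red

open Chains Finset

variable {j : ℕ} {w : List Bool}

theorem cD_real (B : ℕ) : (cD B : ℝ) = 2 * (B : ℝ) ^ 2300 * (B : ℝ) ^ 800 := by
  unfold cD cl cQ; push_cast; rfl

theorem thrA (hj : 32 ≤ j) (w : List Bool) :
    ((inst j w).a : ℝ) = -(NT (nn w) (BB j w) : ℝ) / 2 -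
      (1 / (BB j w : ℝ) ^ 2300) * ((Asum w (nn w) (BB j w) : ℝ) / cQ (BB j w) -
        (Psum w (nn w) (BB j w) : ℝ) / cQ (BB j w) + (2 * (gK w : ℝ) - 1 / 2) * Jst (BB j w)) +
      1 / (2 * (BB j w : ℝ) ^ 2300 * (BB j w : ℝ) ^ 800) ^ 2 := by
  have hB := two_le_BB (show 1 ≤ j by omega) w
  have hn := nn_pos w
  have hB1 : 1 ≤ BB j w := by omega
  have hz : 1 ≤ zA w (nn w) (BB j w) := le_trans (zB_pos w hn hB) (zB_le_zA w _ _)
  have hD : 1 ≤ cD (BB j w) := le_trans (by norm_num) (two_le_cD hB1)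
  have hB0 : (0 : ℝ) < (BB j w : ℝ) := by exact_mod_cast hB1
  have h1 := thr_real hD hz
  have h2 : ((inst j w).a : ℝ) = -((zA w (nn w) (BB j w) : ℝ) / cD (BB j w)) +
      1 / (cD (BB j w) : ℝ) ^ 2 := h1
  rw [h2, cD_real, zA_real w hn hB]
  unfold cl cQ cJ Jst
  push_cast
  generalize (BB j w : ℝ) = b at *
  have e1 : (1 / b ^ 638) = b ^ 162 / b ^ 800 := by
    rw [div_eq_div_iff (by positivity) (by positivity)]; ring
  rw [e1]
  generalize b ^ 162 = J at *
  have hl : 0 < b ^ 2300 := by positivity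
  have hq : 0 < b ^ 800 := by positivity
  generalize b ^ 2300 = l at *
  generalize b ^ 800 = q at *
  field_simp
  ring

theorem thrB (hj : 32 ≤ j) (w : List Bool) :
    ((inst j w).b : ℝ) = -(NT (nn w) (BB j w) : ℝ) / 2 -
      (1 / (BB j w : ℝ) ^ 2300) * ((Asum w (nn w) (BB j w) : ℝ) / cQ (BB j w) -
        (Psum w (nn w) (BB j w) : ℝ) / cQ (BB j w) + (2 * (gK w : ℝ) - 3 / 2) * Jst (BB j w)) +
      1 / (2 * (BB j w : ℝ) ^ 2300 * (BB j w : ℝ) ^ 800) ^ 2 := by
  have hB := two_le_BB (show 1 ≤ j by omega) w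
  have hn := nn_pos w
  have hB1 : 1 ≤ BB j w := by omega
  have hz : 1 ≤ zB w (nn w) (BB j w) := zB_pos w hn hB
  have hD : 1 ≤ cD (BB j w) := le_trans (by norm_num) (two_le_cD hB1)
  have hB0 : (0 : ℝ) < (BB j w : ℝ) := by exact_mod_cast hB1
  have h1 := thr_real hD hz
  have h2 : ((inst j w).b : ℝ) = -((zB w (nn w) (BB j w) : ℝ) / cD (BB j w)) +
      1 / (cD (BB j w) : ℝ) ^ 2 := h1
  rw [h2, cD_real, zB_real w hn hB]
  unfold cl cQ cJ Jst
  push_cast
  generalize (BB j w : ℝ) = b at *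
  have e1 : (1 / b ^ 638) = b ^ 162 / b ^ 800 := by
    rw [div_eq_div_iff (by positivity) (by positivity)]; ring
  rw [e1]
  generalize b ^ 162 = J at *
  have hl : 0 < b ^ 2300 := by positivity
  have hq : 0 < b ^ 800 := by (clear * - hB0; positivity)
  generalize b ^ 2300 = l at *
  generalize b ^ 800 = q at *
  field_simp
  ring

theorem gap_real (hj : 32 ≤ j) (w : List Bool) :
    ((inst j w).b : ℝ) - ((inst j w).a : ℝ) = 1 / (BB j w : ℝ) ^ 2938 := by
  have hB := two_le_BB (show 1 ≤ j by omega) w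
  have hB0 : (0 : ℝ) < (BB j w : ℝ) := by
    have : 0 < BB j w := by omega
    exact_mod_cast this
  rw [thrA hj, thrB hj]
  unfold Jst
  have e1 : (1 : ℝ) / (BB j w : ℝ) ^ 2938 =
      1 / (BB j w : ℝ) ^ 2300 * (1 / (BB j w : ℝ) ^ 638) := by
    rw [div_mul_div_comm, ← pow_add]; norm_num
  rw [e1]
  ring

theorem gap_rat (hj : 32 ≤ j) (w : List Bool) :
    (inst j w).b - (inst j w).a = 1 / (BB j w : ℚ) ^ 2938 := by
  have h := gap_real hj w
  have h2 : (((inst j w).b - (inst j w).a : ℚ) : ℝ) = ((1 / (BB j w : ℚ) ^ 2938 : ℚ) : ℝ) := by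
    push_cast; exact h
  exact_mod_cast h2

theorem length_enc (j : ℕ) (w : List Bool) :
    BB j w ^ 61 ≤ (encInstance (inst j w)).length := by
  refine le_trans NT_ge ?_
  unfold encInstance
  simp only [List.length_append, List.length_replicate]
  have : (inst j w).N = NT (nn w) (BB j w) := rfl
  rw [this]
  omega

theorem gap_ok (hj : 32 ≤ j) (w : List Bool) :
    1 / ((encInstance (inst j w)).length : ℚ) ^ 49 ≤ (inst j w).b - (inst j w).a := by
  rw [gap_rat hj]
  have hB := two_le_BB (show 1 ≤ j by omega) w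
  have hB1 : (1 : ℚ) ≤ (BB j w : ℚ) := by
    have : 1 ≤ BB j w := by omega
    exact_mod_cast this
  have hB0 : (0 : ℚ) < (BB j w : ℚ) := by linarith only [hB1]
  have h1 : (BB j w : ℚ) ^ 61 ≤ ((encInstance (inst j w)).length : ℚ) := by
    exact_mod_cast length_enc j w
  apply one_div_le_one_div_of_le (by (clear * - hB; positivity))
  calc (BB j w : ℚ) ^ 2938 ≤ (BB j w : ℚ) ^ 2989 := pow_le_pow_right₀ hB1 (by norm_num)
    _ = ((BB j w : ℚ) ^ 61) ^ 49 := by rw [← pow_mul]
    _ ≤ ((encInstance (inst j w)).length : ℚ) ^ 49 :=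
      pow_le_pow_left₀ (by positivity) h1 49

theorem valid_inst (hj : 32 ≤ j) (w : List Bool) : (inst j w).Valid := by
  have hG := good_Am hj w
  have hN := NT_pos (B := BB j w) (nn_pos w)
  refine ⟨?_, ?_, ?_, ?_, ?_⟩
  · change 1 ≤ 2 * NT (nn w) (BB j w)
    (clear * - hN; omega)
  · intro α β h
    by_contra hne
    have h1 := sep_posR hj hne
    have h2 : posR j w α = posR j w β := by
      unfold posR
      rw [h]
    rw [h2, dist_self] at h1
    have hl : (0 : ℝ) < cl (BB j w) := by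
      exact_mod_cast Nat.one_le_pow 2300 _ hG.one_le
    linarith only [h1, hl]
  · intro α
    exact le_rfl
  · exact hN
  · have h := gap_rat hj w
    have hB : (0 : ℚ) < (BB j w : ℚ) := by exact_mod_cast hG.one_le
    have : (0 : ℚ) < 1 / (BB j w : ℚ) ^ 2938 := by (clear * - hB; positivity)
    linarith only [h, this]

end Vale.Agent.P370.Red
end

section

set_option exponentiation.threshold 10000

namespace Vale.Agent.P370.Red

open Chains Finset

variable {j : ℕ} {w : List Bool}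

theorem E0_eq (j : ℕ) (w : List Bool) :
    (inst j w).E0 = groundEnergy (posR j w) (fun _ => 1) (NT (nn w) (BB j w)) := rfl

/-- data common to both cases -/
theorem side (hj : 32 ≤ j) (w : List Bool) :
    ((2 * NT (nn w) (BB j w) : ℕ) : ℝ) ≤ (BB j w : ℝ) ^ 1510 ∧
    16 * ((2 * NT (nn w) (BB j w) : ℕ) : ℝ) * (BB j w : ℝ) ^ 1510 ≤ (BB j w : ℝ) ^ 2300 ∧
    (1 : ℝ) ≤ (NT (nn w) (BB j w) : ℝ) ∧ (NT (nn w) (BB j w) : ℝ) ≤ (BB j w : ℝ) ^ 63 := by
  have hG := good_Am hj w
  have hb := hG.bR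
  have hb1 := hG.one
  have hN : (NT (nn w) (BB j w) : ℝ) ≤ (BB j w : ℝ) ^ 63 := by exact_mod_cast NT_le hj
  have hN1 : (1 : ℝ) ≤ (NT (nn w) (BB j w) : ℝ) := by
    exact_mod_cast NT_pos (B := BB j w) (nn_pos w)
  have h64 : ((2 * NT (nn w) (BB j w) : ℕ) : ℝ) ≤ (BB j w : ℝ) ^ 64 := by
    push_cast
    calc 2 * (NT (nn w) (BB j w) : ℝ) ≤ 2 * (BB j w : ℝ) ^ 63 := by linarith only [hN]
      _ ≤ (BB j w : ℝ) * (BB j w : ℝ) ^ 63 := by
          apply mul_le_mul_of_nonneg_right _ (by positivity)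
          linarith only [hb]
      _ = (BB j w : ℝ) ^ 64 := by ring
  refine ⟨h64.trans (pow_le_pow_right₀ hb1 (by norm_num)), ?_, hN1, hN⟩
  calc 16 * ((2 * NT (nn w) (BB j w) : ℕ) : ℝ) * (BB j w : ℝ) ^ 1510
      ≤ (BB j w : ℝ) * (BB j w : ℝ) ^ 64 * (BB j w : ℝ) ^ 1510 := by
        apply mul_le_mul_of_nonneg_right _ (by (clear * - hb; positivity))
        exact mul_le_mul (by linarith only [hb]) h64 (by (clear * -; positivity)) (by positivity)
    _ = (BB j w : ℝ) ^ 1575 := by ring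
    _ ≤ (BB j w : ℝ) ^ 2300 := pow_le_pow_right₀ hb1 (by norm_num)

theorem yes_case {C : ℝ}
    (hup : ∀ (M N : ℕ) (_ : N ≤ M) (R : Fin M → R3) (D ρ : ℝ)
      (_ : 1 ≤ ρ) (_ : 16 * M * ρ ≤ D)
      (_ : ∀ α β, α ≠ β → D ≤ dist (R α) (R β)) (T : Finset (Fin M)) (_ : T.card = M - N),
      ∃ ψ : Wave N, IsTestState ψ ∧ normSq ψ = 1 ∧
        energy R (fun _ => 1) ψ ≤
          -(N : ℝ) / 2 - pairEnergy R Finset.univ + pairEnergy R T +
            C * (M / ρ ^ 2 + M ^ 2 * ρ / D ^ 2))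
    (hj : 32 ≤ j) (hCj : C ≤ j) (S : Finset ℕ) (hS : gK w ≤ cutSize w S) :
    (inst j w).E0 ≤ (((inst j w).a : ℝ) : EReal) := by
  have hG := good_Am hj w
  have hb := hG.bR
  have hb1 := hG.one
  have hb0 := hG.pos
  obtain ⟨hMρ, hD, hN1, hN⟩ := side hj w
  have hlB : (cl (BB j w) : ℝ) = (BB j w : ℝ) ^ 2300 := by unfold cl; push_cast; rfl
  have hQB : (cQ (BB j w) : ℝ) = (BB j w : ℝ) ^ 800 := by unfold cQ; push_cast; rfl
  have hl : (0 : ℝ) < cl (BB j w) := by rw [hlB]; (clear * - hb; positivity)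
  have hCB : C ≤ (BB j w : ℝ) := by
    have : j ≤ BB j w := by
      unfold BB
      have h1 : (w.length + j) ^ 1 ≤ (w.length + j) ^ 4 :=
        Nat.pow_le_pow_right (by omega) (by norm_num)
      rw [pow_one] at h1
      (clear * - hj h1; omega)
    exact hCj.trans (by exact_mod_cast this)
  -- the hole set
  set t : Fin (nn w) → ℝ := fun i => if i.val ∈ S then -1 else 1 with ht
  have htv : ∀ i, t i = 1 ∨ t i = -1 := by
    intro i
    simp only [ht]
    split_ifs
    · exact Or.inr rfl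
    · exact Or.inl rfl
  obtain ⟨T', hT'c, hT'⟩ := holes_upper hG hl t htv
  rw [cut_eq w S t (fun i => rfl)] at hT'
  set T : Finset (Fin (2 * NT (nn w) (BB j w))) := T'.map (eqM (nn w) (BB j w)).toEmbedding
    with hT
  have hTc : T.card = 2 * NT (nn w) (BB j w) - NT (nn w) (BB j w) := by
    rw [hT, card_map, hT'c, card_site_NT]; omega
  have hTE : pairEnergy (posR j w) T = pairEnergy (rpos (Am w) (cl (BB j w))) T' := by
    rw [pairEnergy_posR, hT, map_map]
    congr 1
    ext p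
    simp only [Function.Embedding.mk_trans_mk, Equiv.symm_comp_self, Function.Embedding.mk_id, map_refl]
  obtain ⟨ψ, hψ, hψn, hψE⟩ := hup (2 * NT (nn w) (BB j w)) (NT (nn w) (BB j w)) (by (clear * -; omega))
    (posR j w) ((BB j w : ℝ) ^ 2300) ((BB j w : ℝ) ^ 1510) (one_le_pow₀ hb1) hD
    (fun α β h => by rw [← hlB]; exact sep_posR hj h) T hTc
  rw [E0_eq]
  refine le_trans (iInf_le_of_le ψ (iInf_le_of_le hψ (iInf_le_of_le hψn le_rfl))) ?_
  rw [energyForm_eq _ _ hψ, EReal.coe_le_coe_iff]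
  refine hψE.trans ?_
  rw [hTE, pairEnergy_posR_univ hj, thrA hj w]
  have hA := (approx_A hG).1
  have hP := (approx_P hG).2
  have herr := num_err hb (by linarith only [] : (0 : ℝ) ≤ (NT (nn w) (BB j w) : ℝ)) hN hCB
  have hQe := num_Q hb hN1 hN
  have hJ : 0 < Jst (BB j w) := by rw [Jst_eq]; (clear * - hb; positivity)
  have hcut : (gK w : ℝ) ≤ (cutSize w S : ℝ) := by exact_mod_cast hS
  have hcutJ : (gK w : ℝ) * Jst (BB j w) ≤ (cutSize w S : ℝ) * Jst (BB j w) :=
    mul_le_mul_of_nonneg_right hcut hJ.le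
  have hNN : (NT (nn w) (BB j w) : ℝ) * (NT (nn w) (BB j w) : ℝ) / cQ (BB j w) ≤
      (NT (nn w) (BB j w) : ℝ) * (1 + (NT (nn w) (BB j w) : ℝ) * 4) / (BB j w : ℝ) ^ 800 := by
    rw [hQB]
    apply div_le_div_of_nonneg_right _ (by (clear * - hb; positivity))
    apply mul_le_mul_of_nonneg_left _ (by linarith only [])
    linarith only []
  rw [← Jst_eq] at herr hQe
  have hDpos : (0 : ℝ) ≤ 1 / (2 * (BB j w : ℝ) ^ 2300 * (BB j w : ℝ) ^ 800) ^ 2 := by (clear * - hb; positivity)
  rw [hlB] at hT' ⊢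
  push_cast
  -- abstract
  have hL : (0 : ℝ) < (BB j w : ℝ) ^ 2300 := by (clear * - hb; positivity)
  generalize hxE : C * (2 * (NT (nn w) (BB j w) : ℝ) / ((BB j w : ℝ) ^ 1510) ^ 2 +
    (2 * (NT (nn w) (BB j w) : ℝ)) ^ 2 * (BB j w : ℝ) ^ 1510 / ((BB j w : ℝ) ^ 2300) ^ 2) = er
    at herr ⊢
  generalize 1 / (2 * (BB j w : ℝ) ^ 2300 * (BB j w : ℝ) ^ 800) ^ 2 = δ at hDpos ⊢
  generalize (NT (nn w) (BB j w) : ℝ) * (1 + (NT (nn w) (BB j w) : ℝ) * 4) /
    (BB j w : ℝ) ^ 800 = ε1 at hNN hQe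
  generalize (NT (nn w) (BB j w) : ℝ) * (NT (nn w) (BB j w) : ℝ) / cQ (BB j w) = ε2 at hP hNN
  generalize slf (nn w) (BB j w) (Am w) + 4 * cst (nn w) (BB j w) (Am w) = SC at hA ⊢
  generalize cst (nn w) (BB j w) (Am w) + isingE (Am w) (fun a : Site (nn w) (BB j w) => sg a) = CE
    at hP hT'
  generalize (Asum w (nn w) (BB j w) : ℝ) / cQ (BB j w) = aq at hA ⊢
  generalize (Psum w (nn w) (BB j w) : ℝ) / cQ (BB j w) = pq at hP ⊢
  generalize pairEnergy (rpos (Am w) ((BB j w : ℝ) ^ 2300)) T' = pt at hT' ⊢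
  generalize Jst (BB j w) = Js at *
  generalize (BB j w : ℝ) ^ 2300 = L at *
  have hfin : L * (-(NT (nn w) (BB j w) : ℝ) / 2 - 1 / L * SC + pt + er) ≤
      L * (-(NT (nn w) (BB j w) : ℝ) / 2 -
        1 / L * (aq - pq + (2 * (gK w : ℝ) - 1 / 2) * Js) + δ) := by
    have e1 : L * (-(NT (nn w) (BB j w) : ℝ) / 2 - 1 / L * SC + pt + er) =
        L * (-(NT (nn w) (BB j w) : ℝ) / 2) - SC + L * pt + L * er := by
      (clear * - hL; field_simp)
    have e2 : L * (-(NT (nn w) (BB j w) : ℝ) / 2 -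
        1 / L * (aq - pq + (2 * (gK w : ℝ) - 1 / 2) * Js) + δ) =
        L * (-(NT (nn w) (BB j w) : ℝ) / 2) - (aq - pq + (2 * (gK w : ℝ) - 1 / 2) * Js) +
          L * δ := by
      (clear * - hL; field_simp)
    rw [e1, e2]
    have h3 : L * pt ≤ CE - Js * (2 * (cutSize w S : ℝ)) + Js / 8 := by
      have := mul_le_mul_of_nonneg_left hT' hL.le
      rw [← mul_assoc, mul_one_div_cancel hL.ne', one_mul] at this
      exact this
    have h4 : 0 ≤ L * δ := by (clear * - hL hDpos; positivity)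
    linarith only [hNN, hA, hP, hJ, hcutJ, hQe, herr, h3, h4]
  exact le_of_mul_le_mul_left hfin hL

theorem no_case (hj : 32 ≤ j) (hS : ∀ S, cutSize w S < gK w) :
    (((inst j w).b : ℝ) : EReal) ≤ (inst j w).E0 := by
  have hG := good_Am hj w
  have hb := hG.bR
  have hb1 := hG.one
  have hb0 := hG.pos
  obtain ⟨hMρ, hD, hN1, hN⟩ := side hj w
  have hlB : (cl (BB j w) : ℝ) = (BB j w : ℝ) ^ 2300 := by unfold cl; push_cast; rfl
  have hQB : (cQ (BB j w) : ℝ) = (BB j w : ℝ) ^ 800 := by unfold cQ; push_cast; rfl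
  have hl : (0 : ℝ) < cl (BB j w) := by rw [hlB]; (clear * - hb; positivity)
  have hJ : 0 < Jst (BB j w) := by rw [Jst_eq]; positivity
  have hρ4 : (4 : ℝ) ≤ (BB j w : ℝ) ^ 1510 := by
    have : (BB j w : ℝ) ≤ (BB j w : ℝ) ^ 1510 := le_self_pow₀ hb1 (by norm_num)
    linarith only [hb, this]
  rw [E0_eq]
  refine le_iInf (fun ψ => le_iInf (fun hψ => le_iInf (fun hψn => ?_)))
  rw [energyForm_eq _ _ hψ, EReal.coe_le_coe_iff]
  rw [mass_eq] at hψn
  have hθ : ∀ T : Finset (Fin (2 * NT (nn w) (BB j w))),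
      T.card = 2 * NT (nn w) (BB j w) - NT (nn w) (BB j w) →
      (1 / (cl (BB j w) : ℝ)) * (cst (nn w) (BB j w) (Am w) +
        isingE (Am w) (fun a : Site (nn w) (BB j w) => sg a) -
        Jst (BB j w) * (2 * ((gK w : ℝ) - 1)) - Jst (BB j w) / 8) ≤ pairEnergy (posR j w) T := by
    intro T hT
    rw [pairEnergy_posR]
    obtain ⟨t, ht, hE⟩ := holes_lower hG hl (T.map (eqM (nn w) (BB j w)).symm.toEmbedding)
      (by rw [card_map, hT, card_site_NT]; omega)
    refine le_trans ?_ hE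
    have hl' : (0 : ℝ) ≤ 1 / (cl (BB j w) : ℝ) := (one_div_pos.mpr hl).le
    refine mul_le_mul_of_nonneg_left ?_ hl'
    classical
    set S : Finset ℕ := (univ.filter (fun i : Fin (nn w) => t i = -1)).map Fin.valEmbedding with hSd
    have htS : ∀ i, t i = if i.val ∈ S then -1 else 1 := by
      intro i
      have hiff : i.val ∈ S ↔ t i = -1 := by
        rw [hSd]
        simp only [mem_map, mem_filter, mem_univ, true_and, Fin.valEmbedding_apply, Fin.val_inj, exists_eq_right]
      rcases ht i with h | h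
      · rw [if_neg (fun h' => by rw [hiff, h] at h'; norm_num at h'), h]
      · rw [if_pos (hiff.mpr h), h]
    rw [cut_eq w S t htS]
    have h1 : (cutSize w S : ℝ) + 1 ≤ (gK w : ℝ) := by exact_mod_cast hS S
    have h2 : Jst (BB j w) * (2 * (cutSize w S : ℝ)) ≤ Jst (BB j w) * (2 * ((gK w : ℝ) - 1)) :=
      mul_le_mul_of_nonneg_left (by linarith only [h1]) hJ.le
    linarith only [h2]
  have hlow := atomic_lower (M := 2 * NT (nn w) (BB j w)) (N := NT (nn w) (BB j w)) (by omega)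
    (posR j w) ((BB j w : ℝ) ^ 2300) ((BB j w : ℝ) ^ 1510) _ hρ4 hMρ hD
    (fun α β h => by rw [← hlB]; exact sep_posR hj h) hθ ψ hψ
  rw [hψn, mul_one] at hlow
  refine le_trans ?_ hlow
  rw [pairEnergy_posR_univ hj, thrB hj w]
  have hA := (approx_A hG).2
  have hP := (approx_P hG).1
  have herr := num_err (C := 5) hb (by linarith only [] : (0 : ℝ) ≤ (NT (nn w) (BB j w) : ℝ)) hN
    (by linarith only [hb])
  have hQe := num_Q hb hN1 hN
  have hDe := num_D hb
  rw [hQB] at hA
  rw [← hQB] at hQe hA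
  rw [← Jst_eq] at herr hQe hDe
  rw [hlB]
  push_cast
  have hL : (0 : ℝ) < (BB j w : ℝ) ^ 2300 := by (clear * - hb; positivity)
  generalize 5 * (2 * (NT (nn w) (BB j w) : ℝ) / ((BB j w : ℝ) ^ 1510) ^ 2 +
    (2 * (NT (nn w) (BB j w) : ℝ)) ^ 2 * (BB j w : ℝ) ^ 1510 / ((BB j w : ℝ) ^ 2300) ^ 2) = er
    at herr ⊢
  generalize 1 / (2 * (BB j w : ℝ) ^ 2300 * (BB j w : ℝ) ^ 800) ^ 2 = δ at hDe ⊢
  generalize (NT (nn w) (BB j w) : ℝ) * (1 + (NT (nn w) (BB j w) : ℝ) * 4) /
    cQ (BB j w) = ε1 at hA hQe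
  generalize slf (nn w) (BB j w) (Am w) + 4 * cst (nn w) (BB j w) (Am w) = SC at hA ⊢
  generalize cst (nn w) (BB j w) (Am w) + isingE (Am w) (fun a : Site (nn w) (BB j w) => sg a) = CE
    at hP ⊢
  generalize (Asum w (nn w) (BB j w) : ℝ) / cQ (BB j w) = aq at hA ⊢
  generalize (Psum w (nn w) (BB j w) : ℝ) / cQ (BB j w) = pq at hP ⊢
  generalize Jst (BB j w) = Js at *
  generalize (BB j w : ℝ) ^ 2300 = L at *
  have hfin : L * (-(NT (nn w) (BB j w) : ℝ) / 2 -
        1 / L * (aq - pq + (2 * (gK w : ℝ) - 3 / 2) * Js) + δ) ≤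
      L * (-(NT (nn w) (BB j w) : ℝ) / 2 - 1 / L * SC +
        1 / L * (CE - Js * (2 * ((gK w : ℝ) - 1)) - Js / 8) - er) := by
    have e1 : L * (-(NT (nn w) (BB j w) : ℝ) / 2 - 1 / L * SC +
        1 / L * (CE - Js * (2 * ((gK w : ℝ) - 1)) - Js / 8) - er) =
        L * (-(NT (nn w) (BB j w) : ℝ) / 2) - SC +
          (CE - Js * (2 * ((gK w : ℝ) - 1)) - Js / 8) - L * er := by
      field_simp
    have e2 : L * (-(NT (nn w) (BB j w) : ℝ) / 2 -
        1 / L * (aq - pq + (2 * (gK w : ℝ) - 3 / 2) * Js) + δ) =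
        L * (-(NT (nn w) (BB j w) : ℝ) / 2) - (aq - pq + (2 * (gK w : ℝ) - 3 / 2) * Js) +
          L * δ := by
      (clear * - hL; field_simp)
    rw [e1, e2]
    linarith only [hA, hP, hJ, hQe, herr, hDe]
  exact le_of_mul_le_mul_left hfin hL

/-- **Main theorem.** -/
theorem main : ∃ c : ℕ, 0 < c ∧ Reduces maxCut (protonStructure c) ∧
    Reduces maxCut (electronicStructure c) := by
  obtain ⟨C, _, hup⟩ := atomic_upper
  obtain ⟨j0, hj0⟩ := exists_nat_ge C
  set j : ℕ := max 32 j0 with hjd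
  have hj : 32 ≤ j := le_max_left _ _
  have hCj : C ≤ (j : ℝ) := hj0.trans (by exact_mod_cast le_max_right 32 j0)
  refine ⟨49, by norm_num, ?_, ?_⟩
  · refine ⟨fun v => encInstance (inst j (v 0)), inst_poly (by omega), ?_, ?_⟩
    · rintro w ⟨S, hS⟩
      exact ⟨inst j w, fun _ => rfl, valid_inst hj w, rfl, gap_ok hj w, yes_case hup hj hCj S hS⟩
    · intro w hw
      exact ⟨inst j w, fun _ => rfl, valid_inst hj w, rfl, gap_ok hj w, no_case hj hw⟩
  · refine ⟨fun v => encInstance (inst j (v 0)), inst_poly (by omega), ?_, ?_⟩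
    · rintro w ⟨S, hS⟩
      exact ⟨inst j w, valid_inst hj w, rfl, gap_ok hj w, yes_case hup hj hCj S hS⟩
    · intro w hw
      exact ⟨inst j w, valid_inst hj w, rfl, gap_ok hj w, no_case hj hw⟩

end Vale.Agent.P370.Red
end
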